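import Vale.Agent.P042.TT.Spec

set_option autoImplicit false

/-!
Block NU2: size of the weights of the extremal state.
-/

namespace Vale.Agent.P042.TT.NU2

open Polynomial Finset Filter Vale.Agent.P042.SS

/-! ### parameters -/

/-- everything we need about the size of `P` -/
structure Big (k : ℕ) (P : ℝ) : Prop where
  ge : 10000 ≤ P
  log_le : Real.log P ≤ P ^ (0.0001 : ℝ)
  const_le : 1000 * ((k : ℝ) + 1) ≤ P ^ (0.0001 : ℝ)

theorem big_eventually (k : ℕ) : ∃ P0 : ℝ, ∀ P : ℝ, P0 ≤ P → Big k P := by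
  have h1 : ∀ᶠ P : ℝ in atTop, (10000 : ℝ) ≤ P := eventually_ge_atTop _
  have h2 : ∀ᶠ P : ℝ in atTop, Real.log P ≤ P ^ (0.0001 : ℝ) := by
    have h := (isLittleO_log_rpow_atTop (r := 0.0001) (by norm_num)).bound
      (c := 1) one_pos
    filter_upwards [h, eventually_ge_atTop (1 : ℝ)] with P hP hP1
    rw [one_mul, Real.norm_eq_abs, Real.norm_eq_abs, abs_of_nonneg (Real.log_nonneg hP1),
      abs_of_nonneg (by positivity)] at hP
    exact hP
  have h3 : ∀ᶠ P : ℝ in atTop, 1000 * ((k : ℝ) + 1) ≤ P ^ (0.0001 : ℝ) :=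
    (tendsto_rpow_atTop (by norm_num)).eventually_ge_atTop _
  obtain ⟨P0, hP0⟩ := (h1.and (h2.and h3)).exists_forall_of_atTop
  exact ⟨P0, fun P hP => ⟨(hP0 P hP).1, (hP0 P hP).2.1, (hP0 P hP).2.2⟩⟩

namespace Big

variable {k : ℕ} {P : ℝ} (hB : Big k P)
include hB

theorem pos : 0 < P := by linarith [hB.ge]

theorem one_le : 1 ≤ P := by linarith [hB.ge]

/-- `k log P` is tiny -/
theorem k_log_le : (k : ℝ) * Real.log P ≤ P ^ (0.0002 : ℝ) / 1000 := by
  have hP := hB.pos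
  have h1 : (0 : ℝ) ≤ k := Nat.cast_nonneg k
  have h2 : 0 ≤ Real.log P := Real.log_nonneg hB.one_le
  have h3 : (k : ℝ) ≤ P ^ (0.0001 : ℝ) / 1000 := by linarith [hB.const_le]
  calc (k : ℝ) * Real.log P ≤ (P ^ (0.0001 : ℝ) / 1000) * P ^ (0.0001 : ℝ) :=
        mul_le_mul h3 hB.log_le h2 (by positivity)
    _ = P ^ (0.0002 : ℝ) / 1000 := by
        rw [div_mul_eq_mul_div, ← Real.rpow_add hP]
        norm_num

theorem rpow_le {a b : ℝ} (hab : a ≤ b) : P ^ a ≤ P ^ b :=
  Real.rpow_le_rpow_of_exponent_le hB.one_le hab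

theorem exp_neg_le : Real.exp (-(P / 4)) ≤ P ^ (-1 : ℝ) / 300 := by
  have hP := hB.pos
  have h1 : 1 + P / 4 + (P / 4) ^ 2 / 2 ≤ Real.exp (P / 4) :=
    Real.quadratic_le_exp_of_nonneg (by positivity)
  have h2 : 300 * P ≤ Real.exp (P / 4) := by nlinarith [hB.ge]
  rw [Real.exp_neg, Real.rpow_neg_one, inv_eq_one_div, inv_eq_one_div, div_div, mul_comm P]
  exact one_div_le_one_div_of_le (by positivity) h2

theorem klogP_le : (k : ℝ) * Real.log P ≤ P / 1000 := by
  refine hB.k_log_le.trans ?_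
  have h := hB.rpow_le (a := 0.0002) (b := 1) (by norm_num)
  rw [Real.rpow_one] at h
  linarith

end Big

theorem mem_W2_prime {P : ℝ} {p : ℕ} (hp : p ∈ W2 P) : p.Prime := (mem_filter.1 hp).2

theorem mem_W2_le {P : ℝ} (hP : 0 ≤ P) {p : ℕ} (hp : p ∈ W2 P) : (p : ℝ) ≤ P ^ (1.04 : ℝ) := by
  have h := (mem_Ioc.1 (mem_filter.1 hp).1).2
  exact (Nat.le_floor_iff (by positivity)).1 h

theorem mem_W2_gt {P : ℝ} {p : ℕ} (hp : p ∈ W2 P) : P ^ (0.97 : ℝ) < (p : ℝ) := by
  have h := (mem_Ioc.1 (mem_filter.1 hp).1).1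
  exact (Nat.floor_lt' (by omega)).1 h

theorem log_W2_le {P : ℝ} (hP : 1 ≤ P) {p : ℕ} (hp : p ∈ W2 P) :
    Real.log p ≤ 1.04 * Real.log P := by
  have h1 := mem_W2_le (by linarith) hp
  have h2 : (0 : ℝ) < p := Nat.cast_pos.2 (mem_W2_prime hp).pos
  calc Real.log p ≤ Real.log (P ^ (1.04 : ℝ)) := Real.log_le_log h2 h1
    _ = 1.04 * Real.log P := Real.log_rpow (by linarith) _

theorem two_le_J2 {k : ℕ} {P : ℝ} (hB : Big k P) : 2 ≤ J2 P := by
  have h1 : P ^ (0.0001 : ℝ) ≤ P ^ (0.05 : ℝ) := hB.rpow_le (by norm_num)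
  have h2 := hB.const_le
  have h3 : (0 : ℝ) ≤ k := Nat.cast_nonneg k
  have h4 : ((2 : ℕ) : ℝ) ≤ (J2 P : ℝ) := by
    have h5 := Nat.le_ceil (P ^ (0.05 : ℝ))
    have h6 : (2 : ℝ) ≤ P ^ (0.05 : ℝ) := by nlinarith
    push_cast
    exact h6.trans h5
  exact_mod_cast h4

theorem tau2_pos {k : ℕ} {P : ℝ} (hB : Big k P) : 0 < tau2 P := by
  have h := two_le_J2 hB
  have h1 : (0 : ℝ) < J2 P := by exact_mod_cast (by omega : 0 < J2 P)
  unfold tau2
  positivity

theorem tau2_le {k : ℕ} {P : ℝ} (hB : Big k P) : tau2 P ≤ 1 / 4 := by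
  have h := two_le_J2 hB
  have h1 : (2 : ℝ) ≤ J2 P := by exact_mod_cast h
  unfold tau2
  rw [div_le_div_iff₀ (by positivity) (by norm_num)]
  linarith

theorem tau2_le' {k : ℕ} {P : ℝ} (hB : Big k P) : tau2 P ≤ P ^ (-0.05 : ℝ) / 2 := by
  have hP := hB.pos
  have h1 : P ^ (0.05 : ℝ) ≤ J2 P := Nat.le_ceil _
  have h2 : 0 < P ^ (0.05 : ℝ) := by positivity
  unfold tau2
  rw [Real.rpow_neg hP.le, inv_eq_one_div, div_div, mul_comm (P ^ (0.05 : ℝ))]
  exact one_div_le_one_div_of_le (by positivity) (by linarith)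

/-! ### one prime -/

section one

variable {k N' Nmin : ℕ} {P Φ : ℝ} {G : ℤ → ℝ} {ν : ℕ → ℤ → ℝ}

/-- the size condition of `klv` for a modulus `D` with `log D ≤ P / 100` -/
theorem size_ok (hB : Big k P) (hS : St P k N' Nmin Φ G ν) {D M : ℕ} (hD : 1 ≤ D)
    (hDP : (k : ℝ) * Real.log D ≤ P / 100) (hM : (N' : ℝ) ≤ P * M) :
    D ^ k * Nmin ≤ M ∧ ((D : ℝ) ^ k / M) ≤ Real.exp (-(P / 4)) := by
  have hP := hB.pos
  have hD0 : (0 : ℝ) < D := Nat.cast_pos.2 hD
  have hDk : (D : ℝ) ^ k = Real.exp (k * Real.log D) := by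
    rw [mul_comm, Real.exp_mul, Real.exp_log hD0, Real.rpow_natCast]
  have hPe : P ≤ Real.exp (P / 100) := by
    have h2 : Real.exp (Real.log P) ≤ Real.exp (P / 100) := by
      refine Real.exp_le_exp.2 ?_
      refine hB.log_le.trans ?_
      have h3 : P ^ (0.0001 : ℝ) ≤ P ^ (0.5 : ℝ) := hB.rpow_le (by norm_num)
      have h4 : P ^ (0.5 : ℝ) * P ^ (0.5 : ℝ) = P := by
        rw [← Real.rpow_add hP]; norm_num
      have h5 : (100 : ℝ) ≤ P ^ (0.5 : ℝ) := by
        have h6 : (0 : ℝ) ≤ P ^ (0.5 : ℝ) := by positivity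
        nlinarith [hB.ge]
      nlinarith
    rwa [Real.exp_log hP] at h2
  have hMlow : Real.exp (7 / 8 * P - P / 100) ≤ M := by
    rw [Real.exp_sub, div_le_iff₀ (Real.exp_pos _)]
    have h1 := hS.N'lo
    have hM0 : (0 : ℝ) ≤ M := Nat.cast_nonneg M
    calc Real.exp (7 / 8 * P) ≤ P * M := h1.trans hM
      _ ≤ M * Real.exp (P / 100) := by nlinarith
  have hNm : (Nmin : ℝ) ≤ Real.exp (P / 2 + P / 100) := by
    have h1 := hS.Nmin_le
    have h2 : (1 : ℝ) ≤ Real.exp (P / 2) := Real.one_le_exp (by positivity)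
    have h3 : (2 : ℝ) ≤ Real.exp (P / 100) := by linarith [hB.ge]
    rw [Real.exp_add]
    nlinarith [Real.exp_pos (P / 2)]
  constructor
  · have h : ((D ^ k * Nmin : ℕ) : ℝ) ≤ (M : ℝ) := by
      push_cast
      rw [hDk]
      calc Real.exp (k * Real.log D) * Nmin ≤ Real.exp (P / 100) * Real.exp (P / 2 + P / 100) :=
            mul_le_mul (Real.exp_le_exp.2 hDP) hNm (Nat.cast_nonneg _) (Real.exp_pos _).le
        _ = Real.exp (P / 100 + (P / 2 + P / 100)) := (Real.exp_add _ _).symm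
        _ ≤ Real.exp (7 / 8 * P - P / 100) := Real.exp_le_exp.2 (by linarith)
        _ ≤ M := hMlow
    exact_mod_cast h
  · have hM0 : (0 : ℝ) < M := lt_of_lt_of_le (Real.exp_pos _) hMlow
    rw [div_le_iff₀ hM0, hDk]
    calc Real.exp (k * Real.log D) ≤ Real.exp (P / 100) := Real.exp_le_exp.2 hDP
      _ ≤ Real.exp (-(P / 4) + (7 / 8 * P - P / 100)) := Real.exp_le_exp.2 (by linarith)
      _ = Real.exp (-(P / 4)) * Real.exp (7 / 8 * P - P / 100) := Real.exp_add _ _
      _ ≤ Real.exp (-(P / 4)) * M := mul_le_mul_of_nonneg_left hMlow (Real.exp_pos _).le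

theorem N'_pos (hS : St P k N' Nmin Φ G ν) : (0 : ℝ) < N' := lt_of_lt_of_le (Real.exp_pos _) hS.N'lo

theorem zf_nonneg (ν : ℕ → ℤ → ℝ) (p : ℕ) : 0 ≤ zf ν p := by unfold zf; positivity

theorem zf_le_one (ν : ℕ → ℤ → ℝ) (p : ℕ) : zf ν p ≤ 1 := by
  unfold zf
  refine div_le_one_of_le₀ ?_ (Nat.cast_nonneg _)
  have h := card_filter_le (range p) (fun x : ℕ => ν p x = 0)
  rw [card_range] at h
  exact_mod_cast h

/-- class bound: `klv` without weights -/
theorem klv_mass (hB : Big k P) (hS : St P k N' Nmin Φ G ν) {D M : ℕ} (y x : ℤ) (hD : 1 ≤ D)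
    (hDP : (k : ℝ) * Real.log D ≤ P / 100) (hMN : M ≤ N') (hM : (N' : ℝ) ≤ P * M) :
    mass G y M D x ≤ (M : ℝ) / D * Φ * (1 + (D : ℝ) ^ k / M) *
      ((N' * (D : ℝ) ^ k / M) ^ (eta2 P)) *
      Real.exp (1 / 8 * ∑ p ∈ (W2 P).filter (fun p => p ∣ D), zf ν p) *
      ∏ p ∈ (W2 P).filter (fun p => p ∣ D), (ν p x) ^ (tau2 P) := by
  have h1 := (size_ok hB hS hD hDP hM).1
  have h := hS.pin.klv D M y x ∅ (fun _ _ => 1) hD h1 (h1.trans hMN) (empty_subset _)
    (by simp) (by simp) (by simp) (by simp)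
  simpa [mass] using h

theorem filter_dvd_prime {p : ℕ} (hp : p ∈ W2 P) : (W2 P).filter (fun q => q ∣ p) = {p} := by
  ext q
  simp only [mem_filter, mem_singleton]
  constructor
  · rintro ⟨h1, h2⟩
    exact (Nat.prime_dvd_prime_iff_eq (mem_W2_prime h1) (mem_W2_prime hp)).1 h2
  · rintro rfl
    exact ⟨hp, dvd_rfl⟩

/-- the small exponent of the class bound for one prime -/
noncomputable def sm (k : ℕ) (P : ℝ) (p : ℕ) : ℝ :=
  Real.exp (-(P / 4)) + eta2 P * ((k : ℝ) * Real.log p)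

theorem sm_nonneg (hB : Big k P) {p : ℕ} (hp : p ∈ W2 P) : 0 ≤ sm k P p := by
  have h1 := hB.pos
  have h2 : 0 ≤ Real.log p := Real.log_nonneg (by exact_mod_cast (mem_W2_prime hp).one_lt.le)
  unfold sm eta2
  positivity

theorem sm_le (hB : Big k P) {p : ℕ} (hp : p ∈ W2 P) : sm k P p ≤ b2 P / 200 := by
  have hP := hB.pos
  have h1 : Real.exp (-(P / 4)) ≤ b2 P / 300 := by
    refine hB.exp_neg_le.trans ?_
    have h := hB.rpow_le (a := -1) (b := -0.488) (by norm_num)
    unfold b2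
    linarith
  have h2 : (k : ℝ) * Real.log p ≤ 1.04 * (P ^ (0.0002 : ℝ) / 1000) := by
    have h3 := log_W2_le hB.one_le hp
    have h4 : (0 : ℝ) ≤ k := Nat.cast_nonneg k
    calc (k : ℝ) * Real.log p ≤ k * (1.04 * Real.log P) := mul_le_mul_of_nonneg_left h3 h4
      _ = 1.04 * (k * Real.log P) := by ring
      _ ≤ 1.04 * (P ^ (0.0002 : ℝ) / 1000) := by linarith [hB.k_log_le]
  have h3 : eta2 P * ((k : ℝ) * Real.log p) ≤ b2 P / 900 := by
    have h4 : 0 ≤ eta2 P := by unfold eta2; positivity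
    have h5 : eta2 P * P ^ (0.0002 : ℝ) ≤ b2 P := by
      unfold eta2 b2
      rw [← Real.rpow_add hP]
      exact hB.rpow_le (by norm_num)
    calc eta2 P * ((k : ℝ) * Real.log p) ≤ eta2 P * (1.04 * (P ^ (0.0002 : ℝ) / 1000)) :=
          mul_le_mul_of_nonneg_left h2 h4
      _ = 1.04 / 1000 * (eta2 P * P ^ (0.0002 : ℝ)) := by ring
      _ ≤ 1.04 / 1000 * b2 P := by linarith
      _ ≤ b2 P / 900 := by
          have : 0 ≤ b2 P := by unfold b2; positivity
          linarith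
  have h4 : 0 ≤ b2 P := by unfold b2; positivity
  unfold sm
  linarith

theorem log_nu_le (hB : Big k P) (hS : St P k N' Nmin Φ G ν) {p : ℕ} (hp : p ∈ W2 P) (x : ℤ) :
    ν p x ≤ Real.exp (4 / 3 * (sm k P p + zf ν p / 8)) := by
  have hP := hB.pos
  have hpp := mem_W2_prime hp
  have hp0 : (0 : ℝ) < p := Nat.cast_pos.2 hpp.pos
  have hN0 := N'_pos hS
  have hnn := hS.pin.wts.nn p x
  have hz0 := zf_nonneg ν p
  have hs0 := sm_nonneg hB hp
  rcases hnn.eq_or_lt with h0 | hpos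
  · rw [← h0]
    positivity
  have hlogp : (k : ℝ) * Real.log p ≤ P / 100 := by
    have h3 := log_W2_le hB.one_le hp
    have h4 : (0 : ℝ) ≤ k := Nat.cast_nonneg k
    have h5 := hB.klogP_le
    calc (k : ℝ) * Real.log p ≤ k * (1.04 * Real.log P) := mul_le_mul_of_nonneg_left h3 h4
      _ = 1.04 * (k * Real.log P) := by ring
      _ ≤ 1.04 * (P / 1000) := by linarith
      _ ≤ P / 100 := by linarith
  have hMN : (N' : ℝ) ≤ P * N' := le_mul_of_one_le_left hN0.le hB.one_le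
  have h1 := klv_mass hB hS (D := p) (M := N') 0 x hpp.one_lt.le hlogp le_rfl hMN
  have h2 := (size_ok hB hS (D := p) (M := N') hpp.one_lt.le hlogp hMN).2
  rw [hS.pin.marg p hp x, filter_dvd_prime hp, sum_singleton, prod_singleton] at h1
  -- normalise
  have e1 : ((N' : ℝ) * (p : ℝ) ^ k / N') ^ (eta2 P) =
      Real.exp (eta2 P * ((k : ℝ) * Real.log p)) := by
    have hk : (p : ℝ) ^ k = Real.exp (k * Real.log p) := by
      rw [mul_comm, Real.exp_mul, Real.exp_log hp0, Real.rpow_natCast]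
    rw [mul_div_assoc, mul_div_cancel₀ _ hN0.ne', hk, ← Real.exp_mul, mul_comm]
  rw [e1] at h1
  have e2 : 1 + (p : ℝ) ^ k / N' ≤ Real.exp (Real.exp (-(P / 4))) :=
    (add_le_add_right h2 1).trans (by linarith [Real.add_one_le_exp (Real.exp (-(P / 4)))])
  have e3 : (ν p x) ^ (tau2 P) = Real.exp (tau2 P * Real.log (ν p x)) := by
    rw [mul_comm, Real.exp_mul, Real.exp_log hpos]
  have h3 : ν p x ≤ Real.exp (sm k P p + zf ν p / 8 + tau2 P * Real.log (ν p x)) := by
    have hc : 0 < (N' : ℝ) / p * Φ := mul_pos (div_pos hN0 hp0) hS.pin.Φpos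
    have h4 : (N' : ℝ) / p * Φ * ν p x ≤ (N' : ℝ) / p * Φ *
        (Real.exp (Real.exp (-(P / 4))) * Real.exp (eta2 P * ((k : ℝ) * Real.log p)) *
          Real.exp (1 / 8 * zf ν p) * Real.exp (tau2 P * Real.log (ν p x))) := by
      calc (N' : ℝ) / p * Φ * ν p x = N' * Φ * ν p x / p := by ring
        _ ≤ _ := h1
        _ ≤ _ := by
          rw [e3]
          have hX : (N' : ℝ) / p * Φ * (1 + (p : ℝ) ^ k / N') ≤
              (N' : ℝ) / p * Φ * Real.exp (Real.exp (-(P / 4))) :=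
            mul_le_mul_of_nonneg_left e2 hc.le
          calc (N' : ℝ) / p * Φ * (1 + (p : ℝ) ^ k / N') *
                Real.exp (eta2 P * ((k : ℝ) * Real.log p)) * Real.exp (1 / 8 * zf ν p) *
                Real.exp (tau2 P * Real.log (ν p x)) ≤
              (N' : ℝ) / p * Φ * Real.exp (Real.exp (-(P / 4))) *
                Real.exp (eta2 P * ((k : ℝ) * Real.log p)) * Real.exp (1 / 8 * zf ν p) *
                Real.exp (tau2 P * Real.log (ν p x)) := by gcongr
            _ = _ := by ring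
    have h5 := le_of_mul_le_mul_left h4 hc
    refine h5.trans_eq ?_
    rw [← Real.exp_add, ← Real.exp_add, ← Real.exp_add]
    congr 1
    unfold sm
    ring
  have h4 : Real.log (ν p x) ≤ sm k P p + zf ν p / 8 + tau2 P * Real.log (ν p x) := by
    have h5 := Real.log_le_log hpos h3
    rwa [Real.log_exp] at h5
  have h5 : Real.log (ν p x) ≤ 4 / 3 * (sm k P p + zf ν p / 8) := by
    by_cases hl : 0 ≤ Real.log (ν p x)
    · have h6 : tau2 P * Real.log (ν p x) ≤ 1 / 4 * Real.log (ν p x) :=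
        mul_le_mul_of_nonneg_right (tau2_le hB) hl
      linarith
    · push Not at hl
      have : 0 ≤ 4 / 3 * (sm k P p + zf ν p / 8) := by positivity
      linarith
  calc ν p x = Real.exp (Real.log (ν p x)) := (Real.exp_log hpos).symm
    _ ≤ _ := Real.exp_le_exp.2 h5

theorem zf_le (hB : Big k P) (hS : St P k N' Nmin Φ G ν) {p : ℕ} (hp : p ∈ W2 P) :
    zf ν p ≤ 8 / 5 * sm k P p := by
  have hpp := mem_W2_prime hp
  have hp0 : (0 : ℝ) < p := Nat.cast_pos.2 hpp.pos
  set K := Real.exp (4 / 3 * (sm k P p + zf ν p / 8)) with hK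
  have h1 : (p : ℝ) ≤ (p - zf ν p * p) * K := by
    calc (p : ℝ) = ∑ x ∈ range p, ν p x := (hS.pin.wts.mean p hp).symm
      _ = ∑ x ∈ (range p).filter (fun x : ℕ => ν p x = 0), ν p x +
          ∑ x ∈ (range p).filter (fun x : ℕ => ¬ ν p x = 0), ν p x :=
          (sum_filter_add_sum_filter_not _ _ _).symm
      _ ≤ 0 + ∑ x ∈ (range p).filter (fun x : ℕ => ¬ ν p x = 0), K := by
          refine add_le_add (le_of_eq (sum_eq_zero fun x hx => (mem_filter.1 hx).2)) ?_
          exact sum_le_sum fun x _ => log_nu_le hB hS hp x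
      _ = ((range p).filter (fun x : ℕ => ¬ ν p x = 0)).card * K := by
          rw [zero_add, sum_const, nsmul_eq_mul]
      _ = (p - zf ν p * p) * K := by
          congr 1
          have h2 := card_filter_add_card_filter_not (s := range p) (fun x : ℕ => ν p x = 0)
          rw [card_range] at h2
          have h3 : zf ν p * p = (((range p).filter (fun x : ℕ => ν p x = 0)).card : ℝ) := by
            unfold zf
            rw [div_mul_cancel₀ _ hp0.ne']
          have h4 : (((range p).filter (fun x : ℕ => ν p x = 0)).card : ℝ) +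
              ((range p).filter (fun x : ℕ => ¬ ν p x = 0)).card = p := by exact_mod_cast h2
          rw [h3]
          linarith
  have h2 : 1 ≤ Real.exp (-(zf ν p) + 4 / 3 * (sm k P p + zf ν p / 8)) := by
    have h3 : 1 ≤ (1 - zf ν p) * K := by
      have h4 : (p : ℝ) * 1 ≤ p * ((1 - zf ν p) * K) := by
        calc (p : ℝ) * 1 = p := mul_one _
          _ ≤ _ := h1
          _ = _ := by ring
      exact le_of_mul_le_mul_left h4 hp0
    rw [Real.exp_add]
    have h4 : 1 - zf ν p ≤ Real.exp (-(zf ν p)) := by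
      have := Real.add_one_le_exp (-(zf ν p))
      linarith
    exact h3.trans (mul_le_mul_of_nonneg_right h4 (Real.exp_pos _).le)
  have h3 : 0 ≤ -(zf ν p) + 4 / 3 * (sm k P p + zf ν p / 8) := by
    by_contra h
    push Not at h
    exact absurd h2 (not_le.2 (by rw [← Real.exp_zero]; exact Real.exp_lt_exp.2 h))
  linarith

theorem nu_le (hB : Big k P) (hS : St P k N' Nmin Φ G ν) {p : ℕ} (hp : p ∈ W2 P) (x : ℤ) :
    ν p x ≤ Real.exp (b2 P / 100) := by
  refine (log_nu_le hB hS hp x).trans (Real.exp_le_exp.2 ?_)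
  have h1 := zf_le hB hS hp
  have h2 := sm_le hB hp
  have h3 : 0 ≤ b2 P := by have := hB.pos; unfold b2; positivity
  linarith

theorem zf_le' (hB : Big k P) (hS : St P k N' Nmin Φ G ν) {p : ℕ} (hp : p ∈ W2 P) :
    zf ν p ≤ b2 P / 100 := by
  have h1 := zf_le hB hS hp
  have h2 := sm_le hB hp
  have h3 : 0 ≤ b2 P := by have := hB.pos; unfold b2; positivity
  linarith

theorem b2_nonneg (hB : Big k P) : 0 ≤ b2 P := by have := hB.pos; unfold b2; positivity

theorem b2_le_one (hB : Big k P) : b2 P ≤ 1 := by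
  have h := hB.rpow_le (a := -0.488) (b := 0) (by norm_num)
  rwa [Real.rpow_zero] at h

theorem exp_sub_one_le {c : ℝ} (h0 : 0 ≤ c) (h1 : c ≤ 1 / 2) : Real.exp c - 1 ≤ 2 * c := by
  have h2 : 1 - c ≤ Real.exp (-c) := by
    have := Real.add_one_le_exp (-c)
    linarith
  have h3 : Real.exp c * Real.exp (-c) = 1 := by rw [← Real.exp_add]; simp
  have h4 : Real.exp c * (1 - c) ≤ 1 :=
    (mul_le_mul_of_nonneg_left h2 (Real.exp_pos _).le).trans_eq h3
  nlinarith [Real.exp_pos c]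

theorem card_W2_le (hB : Big k P) : ((W2 P).card : ℝ) ≤ P ^ (1.04 : ℝ) := by
  have hP := hB.pos
  have h1 : (W2 P).card ≤ ⌊P ^ (1.04 : ℝ)⌋₊ := by
    refine (card_filter_le _ _).trans ?_
    rw [Nat.card_Ioc]
    omega
  calc ((W2 P).card : ℝ) ≤ ⌊P ^ (1.04 : ℝ)⌋₊ := by exact_mod_cast h1
    _ ≤ P ^ (1.04 : ℝ) := Nat.floor_le (by positivity)

theorem G_supp (hB : Big k P) (hS : St P k N' Nmin Φ G ν) {n : ℤ} (hn : G n ≠ 0) {p : ℕ}
    (hp : p ∈ W2 P) : ν p n ≠ 0 := by
  intro h0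
  have h1 := hS.pin.Gle n
  have h2 : ∏ q ∈ W2 P, (ν q n) ^ (tau2 P) = 0 := by
    refine prod_eq_zero hp ?_
    rw [h0]
    exact Real.zero_rpow (tau2_pos hB).ne'
  rw [h2] at h1
  exact hn (le_antisymm h1 (hS.pin.G0 n))

theorem G_le_exp (hB : Big k P) (hS : St P k N' Nmin Φ G ν) (n : ℤ) :
    G n ≤ Real.exp (P ^ (0.502 : ℝ)) := by
  have hP := hB.pos
  have hb := b2_nonneg hB
  have ht := tau2_pos hB
  refine (hS.pin.Gle n).trans ?_
  calc ∏ p ∈ W2 P, (ν p n) ^ (tau2 P) ≤ ∏ _p ∈ W2 P, Real.exp (tau2 P * (b2 P / 100)) := by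
        refine prod_le_prod (fun p _ => Real.rpow_nonneg (hS.pin.wts.nn p n) _) fun p hp => ?_
        calc (ν p n) ^ (tau2 P) ≤ (Real.exp (b2 P / 100)) ^ (tau2 P) :=
              Real.rpow_le_rpow (hS.pin.wts.nn p n) (nu_le hB hS hp n) ht.le
          _ = Real.exp (tau2 P * (b2 P / 100)) := by rw [← Real.exp_mul, mul_comm]
    _ = Real.exp ((W2 P).card * (tau2 P * (b2 P / 100))) := by
        rw [prod_const, ← Real.exp_nat_mul]
    _ ≤ Real.exp (P ^ (0.502 : ℝ)) := by
        refine Real.exp_le_exp.2 ?_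
        have h1 : (W2 P).card * (tau2 P * (b2 P / 100)) ≤
            P ^ (1.04 : ℝ) * (P ^ (-0.05 : ℝ) / 2 * (P ^ (-0.488 : ℝ) / 100)) := by
          have h2 := card_W2_le hB
          have h3 := tau2_le' hB
          have h4 : b2 P / 100 = P ^ (-0.488 : ℝ) / 100 := rfl
          rw [← h4]
          gcongr
        refine h1.trans ?_
        have h5 : P ^ (1.04 : ℝ) * (P ^ (-0.05 : ℝ) / 2 * (P ^ (-0.488 : ℝ) / 100)) =
            P ^ (0.502 : ℝ) / 200 := by
          have h6 : P ^ (1.04 : ℝ) * P ^ (-0.05 : ℝ) * P ^ (-0.488 : ℝ) = P ^ (0.502 : ℝ) := by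
            rw [← Real.rpow_add hP, ← Real.rpow_add hP]
            norm_num
          rw [← h6]
          ring
        rw [h5]
        have : 0 ≤ P ^ (0.502 : ℝ) := by positivity
        linarith

theorem G_le (hB : Big k P) (hS : St P k N' Nmin Φ G ν) (n : ℤ) :
    G n ≤ Real.exp (4 * P ^ (0.51 : ℝ)) * Φ := by
  have h1 := G_le_exp hB hS n
  have h2 := hB.rpow_le (a := 0.502) (b := 0.51) (by norm_num)
  calc G n ≤ Real.exp (P ^ (0.502 : ℝ)) := h1
    _ ≤ Real.exp (4 * P ^ (0.51 : ℝ) + -(3 * P ^ (0.51 : ℝ))) :=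
        Real.exp_le_exp.2 (by linarith)
    _ = Real.exp (4 * P ^ (0.51 : ℝ)) * Real.exp (-(3 * P ^ (0.51 : ℝ))) := Real.exp_add _ _
    _ ≤ Real.exp (4 * P ^ (0.51 : ℝ)) * Φ :=
        mul_le_mul_of_nonneg_left hS.Φlo (Real.exp_pos _).le

/-- positive part -/
theorem sum_pos_le (hB : Big k P) (hS : St P k N' Nmin Φ G ν) {p : ℕ} (hp : p ∈ W2 P) :
    ∑ x ∈ range p, max 0 (ν p x - 1) ≤ p * (b2 P / 50) := by
  have hb := b2_nonneg hB
  have hb1 := b2_le_one hB
  have h1 : ∀ x ∈ range p, max 0 (ν p (x : ℕ) - 1) ≤ b2 P / 50 := by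
    intro x _
    refine max_le (by positivity) ?_
    have h2 := nu_le hB hS hp (x : ℕ)
    have h3 := exp_sub_one_le (c := b2 P / 100) (by positivity) (by linarith)
    linarith
  refine (sum_le_sum h1).trans_eq ?_
  rw [sum_const, card_range, nsmul_eq_mul]

theorem sum_neg_eq (hS : St P k N' Nmin Φ G ν) {p : ℕ} (hp : p ∈ W2 P) :
    ∑ x ∈ range p, max 0 (1 - ν p x) = ∑ x ∈ range p, max 0 (ν p x - 1) := by
  have h1 := hS.pin.wts.mean p hp
  have h2 : ∑ x ∈ range p, (max 0 (ν p x - 1) - max 0 (1 - ν p x)) = 0 := by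
    have h3 : ∀ x ∈ range p, max 0 (ν p (x : ℕ) - 1) - max 0 (1 - ν p (x : ℕ)) =
        ν p (x : ℕ) - 1 := by
      intro x _
      rcases le_total (ν p (x : ℕ)) 1 with h | h
      · rw [max_eq_left (by linarith), max_eq_right (by linarith)]
        ring
      · rw [max_eq_right (by linarith), max_eq_left (by linarith)]
        ring
    rw [sum_congr rfl h3, sum_sub_distrib, h1]
    simp
  rw [sum_sub_distrib] at h2
  linarith

end one

end Vale.Agent.P042.TT.NU2

namespace Vale.Agent.P042.TT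

open Polynomial Finset Filter Vale.Agent.P042.SS NU2

/-- **Block NU2.** -/
theorem nu2_holds : NU2Stmt := by
  intro k _
  obtain ⟨P0, hP0⟩ := big_eventually k
  refine ⟨P0, fun P hP N' Nmin Φ G ν hS => ?_⟩
  have hB := hP0 P hP
  have hb := b2_nonneg hB
  have hb1 := b2_le_one hB
  refine ⟨fun p hp x => ⟨?_, ?_⟩, fun p hp => ?_, fun n hn p hp => G_supp hB hS hn hp,
    G_le hB hS, fun p hp => ?_, fun p hp => ?_⟩
  · exact (nu_le hB hS hp x).trans (Real.exp_le_exp.2 (by linarith))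
  · rcases hS.pin.low p hp x with h | h
    · exact Or.inl h
    · exact Or.inr (by linarith)
  · have := zf_le' hB hS hp
    linarith
  · have hp0 : (0 : ℝ) < p := Nat.cast_pos.2 (mem_W2_prime hp).pos
    have h1 : ∀ x ∈ range p, ν p (x : ℕ) / p *
        (Real.exp (max 0 (Real.log (1 / ν p (x : ℕ)))) - 1) ≤ max 0 (1 - ν p (x : ℕ)) / p := by
      intro x _
      have hnn := hS.pin.wts.nn p (x : ℕ)
      rcases hnn.eq_or_lt with h0 | hpos
      · rw [← h0]
        simp only [zero_div, zero_mul]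
        positivity
      · rcases le_total (ν p (x : ℕ)) 1 with h | h
        · have h2 : 0 ≤ Real.log (1 / ν p (x : ℕ)) :=
            Real.log_nonneg (by rw [le_div_iff₀ hpos]; linarith)
          rw [max_eq_right h2, Real.exp_log (by positivity), max_eq_right (by linarith)]
          refine le_of_eq ?_
          field_simp
        · have h2 : Real.log (1 / ν p (x : ℕ)) ≤ 0 :=
            Real.log_nonpos (by positivity) (by rw [div_le_one hpos]; exact h)
          rw [max_eq_left h2, Real.exp_zero, sub_self, mul_zero]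
          positivity
    refine (sum_le_sum h1).trans ?_
    rw [← sum_div, sum_neg_eq hS hp, div_le_iff₀ hp0]
    refine (sum_pos_le hB hS hp).trans ?_
    nlinarith
  · have hp0 : (0 : ℝ) < p := Nat.cast_pos.2 (mem_W2_prime hp).pos
    have h1 : ∀ x ∈ range p, (ν p (x : ℕ) - 1) ^ 2 ≤
        max 0 (ν p (x : ℕ) - 1) + max 0 (1 - ν p (x : ℕ)) := by
      intro x _
      have hnn := hS.pin.wts.nn p (x : ℕ)
      have h2 := nu_le hB hS hp (x : ℕ)
      have h3 := exp_sub_one_le (c := b2 P / 100) (by positivity) (by linarith)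
      rcases le_total (ν p (x : ℕ)) 1 with h | h
      · rw [max_eq_left (by linarith), max_eq_right (by linarith)]
        nlinarith
      · rw [max_eq_right (by linarith), max_eq_left (by linarith)]
        nlinarith
    rw [div_le_iff₀ hp0]
    refine (sum_le_sum h1).trans ?_
    rw [sum_add_distrib, sum_neg_eq hS hp]
    have h4 := sum_pos_le hB hS hp
    nlinarith

end Vale.Agent.P042.TT
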