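import Vale.Agent.P042.TT.Defs

set_option autoImplicit false

/-!
Basic calculus of `Ev`, `Ex`, `rho` on finite product probability spaces.
-/

namespace Vale.Agent.P042.TT

open Finset

section base

variable {ι : Type} [Fintype ι] [DecidableEq ι] {Ω : ι → Type} [∀ i, Fintype (Ω i)]
variable {F : Type*} [AddCommGroup F] [Module ℝ F]
variable {π : ∀ i, Ω i → ℝ}

lemma Ev_add (f g : (∀ i, Ω i) → F) : Ev π (fun x => f x + g x) = Ev π f + Ev π g := by
  simp [Ev, sum_add_distrib]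

lemma Ev_sub (f g : (∀ i, Ω i) → F) : Ev π (fun x => f x - g x) = Ev π f - Ev π g := by
  simp [Ev, smul_sub, sum_sub_distrib]

lemma Ev_smul (c : ℝ) (f : (∀ i, Ω i) → F) : Ev π (fun x => c • f x) = c • Ev π f := by
  unfold Ev
  rw [smul_sum]
  exact sum_congr rfl fun x _ => smul_comm _ _ _

lemma Ev_sum {α : Type*} (s : Finset α) (f : α → (∀ i, Ω i) → F) :
    Ev π (fun x => ∑ a ∈ s, f a x) = ∑ a ∈ s, Ev π (f a) := by
  unfold Ev
  rw [sum_comm]
  exact sum_congr rfl fun x _ => by rw [smul_sum]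

lemma IsPr.tot (h : IsPr π) : ∑ y : ∀ i, Ω i, ∏ i, π i (y i) = 1 := by
  rw [← Fintype.piFinset_univ, ← Finset.prod_univ_sum]
  simp [h.one]

omit [DecidableEq ι] in
lemma IsPr.w_nonneg (h : IsPr π) (y : ∀ i, Ω i) : 0 ≤ ∏ i, π i (y i) :=
  prod_nonneg fun i _ => h.nn i _

lemma IsPr.Ev_const (h : IsPr π) (c : F) : Ev π (fun _ => c) = c := by
  unfold Ev
  rw [← sum_smul, h.tot, one_smul]

lemma IsPr.nonempty (h : IsPr π) : Nonempty (∀ i, Ω i) := by
  by_contra hn
  rw [not_nonempty_iff] at hn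
  have := h.tot
  simp at this

lemma IsPr.Ev_nonneg (h : IsPr π) {f : (∀ i, Ω i) → ℝ} (hf : ∀ x, 0 ≤ f x) : 0 ≤ Ev π f :=
  sum_nonneg fun x _ => mul_nonneg (h.w_nonneg x) (hf x)

lemma IsPr.Ev_mono (h : IsPr π) {f g : (∀ i, Ω i) → ℝ} (hf : ∀ x, f x ≤ g x) :
    Ev π f ≤ Ev π g :=
  sum_le_sum fun x _ => mul_le_mul_of_nonneg_left (hf x) (h.w_nonneg x)

/-- resampling one coordinate -/
lemma IsPr.Ev_fub (h : IsPr π) (i : ι) (f : (∀ i, Ω i) → F) :
    Ev π f = ∑ z, π i z • Ev π (fun y => f (Function.update y i z)) := by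
  classical
  have h1 : ∑ z, π i z • Ev π (fun y => f (Function.update y i z)) =
      ∑ u : Ω i × (∀ i, Ω i), (π i u.1 * ∏ j, π j (u.2 j)) • f (Function.update u.2 i u.1) := by
    rw [Fintype.sum_prod_type]
    refine sum_congr rfl fun z _ => ?_
    unfold Ev
    rw [smul_sum]
    exact sum_congr rfl fun y _ => by rw [smul_smul]
  have h2 : Ev π f = ∑ u : Ω i × (∀ i, Ω i), (π i u.1 * ∏ j, π j (u.2 j)) • f u.2 := by
    rw [Fintype.sum_prod_type]
    have : ∀ z : Ω i, ∑ y : (∀ i, Ω i), (π i z * ∏ j, π j (y j)) • f y = π i z • Ev π f := by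
      intro z
      unfold Ev
      rw [smul_sum]
      exact sum_congr rfl fun y _ => by rw [smul_smul]
    simp only [this]
    rw [← sum_smul, h.one, one_smul]
  rw [h1, h2]
  have hinv : ∀ u : Ω i × (∀ i, Ω i),
      ((fun u : Ω i × (∀ i, Ω i) => (u.2 i, Function.update u.2 i u.1))
        ((fun u : Ω i × (∀ i, Ω i) => (u.2 i, Function.update u.2 i u.1)) u)) = u := by
    rintro ⟨z, y⟩
    simp
  let σ : (Ω i × (∀ i, Ω i)) ≃ (Ω i × (∀ i, Ω i)) :=
    ⟨fun u => (u.2 i, Function.update u.2 i u.1), fun u => (u.2 i, Function.update u.2 i u.1),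
      hinv, hinv⟩
  refine Fintype.sum_equiv σ _ _ ?_
  rintro ⟨z, y⟩
  have hw : π i z * ∏ j, π j (y j) = π i (y i) * ∏ j, π j (Function.update y i z j) := by
    rw [Fintype.prod_eq_mul_prod_compl i, Fintype.prod_eq_mul_prod_compl i]
    have : ∏ j ∈ {i}ᶜ, π j (Function.update y i z j) = ∏ j ∈ {i}ᶜ, π j (y j) := by
      refine prod_congr rfl fun j hj => ?_
      have : j ≠ i := by simpa using hj
      rw [Function.update_of_ne this]
    rw [this, Function.update_self]
    ring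
  show (π i z * ∏ j, π j (y j)) • f y =
    (π i (y i) * ∏ j, π j (Function.update y i z j)) •
      f (Function.update (Function.update y i z) i (y i))
  rw [← hw]
  simp

lemma IsPr.Ex_empty (h : IsPr π) (f : (∀ i, Ω i) → F) (x : ∀ i, Ω i) : Ex π ∅ f x = f x := by
  unfold Ex
  simp [h.Ev_const]

lemma Ex_univ (f : (∀ i, Ω i) → F) (x : ∀ i, Ω i) : Ex π univ f x = Ev π f := by
  unfold Ex
  simp

/-- `Ex S f` does not see the coordinates in `S` -/
lemma Ex_congr (S : Finset ι) (f : (∀ i, Ω i) → F) {x x' : ∀ i, Ω i}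
    (hx : ∀ i, i ∉ S → x i = x' i) : Ex π S f x = Ex π S f x' := by
  unfold Ex
  congr 1
  funext y
  congr 1
  funext i
  by_cases hi : i ∈ S
  · simp [hi]
  · simp [hi, hx i hi]

lemma IsPr.Ex_insert (h : IsPr π) {S : Finset ι} {i : ι} (hi : i ∉ S) (f : (∀ i, Ω i) → F)
    (x : ∀ i, Ω i) :
    Ex π (insert i S) f x = ∑ z, π i z • Ex π S f (Function.update x i z) := by
  unfold Ex
  rw [h.Ev_fub i]
  refine sum_congr rfl fun z _ => ?_
  congr 2
  funext y
  congr 1
  funext j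
  by_cases hj : j = i
  · subst hj
    simp [hi]
  · by_cases hj2 : j ∈ S
    · simp [hj, hj2]
    · simp [hj, hj2]

/-- average over one coordinate -/
lemma IsPr.Ex_single (h : IsPr π) (i : ι) (f : (∀ i, Ω i) → F) (x : ∀ i, Ω i) :
    Ex π {i} f x = ∑ z, π i z • f (Function.update x i z) := by
  have := h.Ex_insert (S := ∅) (i := i) (by simp) f x
  rw [insert_empty_eq] at this
  rw [this]
  exact sum_congr rfl fun z _ => by rw [h.Ex_empty]

lemma IsPr.Ex_insert' (h : IsPr π) (S : Finset ι) (i : ι) (f : (∀ i, Ω i) → F)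
    (x : ∀ i, Ω i) :
    Ex π (insert i S) f x = ∑ z, π i z • Ex π S f (Function.update x i z) := by
  by_cases hi : i ∈ S
  · rw [insert_eq_of_mem hi]
    have : ∀ z, Ex π S f (Function.update x i z) = Ex π S f x := by
      intro z
      refine Ex_congr S f fun j hj => ?_
      have : j ≠ i := by rintro rfl; exact hj hi
      rw [Function.update_of_ne this]
    simp only [this]
    rw [← sum_smul, h.one, one_smul]
  · exact h.Ex_insert hi f x

/-- tower property -/
lemma IsPr.Ex_Ex (h : IsPr π) (S T : Finset ι) (f : (∀ i, Ω i) → F) (x : ∀ i, Ω i) :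
    Ex π S (Ex π T f) x = Ex π (S ∪ T) f x := by
  induction S using Finset.induction_on generalizing x with
  | empty => rw [h.Ex_empty, empty_union]
  | insert i S hi ih =>
    rw [h.Ex_insert hi, insert_union, h.Ex_insert']
    exact sum_congr rfl fun z _ => by rw [ih]

lemma IsPr.Ev_Ex (h : IsPr π) (S : Finset ι) (f : (∀ i, Ω i) → F) :
    Ev π (Ex π S f) = Ev π f := by
  obtain ⟨x⟩ := h.nonempty
  calc Ev π (Ex π S f) = Ex π univ (Ex π S f) x := (Ex_univ _ x).symm
    _ = Ex π (univ ∪ S) f x := h.Ex_Ex _ _ _ _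
    _ = Ex π univ f x := by
      rw [show (univ : Finset ι) ∪ S = univ from by ext; simp]
    _ = Ev π f := Ex_univ _ _

lemma rho_congr (S : Finset ι) (f : (∀ i, Ω i) → F) {x x' : ∀ i, Ω i}
    (hx : ∀ i ∈ S, x i = x' i) : rho π f S x = rho π f S x' := by
  unfold rho
  exact Ex_congr _ f fun i hi => hx i (by simpa using hi)

lemma IsPr.rho_univ (h : IsPr π) (f : (∀ i, Ω i) → F) (x : ∀ i, Ω i) : rho π f univ x = f x := by
  unfold rho
  rw [compl_univ, h.Ex_empty]

lemma rho_empty (f : (∀ i, Ω i) → F) (x : ∀ i, Ω i) : rho π f ∅ x = Ev π f := by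
  unfold rho
  rw [compl_empty, Ex_univ]

lemma IsPr.rho_rho (h : IsPr π) (S T : Finset ι) (f : (∀ i, Ω i) → F) (x : ∀ i, Ω i) :
    rho π (rho π f T) S x = rho π f (S ∩ T) x := by
  unfold rho
  have : (fun x => Ex π Tᶜ f x) = Ex π Tᶜ f := rfl
  show Ex π Sᶜ (fun x => Ex π Tᶜ f x) x = _
  rw [this, h.Ex_Ex, compl_inter]

lemma IsPr.Ev_rho (h : IsPr π) (S : Finset ι) (f : (∀ i, Ω i) → F) :
    Ev π (rho π f S) = Ev π f := h.Ev_Ex _ f

/-- averaging the coordinate `i`: from `insert i S` to `S` -/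
lemma IsPr.rho_step (h : IsPr π) {S : Finset ι} {i : ι} (hi : i ∉ S) (f : (∀ i, Ω i) → F)
    (x : ∀ i, Ω i) :
    rho π f S x = ∑ z, π i z • rho π f (insert i S) (Function.update x i z) := by
  unfold rho
  have h1 : Sᶜ = insert i ((insert i S)ᶜ) := by
    ext j
    by_cases hj : j = i
    · subst hj; simp [hi]
    · simp [hj]
  rw [h1]
  exact h.Ex_insert (by simp) f x

end base

section pull

variable {ι : Type} [Fintype ι] [DecidableEq ι] {Ω : ι → Type} [∀ i, Fintype (Ω i)]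
variable {π : ∀ i, Ω i → ℝ}

lemma Ev_mulC (c : ℂ) (f : (∀ i, Ω i) → ℂ) : Ev π (fun x => c * f x) = c * Ev π f := by
  unfold Ev
  rw [mul_sum]
  exact sum_congr rfl fun x _ => by rw [mul_smul_comm]

lemma Ev_conj (f : (∀ i, Ω i) → ℂ) :
    Ev π (fun x => (starRingEnd ℂ) (f x)) = (starRingEnd ℂ) (Ev π f) := by
  unfold Ev
  rw [map_sum]
  refine sum_congr rfl fun x _ => ?_
  rw [Complex.real_smul, Complex.real_smul, map_mul, Complex.conj_ofReal]

lemma Ev_ofReal (f : (∀ i, Ω i) → ℝ) : Ev π (fun x => (f x : ℂ)) = ((Ev π f : ℝ) : ℂ) := by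
  unfold Ev
  rw [Complex.ofReal_sum]
  refine sum_congr rfl fun x _ => ?_
  rw [Complex.real_smul, smul_eq_mul, Complex.ofReal_mul]

/-- pull out a factor which does not depend on the averaged coordinates -/
lemma Ex_pull (S : Finset ι) (g f : (∀ i, Ω i) → ℂ)
    (hg : ∀ x x' : ∀ i, Ω i, (∀ i, i ∉ S → x i = x' i) → g x = g x') (x : ∀ i, Ω i) :
    Ex π S (fun y => g y * f y) x = g x * Ex π S f x := by
  unfold Ex
  rw [← Ev_mulC]
  congr 1
  funext y
  show g (S.piecewise y x) * f (S.piecewise y x) = _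
  rw [hg (S.piecewise y x) x (fun i hi => by simp [hi])]

lemma Ex_conj (S : Finset ι) (f : (∀ i, Ω i) → ℂ) (x : ∀ i, Ω i) :
    Ex π S (fun y => (starRingEnd ℂ) (f y)) x = (starRingEnd ℂ) (Ex π S f x) := by
  unfold Ex
  exact Ev_conj _

/-- orthogonality of conditional expectations -/
lemma IsPr.Ev_rho_mul (h : IsPr π) (S T : Finset ι) (f g : (∀ i, Ω i) → ℂ) :
    Ev π (fun x => rho π f S x * (starRingEnd ℂ) (rho π g T x)) =
      Ev π (fun x => rho π f (S ∩ T) x * (starRingEnd ℂ) (rho π g (S ∩ T) x)) := by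
  -- step 1
  have key : ∀ (S T : Finset ι) (f g : (∀ i, Ω i) → ℂ),
      Ev π (fun x => rho π f S x * (starRingEnd ℂ) (rho π g T x)) =
        Ev π (fun x => rho π f S x * (starRingEnd ℂ) (rho π g (S ∩ T) x)) := by
    intro S T f g
    rw [← h.Ev_Ex Sᶜ]
    congr 1
    funext x
    rw [Ex_pull Sᶜ (rho π f S) (fun x => (starRingEnd ℂ) (rho π g T x))
      (fun x x' hx => rho_congr S f fun i hi => hx i (by simpa using hi)), Ex_conj]
    congr 2
    exact h.rho_rho S T g x
  rw [key]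
  have h2 : Ev π (fun x => rho π f S x * (starRingEnd ℂ) (rho π g (S ∩ T) x)) =
      (starRingEnd ℂ) (Ev π (fun x => rho π g (S ∩ T) x * (starRingEnd ℂ) (rho π f S x))) := by
    rw [← Ev_conj]
    congr 1
    funext x
    simp [mul_comm]
  rw [h2, key, ← Ev_conj]
  congr 1
  funext x
  have : S ∩ T ∩ S = S ∩ T := by
    ext i; simp; tauto
  rw [this]
  simp [mul_comm]

end pull

end Vale.Agent.P042.TT
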