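import Vale.Agent.P042.TT.BrA

set_option autoImplicit false

/-!
Blocks BR and EW.
-/

namespace Vale.Agent.P042.TT

open Finset Vale.Agent.P042.SS

section res

variable {V : Finset ℕ} {ν : ℕ → ℤ → ℝ}

/-- residue vector -/
def res (hp : ∀ p ∈ V, p.Prime) (n : ℕ) : XS V :=
  fun p => ⟨n % (p : ℕ), Nat.mod_lt _ (hp p p.2).pos⟩

/-- expectation of a function of finitely many residues as a sum over a complete system -/
lemma Ev_res (hp : ∀ p ∈ V, p.Prime) (hw : Wts V ν) (S : Finset ↥V) (f : XS V → ℝ)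
    (hf : ∀ x x' : XS V, (∀ p ∈ S, x p = x' p) → f x = f x') :
    Ev (piV ν V) f = ∑ x ∈ range (∏ p ∈ S, (p : ℕ)),
      (∏ p ∈ S, (ν p x / ((p : ℕ) : ℝ))) * f (res hp x) := by
  have hpi := piV_isPr hp hw
  induction S using Finset.induction_on generalizing f with
  | empty =>
    have : ∀ x, f x = f (res hp 0) := fun x => hf _ _ (by simp)
    have h2 : Ev (piV ν V) f = Ev (piV ν V) (fun _ => f (res hp 0)) := by
      congr 1
      funext x
      exact this x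
    rw [h2, hpi.Ev_const]
    simp
  | insert q S hq ih =>
    have hqpos : 0 < (q : ℕ) := (hp q q.2).pos
    have hmpos : 0 < ∏ p ∈ S, (p : ℕ) := prod_pos fun p _ => (hp p p.2).pos
    have hcop : Nat.Coprime (q : ℕ) (∏ p ∈ S, (p : ℕ)) := by
      refine Nat.Coprime.prod_right fun p hpS => ?_
      refine (Nat.coprime_primes (hp q q.2) (hp p p.2)).2 ?_
      intro h
      have : q = p := Subtype.ext h
      subst this
      exact hq hpS
    rw [hpi.Ev_fub q, prod_insert hq]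
    have h1 : ∀ z : Fin (q : ℕ), Ev (piV ν V) (fun y => f (Function.update y q z)) =
        ∑ x ∈ range (∏ p ∈ S, (p : ℕ)), (∏ p ∈ S, (ν p x / ((p : ℕ) : ℝ))) *
          f (Function.update (res hp x) q z) := by
      intro z
      refine ih (fun y => f (Function.update y q z)) ?_
      intro x x' hx
      refine hf _ _ fun p hpS => ?_
      by_cases hpq : p = q
      · subst hpq; simp
      · rw [Function.update_of_ne hpq, Function.update_of_ne hpq]
        rcases mem_insert.1 hpS with h | h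
        · exact absurd h hpq
        · exact hx p h
    simp only [h1]
    have h2 : ∑ z : Fin (q : ℕ), piV ν V q z • ∑ x ∈ range (∏ p ∈ S, (p : ℕ)),
        (∏ p ∈ S, (ν p x / ((p : ℕ) : ℝ))) * f (Function.update (res hp x) q z) =
        ∑ a ∈ range (q : ℕ), ∑ b ∈ range (∏ p ∈ S, (p : ℕ)),
          ν q a / ((q : ℕ) : ℝ) * ((∏ p ∈ S, (ν p b / ((p : ℕ) : ℝ))) *
            f (Function.update (res hp b) q ⟨a % (q : ℕ), Nat.mod_lt _ hqpos⟩)) := by
      rw [← Fin.sum_univ_eq_sum_range (fun a : ℕ => ∑ b ∈ range (∏ p ∈ S, (p : ℕ)),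
          ν q a / ((q : ℕ) : ℝ) * ((∏ p ∈ S, (ν p b / ((p : ℕ) : ℝ))) *
            f (Function.update (res hp b) q ⟨a % (q : ℕ), Nat.mod_lt _ hqpos⟩))) (q : ℕ)]
      refine sum_congr rfl fun z _ => ?_
      rw [smul_eq_mul, mul_sum]
      refine sum_congr rfl fun b _ => ?_
      have : (⟨(z : ℕ) % (q : ℕ), Nat.mod_lt _ hqpos⟩ : Fin (q : ℕ)) = z := by
        ext
        exact Nat.mod_eq_of_lt z.2
      rw [this]
      rfl
    rw [h2, ← sum_crt (q : ℕ) (∏ p ∈ S, (p : ℕ)) hcop hqpos hmpos]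
    refine sum_congr rfl fun x _ => ?_
    rw [prod_insert hq]
    have e1 : ν q ((x % (q : ℕ) : ℕ) : ℤ) = ν q x := by
      refine per_modEq hw q.2 ?_
      push_cast
      exact Int.mod_modEq _ _
    have e2 : ∏ p ∈ S, (ν p ((x % (∏ p ∈ S, (p : ℕ)) : ℕ) : ℤ) / ((p : ℕ) : ℝ)) =
        ∏ p ∈ S, (ν p x / ((p : ℕ) : ℝ)) := by
      refine prod_congr rfl fun p hpS => ?_
      congr 1
      refine per_modEq hw p.2 ?_
      have hdvd : (p : ℕ) ∣ ∏ p ∈ S, (p : ℕ) := dvd_prod_of_mem (fun p : ↥V => (p : ℕ)) hpS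
      have : x % (∏ p ∈ S, (p : ℕ)) ≡ x [MOD (p : ℕ)] := (Nat.mod_modEq _ _).of_dvd hdvd
      exact (Int.natCast_modEq_iff).2 this
    have e3 : f (Function.update (res hp (x % (∏ p ∈ S, (p : ℕ)))) q
        ⟨x % (q : ℕ) % (q : ℕ), Nat.mod_lt _ hqpos⟩) = f (res hp x) := by
      refine hf _ _ fun p hpS => ?_
      by_cases hpq : p = q
      · subst hpq
        rw [Function.update_self]
        ext
        exact Nat.mod_mod _ _
      · rw [Function.update_of_ne hpq]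
        have hpS' : p ∈ S := by
          rcases mem_insert.1 hpS with h | h
          · exact absurd h hpq
          · exact h
        have hdvd : (p : ℕ) ∣ ∏ p ∈ S, (p : ℕ) := dvd_prod_of_mem (fun p : ↥V => (p : ℕ)) hpS'
        ext
        exact Nat.mod_mod_of_dvd x hdvd
    rw [e1, e2, e3]
    ring

/-- congruences mod all primes of `S` -/
lemma modEq_prod (hp : ∀ p ∈ V, p.Prime) (S : Finset ↥V) (n : ℤ) (x : ℕ) :
    (∀ p ∈ S, n ≡ (((res hp x) p : ℕ) : ℤ) [ZMOD ((p : ℕ) : ℤ)]) ↔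
      n ≡ x [ZMOD ((∏ p ∈ S.map (Function.Embedding.subtype _), p : ℕ) : ℤ)] := by
  have h0 : ∀ p : ↥V, ((((res hp x) p : ℕ) : ℤ)) ≡ x [ZMOD ((p : ℕ) : ℤ)] := by
    intro p
    show (((x % (p : ℕ) : ℕ) : ℤ)) ≡ x [ZMOD ((p : ℕ) : ℤ)]
    push_cast
    exact Int.mod_modEq _ _
  rw [prod_map]
  constructor
  · intro h
    have h1 : ∀ p ∈ S, n ≡ x [ZMOD ((p : ℕ) : ℤ)] := fun p hpS => (h p hpS).trans (h0 p)
    clear h
    induction S using Finset.induction_on with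
    | empty =>
      rw [prod_empty]
      exact Int.modEq_one
    | insert q S hq ih =>
      have hcop : Nat.Coprime (q : ℕ) (∏ p ∈ S, (p : ℕ)) := by
        refine Nat.Coprime.prod_right fun p hpS => ?_
        refine (Nat.coprime_primes (hp q q.2) (hp p p.2)).2 ?_
        intro h
        have : q = p := Subtype.ext h
        subst this
        exact hq hpS
      have a1 := h1 q (mem_insert_self _ _)
      have a2 := ih (fun p hpS => h1 p (mem_insert_of_mem hpS))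
      have hcop' : Nat.Coprime (((q : ℕ) : ℤ)).natAbs
          (((∏ p ∈ S, (p : ℕ) : ℕ) : ℤ)).natAbs := hcop
      have := (Int.modEq_and_modEq_iff_modEq_mul hcop').1 ⟨a1, a2⟩
      rw [← Nat.cast_mul, ← prod_insert hq] at this
      exact this
  · intro h p hpS
    refine Int.ModEq.trans ?_ (h0 p).symm
    refine h.of_dvd ?_
    have : (p : ℕ) ∣ ∏ p ∈ S, (p : ℕ) := dvd_prod_of_mem (fun p : ↥V => (p : ℕ)) hpS
    exact_mod_cast this

end res

section br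

variable {V : Finset ℕ} {ν : ℕ → ℤ → ℝ}

lemma gV_eq (V : Finset ℕ) (ν : ℕ → ℤ → ℝ) (G : ℤ → ℝ) (y : ℤ) (M R : ℕ) (r : ℤ) :
    gV ν V G y M R r = hV ν V univ ((Ioc y (y + M)).filter (fun n : ℤ => n ≡ r [ZMOD (R : ℕ)]))
      G := by
  funext x
  unfold gV hV
  rw [filter_filter]
  simp

lemma fV_eq (V : Finset ℕ) (ν : ℕ → ℤ → ℝ) (G : ℤ → ℝ) (y : ℤ) (M R : ℕ) (r : ℤ) (θ : ℝ) :
    fV ν V G y M R r θ =
      hV ν V univ ((Ioc y (y + M)).filter (fun n : ℤ => n ≡ r [ZMOD (R : ℕ)]))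
        (fun n => (G n : ℂ) * e (-((n : ℝ) * θ))) := by
  funext x
  unfold fV hV
  rw [filter_filter, Complex.real_smul]
  simp

lemma rho_gV (hp : ∀ p ∈ V, p.Prime) (hw : Wts V ν) (G : ℤ → ℝ) (y : ℤ) (M R : ℕ) (r : ℤ)
    (hG : ∀ n, G n ≠ 0 → ∀ p ∈ V, ν p n ≠ 0) (S : Finset ↥V) (x : XS V) :
    rho (piV ν V) (gV ν V G y M R r) S x =
      (∏ p ∈ S, (((p : ℕ) : ℝ) * (ν p (x p : ℕ))⁻¹)) * ∑ n ∈ (Ioc y (y + M)).filter
        (fun n : ℤ => n ≡ r [ZMOD (R : ℕ)] ∧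
          ∀ p ∈ S, n ≡ ((x p : ℕ) : ℤ) [ZMOD ((p : ℕ) : ℤ)]), G n := by
  rw [gV_eq, rho_hV hp hw _ _ (fun n _ hn => hG n hn)]
  unfold hV
  rw [filter_filter, smul_eq_mul]

lemma rho_fV (hp : ∀ p ∈ V, p.Prime) (hw : Wts V ν) (G : ℤ → ℝ) (y : ℤ) (M R : ℕ) (r : ℤ) (θ : ℝ)
    (hG : ∀ n, G n ≠ 0 → ∀ p ∈ V, ν p n ≠ 0) (S : Finset ↥V) (x : XS V) :
    rho (piV ν V) (fV ν V G y M R r θ) S x =
      ((∏ p ∈ S, (((p : ℕ) : ℝ) * (ν p (x p : ℕ))⁻¹) : ℝ) : ℂ) *
        ∑ n ∈ (Ioc y (y + M)).filter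
        (fun n : ℤ => n ≡ r [ZMOD (R : ℕ)] ∧
          ∀ p ∈ S, n ≡ ((x p : ℕ) : ℤ) [ZMOD ((p : ℕ) : ℤ)]),
          (G n : ℂ) * e (-((n : ℝ) * θ)) := by
  rw [fV_eq, rho_hV hp hw _ _ (fun n _ hn => hG n (by
    intro h0
    rw [h0] at hn
    simp at hn))]
  unfold hV
  rw [filter_filter, Complex.real_smul]

lemma dn_res (hp : ∀ p ∈ V, p.Prime) (hw : Wts V ν) (S : Finset ↥V) (x : ℕ) :
    ∏ p ∈ S, (((p : ℕ) : ℝ) * (ν p ((res hp x) p : ℕ))⁻¹) =
      dn ν (S.map (Function.Embedding.subtype _)) x := by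
  unfold dn
  rw [prod_map]
  refine prod_congr rfl fun p _ => ?_
  show ((p : ℕ) : ℝ) * (ν p (((x % (p : ℕ) : ℕ)) : ℤ))⁻¹ = ((p : ℕ) : ℝ) * (ν p x)⁻¹
  congr 2
  refine per_modEq hw p.2 ?_
  push_cast
  exact Int.mod_modEq _ _

lemma range_map (S : Finset ↥V) :
    ∏ p ∈ S, (p : ℕ) = ∏ p ∈ S.map (Function.Embedding.subtype _), p := by
  rw [prod_map]
  rfl

lemma wt_map (S : Finset ↥V) (x : ℕ) :
    ∏ p ∈ S, (ν p x / ((p : ℕ) : ℝ)) =
      ∏ p ∈ S.map (Function.Embedding.subtype _), (ν p x / (p : ℝ)) := by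
  rw [prod_map]
  rfl

end br

theorem br_holds : BRStmt := by
  intro V ν G y M R r θ hp hw hG
  refine ⟨piV_isPr hp hw, fun S x => rho_gV hp hw G y M R r hG S x,
    fun S x => rho_fV hp hw G y M R r θ hG S x, ?_, ?_, ?_⟩
  · intro S M2
    rw [Ev_res hp hw S _ (fun x x' h => by rw [rho_congr S _ h])]
    unfold moT
    rw [range_map]
    refine sum_congr rfl fun x _ => ?_
    rw [wt_map]
    congr 2
    rw [rho_gV hp hw G y M R r hG, dn_res hp hw]
    unfold rT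
    congr 2
    refine filter_congr fun n _ => ?_
    rw [modEq_prod hp S n x]
  · intro S
    rw [Ev_res hp hw S _ (fun x x' h => by rw [rho_congr S _ h])]
    unfold enT
    rw [range_map]
    refine sum_congr rfl fun x _ => ?_
    rw [wt_map, rho_fV hp hw G y M R r θ hG, dn_res hp hw, norm_mul, mul_pow]
    have hset : (Ioc y (y + M)).filter (fun n : ℤ => n ≡ r [ZMOD (R : ℕ)] ∧
        ∀ p ∈ S, n ≡ (((res hp x) p : ℕ) : ℤ) [ZMOD ((p : ℕ) : ℤ)]) =
        (Ioc y (y + M)).filter (fun n : ℤ => n ≡ r [ZMOD (R : ℕ)] ∧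
          n ≡ x [ZMOD ((∏ p ∈ S.map (Function.Embedding.subtype _), p : ℕ) : ℤ)]) := by
      refine filter_congr fun n _ => ?_
      rw [modEq_prod hp S n x]
    rw [hset, ← mul_assoc]
    congr 1
    rw [Complex.norm_real, Real.norm_eq_abs, sq_abs]
    unfold dn
    rw [← prod_pow, ← prod_mul_distrib]
    refine prod_congr rfl fun p hpS => ?_
    rw [mem_map] at hpS
    obtain ⟨p', _, rfl⟩ := hpS
    have hp0 : ((p' : ℕ) : ℝ) ≠ 0 := by exact_mod_cast (hp p' p'.2).ne_zero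
    show ν p' x / ((p' : ℕ) : ℝ) * (((p' : ℕ) : ℝ) * (ν p' x)⁻¹) ^ 2 =
      ((p' : ℕ) : ℝ) * (ν p' x)⁻¹
    by_cases h0 : ν p' x = 0
    · simp [h0]
    · field_simp
  · obtain ⟨x⟩ := (piV_isPr hp hw).nonempty
    rw [← rho_empty (π := piV ν V) (fV ν V G y M R r θ) x, rho_fV hp hw G y M R r θ hG]
    unfold Fc
    simp

end Vale.Agent.P042.TT
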