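import Vale.Agent.P042.TT.Defs

set_option autoImplicit false

/-!
Statements of the blocks of Theorem S2.  Each block `XStmt` is to be proved as
`theorem x_holds : XStmt` in its own file(s).
-/

namespace Vale.Agent.P042.TT

open Polynomial Finset Vale.Agent.P042.SS

/-! ### A. abstract blocks on product spaces -/

/-- block PSI: self-bounding estimate for the random conditional densities -/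
def PSIStmt : Prop :=
  ∀ (ι : Type) [Fintype ι] [DecidableEq ι] (Ω : ι → Type) [∀ i, Fintype (Ω i)]
    (π : ∀ i, Ω i → ℝ) (f : (∀ i, Ω i) → ℝ) (s : ι → ℝ) (ℓ : ∀ i, Ω i → ℝ)
    (θ τ A0 b1 ε1 U s0 : ℝ) (S0 : Finset ι) (x0 : ∀ i, Ω i),
    IsPr π → (∀ x, 0 ≤ f x) → 0 < θ → θ ≤ 1 → 0 < τ → 0 ≤ A0 → 0 ≤ b1 → 0 ≤ ε1 → 1 ≤ U →
    0 ≤ s0 → (∀ i, 0 ≤ s i ∧ s i ≤ s0) → s0 ≤ 1 / 4 → (∀ i x, 0 ≤ ℓ i x) →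
    (∀ i, ∑ x, π i x * (Real.exp (ℓ i x) - 1) ≤ ε1) →
    (∀ i x, π i x = 0 ∨ 1 ≤ U * π i x) →
    (∀ (S : Finset ι) (x : ∀ i, Ω i), S0 ⊆ S → (∀ i ∈ S0, x i = x0 i) →
      ∑ i ∈ Sᶜ, klr π f S i x ≤ 1 / τ * (rho π f S x *
        (A0 + b1 * ((S \ S0).card : ℝ) + ∑ i ∈ S \ S0, ℓ i (x i) -
          Real.log (rho π f S x)))) →
    s0 * U ^ θ * (1 + 2 * b1) ≤ τ / 4 →
    ∑ T ∈ S0ᶜ.powerset, wtR s S0ᶜ T *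
        Ex π T (fun z => (rho π f (S0 ∪ T) z) ^ (1 + θ)) x0 + 1 ≤
      ((rho π f S0 x0) ^ (1 + θ) + 1) *
        Real.exp (3 * θ * (1 + θ) * U ^ θ * s0 *
          (A0 + 1 + (b1 + ε1) * U ^ θ * ∑ i, s i) / τ)

/-- block LOC: global hypercontractivity with erasures -/
def LOCStmt : Prop :=
  ∀ (m : ℕ) (c : ℝ), 2 ≤ m → 1 ≤ c → ∃ C : ℝ, 1 ≤ C ∧
  ∀ (ι : Type) [Fintype ι] [DecidableEq ι] (Ω : ι → Type) [∀ i, Fintype (Ω i)]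
    (π : ∀ i, Ω i → ℝ) (f : (∀ i, Ω i) → ℝ) (s t B : ℝ),
    IsPr π → (∀ x, 0 ≤ f x) → 0 < B → 0 ≤ t → C * t ≤ s → s ≤ 1 →
    (∀ (S : Finset ι) (x : ∀ i, Ω i), (∀ i ∈ S, π i (x i) ≠ 0) →
      ∑ T ∈ Sᶜ.powerset, wtR (fun _ => s) Sᶜ T *
        Ex π T (fun z => (rho π f (S ∪ T) z) ^ ((2 * m : ℝ) / (2 * m - 1))) x ≤
          (c ^ S.card * B) ^ ((2 * m : ℝ) / (2 * m - 1))) →
    ∑ T : Finset ι, wtR (fun _ => t) univ T * Ev π (fun x => (rho π f T x) ^ (2 * m)) ≤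
      B ^ (2 * m)

/-- block ANOVA -/
def ANOVAStmt : Prop :=
  ∀ (ι : Type) [Fintype ι] [DecidableEq ι] (Ω : ι → Type) [∀ i, Fintype (Ω i)]
    (π : ∀ i, Ω i → ℝ) (f : (∀ i, Ω i) → ℂ) (t : ι → ℝ), IsPr π →
    ∑ T : Finset ι, wtR t univ T * Ev π (fun x => ‖rho π f T x‖ ^ 2) =
      ∑ W : Finset ι, (∏ i ∈ W, t i) * en π f W

/-- block TILT: bilinear forms of kernels that are not centred -/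
def TILTStmt : Prop :=
  ∀ (ι : Type) [Fintype ι] [DecidableEq ι] (Ω : ι → Type) [∀ i, Fintype (Ω i)]
    (π : ∀ i, Ω i → ℝ) (κ : ∀ i, Ω i → Ω i → ℝ) (f f' : (∀ i, Ω i) → ℂ)
    (lam a σ c : ι → ℝ) (δ0 X X' : ℝ),
    IsPr π → (∀ i, c i = ∑ x, ∑ y, π i x * π i y * κ i x y) → (∀ i, |c i| ≤ 1 / 2) →
    (∀ i, 0 ≤ a i ∧ a i ≤ lam i ∧ lam i ≤ 1) →
    (∀ (i : ι) (φ ψ : Ω i → ℝ), |∑ x, ∑ y, π i x * π i y * (φ x * κ i x y * ψ y)| ≤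
      lam i * (Real.sqrt (∑ x, π i x * φ x ^ 2) * Real.sqrt (∑ y, π i y * ψ y ^ 2))) →
    (∀ i, ∑ x, π i x * ((∑ y, π i y * κ i x y) - c i) ^ 2 ≤ a i ^ 2) →
    (∀ i, ∑ y, π i y * ((∑ x, π i x * κ i x y) - c i) ^ 2 ≤ a i ^ 2) →
    (∀ i, 0 < σ i) → ∑ i, 4 * a i ^ 2 / σ i ≤ δ0 → δ0 ≤ 1 →
    ∑ W ∈ (univ : Finset (Finset ι)).erase ∅, (∏ i ∈ W, (12 * lam i + σ i)) * en π f W ≤ X →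
    ∑ W ∈ (univ : Finset (Finset ι)).erase ∅, (∏ i ∈ W, (12 * lam i + σ i)) * en π f' W ≤ X' →
    ‖Bform π κ f f' - ((∏ i, (1 + c i) : ℝ) : ℂ) * (Ev π f * (starRingEnd ℂ) (Ev π f'))‖ ≤
      (∏ i, (1 + c i)) * (8 * Real.sqrt (X * X') +
        4 * Real.sqrt δ0 * (Real.sqrt X * ‖Ev π f'‖ + Real.sqrt X' * ‖Ev π f‖))

/-! ### B. the extremal state -/

def EXT2Stmt : Prop :=
  ∀ (h : ℤ[X]) (lam : ℕ → ℕ) (r : ℕ → ℤ) (Hh : ℕ → ℤ[X]) (R : ℕ), AuxData h lam r Hh R →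
  1 ≤ h.natDegree →
  ∀ (N Nmin J Y : ℕ) (A : Finset ℤ) (α η X1 : ℝ) (W : Finset ℕ) (blk : ℕ → ℕ),
    A ⊆ Icc (1 : ℤ) N → DiffFree h A → 0 < α → α ≤ 1 → α * N ≤ A.card → 2 ≤ Nmin →
    Nmin ≤ N → 0 < η → η ≤ 1 → 2 ≤ J → (∀ p ∈ W, p.Prime ∧ blk p < J ∧ p ≤ Y) →
    (∀ i < J, ∏ p ∈ W.filter (fun p => blk p = i), p ≤ Nmin) →
    8 * Real.log (2 / α) + 10 ≤ X1 →
    (16 * X1 + 8) * Real.log (Y + 1) + X1 ≤ Real.log Nmin →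
    ∃ (d N' : ℕ) (Φ : ℝ) (G : ℤ → ℝ) (ν : ℕ → ℤ → ℝ), 1 ≤ d ∧ Nmin ≤ N' ∧
      N' ≤ N ∧ d * (N' - 1) ≤ N ∧ α ^ 2 / 3 ≤ Φ ∧ Φ ≤ 3 ∧
      α * (N : ℝ) ^ η ≤ 3 * (N' : ℝ) ^ η ∧
      Pin2 h.natDegree N' Nmin W (1 / (2 * (J : ℝ))) η (1 / 8) Φ G ν ∧
      (∀ n m : ℤ, G n ≠ 0 → G m ≠ 0 → ∀ x : ℕ, 1 ≤ x → n - m = (Hh d).eval (x : ℤ) → n = m)

/-- block NU2: size of the weights -/
def NU2Stmt : Prop :=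
  ∀ k : ℕ, 1 ≤ k → ∃ P0 : ℝ, ∀ P : ℝ, P0 ≤ P →
  ∀ (N' Nmin : ℕ) (Φ : ℝ) (G : ℤ → ℝ) (ν : ℕ → ℤ → ℝ),
    St P k N' Nmin Φ G ν →
    (∀ p ∈ W2 P, ∀ x, ν p x ≤ Real.exp (b2 P) ∧ (ν p x = 0 ∨ 1 / 16 ≤ ν p x)) ∧
    (∀ p ∈ W2 P, zf ν p ≤ b2 P) ∧
    (∀ n, G n ≠ 0 → ∀ p ∈ W2 P, ν p n ≠ 0) ∧
    (∀ n, G n ≤ Real.exp (4 * P ^ (0.51 : ℝ)) * Φ) ∧
    (∀ p ∈ W2 P, ∑ x ∈ range p, ν p x / p *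
      (Real.exp (max 0 (Real.log (1 / ν p x))) - 1) ≤ 2 * b2 P) ∧
    (∀ p ∈ W2 P, (∑ x ∈ range p, (ν p x - 1) ^ 2) / p ≤ 5 * b2 P)

/-! ### C. cells -/

/-- the bridge between the explicit quantities and the product space -/
def BRStmt : Prop :=
  ∀ (V : Finset ℕ) (ν : ℕ → ℤ → ℝ) (G : ℤ → ℝ) (y : ℤ) (M R : ℕ) (r : ℤ) (θ : ℝ),
    (∀ p ∈ V, p.Prime) → Wts V ν → (∀ n, G n ≠ 0 → ∀ p ∈ V, ν p n ≠ 0) →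
    IsPr (piV ν V) ∧
    (∀ (S : Finset ↥V) (x : XS V), rho (piV ν V) (gV ν V G y M R r) S x =
      (∏ p ∈ S, (((p : ℕ) : ℝ) * (ν p (x p : ℕ))⁻¹)) * ∑ n ∈ (Ioc y (y + M)).filter
        (fun n : ℤ => n ≡ r [ZMOD (R : ℕ)] ∧
          ∀ p ∈ S, n ≡ ((x p : ℕ) : ℤ) [ZMOD ((p : ℕ) : ℤ)]), G n) ∧
    (∀ (S : Finset ↥V) (x : XS V), rho (piV ν V) (fV ν V G y M R r θ) S x =
      ((∏ p ∈ S, (((p : ℕ) : ℝ) * (ν p (x p : ℕ))⁻¹) : ℝ) : ℂ) *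
        ∑ n ∈ (Ioc y (y + M)).filter
        (fun n : ℤ => n ≡ r [ZMOD (R : ℕ)] ∧
          ∀ p ∈ S, n ≡ ((x p : ℕ) : ℤ) [ZMOD ((p : ℕ) : ℤ)]),
          (G n : ℂ) * e (-((n : ℝ) * θ))) ∧
    (∀ (S : Finset ↥V) (M2 : ℕ), Ev (piV ν V) (fun x => (rho (piV ν V)
      (gV ν V G y M R r) S x) ^ M2) =
        moT ν G y M R r (S.map (Function.Embedding.subtype _)) M2) ∧
    (∀ S : Finset ↥V, Ev (piV ν V) (fun x => ‖rho (piV ν V) (fV ν V G y M R r θ) S x‖ ^ 2) =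
        enT ν G y M R r θ (S.map (Function.Embedding.subtype _))) ∧
    Ev (piV ν V) (fV ν V G y M R r θ) = Fc G y M R r θ

/-- component energies -/
def EWStmt : Prop :=
  ∀ (V : Finset ℕ) (ν : ℕ → ℤ → ℝ) (G : ℤ → ℝ) (y : ℤ) (M R : ℕ) (r : ℤ) (θ : ℝ),
    (∀ p ∈ V, p.Prime) → Wts V ν → (∀ n, G n ≠ 0 → ∀ p ∈ V, ν p n ≠ 0) →
    (∀ W ⊆ V, 0 ≤ ew ν G y M R r θ W) ∧ ew ν G y M R r θ ∅ = ‖Fc G y M R r θ‖ ^ 2 ∧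
    (∀ V' ⊆ V, ∀ t : ℝ, tot t V' ν G y M R r θ =
      ∑ W ∈ V'.powerset, t ^ W.card * ew ν G y M R r θ W) ∧
    (∀ T ⊆ V, enT ν G y M R r θ T = ∑ W ∈ T.powerset, ew ν G y M R r θ W) ∧
    (∀ W : Finset ↥V, en (piV ν V) (fV ν V G y M R r θ) W =
      ew ν G y M R r θ (W.map (Function.Embedding.subtype _)))

/-- the hypotheses of PSI hold for the densities of a cell -/
def CELLStmt : Prop :=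
  ∀ k : ℕ, 1 ≤ k → ∃ P0 : ℝ, ∀ P : ℝ, P0 ≤ P →
  ∀ (N' Nmin : ℕ) (Φ : ℝ) (G : ℤ → ℝ) (ν : ℕ → ℤ → ℝ),
    St P k N' Nmin Φ G ν →
  ∀ (V : Finset ℕ) (R M : ℕ) (y r : ℤ) (S0 : Finset ↥V) (x0 : XS V) (a : ℝ),
    V ⊆ W2 P → ∑ p ∈ V, Real.log p ≤ P ^ (0.995 : ℝ) → 1 ≤ R → (∀ p ∈ V, Nat.Coprime p R) →
    Real.log R ≤ P ^ (0.63 : ℝ) → M ≤ N' → (N' : ℝ) ≤ P * M →
    a = (∏ p ∈ S0, ν p (x0 p : ℕ)) * R / (M * Φ) →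
    (∀ (S : Finset ↥V) (i : ↥V) (x : XS V), i ∉ S →
      rho (piV ν V) (gV ν V G y M R r) (insert i S) x ≤
        16 * P ^ (1.04 : ℝ) * rho (piV ν V) (gV ν V G y M R r) S x) ∧
    (∀ (S : Finset ↥V) (x : XS V), S0 ⊆ S → (∀ i ∈ S0, x i = x0 i) →
      ∑ i ∈ Sᶜ, klr (piV ν V) (fun z => a * gV ν V G y M R r z) S i x ≤
        1 / tau2 P * (rho (piV ν V) (fun z => a * gV ν V G y M R r z) S x *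
          (2 + 5 * b2 P * Real.log R + 2 * b2 P * (S.card : ℝ) +
            ∑ i ∈ S \ S0, max 0 (Real.log (1 / ν i (x i : ℕ))) -
            Real.log (rho (piV ν V) (fun z => a * gV ν V G y M R r z) S x)))) ∧
    rho (piV ν V) (fun z => a * gV ν V G y M R r z) S0 x0 ≤
      Real.exp (2 + 5 * b2 P * Real.log R + 2 * b2 P * (S0.card : ℝ))

/-- sharp upper bound for the mass of a cell -/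
def DENStmt : Prop :=
  ∀ k : ℕ, 1 ≤ k → ∃ P0 : ℝ, ∀ P : ℝ, P0 ≤ P →
  ∀ (N' Nmin : ℕ) (Φ : ℝ) (G : ℤ → ℝ) (ν : ℕ → ℤ → ℝ),
    St P k N' Nmin Φ G ν →
  ∀ (R M : ℕ) (y r : ℤ), 1 ≤ R → Real.log R ≤ P ^ (0.487 : ℝ) → M ≤ N' → (N' : ℝ) ≤ P * M →
    mass G y M R r ≤ (1 + P ^ (-0.0005 : ℝ)) * Φ * M / R

/-- block MOM: high moments of the random densities -/
def MOMStmt : Prop :=
  ∀ k m : ℕ, 1 ≤ k → 20 ≤ m → ∃ C P0 : ℝ, 0 < C ∧ ∀ P : ℝ, P0 ≤ P →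
  ∀ (N' Nmin : ℕ) (Φ : ℝ) (G : ℤ → ℝ) (ν : ℕ → ℤ → ℝ),
    St P k N' Nmin Φ G ν →
  ∀ (V : Finset ℕ) (R M : ℕ) (y r : ℤ),
    V ⊆ W2 P → ∑ p ∈ V, Real.log p ≤ P ^ (0.995 : ℝ) → 1 ≤ R → (∀ p ∈ V, Nat.Coprime p R) →
    Real.log R ≤ P ^ (0.63 : ℝ) → M ≤ N' → (N' : ℝ) ≤ P * M →
    ∑ T ∈ V.powerset, wtR (fun _ => t2 P) V T * moT ν G y M R r T (2 * m) ≤
      C * (R : ℝ) ^ (C * b2 P) * (M * Φ / R) ^ (2 * m)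

/-- block LIG: level inequality with rates `ρ p` and growth `b p` depending on the prime -/
def LIGStmt : Prop :=
  ∀ (Pr : Finset ℕ) (g : ℕ → ℕ) (W D m N1 : ℕ) (β : ℝ) (ρ b : ℕ → ℝ) (G : ℤ → ℝ) (y : ℤ)
    (Fm : Finset (Finset ℕ)) (Qs : Finset ℕ),
    (∀ p ∈ Pr, p.Prime) → (∀ p ∈ Pr, 1 ≤ g p) → 1 ≤ W → 2 ≤ m → 0 < β →
    (∀ p ∈ Pr, 0 ≤ ρ p) → (∀ p ∈ Pr, 1 ≤ b p) → (∀ p ∈ Pr, 12 * m * ρ p * (1 + b p) ≤ 1) →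
    (∀ n, 0 ≤ G n) → (∀ n, G n ≤ 1) →
    (∀ S ∈ Fm, S ⊆ Pr) → (∀ S ∈ Fm, ∀ T, T ⊆ S → T ∈ Fm) →
    (∀ S ∈ Fm, ∏ p ∈ S, p ^ g p ≤ D) →
    W * D ^ (2 * m + 1) * Fm.card ^ (2 * m) ≤ N1 →
    (∀ S ∈ Fm, ∀ x : ℤ, mass G y N1 (W * ∏ p ∈ S, p ^ g p) x ≤
      β * (∏ p ∈ S, b p) * (N1 / ((W * ∏ p ∈ S, p ^ g p : ℕ) : ℝ))) →
    (∀ q ∈ Qs, 1 ≤ q ∧ goodg Pr g W q ∧ Ug W q ∈ Fm) →
    ∑ q ∈ Qs, (∏ p ∈ Ug W q, ρ p) * enG G y N1 q ≤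
      (N1 : ℝ) ^ 2 * (2 * β ^ 2 * (1 + β ^ (-(1 / (m : ℝ)))))

/-- block NV: moments of the random normalisation -/
def NVStmt : Prop :=
  ∀ k J' : ℕ, 1 ≤ k → 1 ≤ J' → ∃ C P0 : ℝ, 0 < C ∧ ∀ P : ℝ, P0 ≤ P →
  ∀ (N' Nmin : ℕ) (Φ : ℝ) (G : ℤ → ℝ) (ν : ℕ → ℤ → ℝ),
    St P k N' Nmin Φ G ν →
  ∀ (V : Finset ℕ) (R M : ℕ) (y r : ℤ) (Pr : Finset ℕ),
    V ⊆ W2 P → ∑ p ∈ V, Real.log p ≤ P ^ (0.995 : ℝ) → 1 ≤ R → (∀ p ∈ V, Nat.Coprime p R) →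
    Real.log R ≤ P ^ (0.625 : ℝ) → M ≤ N' → (N' : ℝ) ≤ P * M →
    (∀ p ∈ Pr, p.Prime ∧ p ∉ V ∧ P ^ (0.97 : ℝ) < p ∧ Nat.Coprime p R) →
    ∃ Nv : Finset ℕ → ℕ → ℝ, (∀ T x, 1 ≤ Nv T x) ∧
      (∀ T ⊆ V, ∀ x : ℕ, ∀ S ⊆ Pr, ∏ p ∈ S, p ≤ Q2 P → ∀ z : ℤ,
        z ≡ (x : ℤ) [ZMOD ((∏ p ∈ T, p : ℕ) : ℤ)] → z ≡ r [ZMOD (R : ℕ)] →
        mass G y M (R * ((∏ p ∈ T, p) * ∏ p ∈ S, p ^ J')) z ≤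
          Nv T x * (∏ p ∈ S, (p : ℝ) ^ (0.001 : ℝ)) * (∏ p ∈ T, (ν p x / p)) *
            (Φ * M / (R * ∏ p ∈ S, (p : ℝ) ^ J'))) ∧
      ∑ T ∈ V.powerset, wtR (fun _ => t2 P) V T *
        ∑ x ∈ range (∏ p ∈ T, p), (∏ p ∈ T, (ν p x / p)) * (Nv T x) ^ 4 ≤
          C * (R : ℝ) ^ (C * b2 P)

/-- block CORE: boundedness of all energies of a cell at the boosted rates -/
def COREStmt : Prop :=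
  ∀ k J' : ℕ, 1 ≤ k → 1 ≤ J' → ∃ C P0 : ℝ, 0 < C ∧ ∀ P : ℝ, P0 ≤ P →
  ∀ (N' Nmin : ℕ) (Φ : ℝ) (G : ℤ → ℝ) (ν : ℕ → ℤ → ℝ),
    St P k N' Nmin Φ G ν →
  ∀ (V : Finset ℕ) (R M : ℕ) (y r : ℤ),
    V ⊆ W2 P → ∑ p ∈ V, Real.log p ≤ P ^ (0.995 : ℝ) → 1 ≤ R → (∀ p ∈ V, Nat.Coprime p R) →
    Real.log R ≤ P ^ (0.625 : ℝ) → M ≤ N' → (N' : ℝ) ≤ P * M →
    ∑ T ∈ V.powerset, wtR (fun _ => t2 P) V T *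
      ∑ q ∈ (QZ P J' V (Q2 P)).filter (fun q => Nat.Coprime q R),
        zR P q * ∑ a ∈ (range q).filter (Nat.Coprime q),
          enT ν G y M R r ((a : ℝ) / q) T ≤
      C * (R : ℝ) ^ (C * b2 P) * (M * Φ / R) ^ 2

/-! ### D. all exceptional moduli -/

/-- Parseval over the classes mod `D` and CORE for each class -/
def SUMStmt : Prop :=
  ∀ k J' : ℕ, 1 ≤ k → 1 ≤ J' → ∃ C P0 : ℝ, 0 < C ∧ ∀ P : ℝ, P0 ≤ P →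
  ∀ (N' Nmin : ℕ) (Φ : ℝ) (G : ℤ → ℝ) (ν : ℕ → ℤ → ℝ),
    St P k N' Nmin Φ G ν →
  ∀ (V : Finset ℕ) (D M : ℕ) (y : ℤ), V ⊆ W2 P → ∑ p ∈ V, Real.log p ≤ P ^ (0.995 : ℝ) →
    M ≤ N' → N' ≤ 32 * M → 1 ≤ D → Real.log D ≤ P ^ (0.625 : ℝ) →
    (∀ p ∈ V, Nat.Coprime p D) →
    ∑ d ∈ D.divisors, ∑ q ∈ (QZ P J' V (Q2 P)).filter (fun q => Nat.Coprime q D),
      zR P q * ∑ a ∈ (range (d * q)).filter (Nat.Coprime (d * q)),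
        tot (t2 P) V ν G y M 1 0 ((a : ℝ) / ((d * q : ℕ) : ℝ)) ≤
      C * (D : ℝ) ^ (C * b2 P) * (M * Φ) ^ 2

/-- total bound with a Rankin factor -/
def TOTStmt : Prop :=
  ∀ (k E K p0 : ℕ) (kap : ℕ → ℕ → ℝ), 1 ≤ k → 1 ≤ E → KapOK k E K p0 kap →
  ∃ t' P0 : ℝ, 0 < t' ∧ t' ≤ 1 / 2000 ∧ ∀ P : ℝ, P0 ≤ P →
  ∀ (N' Nmin : ℕ) (Φ : ℝ) (G : ℤ → ℝ) (ν : ℕ → ℤ → ℝ),
    St P k N' Nmin Φ G ν →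
  ∀ (V : Finset ℕ) (M : ℕ) (y : ℤ), V ⊆ W2 P → ∑ p ∈ V, Real.log p ≤ P ^ (0.995 : ℝ) →
    M ≤ N' → N' ≤ 32 * M →
    ∑ q ∈ EV P V (Q2 P), (q : ℝ) ^ t' * (2 ^ yc P q * kapProd kap q) *
      ∑ a ∈ (range q).filter (Nat.Coprime q),
        tot (t2 P) V ν G y M 1 0 ((a : ℝ) / q) ≤
      Real.exp (P ^ (0.2 : ℝ)) * (M * Φ) ^ 2

/-- the modulus `q = 1` -/
def ONEStmt : Prop :=
  ∀ k : ℕ, 1 ≤ k → ∃ P0 : ℝ, ∀ P : ℝ, P0 ≤ P →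
  ∀ (N' Nmin : ℕ) (Φ : ℝ) (G : ℤ → ℝ) (ν : ℕ → ℤ → ℝ),
    St P k N' Nmin Φ G ν →
  ∀ (V : Finset ℕ) (M : ℕ) (y : ℤ), V ⊆ W2 P → ∑ p ∈ V, Real.log p ≤ P ^ (0.995 : ℝ) →
    M ≤ N' → N' ≤ 32 * M →
    tot (t1 P) V ν G y M 1 0 0 - (mass G y M 1 0) ^ 2 ≤ P ^ (-0.002 : ℝ) * (M * Φ) ^ 2

/-- the moduli `q ≠ 1` -/
def RESTStmt : Prop :=
  ∀ (k E K p0 : ℕ) (kap : ℕ → ℕ → ℝ), 1 ≤ k → 1 ≤ E → KapOK k E K p0 kap →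
  ∃ P0 : ℝ, ∀ P : ℝ, P0 ≤ P →
  ∀ (N' Nmin : ℕ) (Φ : ℝ) (G : ℤ → ℝ) (ν : ℕ → ℤ → ℝ),
    St P k N' Nmin Φ G ν →
  ∀ (V : Finset ℕ) (M : ℕ) (y : ℤ), V ⊆ W2 P → ∑ p ∈ V, Real.log p ≤ P ^ (0.995 : ℝ) →
    M ≤ N' → N' ≤ 32 * M →
    ∑ q ∈ (EV P V (Q2 P)).erase 1, 2 ^ yc P q * kapProd kap q *
      ∑ a ∈ (range q).filter (Nat.Coprime q),
        tot (t1 P) V ν G y M 1 0 ((a : ℝ) / q) ≤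
      P ^ (-0.0002 : ℝ) * (M * Φ) ^ 2 +
        4 * mass G y M 1 0 * |Φ * cnt N' y M - mass G y M 1 0|

/-- moduli beyond `Q` -/
def TAILStmt : Prop :=
  ∀ (k E K p0 : ℕ) (kap : ℕ → ℕ → ℝ), 1 ≤ k → 1 ≤ E → KapOK k E K p0 kap →
  ∃ P0 : ℝ, ∀ P : ℝ, P0 ≤ P →
  ∀ (N' Nmin : ℕ) (Φ : ℝ) (G : ℤ → ℝ) (ν : ℕ → ℤ → ℝ),
    St P k N' Nmin Φ G ν →
  ∀ (V : Finset ℕ) (M : ℕ) (y : ℤ), V ⊆ W2 P → ∑ p ∈ V, Real.log p ≤ P ^ (0.995 : ℝ) →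
    M ≤ N' → N' ≤ 32 * M →
    ∑ q ∈ EV P V (Q2 P), 2 ^ yc P q * ∑ U ∈ (V.powerset).filter
        (fun U => Q2 P < q * ∏ p ∈ U, p),
      (mu2 P)⁻¹ ^ U.card * kapProd kap (q * ∏ p ∈ U, p) * enG G y M (q * ∏ p ∈ U, p) ≤
      Real.exp (-(P ^ (0.61 : ℝ))) * (M * Φ) ^ 2

/-! ### E. the kernel -/

/-- the sum over the moduli `q ∏ U`, `U ⊆ V`, is a bilinear form on the product space -/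
def KERStmt : Prop :=
  ∀ (f : ℤ[X]) (V : Finset ℕ) (q : ℕ) (μ : ℝ) (ν : ℕ → ℤ → ℝ) (G : ℤ → ℝ) (y y' : ℤ)
    (M M' : ℕ), (∀ p ∈ V, p.Prime) → 1 ≤ q → (∀ p ∈ V, Nat.Coprime p q) → 0 < μ →
    Wts V ν → (∀ n, G n ≠ 0 → ∀ p ∈ V, ν p n ≠ 0) →
    ∑ U ∈ V.powerset, ((μ⁻¹ ^ U.card : ℝ) : ℂ) *
      ∑ a ∈ (range (q * ∏ p ∈ U, p)).filter (Nat.Coprime (q * ∏ p ∈ U, p)),
        Gam f a (q * ∏ p ∈ U, p) *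
          (Fw G y M ((a : ℝ) / ((q * ∏ p ∈ U, p : ℕ) : ℝ)) *
            (starRingEnd ℂ) (Fw G y' M' ((a : ℝ) / ((q * ∏ p ∈ U, p : ℕ) : ℝ)))) =
    ∑ a ∈ (range q).filter (Nat.Coprime q), Gam f a q *
      Bform (piV ν V) (kern f μ V) (fV ν V G y M 1 0 ((a : ℝ) / q))
        (fV ν V G y' M' 1 0 ((a : ℝ) / q))

/-- norms of the kernel -/
def KBStmt : Prop :=
  ∀ (k E K p0 : ℕ) (kap : ℕ → ℕ → ℝ), 1 ≤ k → 1 ≤ E → KapOK k E K p0 kap →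
  ∃ P0 : ℝ, ∀ P : ℝ, P0 ≤ P →
  ∀ (N' Nmin : ℕ) (Φ : ℝ) (G : ℤ → ℝ) (ν : ℕ → ℤ → ℝ),
    St P k N' Nmin Φ G ν →
  ∀ (f : ℤ[X]) (V : Finset ℕ), V ⊆ W2 P →
    (∀ (q : ℕ) (a : ℤ), 1 ≤ q → IsCoprime a (q : ℤ) → ‖Gam f a q‖ ≤ kapProd kap q) →
    ∀ p : ↥V,
      |∑ x, ∑ y, piV ν V p x * piV ν V p y * kern f (mu2 P) V p x y| ≤ P ^ (-0.91 : ℝ) ∧
      (∀ φ ψ : Fin (p : ℕ) → ℝ,
        |∑ x, ∑ y, piV ν V p x * piV ν V p y * (φ x * kern f (mu2 P) V p x y * ψ y)| ≤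
          P ^ (-0.43 : ℝ) * (Real.sqrt (∑ x, piV ν V p x * φ x ^ 2) *
            Real.sqrt (∑ y, piV ν V p y * ψ y ^ 2))) ∧
      ∑ x, piV ν V p x * ((∑ y, piV ν V p y * kern f (mu2 P) V p x y) -
        ∑ x, ∑ y, piV ν V p x * piV ν V p y * kern f (mu2 P) V p x y) ^ 2 ≤
        (P ^ (-0.6785 : ℝ)) ^ 2 ∧
      ∑ y, piV ν V p y * ((∑ x, piV ν V p x * kern f (mu2 P) V p x y) -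
        ∑ x, ∑ y, piV ν V p x * piV ν V p y * kern f (mu2 P) V p x y) ^ 2 ≤
        (P ^ (-0.6785 : ℝ)) ^ 2

/-- thinning identity -/
def VAVGStmt : Prop :=
  ∀ (P μ : ℝ) (Q : ℕ) (X : ℕ → ℂ), 0 < μ → μ < 1 →
    ∑ V ∈ (W2 P).powerset, ((wtR (fun _ : ℕ => μ) (W2 P) V : ℝ) : ℂ) *
      ∑ q ∈ EV P V Q, (((1 - μ)⁻¹ ^ yc P q : ℝ) : ℂ) * ∑ U ∈ (V.powerset).filter
        (fun U => q * ∏ p ∈ U, p ≤ Q), ((μ⁻¹ ^ U.card : ℝ) : ℂ) * X (q * ∏ p ∈ U, p) =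
      ∑ q ∈ Icc 1 Q, X q

/-- atypical thinnings -/
def BADStmt : Prop :=
  ∃ P0 : ℝ, ∀ P : ℝ, P0 ≤ P →
    ∑ V ∈ ((W2 P).powerset).filter
        (fun V : Finset ℕ => P ^ (0.995 : ℝ) < ∑ p ∈ V, Real.log p),
      wtR (fun _ : ℕ => mu2 P) (W2 P) V ≤ Real.exp (-(P ^ (0.99 : ℝ)))

/-! ### F. assembly -/

/-- the full bilinear form of a typical thinning is large -/
def GOODStmt : Prop :=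
  ∀ (k E K p0 : ℕ) (kap : ℕ → ℕ → ℝ), 1 ≤ k → 1 ≤ E → KapOK k E K p0 kap →
  ∃ P0 : ℝ, ∀ P : ℝ, P0 ≤ P →
  ∀ (N' Nmin H : ℕ) (Φ : ℝ) (G : ℤ → ℝ) (ν : ℕ → ℤ → ℝ),
    St P k N' Nmin Φ G ν → 8 * H ≤ N' → N' ≤ 16 * H →
  ∀ (f : ℤ[X]) (V : Finset ℕ), V ⊆ W2 P → ∑ p ∈ V, Real.log p ≤ P ^ (0.995 : ℝ) →
    (∀ (q : ℕ) (a : ℤ), 1 ≤ q → IsCoprime a (q : ℤ) → ‖Gam f a q‖ ≤ kapProd kap q) →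
    Gam f 0 1 = 1 →
    1 / 8 * Real.exp (-(P ^ (0.1 : ℝ))) * N' * (H * Φ) ^ 2 ≤
    (∑ q ∈ EV P V (Q2 P), (((1 - mu2 P)⁻¹ ^ yc P q : ℝ) : ℂ) *
      ∑ a ∈ (range q).filter (Nat.Coprime q), Gam f a q *
      ∑ y ∈ Icc (-(N' : ℤ)) (2 * N'),
        Bform (piV ν V) (kern f (mu2 P) V)
          (fV ν V G (y + H) H 1 0 ((a : ℝ) / q))
          (fV ν V G (y - 2 * H - 1) H 1 0 ((a : ℝ) / q))).re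

/-- the final theorem -/
def Final2Stmt : Prop :=
  ∀ h : ℤ[X], 2 ≤ h.natDegree → 0 < h.leadingCoeff → Intersective h →
    ∃ C : ℝ, 0 < C ∧ ∀ N : ℕ, 1 ≤ N →
      (rMax h N : ℝ) ≤ C * N * Real.exp (-(Real.log N) ^ (0.51 : ℝ))

end Vale.Agent.P042.TT
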