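import Vale.Agent.P042.TT.LocB
import Vale.Agent.P042.TT.Spec

set_option autoImplicit false
set_option linter.unusedSectionVars false

/-!
Block LOC of Theorem S2, part 7: bridge to the definitions of the Spec.
-/

namespace Vale.Agent.P042.TT

open Finset

namespace Loc

variable {ι : Type} [Fintype ι] [DecidableEq ι]
variable {X : ι → Type} [∀ i, Fintype (X i)] [∀ i, DecidableEq (X i)]

theorem Ev_eq_ex {Ω : ι → Type} [∀ i, Fintype (Ω i)] (π : ∀ i, Ω i → ℝ)
    (f : (∀ i, Ω i) → ℝ) : Ev π f = ex π f := by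
  unfold Ev ex wt
  simp only [smul_eq_mul]

theorem rho_eq_cexp {Ω : ι → Type} [∀ i, Fintype (Ω i)] (π : ∀ i, Ω i → ℝ)
    (f : (∀ i, Ω i) → ℝ) (S : Finset ι) (x : ∀ i, Ω i) : rho π f S x = cexp π S f x := by
  unfold rho Ex Ev cexp wt
  simp only [smul_eq_mul]
  refine sum_congr rfl fun y _ => ?_
  congr 2
  funext i
  by_cases hi : i ∈ S <;> simp [Finset.piecewise, hi]

theorem wtR_union (s : ι → ℝ) (A U : Finset ι) (hd : Disjoint A U) (h : Finset ι → ℝ)
    (hh : ∀ T, ∀ n ∈ U, h (insert n T) = h T) :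
    ∑ T ∈ (A ∪ U).powerset, wtR s (A ∪ U) T * h T = ∑ T ∈ A.powerset, wtR s A T * h T := by
  induction U using Finset.induction_on with
  | empty => simp
  | insert n U hn ih =>
    have hnA : n ∉ A := fun h' => (disjoint_left.1 hd) h' (mem_insert_self n U)
    have hd' : Disjoint A U := disjoint_of_subset_right (subset_insert n U) hd
    have hnAU : n ∉ A ∪ U := by
      simp only [mem_union, not_or]
      exact ⟨hnA, hn⟩
    rw [← ih hd' (fun T k hk => hh T k (mem_insert_of_mem hk)), union_insert,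
      Finset.sum_powerset_insert hnAU, ← sum_add_distrib]
    refine sum_congr rfl fun T hT => ?_
    have hnT : n ∉ T := fun h' => hnAU (mem_powerset.1 hT h')
    rw [hh T n (mem_insert_self n U)]
    have h1 : wtR s (insert n (A ∪ U)) T = (1 - s n) * wtR s (A ∪ U) T := by
      unfold wtR
      rw [Finset.insert_sdiff_of_notMem _ hnT, Finset.prod_insert (by simp [hnAU])]
      ring
    have h2 : wtR s (insert n (A ∪ U)) (insert n T) = s n * wtR s (A ∪ U) T := by
      unfold wtR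
      rw [Finset.prod_insert hnT]
      have : insert n (A ∪ U) \ insert n T = (A ∪ U) \ T := by
        ext x
        simp only [mem_sdiff, mem_insert, mem_union, not_or]
        constructor
        · rintro ⟨h1 | h1, h2, h3⟩
          · exact absurd h1 h2
          · exact ⟨h1, h3⟩
        · rintro ⟨h3, h4⟩
          refine ⟨Or.inr h3, ?_, h4⟩
          rintro rfl
          exact hnAU (mem_union.2 h3)
      rw [this]
      ring
    rw [h1, h2]
    ring

/-- the local norms of the Spec in terms of the erasure space -/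
theorem local_eq (s : ι → ℝ) (π : ∀ i, X i → ℝ) (hπ1 : ∀ i, ∑ x, π i x = 1)
    (φ : ℝ → ℝ) (f : (∀ i, X i) → ℝ) (S : Finset ι) (a : ∀ i, X i) :
    (ex (ew s π) fun y => φ (uo (fun _ => 1) π (restr S a f) y)) =
      ∑ T ∈ Sᶜ.powerset, wtR s Sᶜ T * Ex π T (fun z => φ (rho π f (S ∪ T) z)) a := by
  rw [← Esm_eq s π hπ1]
  unfold Esm
  have hcexp : ∀ T x, cexp π T (restr S a f) x = cexp π (S ∪ T) f (S.piecewise a x) := by
    intro T x
    unfold cexp restr
    refine sum_congr rfl fun y _ => ?_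
    congr 2
    funext i
    by_cases hS : i ∈ S <;> by_cases hT : i ∈ T <;> simp [Finset.piecewise, hS, hT]
  set h : Finset ι → ℝ := fun T => ex π (fun x => φ (cexp π T (restr S a f) x)) with hh
  have hins : ∀ T, ∀ n ∈ S, h (insert n T) = h T := by
    intro T n hn
    simp only [hh, hcexp]
    have : S ∪ insert n T = S ∪ T := by
      rw [union_insert, insert_eq_of_mem]
      exact mem_union_left _ hn
    rw [this]
  have huniv : Sᶜ ∪ S = univ := by
    rw [union_comm]
    exact union_compl S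
  have h1 := wtR_union s Sᶜ S (disjoint_compl_left) h hins
  rw [huniv, powerset_univ] at h1
  refine Eq.trans ?_ (h1.trans ?_)
  · rfl
  · refine sum_congr rfl fun T hT => ?_
    congr 1
    have hTS := mem_powerset.1 hT
    simp only [hh, hcexp]
    unfold Ex
    rw [Ev_eq_ex]
    congr 1
    funext x
    beta_reduce
    rw [rho_eq_cexp]
    unfold cexp
    congr 1
    refine sum_congr rfl fun y _ => ?_
    congr 2
    funext i
    by_cases hS : i ∈ S
    · have hT' : i ∉ T := fun h' => (mem_compl.1 (hTS h')) hS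
      simp [Finset.piecewise, hS, hT']
    · by_cases hT' : i ∈ T <;> simp [Finset.piecewise, hS, hT']

theorem rho_nonneg {Ω : ι → Type} [∀ i, Fintype (Ω i)] (π : ∀ i, Ω i → ℝ)
    (hπ : ∀ i x, 0 ≤ π i x) (f : (∀ i, Ω i) → ℝ) (hf : ∀ x, 0 ≤ f x) (S : Finset ι)
    (x : ∀ i, Ω i) : 0 ≤ rho π f S x := by
  rw [rho_eq_cexp]
  exact sum_nonneg fun y _ => mul_nonneg (wt_nonneg π hπ y) (hf _)

/-- the general form: for every sub-cell either the local norm or the local energy is bounded -/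
theorem loc_general (m : ℕ) (c : ℝ) (hm : 2 ≤ m) (hc : 1 ≤ c) : ∃ q0 C : ℝ, 0 < q0 ∧ q0 ≤ 1 ∧
    1 ≤ C ∧
    ∀ (ι : Type) [Fintype ι] [DecidableEq ι] (Ω : ι → Type) [∀ i, Fintype (Ω i)]
    (π : ∀ i, Ω i → ℝ) (f : (∀ i, Ω i) → ℝ) (s t B : ℝ),
    IsPr π → (∀ x, 0 ≤ f x) → 0 < B → 0 ≤ t → C * t ≤ s → s ≤ 1 →
    (∀ (S : Finset ι) (x : ∀ i, Ω i), (∀ i ∈ S, π i (x i) ≠ 0) →
      (∑ T ∈ Sᶜ.powerset, wtR (fun _ => s) Sᶜ T *
        Ex π T (fun z => (rho π f (S ∪ T) z) ^ ((2 * m : ℝ) / (2 * m - 1))) x ≤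
          (c ^ S.card * B) ^ ((2 * m : ℝ) / (2 * m - 1))) ∨
      (∑ T ∈ Sᶜ.powerset, wtR (fun _ => s * q0) Sᶜ T *
        Ex π T (fun z => (rho π f (S ∪ T) z) ^ 2) x ≤ (c ^ S.card * B) ^ 2)) →
    ∑ T : Finset ι, wtR (fun _ => t) univ T * Ev π (fun x => (rho π f T x) ^ (2 * m)) ≤
      B ^ (2 * m) := by
  set K1 : ℝ := 8 ^ m with hK1
  have hK1p : 1 ≤ K1 := one_le_pow₀ (by norm_num)
  set q0 : ℝ := 1 / (2 * K1 * (1 + c)) with hq0
  have hq0p : 0 < q0 := by positivity
  have hq01 : q0 ≤ 1 := by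
    rw [hq0, div_le_one (by positivity)]
    nlinarith
  have hqc : q0 * (1 + c) ≤ 1 := by
    rw [hq0]
    have : 1 / (2 * K1 * (1 + c)) * (1 + c) = 1 / (2 * K1) := by
      field_simp
    rw [this, div_le_one (by positivity)]
    linarith
  have hqc0 : 0 ≤ q0 * (1 + c) := by positivity
  have hcond : q0 * (K1 + K1 * ((q0 * (1 + c)) ^ 2) ^ (m - 1)) ≤ 1 := by
    have h1 : ((q0 * (1 + c)) ^ 2) ^ (m - 1) ≤ 1 := by
      apply pow_le_one₀ (sq_nonneg _)
      exact pow_le_one₀ hqc0 hqc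
    have h2 : K1 + K1 * ((q0 * (1 + c)) ^ 2) ^ (m - 1) ≤ 2 * K1 := by nlinarith
    have h3 := mul_le_mul_of_nonneg_left h2 hq0p.le
    refine h3.trans ?_
    rw [hq0]
    have : 1 / (2 * K1 * (1 + c)) * (2 * K1) = 1 / (1 + c) := by
      field_simp
    rw [this, div_le_one (by positivity)]
    linarith
  set K2 : ℝ := K1 + K1 * ((1 + c) ^ 2) ^ (m - 1) with hK2
  have hK2p : 1 ≤ K2 := by
    have : 0 ≤ K1 * ((1 + c) ^ 2) ^ (m - 1) := by positivity
    linarith
  refine ⟨q0, K2 / q0, hq0p, hq01, ?_, ?_⟩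
  · rw [le_div_iff₀ hq0p]
    linarith
  intro ι _ _ Ω _ π f s t B hπ hf hB ht hCt hs1 hF
  classical
  have hs0 : 0 ≤ s := le_trans (mul_nonneg (by positivity) ht) hCt
  have ht1 : t ≤ 1 := by
    have h1 : 1 ≤ K2 / q0 := by
      rw [le_div_iff₀ hq0p]
      linarith
    nlinarith
  have hone := oneC_crude m (by omega)
  have hloc : ∀ (S : Finset ι) (a : ∀ i, Ω i), (∀ i ∈ S, π i (a i) ≠ 0) →
      en π (fun _ => s * q0) (restr S a f) ≤ (B * ∏ i ∈ S, c) ^ 2 := by
    apply locA m K1 K1 (by omega) (by positivity) (by positivity) hone (fun _ => s)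
      (fun _ => q0) (fun _ => c) (fun _ => hs0) (fun _ => hs1) (fun _ => hq0p.le)
      (fun _ => hq01) (fun _ => hc) (fun _ => hcond) π hπ.nn hπ.one f B hB.le
    intro S a hSa
    rw [prod_const]
    rcases hF S a hSa with h | h
    · left
      have := local_eq (fun _ => s) π hπ.one (fun y => |y| ^ ((2 * m : ℝ) / (2 * m - 1))) f S a
      rw [this, mul_comm B]
      refine le_trans (le_of_eq ?_) h
      refine sum_congr rfl fun T _ => ?_
      congr 2
      funext z
      rw [abs_of_nonneg (rho_nonneg π hπ.nn f hf _ z)]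
    · right
      rw [mul_comm B]
      have h1 := ex_uo_mul (fun _ => s * q0) (fun _ => 1) (fun _ => 1) π hπ.one (restr S a f)
      simp only [mul_one] at h1
      rw [← h1]
      have h2 := local_eq (fun _ => s * q0) π hπ.one (fun y => y * y) f S a
      rw [h2]
      refine le_trans (le_of_eq ?_) h
      refine sum_congr rfl fun T _ => ?_
      congr 2
      funext z
      ring
  have hlocB := locB m K1 K1 (by omega) (by positivity) (by positivity) hone (fun _ => t)
    (fun _ => s * q0) (fun _ => c) (fun _ => ht) (fun _ => ht1)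
    (fun _ => mul_le_one₀ hs1 hq0p.le hq01) (fun _ => by linarith) (fun _ => by
      have h1 : t * (K2 / q0) ≤ s := by linarith
      have h2 := mul_le_mul_of_nonneg_right h1 hq0p.le
      have h3 : t * (K2 / q0) * q0 = t * K2 := by field_simp
      linarith) π hπ.nn hπ.one f B hloc
  rw [← Esm_eq (fun _ => t) π hπ.one (fun y => y ^ (2 * m))] at hlocB
  refine le_trans (le_of_eq ?_) hlocB
  unfold Esm
  refine sum_congr rfl fun T _ => ?_
  rw [Ev_eq_ex]
  unfold wtR
  congr 2
  funext x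
  rw [rho_eq_cexp]

end Loc

theorem loc_holds : LOCStmt := by
  intro m c hm hc
  obtain ⟨q0, C, _, _, hC, h⟩ := Loc.loc_general m c hm hc
  refine ⟨C, hC, ?_⟩
  intro ι _ _ Ω _ π f s t B hπ hf hB ht hCt hs hF
  exact h ι Ω π f s t B hπ hf hB ht hCt hs fun S x hx => Or.inl (hF S x hx)

end Vale.Agent.P042.TT
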