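import Vale.Agent.P042.TT.PsiD

set_option autoImplicit false

namespace Vale.Agent.P042.TT

theorem psi_holds : PSIStmt := Psi.psi_holds

end Vale.Agent.P042.TT
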