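import Vale.Agent.P042.TT.AnovaA
import Vale.Agent.P042.TT.Spec

set_option autoImplicit false

/-!
Alternating sums over subsets, energies of the components, block ANOVA.
-/

namespace Vale.Agent.P042.TT

open Finset

section mob

variable {κ : Type*} [DecidableEq κ] {R : Type*} [CommRing R]

/-- alternating sum -/
def mob (N : Finset κ → R) (W : Finset κ) : R := ∑ T ∈ W.powerset, (-1 : R) ^ (W \ T).card * N T

lemma mob_empty (N : Finset κ → R) : mob N ∅ = N ∅ := by
  simp [mob]

lemma card_aux1 {i : κ} {W T : Finset κ} (hi : i ∉ W) (hT : T ⊆ W) :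
    (insert i W \ T).card = (W \ T).card + 1 := by
  have : insert i W \ T = insert i (W \ T) := by
    ext j
    by_cases hj : j = i
    · subst hj
      have : j ∉ T := fun h => hi (hT h)
      simp [this]
    · simp [hj]
  rw [this, card_insert_of_notMem]
  simp [hi]

lemma card_aux2 {i : κ} {W T : Finset κ} (hi : i ∉ W) :
    (insert i W \ insert i T).card = (W \ T).card := by
  congr 1
  ext j
  by_cases hj : j = i
  · subst hj
    simp [hi]
  · simp [hj]

lemma mob_insert (N : Finset κ → R) {i : κ} {W : Finset κ} (hi : i ∉ W) :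
    mob N (insert i W) = mob (fun T => N (insert i T) - N T) W := by
  unfold mob
  rw [sum_powerset_insert hi, ← sum_add_distrib]
  refine sum_congr rfl fun T hT => ?_
  rw [mem_powerset] at hT
  rw [card_aux1 hi hT, card_aux2 hi]
  ring

lemma mob_sub (N N' : Finset κ → R) (W : Finset κ) :
    mob (fun T => N T - N' T) W = mob N W - mob N' W := by
  unfold mob
  rw [← sum_sub_distrib]
  exact sum_congr rfl fun T _ => by ring

/-- Moebius inversion -/
lemma sum_mob (N : Finset κ → R) (T : Finset κ) : ∑ W ∈ T.powerset, mob N W = N T := by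
  induction T using Finset.induction_on generalizing N with
  | empty => simp [mob]
  | insert i T hi ih =>
    rw [sum_powerset_insert hi, ih]
    have : ∑ W ∈ T.powerset, mob N (insert i W) =
        ∑ W ∈ T.powerset, mob (fun T => N (insert i T) - N T) W := by
      refine sum_congr rfl fun W hW => ?_
      rw [mem_powerset] at hW
      exact mob_insert N (fun h => hi (hW h))
    rw [this, ih]
    ring

lemma mob_congr {N N' : Finset κ → R} {W : Finset κ} (h : ∀ T ⊆ W, N T = N' T) :
    mob N W = mob N' W := by
  unfold mob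
  exact sum_congr rfl fun T hT => by rw [h T (mem_powerset.1 hT)]

/-- double alternating sum over intersections -/
lemma mob_double (n : Finset κ → R) (W : Finset κ) :
    ∑ T ∈ W.powerset, ∑ T' ∈ W.powerset, (-1 : R) ^ (W \ T).card * (-1 : R) ^ (W \ T').card *
      n (T ∩ T') = mob n W := by
  induction W using Finset.induction_on generalizing n with
  | empty => simp [mob]
  | insert i W hi ih =>
    rw [mob_insert n hi, ← ih, sum_powerset_insert hi, ← sum_add_distrib]
    refine sum_congr rfl fun T hT => ?_
    rw [sum_powerset_insert hi, sum_powerset_insert hi, ← sum_add_distrib, ← sum_add_distrib,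
      ← sum_add_distrib]
    refine sum_congr rfl fun T' hT' => ?_
    rw [mem_powerset] at hT hT'
    have e1 : T ∩ insert i T' = T ∩ T' := by
      rw [inter_insert_of_notMem (fun h => hi (hT h))]
    have e2 : insert i T ∩ T' = T ∩ T' := by
      rw [insert_inter_of_notMem (fun h => hi (hT' h))]
    have e3 : insert i T ∩ insert i T' = insert i (T ∩ T') := by
      rw [← insert_inter_distrib]
    rw [e1, e2, e3, card_aux1 hi hT, card_aux1 hi hT', card_aux2 hi, card_aux2 hi]
    ring

end mob

section wt

variable {κ : Type*} [DecidableEq κ]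

lemma wtR_ins_not (t : κ → ℝ) {i : κ} {S T : Finset κ} (hi : i ∉ S) (hT : T ⊆ S) :
    wtR t (insert i S) T = (1 - t i) * wtR t S T := by
  unfold wtR
  have : insert i S \ T = insert i (S \ T) := by
    ext j
    by_cases hj : j = i
    · subst hj
      have : j ∉ T := fun h => hi (hT h)
      simp [this]
    · simp [hj]
  rw [this, prod_insert (by simp [hi])]
  ring

lemma wtR_ins_ins (t : κ → ℝ) {i : κ} {S T : Finset κ} (hi : i ∉ S) (hT : T ⊆ S) :
    wtR t (insert i S) (insert i T) = t i * wtR t S T := by
  unfold wtR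
  have : insert i S \ insert i T = S \ T := by
    ext j
    by_cases hj : j = i
    · subst hj; simp [hi]
    · simp [hj]
  rw [this, prod_insert (fun h => hi (hT h))]
  ring

/-- average over a random subset through the alternating sums -/
lemma sum_wtR_mob (t : κ → ℝ) (N : Finset κ → ℝ) (S : Finset κ) :
    ∑ T ∈ S.powerset, wtR t S T * N T = ∑ W ∈ S.powerset, (∏ i ∈ W, t i) * mob N W := by
  induction S using Finset.induction_on generalizing N with
  | empty => simp [mob, wtR]
  | insert i S hi ih =>
    rw [sum_powerset_insert hi, sum_powerset_insert hi]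
    have h1 : ∑ T ∈ S.powerset, wtR t (insert i S) T * N T =
        (1 - t i) * ∑ T ∈ S.powerset, wtR t S T * N T := by
      rw [mul_sum]
      refine sum_congr rfl fun T hT => ?_
      rw [wtR_ins_not t hi (mem_powerset.1 hT)]
      ring
    have h2 : ∑ T ∈ S.powerset, wtR t (insert i S) (insert i T) * N (insert i T) =
        t i * ∑ T ∈ S.powerset, wtR t S T * N (insert i T) := by
      rw [mul_sum]
      refine sum_congr rfl fun T hT => ?_
      rw [wtR_ins_ins t hi (mem_powerset.1 hT)]
      ring
    have h3 : ∑ W ∈ S.powerset, (∏ j ∈ insert i W, t j) * mob N (insert i W) =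
        t i * (∑ W ∈ S.powerset, (∏ j ∈ W, t j) * mob (fun T => N (insert i T)) W -
          ∑ W ∈ S.powerset, (∏ j ∈ W, t j) * mob N W) := by
      rw [← sum_sub_distrib, mul_sum]
      refine sum_congr rfl fun W hW => ?_
      have hiW : i ∉ W := fun h => hi (mem_powerset.1 hW h)
      rw [mob_insert N hiW, mob_sub, prod_insert hiW]
      ring
    rw [h1, h2, h3, ih N, ih (fun T => N (insert i T))]
    ring

end wt

section anova

variable {ι : Type} [Fintype ι] [DecidableEq ι] {Ω : ι → Type} [∀ i, Fintype (Ω i)]
variable {π : ∀ i, Ω i → ℝ}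

/-- energy of a component as an alternating sum of the energies of conditional expectations -/
lemma IsPr.en_eq (h : IsPr π) (f : (∀ i, Ω i) → ℂ) (W : Finset ι) :
    en π f W = mob (fun T => Ev π (fun x => ‖rho π f T x‖ ^ 2)) W := by
  have hsq : ∀ z : ℂ, ((‖z‖ ^ 2 : ℝ) : ℂ) = z * (starRingEnd ℂ) z := by
    intro z
    rw [Complex.mul_conj, Complex.normSq_eq_norm_sq]
  have hC : ((en π f W : ℝ) : ℂ) =
      mob (fun T => Ev π (fun x => rho π f T x * (starRingEnd ℂ) (rho π f T x))) W := by
    rw [← mob_double]
    unfold en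
    rw [← Ev_ofReal]
    have h1 : ∀ x, ((‖comp π f W x‖ ^ 2 : ℝ) : ℂ) =
        ∑ T ∈ W.powerset, ∑ T' ∈ W.powerset, ((-1 : ℂ) ^ (W \ T).card * (-1 : ℂ) ^ (W \ T').card) *
          (rho π f T x * (starRingEnd ℂ) (rho π f T' x)) := by
      intro x
      rw [hsq]
      have hc : comp π f W x = ∑ T ∈ W.powerset, (-1 : ℂ) ^ (W \ T).card * rho π f T x := by
        unfold comp
        refine sum_congr rfl fun T _ => ?_
        rw [Complex.real_smul]
        push_cast
        rfl
      rw [hc, map_sum, sum_mul_sum]
      refine sum_congr rfl fun T _ => sum_congr rfl fun T' _ => ?_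
      rw [map_mul, map_pow, map_neg, map_one]
      ring
    simp only [h1]
    rw [Ev_sum]
    refine sum_congr rfl fun T _ => ?_
    rw [Ev_sum]
    refine sum_congr rfl fun T' _ => ?_
    rw [Ev_mulC, h.Ev_rho_mul]
  have hR : mob (fun T => Ev π (fun x => rho π f T x * (starRingEnd ℂ) (rho π f T x))) W =
      ((mob (fun T => Ev π (fun x => ‖rho π f T x‖ ^ 2)) W : ℝ) : ℂ) := by
    unfold mob
    rw [Complex.ofReal_sum]
    refine sum_congr rfl fun T _ => ?_
    rw [Complex.ofReal_mul, ← Ev_ofReal]
    simp only [hsq]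
    push_cast
    rfl
  rw [hR] at hC
  exact_mod_cast hC

lemma IsPr.en_nonneg (h : IsPr π) (f : (∀ i, Ω i) → ℂ) (W : Finset ι) : 0 ≤ en π f W :=
  h.Ev_nonneg fun _ => by positivity

end anova

theorem anova_holds : ANOVAStmt := by
  intro ι _ _ Ω _ π f t h
  have := sum_wtR_mob t (fun T => Ev π (fun x => ‖rho π f T x‖ ^ 2)) (univ : Finset ι)
  rw [powerset_univ] at this
  rw [this]
  exact sum_congr rfl fun W _ => by rw [h.en_eq]

end Vale.Agent.P042.TT
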