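import Vale.Agent.P042.TT.AnovaB

set_option autoImplicit false

/-!
The bridge between residue classes and the product space.
-/

namespace Vale.Agent.P042.TT

open Finset Vale.Agent.P042.SS

section gen

variable {V : Finset ℕ} {ν : ℕ → ℤ → ℝ} {F : Type*} [AddCommGroup F] [Module ℝ F]

lemma piV_isPr (hp : ∀ p ∈ V, p.Prime) (hw : Wts V ν) : IsPr (piV ν V) where
  nn p x := div_nonneg (hw.nn _ _) (Nat.cast_nonneg _)
  one p := by
    unfold piV
    rw [Fin.sum_univ_eq_sum_range (fun x : ℕ => ν p (x : ℤ) / ((p : ℕ) : ℝ)) (p : ℕ),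
      ← sum_div, hw.mean p p.2]
    exact div_self (by exact_mod_cast (hp p p.2).ne_zero)

lemma per_mul (hw : Wts V ν) {p : ℕ} (hp : p ∈ V) (n : ℤ) (k : ℕ) :
    ν p (n + k * p) = ν p n := by
  induction k with
  | zero => simp
  | succ k ih =>
    rw [← ih, ← hw.per p hp (n + k * p)]
    congr 1
    push_cast
    ring

lemma per_modEq (hw : Wts V ν) {p : ℕ} (hp : p ∈ V) {a b : ℤ} (h : a ≡ b [ZMOD (p : ℕ)]) :
    ν p a = ν p b := by
  have key : ∀ a b : ℤ, a ≤ b → a ≡ b [ZMOD (p : ℕ)] → ν p a = ν p b := by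
    intro a b hab h
    obtain ⟨c, hc⟩ := h.dvd
    have hb : b = a + c * p := by linarith
    rcases Nat.eq_zero_or_pos p with h0 | h0
    · subst h0
      have : a = b := by
        rw [hb]; simp
      rw [this]
    · have hc0 : 0 ≤ c := by
        have : (0 : ℤ) ≤ (p : ℤ) * c := by rw [← hc]; linarith
        exact nonneg_of_mul_nonneg_right this (by exact_mod_cast h0)
      obtain ⟨k, rfl⟩ := Int.eq_ofNat_of_zero_le hc0
      rw [hb]
      exact (per_mul hw hp a k).symm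
  rcases le_total a b with hab | hab
  · exact key a b hab h
  · exact (key b a hab h.symm).symm

/-- vector valued version of `fV`, `gV` -/
noncomputable def hV (ν : ℕ → ℤ → ℝ) (V : Finset ℕ) (S : Finset ↥V) (s : Finset ℤ) (g : ℤ → F)
    (x : XS V) : F :=
  (∏ p ∈ S, (((p : ℕ) : ℝ) * (ν p (x p : ℕ))⁻¹)) •
    ∑ n ∈ s.filter (fun n : ℤ => ∀ p ∈ S, n ≡ ((x p : ℕ) : ℤ) [ZMOD ((p : ℕ) : ℤ)]), g n

omit [Module ℝ F] in
open Classical in
/-- splitting a sum over the residues mod `p` -/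
lemma sum_res {p : ℕ} (hp : 0 < p) (s : Finset ℤ) (g : ℤ → F) :
    ∑ z : Fin p, ∑ n ∈ s.filter (fun n : ℤ => n ≡ ((z : ℕ) : ℤ) [ZMOD (p : ℤ)]), g n =
      ∑ n ∈ s, g n := by
  have h1 : ∀ z : Fin p, s.filter (fun n : ℤ => n ≡ ((z : ℕ) : ℤ) [ZMOD (p : ℤ)]) =
      s.filter (fun n : ℤ => (⟨(n % (p : ℤ)).toNat, by
        have := Int.emod_lt_of_pos n (show (0 : ℤ) < p by exact_mod_cast hp)
        have h0 := Int.emod_nonneg n (show (p : ℤ) ≠ 0 by positivity)
        omega⟩ : Fin p) = z) := by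
    intro z
    refine filter_congr fun n _ => ?_
    rw [Fin.ext_iff]
    show _ ↔ (n % (p : ℤ)).toNat = (z : ℕ)
    have h0 := Int.emod_nonneg n (show (p : ℤ) ≠ 0 by positivity)
    have hz : ((z : ℕ) : ℤ) % (p : ℤ) = ((z : ℕ) : ℤ) :=
      Int.emod_eq_of_lt (by positivity) (by exact_mod_cast z.2)
    unfold Int.ModEq
    rw [hz]
    omega
  simp only [h1]
  exact sum_fiberwise _ _ _

/-- averaging one coordinate -/
lemma hV_step (hp : ∀ p ∈ V, p.Prime) (hw : Wts V ν) (S : Finset ↥V) (s : Finset ℤ) (g : ℤ → F)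
    (hg : ∀ n ∈ s, g n ≠ 0 → ∀ p ∈ V, ν p n ≠ 0) {q : ↥V} (hq : q ∉ S) (x : XS V) :
    ∑ z, piV ν V q z • hV ν V (insert q S) s g (Function.update x q z) = hV ν V S s g x := by
  have hq0 : ((q : ℕ) : ℝ) ≠ 0 := by exact_mod_cast (hp q q.2).ne_zero
  have h1 : ∀ z : Fin (q : ℕ), piV ν V q z • hV ν V (insert q S) s g (Function.update x q z) =
      (∏ p ∈ S, (((p : ℕ) : ℝ) * (ν p (x p : ℕ))⁻¹)) •
        ∑ n ∈ (s.filter (fun n : ℤ => ∀ p ∈ S, n ≡ ((x p : ℕ) : ℤ) [ZMOD ((p : ℕ) : ℤ)])).filter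
          (fun n : ℤ => n ≡ ((z : ℕ) : ℤ) [ZMOD ((q : ℕ) : ℤ)]), g n := by
    intro z
    unfold hV
    have hset : s.filter (fun n : ℤ => ∀ p ∈ insert q S,
        n ≡ ((Function.update x q z p : ℕ) : ℤ) [ZMOD ((p : ℕ) : ℤ)]) =
        (s.filter (fun n : ℤ => ∀ p ∈ S, n ≡ ((x p : ℕ) : ℤ) [ZMOD ((p : ℕ) : ℤ)])).filter
          (fun n : ℤ => n ≡ ((z : ℕ) : ℤ) [ZMOD ((q : ℕ) : ℤ)]) := by
      rw [filter_filter]
      refine filter_congr fun n _ => ?_
      rw [forall_mem_insert, Function.update_self]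
      constructor
      · rintro ⟨h1, h2⟩
        refine ⟨fun p hpS => ?_, h1⟩
        have : p ≠ q := by rintro rfl; exact hq hpS
        have := h2 p hpS
        rwa [Function.update_of_ne ‹p ≠ q›] at this
      · rintro ⟨h1, h2⟩
        refine ⟨h2, fun p hpS => ?_⟩
        have hne : p ≠ q := by rintro rfl; exact hq hpS
        rw [Function.update_of_ne hne]
        exact h1 p hpS
    have hprod : ∏ p ∈ insert q S, (((p : ℕ) : ℝ) * (ν p (Function.update x q z p : ℕ))⁻¹) =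
        (((q : ℕ) : ℝ) * (ν q (z : ℕ))⁻¹) *
          ∏ p ∈ S, (((p : ℕ) : ℝ) * (ν p (x p : ℕ))⁻¹) := by
      rw [prod_insert hq, Function.update_self]
      congr 1
      refine prod_congr rfl fun p hpS => ?_
      have hne : p ≠ q := by rintro rfl; exact hq hpS
      rw [Function.update_of_ne hne]
    rw [hset, hprod, smul_smul]
    by_cases h0 : ν q (z : ℕ) = 0
    · have hz : ∑ n ∈ (s.filter (fun n : ℤ => ∀ p ∈ S,
          n ≡ ((x p : ℕ) : ℤ) [ZMOD ((p : ℕ) : ℤ)])).filter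
          (fun n : ℤ => n ≡ ((z : ℕ) : ℤ) [ZMOD ((q : ℕ) : ℤ)]), g n = 0 := by
        refine sum_eq_zero fun n hn => ?_
        by_contra hgn
        rw [mem_filter, mem_filter] at hn
        have := hg n hn.1.1 hgn q q.2
        rw [per_modEq hw q.2 hn.2] at this
        exact this h0
      rw [hz, smul_zero, smul_zero]
    · congr 1
      unfold piV
      field_simp
  simp only [h1]
  rw [← smul_sum, sum_res (hp q q.2).pos]
  rfl

lemma Ex_hV (hp : ∀ p ∈ V, p.Prime) (hw : Wts V ν) (s : Finset ℤ) (g : ℤ → F)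
    (hg : ∀ n ∈ s, g n ≠ 0 → ∀ p ∈ V, ν p n ≠ 0) (T : Finset ↥V) (x : XS V) :
    Ex (piV ν V) T (hV ν V univ s g) x = hV ν V Tᶜ s g x := by
  have hpi := piV_isPr hp hw
  induction T using Finset.induction_on generalizing x with
  | empty => rw [hpi.Ex_empty, compl_empty]
  | insert q T hq ih =>
    rw [hpi.Ex_insert hq]
    simp only [ih]
    have h1 : Tᶜ = insert q ((insert q T)ᶜ) := by
      ext j
      by_cases hj : j = q
      · subst hj; simp [hq]
      · simp [hj]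
    rw [h1]
    exact hV_step hp hw _ s g hg (by simp) x

lemma rho_hV (hp : ∀ p ∈ V, p.Prime) (hw : Wts V ν) (s : Finset ℤ) (g : ℤ → F)
    (hg : ∀ n ∈ s, g n ≠ 0 → ∀ p ∈ V, ν p n ≠ 0) (S : Finset ↥V) (x : XS V) :
    rho (piV ν V) (hV ν V univ s g) S x = hV ν V S s g x := by
  unfold rho
  rw [Ex_hV hp hw s g hg, compl_compl]

end gen

section crt

/-- sum over `range (q m)` by the Chinese remainder theorem -/
lemma sum_crt (q m : ℕ) (h : q.Coprime m) (hq : 0 < q) (hm : 0 < m) (f : ℕ → ℕ → ℝ) :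
    ∑ x ∈ range (q * m), f (x % q) (x % m) = ∑ a ∈ range q, ∑ b ∈ range m, f a b := by
  rw [← sum_product']
  refine sum_bij' (fun x _ => (x % q, x % m))
    (fun ab _ => (Nat.chineseRemainder h ab.1 ab.2 : ℕ)) ?_ ?_ ?_ ?_ ?_
  · intro x _
    simp [Nat.mod_lt _ hq, Nat.mod_lt _ hm]
  · intro ab _
    rw [mem_range]
    exact Nat.chineseRemainder_lt_mul h _ _ hq.ne' hm.ne'
  · intro x hx
    rw [mem_range] at hx
    have h1 := (Nat.chineseRemainder h (x % q) (x % m)).2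
    have h2 := Nat.chineseRemainder_lt_mul h (x % q) (x % m) hq.ne' hm.ne'
    have h3 : (Nat.chineseRemainder h (x % q) (x % m) : ℕ) ≡ x [MOD q * m] := by
      rw [← Nat.modEq_and_modEq_iff_modEq_mul h]
      exact ⟨h1.1.trans (Nat.mod_modEq _ _), h1.2.trans (Nat.mod_modEq _ _)⟩
    exact Nat.ModEq.eq_of_lt_of_lt h3 h2 hx
  · rintro ⟨a, b⟩ hab
    rw [mem_product, mem_range, mem_range] at hab
    have h1 := (Nat.chineseRemainder h a b).2
    simp only
    ext
    · show (Nat.chineseRemainder h a b : ℕ) % q = a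
      rw [h1.1, Nat.mod_eq_of_lt hab.1]
    · show (Nat.chineseRemainder h a b : ℕ) % m = b
      rw [h1.2, Nat.mod_eq_of_lt hab.2]
  · intro x _
    rfl

end crt

end Vale.Agent.P042.TT
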