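import Vale.Agent.P042.TT.CellD

set_option autoImplicit false

/-!
Block CELL: the hypotheses of PSI hold for the densities of a cell.
-/

namespace Vale.Agent.P042.TT

open Polynomial Finset Vale.Agent.P042.SS Filter

/-- the cell `r mod R` intersected with the classes `x p mod p`, `p ∈ S` -/
noncomputable def cA {V : Finset ℕ} (y : ℤ) (M R : ℕ) (r : ℤ) (S : Finset ↥V) (x : XS V) : Finset ℤ :=
  (Ioc y (y + M)).filter
    (fun n : ℤ => n ≡ r [ZMOD (R : ℕ)] ∧ ∀ p ∈ S, n ≡ ((x p : ℕ) : ℤ) [ZMOD ((p : ℕ) : ℤ)])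

/-- the normalising product -/
noncomputable def cP {V : Finset ℕ} (ν : ℕ → ℤ → ℝ) (S : Finset ↥V) (x : XS V) : ℝ :=
  ∏ p ∈ S, (((p : ℕ) : ℝ) * (ν p (x p : ℕ))⁻¹)

/-- exponent of the cost -/
noncomputable def cE (P : ℝ) (R : ℕ) (s : ℕ) : ℝ :=
  2 + 5 * b2 P * Real.log R + 2 * b2 P * (s : ℝ)

/-- the KLV inequality for a cell -/
theorem cell_klv {k : ℕ} {P : ℝ} (hB : CellBig k P) {N' Nmin : ℕ} {Φ : ℝ} {G : ℤ → ℝ}
    {ν : ℕ → ℤ → ℝ} (hSt : St P k N' Nmin Φ G ν)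
    (hn1 : ∀ p ∈ W2 P, ∀ x, ν p x ≤ Real.exp (b2 P)) (hn2 : ∀ p ∈ W2 P, zf ν p ≤ b2 P)
    {V : Finset ℕ} {R M : ℕ} {y r : ℤ} (hVW : V ⊆ W2 P)
    (hVlog : ∑ p ∈ V, Real.log p ≤ P ^ (0.995 : ℝ)) (hR1 : 1 ≤ R)
    (hcop : ∀ p ∈ V, Nat.Coprime p R) (hRlog : Real.log R ≤ P ^ (0.63 : ℝ)) (hMN : M ≤ N')
    (hNM : (N' : ℝ) ≤ P * M) (S : Finset ↥V) (x : XS V) (U : Finset ↥V) (hU : Disjoint U S)
    (F : ℕ → ℤ → ℝ) (hF0 : ∀ p n, 0 ≤ F p n)
    (hFp : ∀ p : ↥V, p ∈ U → ∀ n, F (p : ℕ) (n + (p : ℕ)) = F p n)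
    (hFs : ∀ p : ↥V, p ∈ U → ∑ z ∈ range (p : ℕ), ν p z * F p z = (p : ℕ)) :
    ∑ n ∈ cA y M R r S x, G n * ∏ p ∈ U, (F (p : ℕ) n) ^ (tau2 P) ≤
      M * Φ / (R * ∏ p ∈ S, ((p : ℕ) : ℝ)) * Real.exp (cE P R S.card) := by
  classical
  have hP0 : 0 < P := by linarith [hB.P4]
  have hVp : ∀ p ∈ V, p.Prime := fun p hp => (W2_mem (hVW hp)).1
  obtain ⟨z, hz⟩ := cell_crt hVp R r hcop S (fun p => ((x p : ℕ) : ℤ))
  set D : ℕ := R * ∏ p ∈ S, (p : ℕ) with hD
  have hSpos : 0 < ∏ p ∈ S, (p : ℕ) := Finset.prod_pos fun p _ => (hVp p p.2).pos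
  have hD1 : 1 ≤ D := Nat.mul_pos hR1 hSpos
  have hN'0 : 0 < N' := by
    have h1 := (Real.exp_pos (7 / 8 * P)).trans_le hSt.N'lo
    exact_mod_cast h1
  have hR0 : (0 : ℝ) < R := by exact_mod_cast hR1
  -- the set T
  set T : Finset ℕ := S.map (Function.Embedding.subtype _) with hT
  have hTV : T ⊆ V := by
    intro p hp
    rw [hT, Finset.mem_map] at hp
    obtain ⟨q, -, hq⟩ := hp
    rw [← hq]; exact q.2
  have hTprod : ∏ p ∈ T, p = ∏ p ∈ S, (p : ℕ) := by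
    rw [hT, Finset.prod_map]; rfl
  have hTcard : T.card = S.card := by rw [hT, Finset.card_map]
  have hlogD : Real.log D ≤ P ^ (0.63 : ℝ) + P ^ (0.995 : ℝ) := by
    rw [hD, Nat.cast_mul, Real.log_mul hR0.ne' (by exact_mod_cast hSpos.ne')]
    refine add_le_add hRlog ?_
    rw [← hTprod, Nat.cast_prod, Real.log_prod (fun p hp => by
      have := (hVp p (hTV hp)).pos
      positivity)]
    refine (Finset.sum_le_sum_of_subset_of_nonneg hTV fun p hp _ => ?_).trans hVlog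
    exact zero_le_one.trans (W2_log_one hB (hVW hp))
  obtain ⟨hs1, hs2⟩ := cell_D_size hB hSt.N'lo hNM hSt.Nmin_le hD1 hlogD
  have hcost := cell_cost hB (N' := N') (M := M) (R := R) T (hTV.trans hVW) hR1 hN'0 hNM
    (by rw [hTprod]; exact hs2) ν hSt.pin.wts.nn hn1 hn2 z
  rw [hTprod, hTcard] at hcost
  -- the inequality
  have hklv := hSt.pin.klv D M y z (U.map (Function.Embedding.subtype _)) F hD1 hs1
    (hs1.trans hMN) (by
      intro p hp
      rw [Finset.mem_map] at hp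
      obtain ⟨q, -, hq⟩ := hp
      rw [← hq]; exact hVW q.2) (by
      intro p hp hpD
      rw [Finset.mem_map] at hp
      obtain ⟨q, hqU, hq⟩ := hp
      have hqq : (q : ℕ) = p := hq
      rw [← hqq] at hpD
      rcases (Nat.Prime.dvd_mul (hVp q q.2)).1 hpD with h | h
      · have h1 := Nat.Coprime.eq_one_of_dvd (hcop q q.2) h
        exact (hVp q q.2).one_lt.ne' h1
      · obtain ⟨q', hq', hqq'⟩ := (Prime.dvd_finsetProd_iff (hVp q q.2).prime _).1 h
        have h1 : (q : ℕ) = q' := (Nat.prime_dvd_prime_iff_eq (hVp q q.2) (hVp q' q'.2)).1 hqq'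
        have h2 : q = q' := Subtype.ext h1
        exact Finset.disjoint_left.1 hU hqU (h2 ▸ hq')) hF0 (by
      intro p hp n
      rw [Finset.mem_map] at hp
      obtain ⟨q, hqU, hq⟩ := hp
      have hqq : (q : ℕ) = p := hq
      rw [← hqq]; exact hFp q hqU n) (by
      intro p hp
      rw [Finset.mem_map] at hp
      obtain ⟨q, hqU, hq⟩ := hp
      have hqq : (q : ℕ) = p := hq
      rw [← hqq]; exact hFs q hqU)
  have hset : (Ioc y (y + M)).filter (fun n : ℤ => n ≡ z [ZMOD (D : ℕ)]) = cA y M R r S x := by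
    unfold cA
    refine Finset.filter_congr fun n _ => ?_
    exact hz n
  rw [hset] at hklv
  have hprod : ∀ n, ∏ p ∈ U.map (Function.Embedding.subtype _), (F p n) ^ (tau2 P) =
      ∏ p ∈ U, (F (p : ℕ) n) ^ (tau2 P) := fun n => by
    rw [Finset.prod_map]; rfl
  simp only [hprod] at hklv
  have hM0 : (0 : ℝ) < M := by
    have : (0 : ℝ) < P * M := lt_of_lt_of_le (by exact_mod_cast hN'0) hNM
    exact (mul_pos_iff_of_pos_left hP0).1 this
  have hDcast : (D : ℝ) = R * ∏ p ∈ S, ((p : ℕ) : ℝ) := by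
    rw [hD]; push_cast; rfl
  have hD0 : (0 : ℝ) < D := by exact_mod_cast hD1
  calc ∑ n ∈ cA y M R r S x, G n * ∏ p ∈ U, (F (p : ℕ) n) ^ (tau2 P)
      ≤ (M : ℝ) / D * Φ * (1 + (D : ℝ) ^ k / M) * ((N' * (D : ℝ) ^ k / M) ^ (eta2 P)) *
      Real.exp (1 / 8 * ∑ p ∈ (W2 P).filter (fun p => p ∣ D), zf ν p) *
      ∏ p ∈ (W2 P).filter (fun p => p ∣ D), (ν p z) ^ (tau2 P) := hklv
    _ = (M : ℝ) / D * Φ * costK P k N' M D ν z := by unfold costK; ring
    _ ≤ (M : ℝ) / D * Φ * Real.exp (cE P R S.card) := by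
        refine mul_le_mul_of_nonneg_left hcost ?_
        have := hSt.pin.Φpos
        positivity
    _ = _ := by rw [← hDcast]; ring


theorem cell_of (hBR : BRStmt) (hNU : NU2Stmt) : CELLStmt := by
  classical
  intro k hk
  obtain ⟨P1, hP1⟩ := hNU k hk
  obtain ⟨P2, hP2⟩ := Filter.eventually_atTop.1 (cell_big k)
  refine ⟨max P1 P2, fun P hP N' Nmin Φ G ν hSt V R M y r S0 x0 a hVW hVlog hR1 hcop hRlog hMN
    hNM ha => ?_⟩
  have hB := hP2 P (le_trans (le_max_right _ _) hP)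
  obtain ⟨hn1, hn2, hn3, -, -, -⟩ := hP1 P (le_trans (le_max_left _ _) hP) N' Nmin Φ G ν hSt
  have hP0 : 0 < P := by linarith [hB.P4]
  have hb0 := b2_nonneg hB.P4
  obtain ⟨hτ0, hτ1⟩ := tau2_bds hB.P4
  have hVp : ∀ p ∈ V, p.Prime := fun p hp => (W2_mem (hVW hp)).1
  have hwts : Wts V ν := ⟨hSt.pin.wts.nn, fun p hp => hSt.pin.wts.per p (hVW hp),
    fun p hp => hSt.pin.wts.mean p (hVW hp)⟩
  have hG0 := hSt.pin.G0
  have hν0 := hSt.pin.wts.nn
  have hGν : ∀ n, G n ≠ 0 → ∀ p ∈ V, ν p n ≠ 0 := fun n hn p hp => hn3 n hn p (hVW hp)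
  obtain ⟨hPr, hrho, -, -, -, -⟩ := hBR V ν G y M R r 0 hVp hwts hGν
  have hrho' : ∀ (S : Finset ↥V) (x : XS V), rho (piV ν V) (gV ν V G y M R r) S x =
      cP ν S x * ∑ n ∈ cA y M R r S x, G n := hrho
  have hcP0 : ∀ (S : Finset ↥V) (x : XS V), 0 ≤ cP ν S x := fun S x =>
    Finset.prod_nonneg fun p _ => mul_nonneg (Nat.cast_nonneg _) (inv_nonneg.2 (hν0 _ _))
  have hN'0 : 0 < N' := by
    have h1 := (Real.exp_pos (7 / 8 * P)).trans_le hSt.N'lo
    exact_mod_cast h1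
  have hM0 : (0 : ℝ) < M := by
    have : (0 : ℝ) < P * M := lt_of_lt_of_le (by exact_mod_cast hN'0) hNM
    exact (mul_pos_iff_of_pos_left hP0).1 this
  have hΦ0 := hSt.pin.Φpos
  have hR0 : (0 : ℝ) < R := by exact_mod_cast hR1
  have hpp : ∀ p : ↥V, 0 < (p : ℕ) := fun p => (hVp p p.2).pos
  have hppR : ∀ p : ↥V, (0 : ℝ) < ((p : ℕ) : ℝ) := fun p => by exact_mod_cast hpp p
  -- subcells
  have hsub : ∀ (S : Finset ↥V) (i : ↥V) (x : XS V), i ∉ S → ∀ w : Fin (i : ℕ),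
      cA y M R r (insert i S) (Function.update x i w) = (cA y M R r S x).filter
        (fun n : ℤ => n ≡ ((w : ℕ) : ℤ) [ZMOD ((i : ℕ) : ℤ)]) := by
    intro S i x hi w
    ext n
    unfold cA
    simp only [Finset.mem_filter, Finset.mem_insert, forall_eq_or_imp, Function.update_self]
    constructor
    · rintro ⟨h1, h2, h3, h4⟩
      refine ⟨⟨h1, h2, fun p hp => ?_⟩, h3⟩
      have h5 := h4 p hp
      rwa [Function.update_of_ne (ne_of_mem_of_not_mem hp hi)] at h5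
    · rintro ⟨⟨h1, h2, h4⟩, h3⟩
      refine ⟨h1, h2, h3, fun p hp => ?_⟩
      rw [Function.update_of_ne (ne_of_mem_of_not_mem hp hi)]
      exact h4 p hp
  have hcPins : ∀ (S : Finset ↥V) (i : ↥V) (x : XS V), i ∉ S → ∀ w : Fin (i : ℕ),
      cP ν (insert i S) (Function.update x i w) =
        (((i : ℕ) : ℝ) * (ν i (w : ℕ))⁻¹) * cP ν S x := by
    intro S i x hi w
    unfold cP
    rw [Finset.prod_insert hi, Function.update_self]
    congr 1
    refine Finset.prod_congr rfl fun p hp => ?_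
    rw [Function.update_of_ne (ne_of_mem_of_not_mem hp hi)]
  have hself : ∀ (i : ↥V) (x : XS V), Function.update x i (x i) = x := fun i x => by simp
  -- (i)
  have hone : ∀ (S : Finset ↥V) (i : ↥V) (x : XS V), i ∉ S →
      rho (piV ν V) (gV ν V G y M R r) (insert i S) x ≤
        16 * P ^ (1.04 : ℝ) * rho (piV ν V) (gV ν V G y M R r) S x := by
    intro S i x hi
    have h1 := hcPins S i x hi (x i)
    have h2 := hsub S i x hi (x i)
    rw [hself] at h1 h2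
    rw [hrho', hrho', h1, h2]
    have h3 : ((i : ℕ) : ℝ) * (ν i (x i : ℕ))⁻¹ ≤ 16 * P ^ (1.04 : ℝ) := by
      have h5 : ((i : ℕ) : ℝ) ≤ P ^ (1.04 : ℝ) := W2_le hP0.le (hVW i.2)
      have h6 : 0 ≤ P ^ (1.04 : ℝ) := Real.rpow_nonneg hP0.le _
      rcases hSt.pin.low i (hVW i.2) ((x i : ℕ) : ℤ) with h4 | h4
      · rw [h4, inv_zero, mul_zero]; positivity
      · have h7 : (ν i ((x i : ℕ) : ℤ))⁻¹ ≤ 16 := by
          rw [inv_le_comm₀ (by linarith) (by norm_num)]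
          linarith
        calc ((i : ℕ) : ℝ) * (ν i (x i : ℕ))⁻¹ ≤ P ^ (1.04 : ℝ) * 16 := by
              refine mul_le_mul h5 h7 (inv_nonneg.2 (hν0 _ _)) h6
          _ = _ := by ring
    have h8 : ∑ n ∈ (cA y M R r S x).filter
        (fun n : ℤ => n ≡ ((x i : ℕ) : ℤ) [ZMOD ((i : ℕ) : ℤ)]), G n ≤
        ∑ n ∈ cA y M R r S x, G n :=
      Finset.sum_le_sum_of_subset_of_nonneg (Finset.filter_subset _ _) fun n _ _ => hG0 n
    have h9 : 0 ≤ ∑ n ∈ cA y M R r S x, G n := Finset.sum_nonneg fun n _ => hG0 n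
    calc ((i : ℕ) : ℝ) * (ν i (x i : ℕ))⁻¹ * cP ν S x *
            (∑ n ∈ (cA y M R r S x).filter
              (fun n : ℤ => n ≡ ((x i : ℕ) : ℤ) [ZMOD ((i : ℕ) : ℤ)]), G n)
        ≤ ((i : ℕ) : ℝ) * (ν i (x i : ℕ))⁻¹ * cP ν S x * ∑ n ∈ cA y M R r S x, G n := by
          refine mul_le_mul_of_nonneg_left h8 (mul_nonneg ?_ (hcP0 S x))
          exact mul_nonneg (Nat.cast_nonneg _) (inv_nonneg.2 (hν0 _ _))
      _ = ((i : ℕ) : ℝ) * (ν i (x i : ℕ))⁻¹ * (cP ν S x * ∑ n ∈ cA y M R r S x, G n) := by ring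
      _ ≤ _ := mul_le_mul_of_nonneg_right h3 (mul_nonneg (hcP0 S x) h9)
  have hrho0 : ∀ (S : Finset ↥V) (x : XS V), 0 ≤ rho (piV ν V) (gV ν V G y M R r) S x := by
    intro S x
    rw [hrho']
    exact mul_nonneg (hcP0 S x) (Finset.sum_nonneg fun n _ => hG0 n)
  have ha0 : 0 ≤ a := by
    rw [ha]
    refine div_nonneg (mul_nonneg (Finset.prod_nonneg fun p _ => hν0 _ _) hR0.le) ?_
    positivity
  refine ⟨hone, ?_, ?_⟩
  · intro S x hS0 hx
    simp only [klr, cell_rho_mul]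
    set ρ : ℝ := a * rho (piV ν V) (gV ν V G y M R r) S x with hρ
    rcases eq_or_ne ρ 0 with hz | hz
    · -- degenerate case
      have h1 : ∀ i ∈ Sᶜ, ∑ w, piV ν V i w * (a * rho (piV ν V) (gV ν V G y M R r)
          (insert i S) (Function.update x i w) *
          Real.log (a * rho (piV ν V) (gV ν V G y M R r) (insert i S) (Function.update x i w) /
            ρ)) = 0 := by
        intro i hi
        refine Finset.sum_eq_zero fun w _ => ?_
        rw [hz, div_zero, Real.log_zero, mul_zero, mul_zero]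
      rw [Finset.sum_eq_zero h1, hz]
      simp
    · -- main case
      set m : ℝ := ∑ n ∈ cA y M R r S x, G n with hm
      have hρ' : ρ = a * (cP ν S x * m) := by rw [hρ, hrho']
      have hm0 : 0 < m := by
        refine lt_of_le_of_ne (Finset.sum_nonneg fun n _ => hG0 n) fun h => hz ?_
        rw [hρ', ← h, mul_zero, mul_zero]
      have ha1 : 0 < a := by
        refine lt_of_le_of_ne ha0 fun h => hz ?_
        rw [hρ', ← h, zero_mul]
      have hcP1 : 0 < cP ν S x := by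
        refine lt_of_le_of_ne (hcP0 S x) fun h => hz ?_
        rw [hρ', ← h, zero_mul, mul_zero]
      have hρ0 : 0 < ρ := by rw [hρ']; positivity
      set F : ℕ → ℤ → ℝ := cF (cA y M R r S x) G m ν with hF
      have hGν' : ∀ p : ↥V, ∀ n, G n ≠ 0 → ν p n ≠ 0 := fun p n hn => hGν n hn p p.2
      have hper : ∀ p : ↥V, ∀ n, ν p (n + (p : ℕ)) = ν p n := fun p n => hwts.per p p.2 n
      -- klr in terms of F
      have h1 : ∀ i ∈ Sᶜ, ∑ w, piV ν V i w * (a * rho (piV ν V) (gV ν V G y M R r)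
          (insert i S) (Function.update x i w) *
          Real.log (a * rho (piV ν V) (gV ν V G y M R r) (insert i S) (Function.update x i w) /
            ρ)) = ρ * ((∑ n ∈ cA y M R r S x, G n * Real.log (F i n)) / m) := by
        intro i hi
        have hi' : i ∉ S := Finset.mem_compl.1 hi
        rw [hF, ← cF_ent (hpp i) (hper i) (hGν' i), Finset.mul_sum]
        refine Finset.sum_congr rfl fun w _ => ?_
        have h2 : a * rho (piV ν V) (gV ν V G y M R r) (insert i S) (Function.update x i w) =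
            ρ * cF (cA y M R r S x) G m ν i ((w : ℕ) : ℤ) := by
          rw [hrho', hcPins S i x hi' w, hsub S i x hi' w, hρ']
          unfold cF
          field_simp
        rw [h2, mul_div_cancel_left₀ _ hz]
        unfold piV
        ring
      rw [Finset.sum_congr rfl h1, ← Finset.mul_sum]
      -- Jensen and KLV
      have h3 := cell_jensen' (cA y M R r S x) G m (tau2 P) hm0
        ((Sᶜ : Finset ↥V).map (Function.Embedding.subtype _)) F (fun n _ => hG0 n) hm.symm (by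
          intro p hp n hn hGn
          rw [Finset.mem_map] at hp
          obtain ⟨q, -, hq⟩ := hp
          have hqq : (q : ℕ) = p := hq
          rw [← hqq]
          exact cF_pos (hpp q) hG0 hν0 (hGν' q) hm0 hn hGn)
      simp only [Finset.sum_map, Finset.prod_map] at h3
      have h3' : m * Real.exp (tau2 P * ∑ i ∈ Sᶜ,
          (∑ n ∈ cA y M R r S x, G n * Real.log (F i n)) / m) ≤
          ∑ n ∈ cA y M R r S x, G n * ∏ p ∈ Sᶜ, (F (p : ℕ) n) ^ (tau2 P) := h3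
      have h4 := cell_klv hB hSt (fun p hp => (fun x => (hn1 p hp x).1)) hn2 hVW hVlog hR1 hcop
        hRlog hMN hNM (y := y) (r := r) S x Sᶜ (Finset.disjoint_left.2 fun p hp hp' =>
          (Finset.mem_compl.1 hp) hp') F
        (fun p n => cF_nonneg hG0 hm0 hν0 p n)
        (fun p _ n => cF_per (hper p) n)
        (fun p _ => cF_sum (hpp p) (hper p) (hGν' p) hm0 hm.symm)
      have h5 := h3'.trans h4
      set K : ℝ := ∑ i ∈ Sᶜ, (∑ n ∈ cA y M R r S x, G n * Real.log (F i n)) / m with hK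
      -- nonvanishing of the weights on S
      have hνS : ∀ p ∈ S, 0 < ν p ((x p : ℕ) : ℤ) := by
        intro p hp
        refine lt_of_le_of_ne (hν0 _ _) fun h => ?_
        apply hcP1.ne'
        refine Finset.prod_eq_zero hp ?_
        rw [← h, inv_zero, mul_zero]
      have hprodS : 0 < ∏ p ∈ S, ((p : ℕ) : ℝ) := Finset.prod_pos fun p _ => hppR p
      have h6 : a * cP ν S x = (R * ∏ p ∈ S, ((p : ℕ) : ℝ)) / (M * Φ) *
          ∏ p ∈ S \ S0, (ν p ((x p : ℕ) : ℤ))⁻¹ := by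
        have e1 : cP ν S x = (∏ p ∈ S, ((p : ℕ) : ℝ)) *
            ((∏ p ∈ S \ S0, (ν p ((x p : ℕ) : ℤ))⁻¹) * ∏ p ∈ S0, (ν p ((x p : ℕ) : ℤ))⁻¹) := by
          unfold cP
          rw [Finset.prod_mul_distrib, Finset.prod_sdiff hS0]
        have e2 : (∏ p ∈ S0, ν p (x0 p : ℕ)) * ∏ p ∈ S0, (ν p ((x p : ℕ) : ℤ))⁻¹ = 1 := by
          rw [← Finset.prod_mul_distrib]
          refine Finset.prod_eq_one fun p hp => ?_
          rw [← hx p hp]
          exact mul_inv_cancel₀ (hνS p (hS0 hp)).ne'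
        rw [e1, ha]
        calc (∏ p ∈ S0, ν p (x0 p : ℕ)) * (R : ℝ) / (M * Φ) * ((∏ p ∈ S, ((p : ℕ) : ℝ)) *
            ((∏ p ∈ S \ S0, (ν p ((x p : ℕ) : ℤ))⁻¹) * ∏ p ∈ S0, (ν p ((x p : ℕ) : ℤ))⁻¹))
            = ((∏ p ∈ S0, ν p (x0 p : ℕ)) * ∏ p ∈ S0, (ν p ((x p : ℕ) : ℤ))⁻¹) *
              ((R * ∏ p ∈ S, ((p : ℕ) : ℝ)) / (M * Φ) *
                ∏ p ∈ S \ S0, (ν p ((x p : ℕ) : ℤ))⁻¹) := by ring
          _ = _ := by rw [e2, one_mul]
      have hQ : 0 < ∏ p ∈ S \ S0, (ν p ((x p : ℕ) : ℤ))⁻¹ :=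
        Finset.prod_pos fun p hp => inv_pos.2 (hνS p (Finset.mem_sdiff.1 hp).1)
      -- bound for the exponential
      have h7 : Real.exp (tau2 P * K) ≤
          Real.exp (cE P R S.card) * (∏ p ∈ S \ S0, (ν p ((x p : ℕ) : ℤ))⁻¹) / ρ := by
        have e3 : ρ = (R * ∏ p ∈ S, ((p : ℕ) : ℝ)) / (M * Φ) *
          (∏ p ∈ S \ S0, (ν p ((x p : ℕ) : ℤ))⁻¹) * m := by
          rw [hρ', ← mul_assoc, h6]
        rw [le_div_iff₀ hρ0, e3]
        have e4 : (0 : ℝ) < (R * ∏ p ∈ S, ((p : ℕ) : ℝ)) / (M * Φ) := by positivity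
        have e5 : (R * ∏ p ∈ S, ((p : ℕ) : ℝ)) / (M * Φ) *
            (M * Φ / (R * ∏ p ∈ S, ((p : ℕ) : ℝ))) = 1 := by
          field_simp
        calc Real.exp (tau2 P * K) * ((R * ∏ p ∈ S, ((p : ℕ) : ℝ)) / (M * Φ) *
            (∏ p ∈ S \ S0, (ν p ((x p : ℕ) : ℤ))⁻¹) * m)
            = ((R * ∏ p ∈ S, ((p : ℕ) : ℝ)) / (M * Φ) *
              (∏ p ∈ S \ S0, (ν p ((x p : ℕ) : ℤ))⁻¹)) * (m * Real.exp (tau2 P * K)) := by ring
          _ ≤ ((R * ∏ p ∈ S, ((p : ℕ) : ℝ)) / (M * Φ) *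
              (∏ p ∈ S \ S0, (ν p ((x p : ℕ) : ℤ))⁻¹)) *
              (M * Φ / (R * ∏ p ∈ S, ((p : ℕ) : ℝ)) * Real.exp (cE P R S.card)) :=
              mul_le_mul_of_nonneg_left h5 (by positivity)
          _ = ((R * ∏ p ∈ S, ((p : ℕ) : ℝ)) / (M * Φ) *
            (M * Φ / (R * ∏ p ∈ S, ((p : ℕ) : ℝ)))) * (Real.exp (cE P R S.card) *
              (∏ p ∈ S \ S0, (ν p ((x p : ℕ) : ℤ))⁻¹)) := by ring
          _ = _ := by rw [e5, one_mul]
      have h8 : tau2 P * K ≤ cE P R S.card +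
          ∑ i ∈ S \ S0, max 0 (Real.log (1 / ν i ((x i : ℕ) : ℤ))) - Real.log ρ := by
        have e6 : tau2 P * K ≤ Real.log (Real.exp (cE P R S.card) *
            (∏ p ∈ S \ S0, (ν p ((x p : ℕ) : ℤ))⁻¹) / ρ) := by
          rw [Real.le_log_iff_exp_le (by positivity)]
          exact h7
        rw [Real.log_div (by positivity) hρ0.ne', Real.log_mul (Real.exp_pos _).ne' hQ.ne',
          Real.log_exp, Real.log_prod (fun p hp =>
            (inv_pos.2 (hνS p (Finset.mem_sdiff.1 hp).1)).ne')] at e6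
        refine e6.trans ?_
        have e7 : ∑ p ∈ S \ S0, Real.log (ν p ((x p : ℕ) : ℤ))⁻¹ ≤
            ∑ i ∈ S \ S0, max 0 (Real.log (1 / ν i ((x i : ℕ) : ℤ))) :=
          Finset.sum_le_sum fun p _ => by rw [one_div]; exact le_max_right _ _
        linarith
      have h9 : K ≤ 1 / tau2 P * (cE P R S.card +
          ∑ i ∈ S \ S0, max 0 (Real.log (1 / ν i ((x i : ℕ) : ℤ))) - Real.log ρ) := by
        rw [one_div, ← div_eq_inv_mul, le_div_iff₀ hτ0, mul_comm]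
        exact h8
      calc ρ * K ≤ ρ * (1 / tau2 P * (cE P R S.card +
          ∑ i ∈ S \ S0, max 0 (Real.log (1 / ν i ((x i : ℕ) : ℤ))) - Real.log ρ)) :=
            mul_le_mul_of_nonneg_left h9 hρ0.le
        _ = _ := by unfold cE; ring
  · -- (iii)
    rw [cell_rho_mul, hrho']
    by_cases hv : ∀ p ∈ S0, ν p (x0 p : ℕ) ≠ 0
    · have h4 := cell_klv hB hSt (fun p hp => (fun x => (hn1 p hp x).1)) hn2 hVW hVlog hR1 hcop
        hRlog hMN hNM (y := y) (r := r) S0 x0 ∅ (Finset.disjoint_empty_left _) (fun _ _ => 0)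
        (fun p n => le_refl _) (fun p hp n => absurd hp (Finset.notMem_empty p))
        (fun p hp => absurd hp (Finset.notMem_empty p))
      simp only [Finset.prod_empty, mul_one] at h4
      have hprodS : 0 < ∏ p ∈ S0, ((p : ℕ) : ℝ) := Finset.prod_pos fun p _ => hppR p
      have h6 : a * cP ν S0 x0 = (R * ∏ p ∈ S0, ((p : ℕ) : ℝ)) / (M * Φ) := by
        have e1 : cP ν S0 x0 = (∏ p ∈ S0, ((p : ℕ) : ℝ)) * ∏ p ∈ S0, (ν p (x0 p : ℕ))⁻¹ := by
          unfold cP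
          rw [Finset.prod_mul_distrib]
        have e2 : (∏ p ∈ S0, ν p (x0 p : ℕ)) * ∏ p ∈ S0, (ν p (x0 p : ℕ))⁻¹ = 1 := by
          rw [← Finset.prod_mul_distrib]
          exact Finset.prod_eq_one fun p hp => mul_inv_cancel₀ (hv p hp)
        rw [e1, ha]
        calc (∏ p ∈ S0, ν p (x0 p : ℕ)) * (R : ℝ) / (M * Φ) * ((∏ p ∈ S0, ((p : ℕ) : ℝ)) *
            ∏ p ∈ S0, (ν p (x0 p : ℕ))⁻¹)
            = ((∏ p ∈ S0, ν p (x0 p : ℕ)) * ∏ p ∈ S0, (ν p (x0 p : ℕ))⁻¹) *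
              ((R * ∏ p ∈ S0, ((p : ℕ) : ℝ)) / (M * Φ)) := by ring
          _ = _ := by rw [e2, one_mul]
      rw [← mul_assoc, h6]
      calc (R * ∏ p ∈ S0, ((p : ℕ) : ℝ)) / (M * Φ) * ∑ n ∈ cA y M R r S0 x0, G n
          ≤ (R * ∏ p ∈ S0, ((p : ℕ) : ℝ)) / (M * Φ) *
            (M * Φ / (R * ∏ p ∈ S0, ((p : ℕ) : ℝ)) * Real.exp (cE P R S0.card)) :=
            mul_le_mul_of_nonneg_left h4 (by positivity)
        _ = Real.exp (cE P R S0.card) := by field_simp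
        _ = _ := by unfold cE; rfl
    · simp only [not_forall, not_not] at hv
      obtain ⟨p, hp, hp0⟩ := hv
      have ha' : a = 0 := by
        rw [ha, Finset.prod_eq_zero hp hp0, zero_mul, zero_div]
      rw [ha', zero_mul]
      exact (Real.exp_pos _).le

end Vale.Agent.P042.TT
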