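import Vale.Agent.P042.TT.Spec

set_option autoImplicit false

/-!
Block CELL, part A: Chinese remainders, Jensen, the growth facts.
-/

namespace Vale.Agent.P042.TT

open Polynomial Finset Vale.Agent.P042.SS Filter

/-! ### linearity of `rho` -/

section prodspace

variable {ι : Type} [Fintype ι] [DecidableEq ι] {Ω : ι → Type} [∀ i, Fintype (Ω i)]

theorem cell_rho_mul (π : ∀ i, Ω i → ℝ) (a : ℝ) (f : (∀ i, Ω i) → ℝ) (S : Finset ι)
    (x : ∀ i, Ω i) : rho π (fun z => a * f z) S x = a * rho π f S x := by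
  unfold rho Ex Ev
  rw [Finset.mul_sum]
  refine Finset.sum_congr rfl fun y _ => ?_
  simp only [smul_eq_mul]
  ring

end prodspace

/-! ### Chinese remainders -/

theorem cell_crt_step (D p : ℕ) (hc : Nat.Coprime p D) (z x : ℤ) :
    ∃ z' : ℤ, ∀ n : ℤ, (n ≡ z' [ZMOD ((p * D : ℕ) : ℤ)]) ↔
      (n ≡ z [ZMOD (D : ℤ)] ∧ n ≡ x [ZMOD (p : ℤ)]) := by
  have hic : IsCoprime (D : ℤ) (p : ℤ) := Nat.isCoprime_iff_coprime.2 hc.symm
  obtain ⟨a, b, hab⟩ := hic
  refine ⟨z + (x - z) * (a * D), fun n => ?_⟩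
  have h1 : z + (x - z) * (a * D) ≡ z [ZMOD (D : ℤ)] := by
    refine (Int.modEq_iff_dvd.2 ⟨-((x - z) * a), by ring⟩)
  have h2 : z + (x - z) * (a * D) ≡ x [ZMOD (p : ℤ)] := by
    refine (Int.modEq_iff_dvd.2 ⟨(x - z) * b, ?_⟩)
    have : a * (D : ℤ) = 1 - b * p := by linarith
    rw [this]; ring
  have hco : (p : ℤ).natAbs.Coprime (D : ℤ).natAbs := by simpa using hc
  constructor
  · intro hn
    have h3 : (n ≡ z + (x - z) * (a * D) [ZMOD (p : ℤ)]) ∧
        (n ≡ z + (x - z) * (a * D) [ZMOD (D : ℤ)]) := by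
      have := (Int.modEq_and_modEq_iff_modEq_mul hco).2 (by simpa using hn)
      exact this
    exact ⟨h3.2.trans h1, h3.1.trans h2⟩
  · rintro ⟨hn1, hn2⟩
    have := (Int.modEq_and_modEq_iff_modEq_mul hco).1
      ⟨hn2.trans h2.symm, hn1.trans h1.symm⟩
    simpa using this

theorem cell_crt {V : Finset ℕ} (hV : ∀ p ∈ V, p.Prime) (R : ℕ) (r : ℤ)
    (hR : ∀ p ∈ V, Nat.Coprime p R) (S : Finset ↥V) (x : ↥V → ℤ) :
    ∃ z : ℤ, ∀ n : ℤ, (n ≡ z [ZMOD ((R * ∏ p ∈ S, (p : ℕ) : ℕ) : ℤ)]) ↔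
      (n ≡ r [ZMOD (R : ℤ)] ∧ ∀ p ∈ S, n ≡ x p [ZMOD ((p : ℕ) : ℤ)]) := by
  classical
  induction S using Finset.induction_on with
  | empty => exact ⟨r, fun n => by simp⟩
  | insert p S hp ih =>
    obtain ⟨z, hz⟩ := ih
    have hc : Nat.Coprime (p : ℕ) (R * ∏ q ∈ S, (q : ℕ)) := by
      refine Nat.Coprime.mul_right (hR p p.2) (Nat.Coprime.prod_right fun q hq => ?_)
      refine (Nat.coprime_primes (hV p p.2) (hV q q.2)).2 fun h => hp ?_
      have : p = q := Subtype.ext h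
      rwa [this]
    obtain ⟨z', hz'⟩ := cell_crt_step _ _ hc z (x p)
    refine ⟨z', fun n => ?_⟩
    have e1 : (R * ∏ q ∈ insert p S, (q : ℕ) : ℕ) = (p : ℕ) * (R * ∏ q ∈ S, (q : ℕ)) := by
      rw [Finset.prod_insert hp]; ring
    rw [e1, hz' n, hz n]
    constructor
    · rintro ⟨⟨h1, h2⟩, h3⟩
      refine ⟨h1, fun q hq => ?_⟩
      rcases Finset.mem_insert.1 hq with h | h
      · rw [h]; exact h3
      · exact h2 q h
    · rintro ⟨h1, h2⟩
      exact ⟨⟨h1, fun q hq => h2 q (Finset.mem_insert_of_mem hq)⟩,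
        h2 p (Finset.mem_insert_self p S)⟩

/-! ### Jensen -/

/-- Jensen for the exponential with weights of total mass `m > 0` -/
theorem cell_jensen {α : Type*} (A : Finset α) (w t : α → ℝ) (m : ℝ) (hm : 0 < m)
    (hw : ∀ n ∈ A, 0 ≤ w n) (hs : ∑ n ∈ A, w n = m) :
    m * Real.exp ((∑ n ∈ A, w n * t n) / m) ≤ ∑ n ∈ A, w n * Real.exp (t n) := by
  set T := (∑ n ∈ A, w n * t n) / m with hT
  have h1 : ∀ n ∈ A, w n * (Real.exp T * (1 + (t n - T))) ≤ w n * Real.exp (t n) := by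
    intro n hn
    refine mul_le_mul_of_nonneg_left ?_ (hw n hn)
    have h2 : Real.exp (t n) = Real.exp T * Real.exp (t n - T) := by
      rw [← Real.exp_add]; congr 1; ring
    rw [h2]
    refine mul_le_mul_of_nonneg_left ?_ (Real.exp_pos T).le
    linarith [Real.add_one_le_exp (t n - T)]
  have h3 := Finset.sum_le_sum h1
  have h4 : ∑ n ∈ A, w n * (Real.exp T * (1 + (t n - T))) =
      Real.exp T * ((∑ n ∈ A, w n) * (1 - T) + ∑ n ∈ A, w n * t n) := by
    rw [Finset.sum_mul, ← Finset.sum_add_distrib, Finset.mul_sum]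
    refine Finset.sum_congr rfl fun n _ => ?_
    ring
  have h5 : ∑ n ∈ A, w n * t n = m * T := by
    rw [hT]; field_simp
  rw [h4, hs, h5] at h3
  calc m * Real.exp T = Real.exp T * (m * (1 - T) + m * T) := by ring
    _ ≤ _ := h3

/-- the form used for products of powers -/
theorem cell_jensen' {α : Type*} (A : Finset α) (G : α → ℝ) (m τ : ℝ) (hm : 0 < m)
    (U : Finset ℕ) (F : ℕ → α → ℝ)
    (hw : ∀ n ∈ A, 0 ≤ G n) (hs : ∑ n ∈ A, G n = m)
    (hF : ∀ p ∈ U, ∀ n ∈ A, G n ≠ 0 → 0 < F p n) :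
    m * Real.exp (τ * (∑ p ∈ U, (∑ n ∈ A, G n * Real.log (F p n)) / m)) ≤
      ∑ n ∈ A, G n * ∏ p ∈ U, (F p n) ^ τ := by
  have h1 := cell_jensen A G (fun n => τ * ∑ p ∈ U, Real.log (F p n)) m hm hw hs
  have h2 : (∑ n ∈ A, G n * (τ * ∑ p ∈ U, Real.log (F p n))) / m =
      τ * (∑ p ∈ U, (∑ n ∈ A, G n * Real.log (F p n)) / m) := by
    rw [← Finset.sum_div, ← mul_div_assoc]
    congr 1
    rw [Finset.sum_comm, Finset.mul_sum]
    refine Finset.sum_congr rfl fun n _ => ?_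
    rw [Finset.mul_sum, Finset.mul_sum, Finset.mul_sum]
    refine Finset.sum_congr rfl fun p _ => ?_
    ring
  rw [h2] at h1
  refine h1.trans (Finset.sum_le_sum fun n hn => ?_)
  by_cases hG : G n = 0
  · simp [hG]
  · refine le_of_eq ?_
    congr 1
    rw [Finset.mul_sum, Real.exp_sum]
    refine Finset.prod_congr rfl fun p hp => ?_
    rw [Real.rpow_def_of_pos (hF p hp n hn hG)]
    congr 1; ring

end Vale.Agent.P042.TT
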