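import Vale.Agent.P042.TT.CellA

set_option autoImplicit false

/-!
Block CELL, part B: the growth facts and the size of the cost factor.
-/

namespace Vale.Agent.P042.TT

open Polynomial Finset Vale.Agent.P042.SS Filter

/-- growth facts used by the block -/
structure CellBig (k : ℕ) (P : ℝ) : Prop where
  P4 : 4 ≤ P
  size : (k : ℝ) * (P ^ (0.63 : ℝ) + P ^ (0.995 : ℝ)) + (P / 2 + 1) ≤ 7 / 8 * P - Real.log P
  etalog : eta2 P * Real.log P ≤ 1 / 10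
  etak : eta2 P * k ≤ b2 P
  etakl : eta2 P * k * (1.04 * Real.log P) ≤ b2 P / 2
  w3 : 3 ≤ P ^ (0.97 : ℝ)

theorem cell_big (k : ℕ) : ∀ᶠ P : ℝ in atTop, CellBig k P := by
  have hlog : ∀ (c : ℝ) (s : ℝ), 0 < c → 0 < s → ∀ᶠ P : ℝ in atTop, Real.log P ≤ c * P ^ s := by
    intro c s hc hs
    have h := (isLittleO_log_rpow_atTop hs).bound hc
    filter_upwards [h, eventually_ge_atTop 1] with P hP hP1
    have h1 : 0 ≤ Real.log P := Real.log_nonneg hP1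
    have h2 : 0 ≤ P ^ s := Real.rpow_nonneg (by linarith) s
    rwa [Real.norm_of_nonneg h1, Real.norm_of_nonneg h2] at hP
  have hneg : ∀ (c : ℝ) (s : ℝ), 0 < c → 0 < s → ∀ᶠ P : ℝ in atTop, P ^ (-s) ≤ c := by
    intro c s hc hs
    have h := tendsto_rpow_neg_atTop hs
    exact (h.eventually (gt_mem_nhds hc)).mono fun P hP => hP.le
  have hk : (0 : ℝ) < 1 / (16 * (k + 1)) := by positivity
  filter_upwards [eventually_ge_atTop 16, hlog (1 / 16) 1 (by norm_num) one_pos,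
    hneg (1 / (16 * (k + 1))) 0.005 hk (by norm_num), hneg (1 / (16 * (k + 1))) 0.37 hk (by norm_num),
    hlog (1 / 10) 0.489 (by norm_num) (by norm_num),
    hneg (1 / (16 * (k + 1))) 0.001 hk (by norm_num),
    hlog (1 / (4 * (k + 1))) 0.001 (by positivity) (by norm_num)] with P hP hl h5 h37 hl4 h1 hl1
  have hP0 : 0 < P := by linarith
  have hk0 : (0 : ℝ) ≤ k := Nat.cast_nonneg k
  have hk1 : (0 : ℝ) < k + 1 := by positivity
  have hlog0 : 0 ≤ Real.log P := Real.log_nonneg (by linarith)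
  have hkk : (k : ℝ) * (1 / (16 * (k + 1))) ≤ 1 / 16 := by
    rw [mul_one_div, div_le_div_iff₀ (by positivity) (by norm_num)]
    nlinarith
  refine ⟨by linarith, ?_, ?_, ?_, ?_, ?_⟩
  · have e1 : P ^ (0.63 : ℝ) = P * P ^ (-(0.37 : ℝ)) := by
      rw [← Real.rpow_one_add' hP0.le (by norm_num)]; norm_num
    have e2 : P ^ (0.995 : ℝ) = P * P ^ (-(0.005 : ℝ)) := by
      rw [← Real.rpow_one_add' hP0.le (by norm_num)]; norm_num
    have e3 : (k : ℝ) * P ^ (0.63 : ℝ) ≤ P * (1 / 16) := by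
      rw [e1]
      calc (k : ℝ) * (P * P ^ (-(0.37 : ℝ))) ≤ k * (P * (1 / (16 * (k + 1)))) := by gcongr
        _ = P * (k * (1 / (16 * (k + 1)))) := by ring
        _ ≤ P * (1 / 16) := by gcongr
    have e4 : (k : ℝ) * P ^ (0.995 : ℝ) ≤ P * (1 / 16) := by
      rw [e2]
      calc (k : ℝ) * (P * P ^ (-(0.005 : ℝ))) ≤ k * (P * (1 / (16 * (k + 1)))) := by gcongr
        _ = P * (k * (1 / (16 * (k + 1)))) := by ring
        _ ≤ P * (1 / 16) := by gcongr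
    rw [Real.rpow_one] at hl
    linarith [mul_add (k : ℝ) (P ^ (0.63 : ℝ)) (P ^ (0.995 : ℝ))]
  · unfold eta2
    calc P ^ (-0.489 : ℝ) * Real.log P ≤ P ^ (-0.489 : ℝ) * (1 / 10 * P ^ (0.489 : ℝ)) := by
          gcongr
      _ = 1 / 10 * (P ^ (-0.489 : ℝ) * P ^ (0.489 : ℝ)) := by ring
      _ = 1 / 10 := by rw [← Real.rpow_add hP0]; norm_num
  · unfold eta2 b2
    have e5 : P ^ (-0.489 : ℝ) = P ^ (-0.488 : ℝ) * P ^ (-(0.001 : ℝ)) := by
      rw [← Real.rpow_add hP0]; norm_num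
    rw [e5]
    calc P ^ (-0.488 : ℝ) * P ^ (-(0.001 : ℝ)) * k
        ≤ P ^ (-0.488 : ℝ) * (1 / (16 * (k + 1))) * k := by gcongr
      _ = P ^ (-0.488 : ℝ) * (k * (1 / (16 * (k + 1)))) := by ring
      _ ≤ P ^ (-0.488 : ℝ) * (1 / 16) := by gcongr
      _ ≤ P ^ (-0.488 : ℝ) := by
        have := Real.rpow_nonneg hP0.le (-0.488 : ℝ)
        linarith
  · unfold eta2 b2
    have e5 : P ^ (-0.489 : ℝ) = P ^ (-0.488 : ℝ) * P ^ (-(0.001 : ℝ)) := by
      rw [← Real.rpow_add hP0]; norm_num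
    have e6 : P ^ (-(0.001 : ℝ)) * P ^ (0.001 : ℝ) = 1 := by
      rw [← Real.rpow_add hP0]; norm_num
    have e7 : (k : ℝ) * (1 / (4 * (k + 1))) ≤ 1 / 4 := by
      rw [mul_one_div, div_le_div_iff₀ (by positivity) (by norm_num)]
      nlinarith
    rw [e5]
    calc P ^ (-0.488 : ℝ) * P ^ (-(0.001 : ℝ)) * k * (1.04 * Real.log P)
        ≤ P ^ (-0.488 : ℝ) * P ^ (-(0.001 : ℝ)) * k *
            (1.04 * (1 / (4 * (k + 1)) * P ^ (0.001 : ℝ))) := by gcongr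
      _ = P ^ (-0.488 : ℝ) * (P ^ (-(0.001 : ℝ)) * P ^ (0.001 : ℝ)) * 1.04 *
            (k * (1 / (4 * (k + 1)))) := by ring
      _ = P ^ (-0.488 : ℝ) * 1.04 * (k * (1 / (4 * (k + 1)))) := by rw [e6, mul_one]
      _ ≤ P ^ (-0.488 : ℝ) * 1.04 * (1 / 4) := by gcongr
      _ ≤ P ^ (-0.488 : ℝ) / 2 := by
        have := Real.rpow_nonneg hP0.le (-0.488 : ℝ)
        linarith
  · have h97 : (16 : ℝ) ^ (0.97 : ℝ) ≤ P ^ (0.97 : ℝ) :=
      Real.rpow_le_rpow (by norm_num) hP (by norm_num)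
    have h98 : (16 : ℝ) ^ (0.5 : ℝ) ≤ (16 : ℝ) ^ (0.97 : ℝ) :=
      Real.rpow_le_rpow_of_exponent_le (by norm_num) (by norm_num)
    have h99 : (16 : ℝ) ^ (0.5 : ℝ) = 4 := by
      rw [show (16 : ℝ) = 4 ^ (2 : ℝ) by norm_num, ← Real.rpow_mul (by norm_num)]
      norm_num
    linarith

/-- elements of the window -/
theorem W2_mem {P : ℝ} {p : ℕ} (hp : p ∈ W2 P) :
    p.Prime ∧ ⌊P ^ (0.97 : ℝ)⌋₊ < p ∧ p ≤ ⌊P ^ (1.04 : ℝ)⌋₊ := by
  unfold W2 Wp at hp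
  rw [Finset.mem_filter, Finset.mem_Ioc] at hp
  exact ⟨hp.2, hp.1.1, hp.1.2⟩

theorem W2_le {P : ℝ} (hP : 0 ≤ P) {p : ℕ} (hp : p ∈ W2 P) : (p : ℝ) ≤ P ^ (1.04 : ℝ) :=
  (Nat.cast_le.2 (W2_mem hp).2.2).trans (Nat.floor_le (Real.rpow_nonneg hP _))

theorem W2_three {k : ℕ} {P : ℝ} (hB : CellBig k P) {p : ℕ} (hp : p ∈ W2 P) : 3 ≤ p := by
  have h1 : 3 ≤ ⌊P ^ (0.97 : ℝ)⌋₊ := Nat.le_floor (by exact_mod_cast hB.w3)
  have := (W2_mem hp).2.1
  omega

theorem W2_log_one {k : ℕ} {P : ℝ} (hB : CellBig k P) {p : ℕ} (hp : p ∈ W2 P) :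
    1 ≤ Real.log p := by
  have h3 : (3 : ℝ) ≤ p := by exact_mod_cast W2_three hB hp
  rw [Real.le_log_iff_exp_le (by linarith)]
  have := Real.exp_one_lt_d9
  linarith

theorem W2_log_le {k : ℕ} {P : ℝ} (hB : CellBig k P) {p : ℕ} (hp : p ∈ W2 P) :
    Real.log p ≤ 1.04 * Real.log P := by
  have hP0 : 0 < P := by linarith [hB.P4]
  have h1 : (0 : ℝ) < p := by exact_mod_cast (W2_mem hp).1.pos
  calc Real.log p ≤ Real.log (P ^ (1.04 : ℝ)) := Real.log_le_log h1 (W2_le hP0.le hp)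
    _ = 1.04 * Real.log P := Real.log_rpow hP0 _

/-- number of primes of the window dividing `R` -/
theorem W2_card_dvd {k : ℕ} {P : ℝ} (hB : CellBig k P) {R : ℕ} (hR : 1 ≤ R) :
    (((W2 P).filter (fun p => p ∣ R)).card : ℝ) ≤ Real.log R := by
  have h1 : (∏ p ∈ (W2 P).filter (fun p => p ∣ R), p) ∣ R := by
    refine Finset.prod_primes_dvd R ?_ ?_
    · intro p hp
      exact Nat.Prime.prime (W2_mem (Finset.mem_filter.1 hp).1).1
    · intro p hp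
      exact (Finset.mem_filter.1 hp).2
  have h2 : ((∏ p ∈ (W2 P).filter (fun p => p ∣ R), p : ℕ) : ℝ) ≤ R := by
    exact_mod_cast Nat.le_of_dvd hR h1
  have h3 : Real.log ((∏ p ∈ (W2 P).filter (fun p => p ∣ R), p : ℕ) : ℝ) =
      ∑ p ∈ (W2 P).filter (fun p => p ∣ R), Real.log p := by
    rw [Nat.cast_prod, Real.log_prod]
    intro p hp
    have := (W2_mem (Finset.mem_filter.1 hp).1).1.pos
    positivity
  have h4 : (0 : ℝ) < ((∏ p ∈ (W2 P).filter (fun p => p ∣ R), p : ℕ) : ℝ) := by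
    rw [Nat.cast_prod]
    refine Finset.prod_pos fun p hp => ?_
    have := (W2_mem (Finset.mem_filter.1 hp).1).1.pos
    positivity
  calc (((W2 P).filter (fun p => p ∣ R)).card : ℝ)
      = ∑ _p ∈ (W2 P).filter (fun p => p ∣ R), (1 : ℝ) := by simp
    _ ≤ ∑ p ∈ (W2 P).filter (fun p => p ∣ R), Real.log p :=
        Finset.sum_le_sum fun p hp => W2_log_one hB (Finset.mem_filter.1 hp).1
    _ = Real.log ((∏ p ∈ (W2 P).filter (fun p => p ∣ R), p : ℕ) : ℝ) := h3.symm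
    _ ≤ Real.log R := Real.log_le_log h4 h2

end Vale.Agent.P042.TT
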