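import Vale.Agent.P042.TT.CellB

set_option autoImplicit false

/-!
Block CELL, part C: the cost factor of the KLV inequality.
-/

namespace Vale.Agent.P042.TT

open Polynomial Finset Vale.Agent.P042.SS Filter

theorem tau2_bds {P : ℝ} (hP : 4 ≤ P) : 0 < tau2 P ∧ tau2 P ≤ 1 / 2 := by
  have hJ : 1 ≤ J2 P := by
    unfold J2
    exact Nat.one_le_ceil_iff.2 (Real.rpow_pos_of_pos (by linarith) _)
  have hJ' : (1 : ℝ) ≤ J2 P := by exact_mod_cast hJ
  unfold tau2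
  refine ⟨by positivity, ?_⟩
  rw [div_le_div_iff₀ (by positivity) (by norm_num)]
  linarith

theorem b2_nonneg {P : ℝ} (hP : 4 ≤ P) : 0 ≤ b2 P := Real.rpow_nonneg (by linarith) _

theorem cell_D_size {k : ℕ} {P : ℝ} (hB : CellBig k P) {N' Nmin M D : ℕ}
    (hN : Real.exp (7 / 8 * P) ≤ N') (hM : (N' : ℝ) ≤ P * M)
    (hmin : (Nmin : ℝ) ≤ Real.exp (P / 2) + 1) (hD1 : 1 ≤ D)
    (hD : Real.log D ≤ P ^ (0.63 : ℝ) + P ^ (0.995 : ℝ)) :
    D ^ k * Nmin ≤ M ∧ (D : ℝ) ^ k ≤ M := by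
  have hP0 : 0 < P := by linarith [hB.P4]
  have hD0 : (0 : ℝ) < D := by exact_mod_cast hD1
  have h1 : (D : ℝ) ^ k ≤ Real.exp (k * (P ^ (0.63 : ℝ) + P ^ (0.995 : ℝ))) := by
    rw [← Real.exp_log (pow_pos hD0 k), Real.log_pow]
    exact Real.exp_le_exp.2 (mul_le_mul_of_nonneg_left hD (Nat.cast_nonneg k))
  have h2 : Real.exp (P / 2) + 1 ≤ Real.exp (P / 2 + 1) := by
    rw [Real.exp_add]
    have h3 : (2 : ℝ) ≤ Real.exp 1 := by linarith [Real.add_one_le_exp (1 : ℝ)]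
    have h4 : (1 : ℝ) ≤ Real.exp (P / 2) := Real.one_le_exp (by linarith)
    nlinarith
  have h5 : (M : ℝ) ≥ Real.exp (7 / 8 * P - Real.log P) := by
    rw [Real.exp_sub, Real.exp_log hP0, ge_iff_le, div_le_iff₀ hP0]
    linarith [hN.trans hM]
  have h6 : Real.exp (k * (P ^ (0.63 : ℝ) + P ^ (0.995 : ℝ))) * Real.exp (P / 2 + 1) ≤ M := by
    rw [← Real.exp_add]
    exact (Real.exp_le_exp.2 hB.size).trans h5
  have h7 : (D : ℝ) ^ k * Nmin ≤ M := by
    refine le_trans ?_ h6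
    exact mul_le_mul h1 (hmin.trans h2) (Nat.cast_nonneg _) (Real.exp_pos _).le
  refine ⟨by exact_mod_cast h7, ?_⟩
  refine le_trans ?_ h6
  calc (D : ℝ) ^ k = (D : ℝ) ^ k * 1 := (mul_one _).symm
    _ ≤ Real.exp (k * (P ^ (0.63 : ℝ) + P ^ (0.995 : ℝ))) * Real.exp (P / 2 + 1) :=
      mul_le_mul h1 (Real.one_le_exp (by linarith)) zero_le_one (Real.exp_pos _).le

theorem cell_filter_card {k : ℕ} {P : ℝ} (hB : CellBig k P) {R : ℕ} (hR : 1 ≤ R)
    (T : Finset ℕ) (hT : T ⊆ W2 P) :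
    (((W2 P).filter (fun p => p ∣ R * ∏ q ∈ T, q)).card : ℝ) ≤ T.card + Real.log R := by
  classical
  have h1 : (W2 P).filter (fun p => p ∣ R * ∏ q ∈ T, q) ⊆
      T ∪ (W2 P).filter (fun p => p ∣ R) := by
    intro p hp
    rw [Finset.mem_filter] at hp
    have hpp := (W2_mem hp.1).1
    rcases (Nat.Prime.dvd_mul hpp).1 hp.2 with h | h
    · exact Finset.mem_union_right _ (Finset.mem_filter.2 ⟨hp.1, h⟩)
    · obtain ⟨q, hq, hpq⟩ := (Prime.dvd_finsetProd_iff hpp.prime _).1 h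
      have : p = q := (Nat.prime_dvd_prime_iff_eq hpp (W2_mem (hT hq)).1).1 hpq
      rw [this]
      exact Finset.mem_union_left _ hq
  have h2 : ((W2 P).filter (fun p => p ∣ R * ∏ q ∈ T, q)).card ≤
      T.card + ((W2 P).filter (fun p => p ∣ R)).card :=
    (Finset.card_le_card h1).trans (Finset.card_union_le _ _)
  calc (((W2 P).filter (fun p => p ∣ R * ∏ q ∈ T, q)).card : ℝ)
      ≤ T.card + ((W2 P).filter (fun p => p ∣ R)).card := by exact_mod_cast h2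
    _ ≤ T.card + Real.log R := by linarith [W2_card_dvd hB hR]

/-- the cost factor -/
noncomputable def costK (P : ℝ) (k N' M D : ℕ) (ν : ℕ → ℤ → ℝ) (z : ℤ) : ℝ :=
  (1 + (D : ℝ) ^ k / M) * ((N' * (D : ℝ) ^ k / M) ^ (eta2 P)) *
      Real.exp (1 / 8 * ∑ p ∈ (W2 P).filter (fun p => p ∣ D), zf ν p) *
      ∏ p ∈ (W2 P).filter (fun p => p ∣ D), (ν p z) ^ (tau2 P)

theorem cell_cost {k : ℕ} {P : ℝ} (hB : CellBig k P) {N' M R : ℕ} (T : Finset ℕ)
    (hT : T ⊆ W2 P) (hR : 1 ≤ R) (hN : 0 < N') (hM : (N' : ℝ) ≤ P * M)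
    (hDM : ((R * ∏ p ∈ T, p : ℕ) : ℝ) ^ k ≤ M) (ν : ℕ → ℤ → ℝ) (hν0 : ∀ p n, 0 ≤ ν p n)
    (hν : ∀ p ∈ W2 P, ∀ x, ν p x ≤ Real.exp (b2 P)) (hzf : ∀ p ∈ W2 P, zf ν p ≤ b2 P) (z : ℤ) :
    costK P k N' M (R * ∏ p ∈ T, p) ν z ≤
      Real.exp (2 + 5 * b2 P * Real.log R + 2 * b2 P * (T.card : ℝ)) := by
  have hP0 : 0 < P := by linarith [hB.P4]
  have hb0 := b2_nonneg hB.P4
  obtain ⟨hτ0, hτ1⟩ := tau2_bds hB.P4
  set D : ℕ := R * ∏ p ∈ T, p with hDdef
  have hTpos : 0 < ∏ p ∈ T, p := Finset.prod_pos fun p hp => (W2_mem (hT hp)).1.pos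
  have hD1 : 1 ≤ D := Nat.mul_pos hR hTpos
  have hD0 : (0 : ℝ) < D := by exact_mod_cast hD1
  have hDk : 0 < (D : ℝ) ^ k := pow_pos hD0 k
  have hM0 : (0 : ℝ) < M := by
    have : (0 : ℝ) < P * M := lt_of_lt_of_le (by exact_mod_cast hN) hM
    exact (mul_pos_iff_of_pos_left hP0).1 this
  have hR0 : (0 : ℝ) < R := by exact_mod_cast hR
  have hlR : 0 ≤ Real.log R := Real.log_nonneg (by exact_mod_cast hR)
  -- factor 1
  have f1 : 1 + (D : ℝ) ^ k / M ≤ Real.exp 1 := by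
    have h1 : (D : ℝ) ^ k / M ≤ 1 := (div_le_one hM0).2 hDM
    linarith [Real.add_one_le_exp (1 : ℝ)]
  have hη0 : 0 ≤ eta2 P := Real.rpow_nonneg hP0.le _
  -- log of D
  have hlD : Real.log D = Real.log R + ∑ p ∈ T, Real.log p := by
    rw [hDdef, Nat.cast_mul, Real.log_mul hR0.ne' (by exact_mod_cast hTpos.ne'), Nat.cast_prod,
      Real.log_prod]
    intro p hp
    have := (W2_mem (hT hp)).1.pos
    positivity
  have hlT : ∑ p ∈ T, Real.log p ≤ T.card * (1.04 * Real.log P) := by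
    calc ∑ p ∈ T, Real.log p ≤ ∑ _p ∈ T, 1.04 * Real.log P :=
          Finset.sum_le_sum fun p hp => W2_log_le hB (hT hp)
      _ = T.card * (1.04 * Real.log P) := by rw [Finset.sum_const, nsmul_eq_mul]
  have f2 : (N' * (D : ℝ) ^ k / M) ^ (eta2 P) ≤
      Real.exp (1 / 10 + b2 P * Real.log R + b2 P / 2 * T.card) := by
    have h1 : (N' * (D : ℝ) ^ k / M) ≤ P * (D : ℝ) ^ k := by
      rw [div_le_iff₀ hM0]
      calc (N' : ℝ) * (D : ℝ) ^ k ≤ (P * M) * (D : ℝ) ^ k := by gcongr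
        _ = P * (D : ℝ) ^ k * M := by ring
    have h2 : 0 ≤ (N' * (D : ℝ) ^ k / M) := by positivity
    refine (Real.rpow_le_rpow h2 h1 hη0).trans ?_
    have h3 : (P * (D : ℝ) ^ k) ^ (eta2 P) =
        Real.exp (eta2 P * (Real.log P + k * Real.log D)) := by
      rw [Real.rpow_def_of_pos (by positivity), Real.log_mul hP0.ne' hDk.ne', Real.log_pow]
      congr 1; ring
    rw [h3]
    refine Real.exp_le_exp.2 ?_
    have h4 : eta2 P * (k * Real.log R) ≤ b2 P * Real.log R := by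
      calc eta2 P * (k * Real.log R) = (eta2 P * k) * Real.log R := by ring
        _ ≤ b2 P * Real.log R := by gcongr; exact hB.etak
    have h5 : eta2 P * (k * ∑ p ∈ T, Real.log p) ≤ b2 P / 2 * T.card := by
      calc eta2 P * (k * ∑ p ∈ T, Real.log p)
          ≤ eta2 P * (k * (T.card * (1.04 * Real.log P))) := by gcongr
        _ = (eta2 P * k * (1.04 * Real.log P)) * T.card := by ring
        _ ≤ b2 P / 2 * T.card := by gcongr; exact hB.etakl
    rw [hlD]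
    have := hB.etalog
    nlinarith
  -- number of primes
  set n : ℝ := (((W2 P).filter (fun p => p ∣ D)).card : ℝ) with hn
  have hncard : n ≤ T.card + Real.log R := cell_filter_card hB hR T hT
  have f3 : Real.exp (1 / 8 * ∑ p ∈ (W2 P).filter (fun p => p ∣ D), zf ν p) ≤
      Real.exp (1 / 8 * (b2 P * n)) := by
    refine Real.exp_le_exp.2 (mul_le_mul_of_nonneg_left ?_ (by norm_num))
    calc ∑ p ∈ (W2 P).filter (fun p => p ∣ D), zf ν p
        ≤ ∑ _p ∈ (W2 P).filter (fun p => p ∣ D), b2 P :=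
          Finset.sum_le_sum fun p hp => hzf p (Finset.mem_filter.1 hp).1
      _ = b2 P * n := by rw [Finset.sum_const, nsmul_eq_mul, mul_comm]
  have f4 : ∏ p ∈ (W2 P).filter (fun p => p ∣ D), (ν p z) ^ (tau2 P) ≤
      Real.exp (1 / 2 * (b2 P * n)) := by
    calc ∏ p ∈ (W2 P).filter (fun p => p ∣ D), (ν p z) ^ (tau2 P)
        ≤ ∏ _p ∈ (W2 P).filter (fun p => p ∣ D), Real.exp (1 / 2 * b2 P) := by
          refine Finset.prod_le_prod (fun p _ => Real.rpow_nonneg (hν0 p z) _) fun p hp => ?_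
          have h1 := hν p (Finset.mem_filter.1 hp).1 z
          calc (ν p z) ^ (tau2 P) ≤ (Real.exp (b2 P)) ^ (tau2 P) :=
                Real.rpow_le_rpow (hν0 p z) h1 hτ0.le
            _ = Real.exp (b2 P * tau2 P) := by rw [← Real.exp_mul]
            _ ≤ Real.exp (1 / 2 * b2 P) := Real.exp_le_exp.2 (by nlinarith)
      _ = Real.exp (1 / 2 * (b2 P * n)) := by
          rw [Finset.prod_const, ← Real.exp_nat_mul]
          congr 1
          rw [hn]; ring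
  unfold costK
  have g1 : 0 ≤ 1 + (D : ℝ) ^ k / M := by positivity
  have g2 : 0 ≤ (N' * (D : ℝ) ^ k / M) ^ (eta2 P) := by positivity
  have g4 : 0 ≤ ∏ p ∈ (W2 P).filter (fun p => p ∣ D), (ν p z) ^ (tau2 P) :=
    Finset.prod_nonneg fun p _ => Real.rpow_nonneg (hν0 p z) _
  calc (1 + (D : ℝ) ^ k / M) * ((N' * (D : ℝ) ^ k / M) ^ (eta2 P)) *
        Real.exp (1 / 8 * ∑ p ∈ (W2 P).filter (fun p => p ∣ D), zf ν p) *
        ∏ p ∈ (W2 P).filter (fun p => p ∣ D), (ν p z) ^ (tau2 P)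
      ≤ Real.exp 1 * Real.exp (1 / 10 + b2 P * Real.log R + b2 P / 2 * T.card) *
        Real.exp (1 / 8 * (b2 P * n)) * Real.exp (1 / 2 * (b2 P * n)) := by
        gcongr
    _ = Real.exp (1 + (1 / 10 + b2 P * Real.log R + b2 P / 2 * T.card) +
          1 / 8 * (b2 P * n) + 1 / 2 * (b2 P * n)) := by
        rw [← Real.exp_add, ← Real.exp_add, ← Real.exp_add]
    _ ≤ _ := by
        refine Real.exp_le_exp.2 ?_
        have h1 : b2 P * n ≤ b2 P * (T.card + Real.log R) :=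
          mul_le_mul_of_nonneg_left hncard hb0
        have h2 : 0 ≤ b2 P * Real.log R := mul_nonneg hb0 hlR
        have h3 : 0 ≤ b2 P * (T.card : ℝ) := mul_nonneg hb0 (Nat.cast_nonneg _)
        nlinarith

end Vale.Agent.P042.TT
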