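import Vale.Agent.P042.TT.CellC

set_option autoImplicit false

/-!
Block CELL, part D: the fibre functions and the sum of the relative entropies.
-/

namespace Vale.Agent.P042.TT

open Polynomial Finset Vale.Agent.P042.SS Filter

theorem cell_per {f : ℤ → ℝ} {p : ℕ} (hf : ∀ n, f (n + p) = f n) {a b : ℤ}
    (h : a ≡ b [ZMOD (p : ℤ)]) : f a = f b := by
  have hper : Function.Periodic f (p : ℤ) := hf
  obtain ⟨c, hc⟩ := h.dvd
  have : b = a + c * p := by linarith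
  rw [this]
  exact ((hper.int_mul c) a).symm

/-- grouping by residues -/
theorem cell_group (A : Finset ℤ) (p : ℕ) (hp : 0 < p) (g : ℤ → ℝ) :
    ∑ z : Fin p, ∑ n ∈ A.filter (fun n : ℤ => n ≡ ((z : ℕ) : ℤ) [ZMOD (p : ℤ)]), g n =
      ∑ n ∈ A, g n := by
  have hp' : (p : ℤ) ≠ 0 := by exact_mod_cast hp.ne'
  have hp0 : (0 : ℤ) < p := by exact_mod_cast hp
  have hlt : ∀ n : ℤ, (n % (p : ℤ)).toNat < p := fun n => by
    have h1 := Int.emod_nonneg n hp'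
    have h2 := Int.emod_lt_of_pos n hp0
    omega
  rw [← Finset.sum_fiberwise_of_maps_to (s := A) (t := (univ : Finset (Fin p)))
    (g := fun n => (⟨(n % (p : ℤ)).toNat, hlt n⟩ : Fin p)) (fun _ _ => Finset.mem_univ _)]
  refine Finset.sum_congr rfl fun z _ => ?_
  refine Finset.sum_congr ?_ fun _ _ => rfl
  refine Finset.filter_congr fun n _ => ?_
  have h1 := Int.emod_nonneg n hp'
  have hz : ((z : ℕ) : ℤ) % (p : ℤ) = ((z : ℕ) : ℤ) :=
    Int.emod_eq_of_lt (Int.natCast_nonneg _) (by exact_mod_cast z.2)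
  constructor
  · intro h
    have h2 : n % (p : ℤ) = ((z : ℕ) : ℤ) := by
      have h3 : n % (p : ℤ) = ((z : ℕ) : ℤ) % (p : ℤ) := h
      rw [h3, hz]
    apply Fin.ext
    simp only [h2, Int.toNat_natCast]
  · intro h
    have h2 : (n % (p : ℤ)).toNat = (z : ℕ) := by
      have := congrArg Fin.val h
      simpa using this
    have h3 : n % (p : ℤ) = ((z : ℕ) : ℤ) := by
      rw [← h2]; exact (Int.toNat_of_nonneg h1).symm
    show n % (p : ℤ) = ((z : ℕ) : ℤ) % (p : ℤ)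
    rw [h3, hz]

section fibre

variable (A : Finset ℤ) (G : ℤ → ℝ) (m : ℝ) (ν : ℕ → ℤ → ℝ)

/-- relative density of the law of `n mod p` -/
noncomputable def cF (p : ℕ) (n : ℤ) : ℝ :=
  (p : ℝ) * (ν p n)⁻¹ * (∑ n' ∈ A.filter (fun n' : ℤ => n' ≡ n [ZMOD (p : ℤ)]), G n') / m

variable {A G m ν}

theorem cF_nonneg (hG : ∀ n, 0 ≤ G n) (hm : 0 < m) (hν : ∀ p n, 0 ≤ ν p n) (p : ℕ) (n : ℤ) :
    0 ≤ cF A G m ν p n := by
  unfold cF
  have h1 : 0 ≤ ∑ n' ∈ A.filter (fun n' : ℤ => n' ≡ n [ZMOD (p : ℤ)]), G n' :=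
    Finset.sum_nonneg fun n _ => hG n
  have h2 := inv_nonneg.2 (hν p n)
  positivity

theorem cF_per {p : ℕ} (hper : ∀ n, ν p (n + p) = ν p n) (n : ℤ) :
    cF A G m ν p (n + p) = cF A G m ν p n := by
  unfold cF
  rw [hper n]
  congr 2
  refine Finset.sum_congr (Finset.filter_congr fun n' _ => ?_) fun _ _ => rfl
  constructor
  · intro h; exact h.trans (by simp [Int.ModEq])
  · intro h; exact h.trans (by simp [Int.ModEq])

theorem cF_mul {p : ℕ} (hper : ∀ n, ν p (n + p) = ν p n)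
    (hGν : ∀ n, G n ≠ 0 → ν p n ≠ 0) (n : ℤ) :
    ν p n * cF A G m ν p n =
      p * ((∑ n' ∈ A.filter (fun n' : ℤ => n' ≡ n [ZMOD (p : ℤ)]), G n') / m) := by
  unfold cF
  by_cases h : ν p n = 0
  · have h1 : ∑ n' ∈ A.filter (fun n' : ℤ => n' ≡ n [ZMOD (p : ℤ)]), G n' = 0 := by
      refine Finset.sum_eq_zero fun n' hn' => ?_
      by_contra h2
      exact hGν n' h2 ((cell_per hper (Finset.mem_filter.1 hn').2).trans h)
    rw [h, h1]; simp
  · field_simp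

theorem cF_sum {p : ℕ} (hp : 0 < p) (hper : ∀ n, ν p (n + p) = ν p n)
    (hGν : ∀ n, G n ≠ 0 → ν p n ≠ 0) (hm : 0 < m) (hs : ∑ n ∈ A, G n = m) :
    ∑ z ∈ range p, ν p z * cF A G m ν p z = p := by
  rw [← Fin.sum_univ_eq_sum_range (fun z : ℕ => ν p z * cF A G m ν p z)]
  have h1 : ∀ z : Fin p, ν p ((z : ℕ) : ℤ) * cF A G m ν p ((z : ℕ) : ℤ) =
      p * ((∑ n' ∈ A.filter (fun n' : ℤ => n' ≡ ((z : ℕ) : ℤ) [ZMOD (p : ℤ)]), G n') / m) :=
    fun z => cF_mul hper hGν _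
  rw [Finset.sum_congr rfl fun z _ => h1 z, ← Finset.mul_sum, ← Finset.sum_div,
    cell_group A p hp G, hs, div_self hm.ne', mul_one]

theorem cF_pos {p : ℕ} (hp : 0 < p) (hG : ∀ n, 0 ≤ G n) (hν : ∀ p n, 0 ≤ ν p n)
    (hGν : ∀ n, G n ≠ 0 → ν p n ≠ 0) (hm : 0 < m) {n : ℤ} (hn : n ∈ A) (hGn : G n ≠ 0) :
    0 < cF A G m ν p n := by
  unfold cF
  have h0 : (0 : ℝ) < p := by exact_mod_cast hp
  have h1 : 0 < ν p n := lt_of_le_of_ne (hν p n) (Ne.symm (hGν n hGn))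
  have h2 : G n ≤ ∑ n' ∈ A.filter (fun n' : ℤ => n' ≡ n [ZMOD (p : ℤ)]), G n' :=
    Finset.single_le_sum (f := G) (fun n _ => hG n)
      (Finset.mem_filter.2 ⟨hn, Int.ModEq.refl n⟩)
  have h3 : 0 < G n := lt_of_le_of_ne (hG n) (Ne.symm hGn)
  have h4 := lt_of_lt_of_le h3 h2
  positivity

/-- relative entropy of the law of `n mod p` -/
theorem cF_ent {p : ℕ} (hp : 0 < p) (hper : ∀ n, ν p (n + p) = ν p n)
    (hGν : ∀ n, G n ≠ 0 → ν p n ≠ 0) :
    ∑ z : Fin p, ν p ((z : ℕ) : ℤ) / p *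
        (cF A G m ν p ((z : ℕ) : ℤ) * Real.log (cF A G m ν p ((z : ℕ) : ℤ))) =
      (∑ n ∈ A, G n * Real.log (cF A G m ν p n)) / m := by
  have hp0 : (p : ℝ) ≠ 0 := by exact_mod_cast hp.ne'
  rw [← cell_group A p hp (fun n => G n * Real.log (cF A G m ν p n)), Finset.sum_div]
  refine Finset.sum_congr rfl fun z _ => ?_
  have h1 := cF_mul (A := A) (G := G) (m := m) hper hGν ((z : ℕ) : ℤ)
  have h2 : ∑ n ∈ A.filter (fun n : ℤ => n ≡ ((z : ℕ) : ℤ) [ZMOD (p : ℤ)]),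
      G n * Real.log (cF A G m ν p n) =
      (∑ n ∈ A.filter (fun n : ℤ => n ≡ ((z : ℕ) : ℤ) [ZMOD (p : ℤ)]), G n) *
        Real.log (cF A G m ν p ((z : ℕ) : ℤ)) := by
    rw [Finset.sum_mul]
    refine Finset.sum_congr rfl fun n hn => ?_
    rw [cell_per (f := cF A G m ν p) (fun n => cF_per hper n) (Finset.mem_filter.1 hn).2]
  rw [h2]
  calc ν p ((z : ℕ) : ℤ) / p *
        (cF A G m ν p ((z : ℕ) : ℤ) * Real.log (cF A G m ν p ((z : ℕ) : ℤ)))
      = (ν p ((z : ℕ) : ℤ) * cF A G m ν p ((z : ℕ) : ℤ)) / p *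
          Real.log (cF A G m ν p ((z : ℕ) : ℤ)) := by ring
    _ = _ := by
        rw [h1]
        field_simp

end fibre

end Vale.Agent.P042.TT
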