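import Vale.Agent.P042.TT.LIG

set_option autoImplicit false

/-! Block CORE, abstract fibre step: a sub-cell is a progression; apply LIG there. -/

namespace Vale.Agent.P042.TT

open Finset Vale.Agent.P042.SS

/-- largest element `≤ y` of the class `c mod L` -/
def cra_n0 (y c : ℤ) (L : ℕ) : ℤ := y - (y - c) % (L : ℤ)

lemma cra_n0_mod (y c : ℤ) (L : ℕ) : cra_n0 y c L ≡ c [ZMOD (L : ℕ)] := by
  unfold cra_n0
  have h : (y - c) % (L : ℤ) ≡ y - c [ZMOD (L : ℕ)] := Int.mod_modEq _ _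
  have := (Int.ModEq.refl y).sub h
  simpa using this

lemma cra_n0_le (y c : ℤ) {L : ℕ} (hL : 1 ≤ L) : cra_n0 y c L ≤ y := by
  unfold cra_n0
  have := Int.emod_nonneg (y - c) (by exact_mod_cast (by omega : L ≠ 0) : (L : ℤ) ≠ 0)
  omega

lemma cra_n0_gt (y c : ℤ) {L : ℕ} (hL : 1 ≤ L) : y < cra_n0 y c L + L := by
  unfold cra_n0
  have := Int.emod_lt_of_pos (y - c) (by exact_mod_cast hL : (0 : ℤ) < (L : ℤ))
  omega

/-- a sum over a class in a window is a sum over a progression -/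
lemma cra_sum {A : Type*} [AddCommMonoid A] (h : ℤ → A) (y c : ℤ) (M L : ℕ) (hL : 1 ≤ L)
    (Q : ℤ → Prop) [DecidablePred Q] :
    ∑ n ∈ (Ioc y (y + M)).filter (fun n : ℤ => n ≡ c [ZMOD (L : ℕ)] ∧ Q n), h n =
      ∑ i ∈ (Ioc (0 : ℤ) (0 + (M / L + 1 : ℕ))).filter
        (fun i : ℤ => cra_n0 y c L + L * i ≤ y + M ∧ Q (cra_n0 y c L + L * i)),
        h (cra_n0 y c L + L * i) := by
  have hLz : (0 : ℤ) < (L : ℤ) := by exact_mod_cast hL
  have hmod := cra_n0_mod y c L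
  have hle := cra_n0_le y c hL
  have hgt := cra_n0_gt y c hL
  set n0 := cra_n0 y c L with hn0
  symm
  apply Finset.sum_nbij (fun i : ℤ => n0 + L * i)
  · intro i hi
    simp only [Finset.mem_filter, Finset.mem_Ioc] at hi ⊢
    refine ⟨⟨?_, hi.2.1⟩, ?_, hi.2.2⟩
    · have h1 : 1 ≤ i := by omega
      have h2 : (L : ℤ) * 1 ≤ L * i := mul_le_mul_of_nonneg_left h1 hLz.le
      linarith
    · have h3 : n0 + L * i ≡ n0 + 0 [ZMOD (L : ℕ)] := by
        apply Int.ModEq.add_left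
        exact (Int.modEq_zero_iff_dvd.2 (dvd_mul_right _ _))
      rw [add_zero] at h3
      exact h3.trans hmod
  · intro i _ j _ hij
    simp only at hij
    have : (L : ℤ) * i = L * j := by linarith
    exact mul_left_cancel₀ hLz.ne' this
  · intro n hn
    simp only [Finset.coe_filter, Finset.mem_Ioc, Set.mem_ofPred_eq] at hn
    obtain ⟨⟨h1, h2⟩, h3, h4⟩ := hn
    have h5 : n ≡ n0 [ZMOD (L : ℕ)] := h3.trans hmod.symm
    obtain ⟨i, hi⟩ := (Int.modEq_iff_dvd.1 h5.symm : (L : ℤ) ∣ n - n0)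
    have hni : n = n0 + L * i := by linarith
    simp only [Finset.coe_filter, Finset.mem_Ioc, Set.mem_image, Set.mem_ofPred_eq]
    refine ⟨i, ⟨⟨?_, ?_⟩, ?_, ?_⟩, hni.symm⟩
    · by_contra hcon
      have h6 : i ≤ 0 := by omega
      have h7 : (L : ℤ) * i ≤ 0 := mul_nonpos_of_nonneg_of_nonpos hLz.le h6
      linarith
    · rw [zero_add]
      have h6 : (L : ℤ) * (i - 1) ≤ M := by
        have : (L : ℤ) * (i - 1) = n - n0 - L := by rw [hni]; ring
        rw [this]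
        linarith
      have h7 : i - 1 ≤ (M : ℤ) / L := by
        rw [Int.le_ediv_iff_mul_le hLz]
        linarith
      push_cast
      linarith
    · rw [← hni]; exact h2
    · rw [← hni]; exact h4
  · intro i _
    rfl

/-- the rescaled weight -/
noncomputable def cra_G (G : ℤ → ℝ) (y c : ℤ) (M L : ℕ) (Gm : ℝ) (i : ℤ) : ℝ :=
  if cra_n0 y c L + L * i ≤ y + M then G (cra_n0 y c L + L * i) / Gm else 0

lemma cra_mass (G : ℤ → ℝ) (y c : ℤ) (M L Ds : ℕ) (Gm : ℝ) (hL : 1 ≤ L) (z : ℤ) :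
    mass (cra_G G y c M L Gm) 0 (M / L + 1) Ds z =
      mass G y M (L * Ds) (cra_n0 y c L + L * z) / Gm := by
  have hLz : (L : ℤ) ≠ 0 := by exact_mod_cast (by omega : L ≠ 0)
  have hmod := cra_n0_mod y c L
  set n0 := cra_n0 y c L with hn0
  have h1 : mass G y M (L * Ds) (n0 + L * z) =
      ∑ n ∈ (Ioc y (y + M)).filter (fun n : ℤ => n ≡ c [ZMOD (L : ℕ)] ∧
        n ≡ n0 + L * z [ZMOD ((L * Ds : ℕ) : ℤ)]), G n := by
    unfold mass
    congr 1
    ext n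
    simp only [Finset.mem_filter]
    constructor
    · rintro ⟨h2, h3⟩
      refine ⟨h2, ?_, h3⟩
      have h4 : n ≡ n0 + L * z [ZMOD (L : ℕ)] := by
        rw [Nat.cast_mul] at h3
        exact h3.of_mul_right _
      have h5 : n0 + L * z ≡ n0 + 0 [ZMOD (L : ℕ)] :=
        Int.ModEq.add_left _ (Int.modEq_zero_iff_dvd.2 (dvd_mul_right _ _))
      rw [add_zero] at h5
      exact (h4.trans h5).trans hmod
    · rintro ⟨h2, _, h3⟩
      exact ⟨h2, h3⟩
  rw [h1, cra_sum G y c M L hL]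
  unfold mass cra_G
  rw [Finset.sum_div, ← hn0, Finset.sum_filter, Finset.sum_filter]
  refine Finset.sum_congr rfl fun i _ => ?_
  have h6 : n0 + L * i ≡ n0 + L * z [ZMOD ((L * Ds : ℕ) : ℤ)] ↔ i ≡ z [ZMOD (Ds : ℕ)] := by
    constructor
    · intro h
      have h7 := Int.ModEq.add_left_cancel' n0 h
      rw [Nat.cast_mul] at h7
      exact Int.ModEq.mul_left_cancel' hLz h7
    · intro h
      apply Int.ModEq.add_left
      rw [Nat.cast_mul]
      exact Int.ModEq.mul_left' h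
  by_cases ha : n0 + L * i ≤ y + M
  · by_cases hb : i ≡ z [ZMOD (Ds : ℕ)]
    · rw [if_pos hb, if_pos ha, if_pos ⟨ha, h6.2 hb⟩]
    · rw [if_neg hb, if_neg (fun h => hb (h6.1 h.2))]
  · by_cases hb : i ≡ z [ZMOD (Ds : ℕ)]
    · rw [if_pos hb, if_neg ha, if_neg (fun h => ha h.1)]
    · rw [if_neg hb, if_neg (fun h => ha h.1)]

/-- the exponential sum of the cell is a unimodular multiple of the one of the rescaled weight -/
lemma cra_F (G : ℤ → ℝ) (y c : ℤ) (M L : ℕ) (Gm : ℝ) (hL : 1 ≤ L) (hGm : 0 < Gm) (θ : ℝ) :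
    ‖∑ n ∈ (Ioc y (y + M)).filter (fun n : ℤ => n ≡ c [ZMOD (L : ℕ)]),
      (G n : ℂ) * e (-((n : ℝ) * θ))‖ ^ 2 =
      Gm ^ 2 * ‖Fw (cra_G G y c M L Gm) 0 (M / L + 1) (L * θ)‖ ^ 2 := by
  have h1 : ∑ n ∈ (Ioc y (y + M)).filter (fun n : ℤ => n ≡ c [ZMOD (L : ℕ)]),
      (G n : ℂ) * e (-((n : ℝ) * θ)) =
      ∑ n ∈ (Ioc y (y + M)).filter (fun n : ℤ => n ≡ c [ZMOD (L : ℕ)] ∧ True),
      (G n : ℂ) * e (-((n : ℝ) * θ)) := by
    simp only [and_true]
  rw [h1, cra_sum (fun n : ℤ => (G n : ℂ) * e (-((n : ℝ) * θ))) y c M L hL (fun _ => True)]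
  set n0 := cra_n0 y c L with hn0
  have h2 : ∑ i ∈ (Ioc (0 : ℤ) (0 + (M / L + 1 : ℕ))).filter
        (fun i : ℤ => n0 + L * i ≤ y + M ∧ True),
        (G (n0 + L * i) : ℂ) * e (-(((n0 + L * i : ℤ) : ℝ) * θ)) =
      (Gm : ℂ) * e (-((n0 : ℝ) * θ)) * Fw (cra_G G y c M L Gm) 0 (M / L + 1) (L * θ) := by
    unfold Fw cra_G
    rw [Finset.sum_filter, Finset.mul_sum, ← hn0]
    refine Finset.sum_congr rfl fun i _ => ?_
    by_cases ha : n0 + L * i ≤ y + M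
    · rw [if_pos ⟨ha, trivial⟩, if_pos ha]
      have h3 : e (-(((n0 + L * i : ℤ) : ℝ) * θ)) =
          e (-((n0 : ℝ) * θ)) * e (-((i : ℝ) * (L * θ))) := by
        rw [← e_add]
        congr 1
        push_cast
        ring
      rw [h3]
      push_cast
      have h4 : (Gm : ℂ) ≠ 0 := by exact_mod_cast hGm.ne'
      field_simp
    · rw [if_neg (fun h => ha h.1), if_neg ha]
      simp
  rw [h2, norm_mul, norm_mul, norm_e, mul_one, Complex.norm_real, Real.norm_eq_abs, abs_of_pos hGm,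
    mul_pow]

/-- `Fw` has period one in the frequency -/
lemma cra_per (G : ℤ → ℝ) (y : ℤ) (M : ℕ) (θ : ℝ) (k : ℤ) : Fw G y M (θ + k) = Fw G y M θ := by
  unfold Fw
  refine Finset.sum_congr rfl fun n _ => ?_
  congr 1
  have h : -((n : ℝ) * (θ + k)) = -((n : ℝ) * θ) + ((-(n * k) : ℤ) : ℝ) := by
    push_cast
    ring
  rw [h, e_add, e_int, mul_one]

/-- multiplication by a unit permutes the frequencies -/
lemma cra_perm (G : ℤ → ℝ) (y : ℤ) (M L q : ℕ) (hq : 1 ≤ q) (hc : Nat.Coprime L q) :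
    ∑ a ∈ (range q).filter (Nat.Coprime q), ‖Fw G y M ((L : ℝ) * ((a : ℝ) / q))‖ ^ 2 =
      enG G y M q := by
  unfold enG
  have hqr : (q : ℝ) ≠ 0 := by exact_mod_cast (by omega : q ≠ 0)
  have hmaps : Set.MapsTo (fun a => (L * a) % q) ((range q).filter (Nat.Coprime q) : Set ℕ)
      ((range q).filter (Nat.Coprime q) : Set ℕ) := by
    intro a ha
    simp only [Finset.coe_filter, Finset.mem_range, Set.mem_ofPred_eq] at ha ⊢
    refine ⟨Nat.mod_lt _ (by omega), ?_⟩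
    have h1 : Nat.Coprime q (L * a) := Nat.Coprime.mul_right hc.symm ha.2
    unfold Nat.Coprime at h1 ⊢
    rw [Nat.gcd_rec] at h1
    rw [Nat.gcd_comm]
    exact h1
  have hinj : Set.InjOn (fun a => (L * a) % q) ((range q).filter (Nat.Coprime q) : Set ℕ) := by
    intro a ha b hb hab
    simp only [Finset.coe_filter, Finset.mem_range, Set.mem_ofPred_eq] at ha hb
    simp only at hab
    have h1 : L * a ≡ L * b [MOD q] := hab
    have h2 : a ≡ b [MOD q] := Nat.ModEq.cancel_left_of_coprime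
      (by rw [Nat.gcd_comm]; exact hc) h1
    exact Nat.ModEq.eq_of_lt_of_lt h2 ha.1 hb.1
  apply Finset.sum_nbij (fun a => (L * a) % q)
  · intro a ha
    exact_mod_cast hmaps (by exact_mod_cast ha)
  · exact hinj
  · exact Finset.surjOn_of_injOn_of_card_le _ hmaps hinj le_rfl
  · intro a _
    have h2 : L * a = q * (L * a / q) + (L * a) % q := (Nat.div_add_mod _ _).symm
    generalize hk : L * a / q = k at h2
    have h1 : (L : ℝ) * ((a : ℝ) / q) = (((L * a) % q : ℕ) : ℝ) / q + ((k : ℤ) : ℝ) := by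
      have h3 : ((L * a : ℕ) : ℝ) = ((q * k + (L * a) % q : ℕ) : ℝ) := by rw [← h2]
      rw [Nat.cast_mul, Nat.cast_add, Nat.cast_mul] at h3
      have h4 : (L : ℝ) * ((a : ℝ) / q) = ((L : ℝ) * a) / q := by ring
      rw [h4, h3, Int.cast_natCast]
      field_simp
      ring
    rw [h1, cra_per]

/-- CRT for the two congruences -/
lemma cra_crt (R DT : ℕ) (hRD : Nat.Coprime R DT) (r x : ℤ) :
    ∃ c : ℤ, c ≡ r [ZMOD (R : ℕ)] ∧ c ≡ x [ZMOD (DT : ℕ)] := by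
  have h := Int.isCoprime_iff_gcd_eq_one.2 (show Int.gcd (R : ℤ) (DT : ℤ) = 1 from by
    rw [Int.gcd_natCast_natCast]; exact hRD)
  obtain ⟨u, v, huv⟩ := h
  refine ⟨r * (v * DT) + x * (u * R), ?_, ?_⟩
  · have h1 : r * (v * DT) + x * (u * R) = r + R * (x * u - r * u) := by
      have : v * (DT : ℤ) = 1 - u * R := by linarith
      rw [this]; ring
    rw [h1]
    exact (Int.modEq_iff_dvd.2 ⟨-(x * u - r * u), by ring⟩)
  · have h1 : r * (v * DT) + x * (u * R) = x + DT * (r * v - x * v) := by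
      have : u * (R : ℤ) = 1 - v * DT := by linarith
      rw [this]; ring
    rw [h1]
    exact (Int.modEq_iff_dvd.2 ⟨-(r * v - x * v), by ring⟩)

lemma cra_Ug (q : ℕ) : Ug 1 q = q.primeFactors := by
  unfold Ug
  apply Finset.filter_true_of_mem
  intro p hp
  rw [Nat.dvd_one]
  have hpp := Nat.prime_of_mem_primeFactors hp
  have hpos : q.factorization p ≠ 0 := by
    have := Nat.support_factorization q
    rw [← this] at hp
    exact Finsupp.mem_support_iff.1 hp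
  intro h
  rw [Nat.pow_eq_one] at h
  rcases h with h | h
  · exact hpp.one_lt.ne' h
  · exact hpos h

/-- abstract fibre step -/
theorem coreA (Pr : Finset ℕ) (g : ℕ → ℕ) (R DT M D m : ℕ) (β Gm : ℝ) (ρ b : ℕ → ℝ)
    (G : ℤ → ℝ) (y r x : ℤ) (Fm : Finset (Finset ℕ)) (Qs : Finset ℕ)
    (hP : ∀ p ∈ Pr, p.Prime) (hPc : ∀ p ∈ Pr, Nat.Coprime p (R * DT))
    (hg : ∀ p ∈ Pr, 1 ≤ g p) (hR : 1 ≤ R) (hDT : 1 ≤ DT) (hRD : Nat.Coprime R DT)
    (hm : 2 ≤ m) (hβ : 0 < β) (hGm : 0 < Gm)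
    (hρ0 : ∀ p ∈ Pr, 0 ≤ ρ p) (hb : ∀ p ∈ Pr, 1 ≤ b p)
    (hρ : ∀ p ∈ Pr, 12 * m * ρ p * (1 + b p) ≤ 1)
    (hG0 : ∀ n, 0 ≤ G n) (hG1 : ∀ n, G n ≤ Gm)
    (hFmP : ∀ S ∈ Fm, S ⊆ Pr) (hFmd : ∀ S ∈ Fm, ∀ T, T ⊆ S → T ∈ Fm)
    (hFmD : ∀ S ∈ Fm, ∏ p ∈ S, p ^ g p ≤ D)
    (hM : R * DT * (D ^ (2 * m + 1) * Fm.card ^ (2 * m)) ≤ M)
    (hmass : ∀ S ∈ Fm, ∀ z : ℤ, z ≡ x [ZMOD (DT : ℕ)] → z ≡ r [ZMOD (R : ℕ)] →
      mass G y M (R * (DT * ∏ p ∈ S, p ^ g p)) z ≤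
        β * (∏ p ∈ S, b p) * (M / (R * DT * ∏ p ∈ S, (p : ℝ) ^ g p)))
    (hQs : ∀ q ∈ Qs, 1 ≤ q ∧ (∀ p ∈ q.primeFactors, p ∈ Pr ∧ q.factorization p ≤ g p) ∧
      q.primeFactors ∈ Fm) :
    ∑ q ∈ Qs, (∏ p ∈ q.primeFactors, ρ p) * ∑ a ∈ (range q).filter (Nat.Coprime q),
      ‖∑ n ∈ (Ioc y (y + M)).filter
        (fun n : ℤ => n ≡ r [ZMOD (R : ℕ)] ∧ n ≡ x [ZMOD ((DT : ℕ) : ℤ)]),
        (G n : ℂ) * e (-((n : ℝ) * ((a : ℝ) / q)))‖ ^ 2 ≤
      8 * ((M : ℝ) / (R * DT)) ^ 2 * β ^ 2 * (1 + (Gm / β) ^ (1 / (m : ℝ))) := by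
  classical
  obtain ⟨c, hcr, hcx⟩ := cra_crt R DT hRD r x
  set L : ℕ := R * DT with hLdef
  have hL : 1 ≤ L := Nat.mul_pos hR hDT
  have hLr : (0 : ℝ) < L := by exact_mod_cast hL
  -- the empty family
  rcases Fm.eq_empty_or_nonempty with hemp | ⟨S1, hS1⟩
  · have hQe : Qs = ∅ := by
      rw [Finset.eq_empty_iff_forall_notMem]
      intro q hq
      have := (hQs q hq).2.2
      rw [hemp] at this
      exact Finset.notMem_empty _ this
    rw [hQe, Finset.sum_empty]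
    positivity
  have hempty : ∅ ∈ Fm := hFmd S1 hS1 ∅ (Finset.empty_subset _)
  have hD1 : 1 ≤ D := by
    have := hFmD ∅ hempty
    simpa using this
  have hcard1 : 1 ≤ Fm.card := Finset.card_pos.2 ⟨_, hempty⟩
  have hDD : 1 ≤ D ^ (2 * m + 1) * Fm.card ^ (2 * m) := Nat.mul_pos (by positivity) (by positivity)
  set N1 : ℕ := M / L + 1 with hN1
  have hN1ge : D ^ (2 * m + 1) * Fm.card ^ (2 * m) ≤ N1 := by
    rw [hN1]
    have : D ^ (2 * m + 1) * Fm.card ^ (2 * m) ≤ M / L := by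
      rw [Nat.le_div_iff_mul_le hL, mul_comm]
      exact hM
    omega
  have hML : (M : ℝ) / L ≤ N1 := by
    rw [div_le_iff₀ hLr, hN1]
    have h1 : M < L * (M / L + 1) := Nat.lt_mul_div_succ M hL
    have h2 : (M : ℝ) ≤ ((L * (M / L + 1) : ℕ) : ℝ) := by exact_mod_cast h1.le
    rw [Nat.cast_mul] at h2
    linarith
  have hML1 : (1 : ℝ) ≤ (M : ℝ) / L := by
    rw [le_div_iff₀ hLr, one_mul]
    have : L * 1 ≤ M := (Nat.mul_le_mul_left L hDD).trans hM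
    rw [mul_one] at this
    exact_mod_cast this
  have hN12 : (N1 : ℝ) ≤ 2 * ((M : ℝ) / L) := by
    rw [hN1]
    push_cast
    have h1 : ((M / L : ℕ) : ℝ) ≤ (M : ℝ) / L := Nat.cast_div_le
    linarith
  set G' : ℤ → ℝ := cra_G G y c M L Gm with hG'
  have hn0 := cra_n0_mod y c L
  -- the level inequality
  have hlig := lig_holds Pr g 1 D m N1 (β / Gm) ρ b G' 0 Fm Qs hP hg le_rfl hm
    (by positivity) hρ0 hb hρ
    (by
      intro n
      rw [hG', cra_G]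
      split_ifs
      · exact div_nonneg (hG0 _) hGm.le
      · exact le_rfl)
    (by
      intro n
      rw [hG', cra_G]
      split_ifs
      · rw [div_le_one hGm]; exact hG1 _
      · exact zero_le_one)
    hFmP hFmd hFmD
    (by rw [one_mul]; exact hN1ge)
    (by
      intro S hS z
      rw [one_mul, hG', cra_mass G y c M L _ Gm hL z]
      have hz : cra_n0 y c L + L * z ≡ c [ZMOD (L : ℕ)] := by
        have h5 : cra_n0 y c L + L * z ≡ cra_n0 y c L + 0 [ZMOD (L : ℕ)] :=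
          Int.ModEq.add_left _ (Int.modEq_zero_iff_dvd.2 (dvd_mul_right _ _))
        rw [add_zero] at h5
        exact h5.trans hn0
      have hzr : cra_n0 y c L + L * z ≡ r [ZMOD (R : ℕ)] := by
        rw [hLdef, Nat.cast_mul] at hz
        exact (hz.of_mul_right _).trans hcr
      have hzx : cra_n0 y c L + L * z ≡ x [ZMOD (DT : ℕ)] := by
        rw [hLdef, Nat.cast_mul] at hz
        exact (hz.of_mul_left _).trans hcx
      have hms := hmass S hS _ hzx hzr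
      have hass : R * (DT * ∏ p ∈ S, p ^ g p) = L * ∏ p ∈ S, p ^ g p := by
        rw [hLdef]; ring
      rw [hass] at hms
      have hpr : (0 : ℝ) < ∏ p ∈ S, (p : ℝ) ^ g p :=
        Finset.prod_pos fun p hp => pow_pos (by exact_mod_cast (hP p (hFmP S hS hp)).pos) _
      have hbr : (0 : ℝ) ≤ ∏ p ∈ S, b p :=
        Finset.prod_nonneg fun p hp => zero_le_one.trans (hb p (hFmP S hS hp))
      rw [div_le_iff₀ hGm]
      refine hms.trans ?_
      have hcast : ((∏ p ∈ S, p ^ g p : ℕ) : ℝ) = ∏ p ∈ S, (p : ℝ) ^ g p := by push_cast; rfl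
      have e1 : (M : ℝ) / (R * DT * ∏ p ∈ S, (p : ℝ) ^ g p) =
          ((M : ℝ) / L) / ∏ p ∈ S, (p : ℝ) ^ g p := by
        rw [hLdef, Nat.cast_mul, div_div]
      rw [e1]
      have e2 : β / Gm * (∏ p ∈ S, b p) * ((N1 : ℝ) / ((∏ p ∈ S, p ^ g p : ℕ) : ℝ)) * Gm =
          β * (∏ p ∈ S, b p) * ((N1 : ℝ) / ∏ p ∈ S, (p : ℝ) ^ g p) := by
        rw [hcast]
        field_simp
      rw [e2]
      gcongr)
    (by
      intro q hq
      obtain ⟨h1, h2, h3⟩ := hQs q hq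
      refine ⟨h1, ?_, ?_⟩
      · intro p hp
        exact Or.inr (h2 p hp)
      · rw [cra_Ug]
        exact h3)
  -- translate
  have hterm : ∀ q ∈ Qs, (∏ p ∈ q.primeFactors, ρ p) *
      ∑ a ∈ (range q).filter (Nat.Coprime q),
      ‖∑ n ∈ (Ioc y (y + M)).filter
        (fun n : ℤ => n ≡ r [ZMOD (R : ℕ)] ∧ n ≡ x [ZMOD ((DT : ℕ) : ℤ)]),
        (G n : ℂ) * e (-((n : ℝ) * ((a : ℝ) / q)))‖ ^ 2 =
      Gm ^ 2 * ((∏ p ∈ Ug 1 q, ρ p) * enG G' 0 N1 q) := by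
    intro q hq
    obtain ⟨h1, h2, h3⟩ := hQs q hq
    have hcop : Nat.Coprime L q := by
      rw [Nat.coprime_comm]
      apply Nat.Coprime.symm
      apply Nat.coprime_of_dvd
      intro p hp hpL hpq
      have h4 : p ∈ q.primeFactors := Nat.mem_primeFactors.2 ⟨hp, hpq, by omega⟩
      have h5 := hPc p (h2 p h4).1
      exact (Nat.Prime.coprime_iff_not_dvd hp).1 h5 hpL
    have hfil : (Ioc y (y + M)).filter
        (fun n : ℤ => n ≡ r [ZMOD (R : ℕ)] ∧ n ≡ x [ZMOD ((DT : ℕ) : ℤ)]) =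
        (Ioc y (y + M)).filter (fun n : ℤ => n ≡ c [ZMOD (L : ℕ)]) := by
      apply Finset.filter_congr
      intro n _
      constructor
      · rintro ⟨h4, h5⟩
        rw [hLdef, Nat.cast_mul]
        refine (Int.modEq_and_modEq_iff_modEq_mul ?_).1 ⟨h4.trans hcr.symm, h5.trans hcx.symm⟩
        simpa using hRD
      · intro h4
        rw [hLdef, Nat.cast_mul] at h4
        exact ⟨(h4.of_mul_right _).trans hcr, (h4.of_mul_left _).trans hcx⟩
    rw [cra_Ug, ← cra_perm G' 0 N1 L q h1 hcop, hfil]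
    rw [Finset.sum_congr rfl fun (a : ℕ) _ => cra_F G y c M L Gm hL hGm ((a : ℝ) / q),
      ← Finset.mul_sum]
    ring
  rw [Finset.sum_congr rfl hterm, ← Finset.mul_sum]
  refine (mul_le_mul_of_nonneg_left hlig (sq_nonneg Gm)).trans ?_
  have hinv : (β / Gm) ^ (-(1 / (m : ℝ))) = (Gm / β) ^ (1 / (m : ℝ)) := by
    rw [Real.rpow_neg (by positivity), ← Real.inv_rpow (by positivity), inv_div]
  rw [hinv]
  have hroot : 0 ≤ (Gm / β) ^ (1 / (m : ℝ)) := Real.rpow_nonneg (by positivity) _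
  have e3 : Gm ^ 2 * ((N1 : ℝ) ^ 2 * (2 * (β / Gm) ^ 2 * (1 + (Gm / β) ^ (1 / (m : ℝ))))) =
      (N1 : ℝ) ^ 2 * (2 * β ^ 2 * (1 + (Gm / β) ^ (1 / (m : ℝ)))) := by
    field_simp
  rw [e3]
  have e4 : (8 : ℝ) * ((M : ℝ) / (R * DT)) ^ 2 * β ^ 2 * (1 + (Gm / β) ^ (1 / (m : ℝ))) =
      (2 * ((M : ℝ) / L)) ^ 2 * (2 * β ^ 2 * (1 + (Gm / β) ^ (1 / (m : ℝ)))) := by
    rw [hLdef, Nat.cast_mul]
    ring
  rw [e4]
  have h9 : (N1 : ℝ) ^ 2 ≤ (2 * ((M : ℝ) / L)) ^ 2 := pow_le_pow_left₀ (by positivity) hN12 2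
  apply mul_le_mul_of_nonneg_right h9
  positivity

end Vale.Agent.P042.TT
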