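import Vale.Agent.P042.TT.Spec

set_option autoImplicit false

/-!
Block CORE: interface between the fibre step (one cell), the exponent facts and the assembly.
-/

namespace Vale.Agent.P042.TT

open Polynomial Finset Vale.Agent.P042.SS

/-- the coordinates of the level inequality -/
noncomputable def PrC (P : ℝ) (V : Finset ℕ) (R : ℕ) : Finset ℕ :=
  (range (Q2 P + 1)).filter (fun p => p.Prime ∧ P ^ (0.97 : ℝ) < p ∧ p ∉ V ∧ Nat.Coprime p R)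

/-- the fibre step: one cell `n ≡ r mod R`, `n ≡ x mod ∏ T` -/
def CoreFibreStmt : Prop :=
  ∀ k J' : ℕ, 1 ≤ k → 1 ≤ J' → ∃ P0 : ℝ, ∀ P : ℝ, P0 ≤ P →
  ∀ (N' Nmin : ℕ) (Φ : ℝ) (G : ℤ → ℝ) (ν : ℕ → ℤ → ℝ),
    St P k N' Nmin Φ G ν →
  ∀ (V : Finset ℕ) (R M : ℕ) (y r : ℤ),
    V ⊆ W2 P → ∑ p ∈ V, Real.log p ≤ P ^ (0.995 : ℝ) → 1 ≤ R → (∀ p ∈ V, Nat.Coprime p R) →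
    Real.log R ≤ P ^ (0.625 : ℝ) → M ≤ N' → (N' : ℝ) ≤ P * M →
  ∀ (T : Finset ℕ) (x : ℕ) (B : ℝ), T ⊆ V → (∀ p ∈ T, ν p x ≠ 0) → 1 ≤ B →
    (∀ S ⊆ PrC P V R, ∏ p ∈ S, p ≤ Q2 P → ∀ z : ℤ,
        z ≡ (x : ℤ) [ZMOD ((∏ p ∈ T, p : ℕ) : ℤ)] → z ≡ r [ZMOD (R : ℕ)] →
        mass G y M (R * ((∏ p ∈ T, p) * ∏ p ∈ S, p ^ J')) z ≤
          B * (∏ p ∈ S, (p : ℝ) ^ (0.001 : ℝ)) * (∏ p ∈ T, (ν p x / p)) *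
            (Φ * M / (R * ∏ p ∈ S, (p : ℝ) ^ J'))) →
    ∑ q ∈ (QZ P J' V (Q2 P)).filter (fun q => Nat.Coprime q R),
        zR P q * ∑ a ∈ (range q).filter (Nat.Coprime q),
          ‖∑ n ∈ (Ioc y (y + M)).filter
            (fun n : ℤ => n ≡ r [ZMOD (R : ℕ)] ∧ n ≡ x [ZMOD ((∏ p ∈ T, p : ℕ) : ℤ)]),
            (G n : ℂ) * e (-((n : ℝ) * ((a : ℝ) / q)))‖ ^ 2 ≤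
      48 * (M * Φ / (R * ∏ p ∈ T, (p : ℝ))) ^ 2 * (∏ p ∈ T, (ν p x) ^ 2) * B ^ 2 *
        (∏ p ∈ T, max 1 (1 / ν p x)) ^ (1 / (⌈P ^ (0.37 : ℝ)⌉₊ : ℝ))

/-- the exponent facts used in the fibre step -/
structure CoreNum (J' : ℕ) (P : ℝ) : Prop where
  one_le : 1 ≤ P
  m1 : 2 ≤ ⌈P ^ (0.5101 : ℝ)⌉₊
  m2 : 2 ≤ ⌈P ^ (0.37 : ℝ)⌉₊
  m21 : ⌈P ^ (0.37 : ℝ)⌉₊ ≤ ⌈P ^ (0.5101 : ℝ)⌉₊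
  e1 : Real.exp (4 * P ^ (0.51 : ℝ) / (⌈P ^ (0.5101 : ℝ)⌉₊ : ℝ)) ≤ 3
  e2 : Real.exp (-(0.13 / J' * P ^ (0.489 : ℝ))) *
    Real.exp (4 * P ^ (0.51 : ℝ) / (⌈P ^ (0.37 : ℝ)⌉₊ : ℝ)) ≤ 1
  r1 : ∀ p : ℝ, P ^ (0.97 : ℝ) ≤ p →
    12 * (⌈P ^ (0.5101 : ℝ)⌉₊ : ℝ) * p ^ (-0.9 : ℝ) * (1 + p ^ (0.001 : ℝ)) ≤ 1
  r2 : ∀ p : ℝ, P ^ (1.04 : ℝ) ≤ p →
    12 * (⌈P ^ (0.5101 : ℝ)⌉₊ : ℝ) * (P ^ (0.001 : ℝ) * p ^ (-0.499 : ℝ)) *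
      (1 + p ^ (0.001 : ℝ)) ≤ 1
  r3 : ∀ p : ℝ, P ^ (1.04 : ℝ) ≤ p → P ^ (0.001 : ℝ) * p ^ (-0.499 : ℝ) ≤
    1 / (24 * (⌈P ^ (0.37 : ℝ)⌉₊ : ℝ) * p ^ (0.001 : ℝ)) * p ^ (-0.13 : ℝ)
  r4 : ∀ p : ℝ, P ^ (0.97 : ℝ) ≤ p → p ^ (-0.9 : ℝ) ≤
    1 / (24 * (⌈P ^ (0.37 : ℝ)⌉₊ : ℝ) * p ^ (0.001 : ℝ)) * p ^ (-0.13 : ℝ)
  s1 : P ^ (0.489 : ℝ) * (J' * (2 * (⌈P ^ (0.5101 : ℝ)⌉₊ : ℝ) + 1) +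
    2 * (⌈P ^ (0.5101 : ℝ)⌉₊ : ℝ)) ≤
      7 / 8 * P - Real.log P - P ^ (0.625 : ℝ) - P ^ (0.995 : ℝ)
  s2 : P ^ (0.62 : ℝ) * (J' * (2 * (⌈P ^ (0.37 : ℝ)⌉₊ : ℝ) + 1) +
    2 * (⌈P ^ (0.37 : ℝ)⌉₊ : ℝ)) ≤
      7 / 8 * P - Real.log P - P ^ (0.625 : ℝ) - P ^ (0.995 : ℝ)

/-- they hold for all large `P` -/
def CoreNumStmt : Prop := ∀ J' : ℕ, 1 ≤ J' → ∃ P0 : ℝ, ∀ P : ℝ, P0 ≤ P → CoreNum J' P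

end Vale.Agent.P042.TT
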