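import Vale.Agent.P042.TT.NvA

set_option autoImplicit false

/-!
# P042, Theorem S2, block CORE, part 1: the mean of the random normalisation
-/

namespace Vale.Agent.P042.TT

open Polynomial Finset Vale.Agent.P042.SS

theorem coprime_QSn {J' : ℕ} {S : Finset ℕ} {p : ℕ} (hp : p.Prime) (hS : ∀ q ∈ S, q.Prime)
    (hpS : p ∉ S) : Nat.Coprime p (QSn J' S) := by
  unfold QSn
  refine Nat.Coprime.prod_right fun q hq => ?_
  refine Nat.Coprime.pow_right _ ?_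
  exact (Nat.coprime_primes hp (hS q hq)).2 (fun h => hpS (h ▸ hq))

/-- the total mass of the product weights -/
theorem sum_pi_one {W T : Finset ℕ} {ν : ℕ → ℤ → ℝ} (hW : Wts W ν) (hprime : ∀ p ∈ W, p.Prime)
    (hT : T ⊆ W) : ∑ x ∈ range (∏ p ∈ T, p), ∏ p ∈ T, (ν p (x : ℤ) / p) = 1 := by
  have h := psi_mean hW hprime T hT
  have hpos : (0 : ℝ) < ((∏ p ∈ T, p : ℕ) : ℝ) := by
    have : 0 < ∏ p ∈ T, p := Finset.prod_pos fun p hp => (hprime p (hT hp)).pos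
    exact_mod_cast this
  have h1 : ∀ x ∈ range (∏ p ∈ T, p), ∏ p ∈ T, (ν p (x : ℤ) / p) =
      (∏ p ∈ T, ν p (x : ℤ)) / ((∏ p ∈ T, p : ℕ) : ℝ) := by
    intro x _
    rw [Finset.prod_div_distrib]
    push_cast
    rfl
  rw [Finset.sum_congr rfl h1, ← Finset.sum_div, h]
  exact div_self hpos.ne'

theorem log_QSn_le {P : ℝ} {R Q J' : ℕ} {S : Finset ℕ} (hS : S ∈ ZF P R Q) :
    Real.log (QSn J' S) ≤ J' * Real.log Q := by
  have h := mem_ZF.1 hS
  rw [QSn_eq]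
  push_cast
  rw [Real.log_pow]
  have hpos : 0 < ∏ p ∈ S, p := Finset.prod_pos fun p hp => (h.1 p hp).2.1.pos
  have h1 : Real.log (∏ p ∈ S, (p : ℝ)) ≤ Real.log Q := by
    have h2 : ((∏ p ∈ S, p : ℕ) : ℝ) ≤ Q := by exact_mod_cast h.2
    push_cast at h2
    refine Real.log_le_log ?_ h2
    have h3 : (0 : ℝ) < ((∏ p ∈ S, p : ℕ) : ℝ) := by exact_mod_cast hpos
    push_cast at h3
    exact h3
  exact mul_le_mul_of_nonneg_left h1 (Nat.cast_nonneg _)

/-- the coefficient of one support set -/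
theorem coef_le {P : ℝ} {R Q J' : ℕ} {S : Finset ℕ} (hS : S ∈ ZF P R Q) {c : ℝ}
    (hc : J' * c ≤ 1) :
    (QSn J' S : ℝ) * ((∏ p ∈ S, (cp p)⁻¹) ^ (2 * mm J') * (QSn J' S : ℝ) ^ c) ≤
      ∏ p ∈ S, (1 / (p : ℝ) ^ 2) := by
  have h := mem_ZF.1 hS
  have h1 : (QSn J' S : ℝ) ^ c = ∏ p ∈ S, ((p : ℝ) ^ J') ^ c := by
    rw [QSn_cast]
    exact (Real.finsetProd_rpow S _ (fun p _ => by positivity) c).symm
  rw [h1, QSn_cast, ← Finset.prod_pow, ← Finset.prod_mul_distrib, ← Finset.prod_mul_distrib]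
  apply Finset.prod_le_prod
  · intro p _
    have : 0 ≤ (cp p)⁻¹ := inv_nonneg.2 (Real.rpow_nonneg (Nat.cast_nonneg p) _)
    positivity
  · intro p hp
    have hp1 : (1 : ℝ) ≤ p := by exact_mod_cast ((h.1 p hp).1.1)
    have hp0 : (0 : ℝ) < p := by linarith
    have e1 : ((cp p)⁻¹) ^ (2 * mm J') = (p : ℝ) ^ (-(2 * (J' + 3) : ℝ)) := by
      unfold cp mm
      rw [← Real.rpow_neg hp0.le, ← Real.rpow_natCast, ← Real.rpow_mul hp0.le]
      congr 1
      push_cast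
      ring
    have e2 : ((p : ℝ) ^ J') ^ c = (p : ℝ) ^ (J' * c) := by
      rw [← Real.rpow_natCast, ← Real.rpow_mul hp0.le]
    have e3 : (p : ℝ) ^ J' = (p : ℝ) ^ (J' : ℝ) := (Real.rpow_natCast _ _).symm
    have e4 : 1 / (p : ℝ) ^ 2 = (p : ℝ) ^ (-(2 : ℝ)) := by
      rw [Real.rpow_neg hp0.le, one_div]
      norm_num
    rw [e1, e2, e3, e4, ← Real.rpow_add hp0, ← Real.rpow_add hp0]
    apply Real.rpow_le_rpow_of_exponent_le hp1
    have hJ0 : (0 : ℝ) ≤ J' := Nat.cast_nonneg _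
    linarith

theorem core_one (hMOM : MOMStmt) (k J' : ℕ) (hk : 1 ≤ k) (hJ : 1 ≤ J') :
    ∃ C P0 : ℝ, 0 < C ∧ ∀ P : ℝ, P0 ≤ P →
    ∀ (N' Nmin : ℕ) (Φ : ℝ) (G : ℤ → ℝ) (ν : ℕ → ℤ → ℝ), St P k N' Nmin Φ G ν →
    ∀ (V : Finset ℕ) (R M : ℕ) (y r : ℤ),
    V ⊆ W2 P → ∑ p ∈ V, Real.log p ≤ P ^ (0.995 : ℝ) → 1 ≤ R → (∀ p ∈ V, Nat.Coprime p R) →
    Real.log R ≤ P ^ (0.625 : ℝ) → M ≤ N' → (N' : ℝ) ≤ P * M →
    ∑ T ∈ V.powerset, wtR (fun _ : ℕ => t2 P) V T *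
      ∑ x ∈ range (∏ p ∈ T, p), (∏ p ∈ T, (ν p (x : ℤ) / p)) *
        NN P ν G y M R J' (Q2 P) r Φ T x ≤ C * (R : ℝ) ^ (C * b2 P) := by
  obtain ⟨C0, P1, hC0, hM⟩ := hMOM k (mm J') hk (by unfold mm; omega)
  -- numerical conditions
  have hev : ∀ᶠ P : ℝ in Filter.atTop, P1 ≤ P ∧ 1 ≤ P ∧
      2 * P ^ (0.625 : ℝ) ≤ P ^ (0.63 : ℝ) ∧ (2 * J') * P ^ (0.62 : ℝ) ≤ P ^ (0.63 : ℝ) ∧
      J' * C0 * P ^ (-0.488 : ℝ) ≤ P ^ (0 : ℝ) := by
    filter_upwards [Filter.eventually_ge_atTop P1, Filter.eventually_ge_atTop 1,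
      pow_dom 0.625 0.63 2 (by norm_num), pow_dom 0.62 0.63 (2 * J') (by norm_num),
      pow_dom (-0.488) 0 (J' * C0) (by norm_num)] with P h1 h2 h3 h4 h5
    exact ⟨h1, h2, h3, h4, h5⟩
  obtain ⟨P0, hP0⟩ := Filter.eventually_atTop.1 hev
  refine ⟨1 + C0 * Real.exp 2 + C0, P0, by positivity, ?_⟩
  intro P hP N' Nmin Φ G ν hSt V R M y r hV hVlog hR hVR hRlog hMN hNM
  obtain ⟨hP1, hPone, hn1, hn2, hn3⟩ := hP0 P hP
  rw [Real.rpow_zero] at hn3
  have hn4 : (J' : ℝ) * (C0 * b2 P) ≤ 1 := by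
    have : (J' : ℝ) * (C0 * b2 P) = J' * C0 * P ^ (-0.488 : ℝ) := by
      unfold b2
      ring
    rw [this]
    exact hn3
  have hPpos : 0 < P := by linarith
  have ht0 : 0 ≤ t2 P := Real.rpow_nonneg hPpos.le _
  have ht1 : t2 P ≤ 1 := by
    unfold t2
    exact Real.rpow_le_one_of_one_le_of_nonpos hPone (by norm_num)
  have hΦ := hSt.pin.Φpos
  have hν := hSt.pin.wts.nn
  have hG := hSt.pin.G0
  have hprime := hSt.pin.prime
  have hb0 : 0 ≤ b2 P := Real.rpow_nonneg hPpos.le _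
  -- positivity of `M`
  have hN0 : (0 : ℝ) < N' := lt_of_lt_of_le (Real.exp_pos _) hSt.N'lo
  have hM0 : (0 : ℝ) < M := by
    by_contra h
    have h1 : (M : ℝ) ≤ 0 := not_lt.1 h
    have h2 : P * M ≤ 0 := mul_nonpos_of_nonneg_of_nonpos hPpos.le h1
    linarith
  set m := mm J' with hm
  set K : Finset ℕ → ℝ := fun S => (∏ p ∈ S, (cp p)⁻¹) *
    (((R * QSn J' S : ℕ) : ℝ) / (M * Φ)) with hK
  -- step 1: the inner sum
  have hstep1 : ∀ T ∈ V.powerset, ∑ x ∈ range (∏ p ∈ T, p), (∏ p ∈ T, (ν p (x : ℤ) / p)) *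
      NN P ν G y M R J' (Q2 P) r Φ T x =
      1 + ∑ S ∈ (ZF P R (Q2 P)).filter (fun S => Disjoint S T), ∑ z ∈ zcl R J' r S,
        (K S) ^ (2 * m) * moT ν G y M (R * QSn J' S) z T (2 * m) := by
    intro T hT
    rw [mem_powerset] at hT
    unfold NN
    have h1 : ∀ x ∈ range (∏ p ∈ T, p), (∏ p ∈ T, (ν p (x : ℤ) / p)) *
        (1 + ∑ S ∈ (ZF P R (Q2 P)).filter (fun S => Disjoint S T), ∑ z ∈ zcl R J' r S,
          (dnm ν G y M R J' Φ S z T x) ^ (2 * mm J')) =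
        (∏ p ∈ T, (ν p (x : ℤ) / p)) +
        ∑ S ∈ (ZF P R (Q2 P)).filter (fun S => Disjoint S T), ∑ z ∈ zcl R J' r S,
          (K S) ^ (2 * m) * ((∏ p ∈ T, (ν p (x : ℤ) / p)) *
            (rT ν G y M (R * QSn J' S) z T x) ^ (2 * m)) := by
      intro x _
      rw [mul_add, mul_one, Finset.mul_sum]
      congr 1
      refine Finset.sum_congr rfl fun S _ => ?_
      rw [Finset.mul_sum]
      refine Finset.sum_congr rfl fun z _ => ?_
      unfold dnm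
      rw [mul_pow]
      ring
    rw [Finset.sum_congr rfl h1, Finset.sum_add_distrib,
      sum_pi_one hSt.pin.wts hprime (hT.trans hV), Finset.sum_comm]
    congr 1
    refine Finset.sum_congr rfl fun S _ => ?_
    rw [Finset.sum_comm]
    refine Finset.sum_congr rfl fun z _ => ?_
    rw [← Finset.mul_sum]
    rfl
  have hstep2 : ∑ T ∈ V.powerset, wtR (fun _ : ℕ => t2 P) V T *
      ∑ x ∈ range (∏ p ∈ T, p), (∏ p ∈ T, (ν p (x : ℤ) / p)) *
        NN P ν G y M R J' (Q2 P) r Φ T x =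
      1 + ∑ S ∈ ZF P R (Q2 P), ∑ z ∈ zcl R J' r S, (K S) ^ (2 * m) *
        ∑ T ∈ V.powerset.filter (fun T => Disjoint S T), wtR (fun _ : ℕ => t2 P) V T *
          moT ν G y M (R * QSn J' S) z T (2 * m) := by
    have h1 : ∀ T ∈ V.powerset, wtR (fun _ : ℕ => t2 P) V T *
      ∑ x ∈ range (∏ p ∈ T, p), (∏ p ∈ T, (ν p (x : ℤ) / p)) *
        NN P ν G y M R J' (Q2 P) r Φ T x = wtR (fun _ : ℕ => t2 P) V T +
        ∑ S ∈ ZF P R (Q2 P), if Disjoint S T then ∑ z ∈ zcl R J' r S,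
          (K S) ^ (2 * m) * (wtR (fun _ : ℕ => t2 P) V T *
            moT ν G y M (R * QSn J' S) z T (2 * m)) else 0 := by
      intro T hT
      rw [hstep1 T hT, mul_add, mul_one, Finset.sum_filter, Finset.mul_sum]
      congr 1
      refine Finset.sum_congr rfl fun S _ => ?_
      split_ifs
      · rw [Finset.mul_sum]
        refine Finset.sum_congr rfl fun z _ => ?_
        ring
      · rw [mul_zero]
    rw [Finset.sum_congr rfl h1, Finset.sum_add_distrib, sum_wtR, Finset.sum_comm]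
    congr 1
    refine Finset.sum_congr rfl fun S _ => ?_
    rw [← Finset.sum_filter, Finset.sum_comm]
    refine Finset.sum_congr rfl fun z _ => ?_
    rw [← Finset.mul_sum]
  rw [hstep2]
  -- step 3: the moment bound
  have hmo0 : ∀ (S : Finset ℕ) (z : ℤ) (T : Finset ℕ),
      0 ≤ moT ν G y M (R * QSn J' S) z T (2 * m) := by
    intro S z T
    unfold moT
    refine Finset.sum_nonneg fun x _ => mul_nonneg ?_ (pow_nonneg (rT_nonneg hν hG _ _ _ _ _ _) _)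
    exact Finset.prod_nonneg fun p _ => div_nonneg (hν p _) (Nat.cast_nonneg p)
  have hstep3 : ∀ S ∈ ZF P R (Q2 P), ∑ z ∈ zcl R J' r S, (K S) ^ (2 * m) *
        ∑ T ∈ V.powerset.filter (fun T => Disjoint S T), wtR (fun _ : ℕ => t2 P) V T *
          moT ν G y M (R * QSn J' S) z T (2 * m) ≤
      C0 * (R : ℝ) ^ (C0 * b2 P) * ((QSn J' S : ℝ) * ((∏ p ∈ S, (cp p)⁻¹) ^ (2 * m) *
        (QSn J' S : ℝ) ^ (C0 * b2 P))) := by
    intro S hS
    have hSm := mem_ZF.1 hS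
    have hSp : ∀ p ∈ S, p.Prime := fun p hp => (hSm.1 p hp).2.1
    have hQS1 : 1 ≤ QSn J' S := QSn_pos hSp
    have hQS0 : (0 : ℝ) < QSn J' S := by exact_mod_cast hQS1
    have hR0 : (0 : ℝ) < R := by exact_mod_cast hR
    have hone : ∀ z ∈ zcl R J' r S, (K S) ^ (2 * m) *
        ∑ T ∈ V.powerset.filter (fun T => Disjoint S T), wtR (fun _ : ℕ => t2 P) V T *
          moT ν G y M (R * QSn J' S) z T (2 * m) ≤
        C0 * (R : ℝ) ^ (C0 * b2 P) * ((∏ p ∈ S, (cp p)⁻¹) ^ (2 * m) *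
        (QSn J' S : ℝ) ^ (C0 * b2 P)) := by
      intro z _
      have h1 := sum_wtR_disjoint_le (t2 P) ht0 ht1 V S
        (fun T => moT ν G y M (R * QSn J' S) z T (2 * m)) (fun T => hmo0 S z T)
      have hlogs : Real.log ((R * QSn J' S : ℕ) : ℝ) ≤ P ^ (0.63 : ℝ) := by
        push_cast
        rw [Real.log_mul hR0.ne' hQS0.ne']
        have h2 := log_QSn_le (J' := J') hS
        have h3 : Real.log (Q2 P) ≤ P ^ (0.62 : ℝ) := by
          unfold Q2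
          have h4 : ((⌊Real.exp (P ^ (0.62 : ℝ))⌋₊ : ℕ) : ℝ) ≤ Real.exp (P ^ (0.62 : ℝ)) :=
            Nat.floor_le (Real.exp_pos _).le
          have h5 : 1 ≤ ⌊Real.exp (P ^ (0.62 : ℝ))⌋₊ := by
            rw [Nat.one_le_floor_iff]
            exact Real.one_le_exp (Real.rpow_nonneg hPpos.le _)
          have h6 : (0 : ℝ) < ((⌊Real.exp (P ^ (0.62 : ℝ))⌋₊ : ℕ) : ℝ) := by exact_mod_cast h5
          have h7 := Real.log_le_log h6 h4
          rwa [Real.log_exp] at h7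
        have h4 : (J' : ℝ) * Real.log (Q2 P) ≤ J' * P ^ (0.62 : ℝ) :=
          mul_le_mul_of_nonneg_left h3 (Nat.cast_nonneg _)
        linarith
      have h2 := hM P hP1 N' Nmin Φ G ν hSt (V \ S) (R * QSn J' S) M y z
        (sdiff_subset.trans hV)
        ((Finset.sum_le_sum_of_subset_of_nonneg sdiff_subset fun p hp _ =>
          Real.log_natCast_nonneg p).trans hVlog)
        (Nat.mul_pos hR hQS1)
        (fun p hp => by
          rw [mem_sdiff] at hp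
          exact Nat.Coprime.mul_right (hVR p hp.1)
            (coprime_QSn (hprime p (hV hp.1)) hSp hp.2)) hlogs hMN hNM
      have h3 := h1.trans h2
      have hK0 : 0 ≤ (K S) ^ (2 * m) := by
        rw [pow_mul]; exact pow_nonneg (sq_nonneg _) _
      refine (mul_le_mul_of_nonneg_left h3 hK0).trans (le_of_eq ?_)
      have e1 : (K S) ^ (2 * m) * ((M : ℝ) * Φ / ((R * QSn J' S : ℕ) : ℝ)) ^ (2 * m) =
          (∏ p ∈ S, (cp p)⁻¹) ^ (2 * m) := by
        rw [← mul_pow]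
        congr 1
        simp only [hK]
        push_cast
        field_simp
      have e2 : (((R * QSn J' S : ℕ) : ℝ)) ^ (C0 * b2 P) =
          (R : ℝ) ^ (C0 * b2 P) * (QSn J' S : ℝ) ^ (C0 * b2 P) := by
        push_cast
        exact Real.mul_rpow hR0.le hQS0.le
      rw [e2, ← e1]
      ring
    refine (Finset.sum_le_sum hone).trans ?_
    rw [Finset.sum_const, nsmul_eq_mul]
    have hcard : (((zcl R J' r S).card : ℕ) : ℝ) ≤ QSn J' S := by
      exact_mod_cast card_zcl R J' r S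
    have hA : 0 ≤ (∏ p ∈ S, (cp p)⁻¹) ^ (2 * m) := by
      rw [pow_mul]; exact pow_nonneg (sq_nonneg _) _
    have hB : 0 ≤ C0 * (R : ℝ) ^ (C0 * b2 P) * ((∏ p ∈ S, (cp p)⁻¹) ^ (2 * m) *
        (QSn J' S : ℝ) ^ (C0 * b2 P)) :=
      mul_nonneg (mul_nonneg hC0.le (Real.rpow_nonneg hR0.le _))
        (mul_nonneg hA (Real.rpow_nonneg hQS0.le _))
    refine (mul_le_mul_of_nonneg_right hcard hB).trans (le_of_eq ?_)
    ring
  have hstep4 : ∑ S ∈ ZF P R (Q2 P), ∑ z ∈ zcl R J' r S, (K S) ^ (2 * m) *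
        ∑ T ∈ V.powerset.filter (fun T => Disjoint S T), wtR (fun _ : ℕ => t2 P) V T *
          moT ν G y M (R * QSn J' S) z T (2 * m) ≤
      C0 * (R : ℝ) ^ (C0 * b2 P) * Real.exp 2 := by
    refine (Finset.sum_le_sum hstep3).trans ?_
    rw [← Finset.mul_sum]
    apply mul_le_mul_of_nonneg_left _ (by positivity)
    apply sum_ZF_le
    intro S hS
    exact coef_le hS hn4
  have hR1 : (1 : ℝ) ≤ R := by exact_mod_cast hR
  set C := 1 + C0 * Real.exp 2 + C0 with hC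
  have hCC0 : C0 ≤ C := by
    have : 0 < C0 * Real.exp 2 := by positivity
    linarith
  have h5 : (R : ℝ) ^ (C0 * b2 P) ≤ (R : ℝ) ^ (C * b2 P) :=
    Real.rpow_le_rpow_of_exponent_le hR1 (mul_le_mul_of_nonneg_right hCC0 hb0)
  have h6 : 1 ≤ (R : ℝ) ^ (C * b2 P) :=
    Real.one_le_rpow hR1 (mul_nonneg (by positivity) hb0)
  have h7 : C0 * (R : ℝ) ^ (C0 * b2 P) * Real.exp 2 ≤
      C0 * Real.exp 2 * (R : ℝ) ^ (C * b2 P) := by
    have := mul_le_mul_of_nonneg_left h5 (show 0 ≤ C0 * Real.exp 2 by positivity)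
    linarith
  have h8 : 0 ≤ C0 * (R : ℝ) ^ (C * b2 P) := by positivity
  have h9 : ∀ X : ℝ, C * X = X + C0 * Real.exp 2 * X + C0 * X := by
    intro X
    rw [hC]
    ring
  rw [h9]
  generalize (R : ℝ) ^ (C * b2 P) = X at h5 h6 h7 h8 ⊢
  linarith

end Vale.Agent.P042.TT
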