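import Vale.Agent.P042.TT.NvA
import Vale.Agent.P042.TT.NvB
import Vale.Agent.P042.TT.CoreDefs

set_option autoImplicit false

/-!
# P042, Theorem S2, block CORE: assembly from NV and the fibre step
-/

namespace Vale.Agent.P042.TT

open Polynomial Finset Vale.Agent.P042.SS

/-- the mean of a product of periodic functions over a full period -/
theorem sum_prod_per (W : Finset ℕ) (hprime : ∀ p ∈ W, p.Prime) (φ : ℕ → ℤ → ℝ)
    (hφ : ∀ p ∈ W, ∀ n, φ p (n + p) = φ p n) (V : Finset ℕ) (hV : V ⊆ W) :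
    ∑ x ∈ range (∏ p ∈ V, p), ∏ p ∈ V, φ p (x : ℤ) =
      ∏ p ∈ V, ∑ x ∈ range p, φ p (x : ℤ) := by
  classical
  induction V using Finset.induction_on with
  | empty => simp
  | insert q V hq ih =>
    have hqW : q ∈ W := hV (mem_insert_self q V)
    have hVW : V ⊆ W := fun p hp => hV (mem_insert_of_mem hp)
    rw [Finset.prod_insert hq, Finset.prod_insert hq]
    have hco : Nat.Coprime q (∏ p ∈ V, p) := by
      refine Nat.Coprime.prod_right fun p hp => ?_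
      exact (Nat.coprime_primes (hprime q hqW) (hprime p (hVW hp))).2
        (fun h => hq (h ▸ hp))
    have hpos : 1 ≤ ∏ p ∈ V, p := Finset.prod_pos fun p hp => (hprime p (hVW hp)).pos
    have hper : ∀ n, ∏ p ∈ V, φ p (n + (∏ p ∈ V, p : ℕ)) = ∏ p ∈ V, φ p n := by
      intro n
      refine Finset.prod_congr rfl fun p hp => ?_
      obtain ⟨c, hc⟩ := Finset.dvd_prod_of_mem (fun p : ℕ => p) hp
      have hp' : Function.Periodic (φ p) (p : ℤ) := hφ p (hVW hp)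
      have h2 := (hp'.int_mul (c : ℤ)) n
      rw [hc]
      rw [← h2]
      congr 1
      push_cast
      ring
    have h1 : ∑ x ∈ range (q * ∏ p ∈ V, p), ∏ p ∈ insert q V, φ p (x : ℤ) =
        ∑ x ∈ range (q * ∏ p ∈ V, p), φ q (x : ℤ) * ∏ p ∈ V, φ p (x : ℤ) :=
      Finset.sum_congr rfl fun x _ => by rw [Finset.prod_insert hq]
    rw [h1, sum_crt q (∏ p ∈ V, p) hco (hprime q hqW).one_lt.le hpos (φ q)
      (fun n => ∏ p ∈ V, φ p n) (hφ q hqW) hper, ih hVW]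

theorem exp_max_log {v : ℝ} (hv : 0 ≤ v) :
    Real.exp (max 0 (Real.log (1 / v))) = max 1 (1 / v) := by
  rw [Real.exp_monotone.map_max, Real.exp_zero]
  rcases eq_or_lt_of_le hv with h | h
  · rw [← h]; simp
  · rw [Real.exp_log (by positivity)]

/-- mean of the product of the small powers of `max 1 (1/ν)` over a random set -/
theorem mean_pow_le {W V : Finset ℕ} {ν : ℕ → ℤ → ℝ} (hW : Wts W ν)
    (hprime : ∀ p ∈ W, p.Prime) (hV : V ⊆ W) {b s t : ℝ} (hs0 : 0 ≤ s) (hs1 : s ≤ 1)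
    (ht0 : 0 ≤ t) (ht1 : t ≤ 1)
    (hb : ∀ p ∈ W, ∑ x ∈ range p, ν p x / p *
      (Real.exp (max 0 (Real.log (1 / ν p x))) - 1) ≤ b) (hts : t * (s * b) * V.card ≤ 1)
    (hb0 : 0 ≤ b) :
    ∑ T ∈ V.powerset, wtR (fun _ : ℕ => t) V T *
      ∑ x ∈ range (∏ p ∈ T, p), (∏ p ∈ T, (ν p (x : ℤ) / p)) *
        (∏ p ∈ T, max 1 (1 / ν p x)) ^ s ≤ 3 := by
  have hν := hW.nn
  -- one prime
  have h1 : ∀ p ∈ W, ∑ x ∈ range p, (ν p (x : ℤ) / p * (max 1 (1 / ν p (x : ℤ))) ^ s) ≤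
      1 + s * b := by
    intro p hp
    have hp0 : (0 : ℝ) < p := by exact_mod_cast (hprime p hp).pos
    have h2 : ∀ x ∈ range p, (ν p (x : ℤ) / p * (max 1 (1 / ν p (x : ℤ))) ^ s) ≤
        ν p (x : ℤ) / p + s * (ν p x / p * (Real.exp (max 0 (Real.log (1 / ν p x))) - 1)) := by
      intro x _
      rw [exp_max_log (hν p x)]
      have h3 := rpow_one_add_le_one_add_mul_self
        (show -1 ≤ max 1 (1 / ν p (x : ℤ)) - 1 by
          have := le_max_left (1 : ℝ) (1 / ν p (x : ℤ)); linarith) hs0 hs1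
      rw [add_sub_cancel] at h3
      have h4 := mul_le_mul_of_nonneg_left h3 (div_nonneg (hν p x) hp0.le)
      refine h4.trans (le_of_eq ?_)
      ring
    refine (Finset.sum_le_sum h2).trans ?_
    rw [Finset.sum_add_distrib, ← Finset.mul_sum, ← Finset.sum_div, hW.mean p hp,
      div_self hp0.ne']
    have := mul_le_mul_of_nonneg_left (hb p hp) hs0
    linarith
  -- a set of primes
  have h2 : ∀ T ∈ V.powerset, ∑ x ∈ range (∏ p ∈ T, p), (∏ p ∈ T, (ν p (x : ℤ) / p)) *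
        (∏ p ∈ T, max 1 (1 / ν p x)) ^ s ≤ ∏ p ∈ T, (1 + s * b) := by
    intro T hT
    rw [mem_powerset] at hT
    have h3 : ∀ x ∈ range (∏ p ∈ T, p), (∏ p ∈ T, (ν p (x : ℤ) / p)) *
        (∏ p ∈ T, max 1 (1 / ν p x)) ^ s =
        ∏ p ∈ T, (ν p (x : ℤ) / p * (max 1 (1 / ν p (x : ℤ))) ^ s) := by
      intro x _
      rw [Finset.prod_mul_distrib, ← Real.finsetProd_rpow]
      intro p _
      exact zero_le_one.trans (le_max_left _ _)
    rw [Finset.sum_congr rfl h3, sum_prod_per W hprime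
      (fun p n => ν p n / p * (max 1 (1 / ν p n)) ^ s)
      (fun p hp n => by simp only [hW.per p hp n]) T (hT.trans hV)]
    apply Finset.prod_le_prod
    · intro p _
      exact Finset.sum_nonneg fun x _ => mul_nonneg (div_nonneg (hν p _) (Nat.cast_nonneg p))
        (Real.rpow_nonneg (zero_le_one.trans (le_max_left _ _)) _)
    · intro p hp
      exact h1 p (hV (hT hp))
  have h3 : ∑ T ∈ V.powerset, wtR (fun _ : ℕ => t) V T *
      ∑ x ∈ range (∏ p ∈ T, p), (∏ p ∈ T, (ν p (x : ℤ) / p)) *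
        (∏ p ∈ T, max 1 (1 / ν p x)) ^ s ≤
      ∑ T ∈ V.powerset, wtR (fun _ : ℕ => t) V T * ∏ p ∈ T, (1 + s * b) := by
    refine Finset.sum_le_sum fun T hT => ?_
    exact mul_le_mul_of_nonneg_left (h2 T hT) (wtR_nonneg _ V T (mem_powerset.1 hT)
      (fun _ _ => ht0) (fun _ _ => ht1))
  refine h3.trans ?_
  have h4 : ∑ T ∈ V.powerset, wtR (fun _ : ℕ => t) V T * ∏ p ∈ T, (1 + s * b) =
      ∏ p ∈ V, (t * (1 + s * b) + (1 - t)) := by
    rw [Finset.prod_add]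
    refine Finset.sum_congr rfl fun T _ => ?_
    unfold wtR
    rw [Finset.prod_mul_distrib]
    ring
  rw [h4, Finset.prod_const]
  have h5 : t * (1 + s * b) + (1 - t) = 1 + t * (s * b) := by ring
  rw [h5]
  have h6 : 1 + t * (s * b) ≤ Real.exp (t * (s * b)) := by
    have := Real.add_one_le_exp (t * (s * b)); linarith
  have h7 : 0 ≤ 1 + t * (s * b) := by positivity
  calc (1 + t * (s * b)) ^ V.card ≤ (Real.exp (t * (s * b))) ^ V.card :=
        pow_le_pow_left₀ h7 h6 _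
    _ = Real.exp (V.card * (t * (s * b))) := by rw [← Real.exp_nat_mul]
    _ ≤ Real.exp 1 := Real.exp_le_exp.2 (by linarith)
    _ ≤ 3 := Real.exp_one_lt_three.le

theorem core_of (hNV : NVStmt) (hF : CoreFibreStmt) (hNu : NU2Stmt) : COREStmt := by
  intro k J' hk hJ
  obtain ⟨C1, P1, hC1, hnv⟩ := hNV k J' hk hJ
  obtain ⟨P2, hfib⟩ := hF k J' hk hJ
  obtain ⟨P3, hnu⟩ := hNu k hk
  have hev : ∀ᶠ P : ℝ in Filter.atTop, P1 ≤ P ∧ P2 ≤ P ∧ P3 ≤ P ∧ 1 ≤ P ∧
      2 * P ^ (0 : ℝ) ≤ P ^ (0.37 : ℝ) ∧ 8 * P ^ (-0.203 : ℝ) ≤ P ^ (0 : ℝ) := by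
    filter_upwards [Filter.eventually_ge_atTop P1, Filter.eventually_ge_atTop P2,
      Filter.eventually_ge_atTop P3, Filter.eventually_ge_atTop 1,
      pow_dom 0 0.37 2 (by norm_num), pow_dom (-0.203) 0 8 (by norm_num)] with P h1 h2 h3 h4 h5 h6
    exact ⟨h1, h2, h3, h4, h5, h6⟩
  obtain ⟨P0, hP0⟩ := Filter.eventually_atTop.1 hev
  refine ⟨48 * (C1 + 3), P0, by positivity, ?_⟩
  intro P hP N' Nmin Φ G ν hSt V R M y r hV hVlog hR hVR hRlog hMN hNM
  obtain ⟨hP1, hP2, hP3, hPone, hn1, hn2⟩ := hP0 P hP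
  rw [Real.rpow_zero] at hn1 hn2
  rw [mul_one] at hn1
  have hPpos : 0 < P := by linarith
  have ht0 : 0 ≤ t2 P := Real.rpow_nonneg hPpos.le _
  have ht1 : t2 P ≤ 1 := by
    unfold t2
    exact Real.rpow_le_one_of_one_le_of_nonpos hPone (by norm_num)
  have hb0 : 0 ≤ b2 P := Real.rpow_nonneg hPpos.le _
  have hΦ := hSt.pin.Φpos
  have hν := hSt.pin.wts.nn
  have hprime := hSt.pin.prime
  have hR0 : (0 : ℝ) < R := by exact_mod_cast hR
  obtain ⟨Nv, hNv1, hNvB, hNvM⟩ := hnv P hP1 N' Nmin Φ G ν hSt V R M y r (PrC P V R)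
    hV hVlog hR hVR hRlog hMN hNM (by
      intro p hp
      unfold PrC at hp
      rw [mem_filter] at hp
      exact ⟨hp.2.1, hp.2.2.2.1, hp.2.2.1, hp.2.2.2.2⟩)
  have hnu' := hnu P hP3 N' Nmin Φ G ν hSt
  set m2 := ⌈P ^ (0.37 : ℝ)⌉₊ with hm2
  have hm2r : P ^ (0.37 : ℝ) ≤ m2 := Nat.le_ceil _
  have hm2pos : (0 : ℝ) < m2 := lt_of_lt_of_le (Real.rpow_pos_of_pos hPpos _) hm2r
  have hm22 : (2 : ℝ) ≤ m2 := hn1.trans hm2r
  set e1 : ℝ := 1 / (m2 : ℝ) with he1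
  have he0 : 0 ≤ e1 := by positivity
  have hs1 : 2 * e1 ≤ 1 := by
    rw [he1, mul_one_div, div_le_one hm2pos]; exact hm22
  -- the fibre bound for every `T`, `x`
  have key : ∀ T ∈ V.powerset, ∑ q ∈ (QZ P J' V (Q2 P)).filter (fun q => Nat.Coprime q R),
        zR P q * ∑ a ∈ (range q).filter (Nat.Coprime q),
          enT ν G y M R r ((a : ℝ) / q) T ≤
      48 * (M * Φ / R) ^ 2 * ∑ x ∈ range (∏ p ∈ T, p), (∏ p ∈ T, (ν p (x : ℤ) / p)) *
        ((Nv T x) ^ 4 + (∏ p ∈ T, max 1 (1 / ν p x)) ^ (2 * e1)) := by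
    intro T hT
    rw [mem_powerset] at hT
    have h1 : ∑ q ∈ (QZ P J' V (Q2 P)).filter (fun q => Nat.Coprime q R),
        zR P q * ∑ a ∈ (range q).filter (Nat.Coprime q),
          enT ν G y M R r ((a : ℝ) / q) T =
        ∑ x ∈ range (∏ p ∈ T, p), dn ν T x *
          ∑ q ∈ (QZ P J' V (Q2 P)).filter (fun q => Nat.Coprime q R),
            zR P q * ∑ a ∈ (range q).filter (Nat.Coprime q),
          ‖∑ n ∈ (Ioc y (y + M)).filter
            (fun n : ℤ => n ≡ r [ZMOD (R : ℕ)] ∧ n ≡ x [ZMOD ((∏ p ∈ T, p : ℕ) : ℤ)]),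
            (G n : ℂ) * e (-((n : ℝ) * ((a : ℝ) / q)))‖ ^ 2 := by
      unfold enT
      have h2 : ∀ q ∈ (QZ P J' V (Q2 P)).filter (fun q => Nat.Coprime q R),
          zR P q * ∑ a ∈ (range q).filter (Nat.Coprime q),
            ∑ x ∈ range (∏ p ∈ T, p), dn ν T x *
              ‖∑ n ∈ (Ioc y (y + M)).filter
                (fun n : ℤ => n ≡ r [ZMOD (R : ℕ)] ∧
                  n ≡ x [ZMOD ((∏ p ∈ T, p : ℕ) : ℤ)]),
                (G n : ℂ) * e (-((n : ℝ) * ((a : ℝ) / q)))‖ ^ 2 =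
          ∑ x ∈ range (∏ p ∈ T, p), dn ν T x * (zR P q *
            ∑ a ∈ (range q).filter (Nat.Coprime q),
              ‖∑ n ∈ (Ioc y (y + M)).filter
                (fun n : ℤ => n ≡ r [ZMOD (R : ℕ)] ∧
                  n ≡ x [ZMOD ((∏ p ∈ T, p : ℕ) : ℤ)]),
                (G n : ℂ) * e (-((n : ℝ) * ((a : ℝ) / q)))‖ ^ 2) := by
        intro q _
        rw [Finset.sum_comm, Finset.mul_sum]
        refine Finset.sum_congr rfl fun x _ => ?_
        rw [← Finset.mul_sum]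
        ring
      rw [Finset.sum_congr rfl h2, Finset.sum_comm]
      refine Finset.sum_congr rfl fun x _ => ?_
      rw [← Finset.mul_sum]
    rw [h1, Finset.mul_sum]
    refine Finset.sum_le_sum fun x _ => ?_
    have hrhs0 : 0 ≤ 48 * (M * Φ / R) ^ 2 * ((∏ p ∈ T, (ν p (x : ℤ) / p)) *
        ((Nv T x) ^ 4 + (∏ p ∈ T, max 1 (1 / ν p x)) ^ (2 * e1))) := by
      have h3 : 0 ≤ ∏ p ∈ T, (ν p (x : ℤ) / p) :=
        Finset.prod_nonneg fun p _ => div_nonneg (hν p _) (Nat.cast_nonneg p)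
      have h4 : 0 ≤ (∏ p ∈ T, max 1 (1 / ν p x)) ^ (2 * e1) :=
        Real.rpow_nonneg (Finset.prod_nonneg fun p _ =>
          zero_le_one.trans (le_max_left _ _)) _
      have h5 : 0 ≤ (Nv T x) ^ 4 := by positivity
      positivity
    by_cases hz : ∀ p ∈ T, ν p x ≠ 0
    · have h2 := hfib P hP2 N' Nmin Φ G ν hSt V R M y r hV hVlog hR hVR hRlog hMN hNM T x
        (Nv T x) hT hz (hNv1 T x)
        (fun S hS hSQ z hzx hzr => hNvB T hT x S hS hSQ z hzx hzr)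
      have hdn : 0 ≤ dn ν T x := by
        unfold dn
        exact Finset.prod_nonneg fun p _ =>
          mul_nonneg (Nat.cast_nonneg p) (inv_nonneg.2 (hν p x))
      refine (mul_le_mul_of_nonneg_left h2 hdn).trans ?_
      set X := ∏ p ∈ T, max 1 (1 / ν p x) with hX
      have hX0 : 0 ≤ X := Finset.prod_nonneg fun p _ => zero_le_one.trans (le_max_left _ _)
      have h3 : (Nv T x) ^ 2 * X ^ e1 ≤ (Nv T x) ^ 4 + X ^ (2 * e1) := by
        have h4 : X ^ (2 * e1) = (X ^ e1) ^ 2 := by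
          rw [← Real.rpow_natCast, ← Real.rpow_mul hX0]
          congr 1
          push_cast
          ring
        rw [h4]
        nlinarith [sq_nonneg ((Nv T x) ^ 2 - X ^ e1), sq_nonneg ((Nv T x) ^ 2 + X ^ e1)]
      have h4 : dn ν T x * (48 * (M * Φ / (R * ∏ p ∈ T, (p : ℝ))) ^ 2 *
          (∏ p ∈ T, (ν p x) ^ 2) * (Nv T x) ^ 2 * X ^ e1) =
          48 * (M * Φ / R) ^ 2 * ((∏ p ∈ T, (ν p (x : ℤ) / p)) *
            ((Nv T x) ^ 2 * X ^ e1)) := by
        have hpT : 0 < ∏ p ∈ T, (p : ℝ) := Finset.prod_pos fun p hp => by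
          exact_mod_cast (hprime p (hV (hT hp))).pos
        have h5 : dn ν T x * (∏ p ∈ T, (ν p x) ^ 2) =
            (∏ p ∈ T, (ν p (x : ℤ) / p)) * (∏ p ∈ T, (p : ℝ)) ^ 2 := by
          unfold dn
          rw [← Finset.prod_mul_distrib, ← Finset.prod_pow, ← Finset.prod_mul_distrib]
          refine Finset.prod_congr rfl fun p hp => ?_
          have h6 := hz p hp
          have h7 : (p : ℝ) ≠ 0 := by exact_mod_cast (hprime p (hV (hT hp))).ne_zero
          field_simp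
        calc dn ν T x * (48 * (M * Φ / (R * ∏ p ∈ T, (p : ℝ))) ^ 2 *
              (∏ p ∈ T, (ν p x) ^ 2) * (Nv T x) ^ 2 * X ^ e1)
            = (dn ν T x * (∏ p ∈ T, (ν p x) ^ 2)) *
              (48 * (M * Φ / (R * ∏ p ∈ T, (p : ℝ))) ^ 2 * ((Nv T x) ^ 2 * X ^ e1)) := by ring
          _ = _ := by
            rw [h5]
            field_simp
      rw [h4]
      apply mul_le_mul_of_nonneg_left _ (by positivity)
      apply mul_le_mul_of_nonneg_left h3
      exact Finset.prod_nonneg fun p _ => div_nonneg (hν p _) (Nat.cast_nonneg p)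
    · push Not at hz
      obtain ⟨p, hpT, hp0⟩ := hz
      have hdn : dn ν T x = 0 := by
        unfold dn
        refine Finset.prod_eq_zero hpT ?_
        rw [hp0]; simp
      rw [hdn, zero_mul]
      exact hrhs0
  -- sum over `T`
  have hcard : (V.card : ℝ) ≤ 2 * P ^ (0.995 : ℝ) := by
    have h1 : (V.card : ℝ) * (1 / 2) ≤ ∑ p ∈ V, Real.log p := by
      rw [← nsmul_eq_mul]
      apply Finset.card_nsmul_le_sum
      intro p hp
      have h2 : (2 : ℝ) ≤ p := by exact_mod_cast (hprime p (hV hp)).two_le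
      have h3 := Real.log_le_log (by norm_num) h2
      have h4 := Real.log_two_gt_d9
      linarith
    linarith
  have hpw : t2 P * (2 * e1 * (2 * b2 P)) * V.card ≤ 1 := by
    have h1 : e1 ≤ P ^ (-0.37 : ℝ) := by
      rw [he1, Real.rpow_neg hPpos.le, one_div]
      exact inv_anti₀ (Real.rpow_pos_of_pos hPpos _) hm2r
    have h2 : t2 P * (2 * e1 * (2 * b2 P)) * V.card ≤
        t2 P * (2 * P ^ (-0.37 : ℝ) * (2 * b2 P)) * (2 * P ^ (0.995 : ℝ)) := by
      gcongr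
    refine h2.trans ?_
    have h3 : t2 P * (2 * P ^ (-0.37 : ℝ) * (2 * b2 P)) * (2 * P ^ (0.995 : ℝ)) =
        8 * P ^ (-0.203 : ℝ) := by
      unfold t2 b2
      have h4 : P ^ (-0.203 : ℝ) = P ^ (-0.34 : ℝ) * (P ^ (-0.37 : ℝ) * P ^ (-0.488 : ℝ)) *
          P ^ (0.995 : ℝ) := by
        rw [← Real.rpow_add hPpos, ← Real.rpow_add hPpos, ← Real.rpow_add hPpos]
        norm_num
      rw [h4]; ring
    rw [h3]; exact hn2
  have hmean := mean_pow_le (W := W2 P) (V := V) (s := 2 * e1) (t := t2 P) (b := 2 * b2 P)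
    hSt.pin.wts hprime hV (by positivity) hs1 ht0 ht1 hnu'.2.2.2.2.1 hpw (by positivity)
  have hsum : ∑ T ∈ V.powerset, wtR (fun _ : ℕ => t2 P) V T *
      ∑ q ∈ (QZ P J' V (Q2 P)).filter (fun q => Nat.Coprime q R),
        zR P q * ∑ a ∈ (range q).filter (Nat.Coprime q),
          enT ν G y M R r ((a : ℝ) / q) T ≤
      48 * (M * Φ / R) ^ 2 * (C1 * (R : ℝ) ^ (C1 * b2 P) + 3) := by
    have h1 : ∑ T ∈ V.powerset, wtR (fun _ : ℕ => t2 P) V T *
      ∑ q ∈ (QZ P J' V (Q2 P)).filter (fun q => Nat.Coprime q R),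
        zR P q * ∑ a ∈ (range q).filter (Nat.Coprime q),
          enT ν G y M R r ((a : ℝ) / q) T ≤
        ∑ T ∈ V.powerset, wtR (fun _ : ℕ => t2 P) V T *
          (48 * (M * Φ / R) ^ 2 * ∑ x ∈ range (∏ p ∈ T, p), (∏ p ∈ T, (ν p (x : ℤ) / p)) *
        ((Nv T x) ^ 4 + (∏ p ∈ T, max 1 (1 / ν p x)) ^ (2 * e1))) := by
      refine Finset.sum_le_sum fun T hT => ?_
      exact mul_le_mul_of_nonneg_left (key T hT) (wtR_nonneg _ V T (mem_powerset.1 hT)
        (fun _ _ => ht0) (fun _ _ => ht1))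
    refine h1.trans ?_
    have h2 : ∑ T ∈ V.powerset, wtR (fun _ : ℕ => t2 P) V T *
          (48 * (M * Φ / R) ^ 2 * ∑ x ∈ range (∏ p ∈ T, p), (∏ p ∈ T, (ν p (x : ℤ) / p)) *
        ((Nv T x) ^ 4 + (∏ p ∈ T, max 1 (1 / ν p x)) ^ (2 * e1))) =
        48 * (M * Φ / R) ^ 2 * (∑ T ∈ V.powerset, wtR (fun _ : ℕ => t2 P) V T *
          ∑ x ∈ range (∏ p ∈ T, p), (∏ p ∈ T, (ν p (x : ℤ) / p)) * (Nv T x) ^ 4 +
          ∑ T ∈ V.powerset, wtR (fun _ : ℕ => t2 P) V T *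
          ∑ x ∈ range (∏ p ∈ T, p), (∏ p ∈ T, (ν p (x : ℤ) / p)) *
            (∏ p ∈ T, max 1 (1 / ν p x)) ^ (2 * e1)) := by
      rw [← Finset.sum_add_distrib, Finset.mul_sum]
      refine Finset.sum_congr rfl fun T _ => ?_
      rw [← mul_add, ← Finset.sum_add_distrib]
      have h3 : ∀ x ∈ range (∏ p ∈ T, p), (∏ p ∈ T, (ν p (x : ℤ) / p)) *
          ((Nv T x) ^ 4 + (∏ p ∈ T, max 1 (1 / ν p x)) ^ (2 * e1)) =
          (∏ p ∈ T, (ν p (x : ℤ) / p)) * (Nv T x) ^ 4 +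
          (∏ p ∈ T, (ν p (x : ℤ) / p)) * (∏ p ∈ T, max 1 (1 / ν p x)) ^ (2 * e1) :=
        fun x _ => by ring
      rw [Finset.sum_congr rfl h3]
      ring
    rw [h2]
    apply mul_le_mul_of_nonneg_left _ (by positivity)
    exact add_le_add hNvM hmean
  refine hsum.trans ?_
  have hR1 : (1 : ℝ) ≤ R := by exact_mod_cast hR
  set C := 48 * (C1 + 3) with hC
  have hCC : C1 ≤ C := by rw [hC]; linarith
  have h5 : (R : ℝ) ^ (C1 * b2 P) ≤ (R : ℝ) ^ (C * b2 P) :=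
    Real.rpow_le_rpow_of_exponent_le hR1 (mul_le_mul_of_nonneg_right hCC hb0)
  have h6 : 1 ≤ (R : ℝ) ^ (C * b2 P) :=
    Real.one_le_rpow hR1 (mul_nonneg (by rw [hC]; positivity) hb0)
  have h7 : C1 * (R : ℝ) ^ (C1 * b2 P) + 3 ≤ (C1 + 3) * (R : ℝ) ^ (C * b2 P) := by
    have := mul_le_mul_of_nonneg_left h5 hC1.le
    nlinarith
  have h8 : (0 : ℝ) ≤ 48 * (M * Φ / R) ^ 2 := by positivity
  have h9 := mul_le_mul_of_nonneg_left h7 h8
  refine h9.trans (le_of_eq ?_)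
  have h10 : ∀ X Y : ℝ, 48 * Y * ((C1 + 3) * X) = C * X * Y := by
    intro X Y
    rw [hC]; ring
  exact h10 _ _

end Vale.Agent.P042.TT
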