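import Vale.Agent.P042.TT.CoreDefs

set_option autoImplicit false

/-! Block CORE: the exponent facts (helper315). -/

namespace Vale.Agent.P042.TT

open Filter Topology

namespace CoreNumP

/-- `c P^a ≤ P^b` for large `P` -/
theorem ev {a b : ℝ} (h : a < b) (c : ℝ) : ∀ᶠ P : ℝ in atTop, c * P ^ a ≤ P ^ b := by
  have h1 := (tendsto_rpow_atTop (sub_pos.2 h)).eventually_ge_atTop c
  filter_upwards [h1, eventually_gt_atTop 0] with P h2 hP
  calc c * P ^ a ≤ P ^ (b - a) * P ^ a := by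
        have := Real.rpow_nonneg hP.le a
        gcongr
    _ = P ^ b := by rw [← Real.rpow_add hP]; ring_nf

/-- `c ≤ P^b` for large `P` -/
theorem ev0 {b : ℝ} (h : 0 < b) (c : ℝ) : ∀ᶠ P : ℝ in atTop, c ≤ P ^ b :=
  (tendsto_rpow_atTop h).eventually_ge_atTop c

theorem ceil_le {x : ℝ} (h : 1 ≤ x) : (⌈x⌉₊ : ℝ) ≤ 2 * x := by
  have := Nat.ceil_lt_add_one (show 0 ≤ x by linarith)
  linarith

/-- monotone comparison of powers: `p ^ (-s) ≤ P ^ (-(c s))` if `P ^ c ≤ p` -/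
theorem pw {P p c s : ℝ} (hP : 0 < P) (hs : 0 ≤ s) (h : P ^ c ≤ p) : p ^ (-s) ≤ P ^ (-(c * s)) := by
  have h1 : 0 < P ^ c := Real.rpow_pos_of_pos hP c
  calc p ^ (-s) ≤ (P ^ c) ^ (-s) := Real.rpow_le_rpow_of_nonpos h1 h (by linarith)
    _ = P ^ (-(c * s)) := by rw [← Real.rpow_mul hP.le]; ring_nf

theorem add_pos' {P p c : ℝ} (hP : 1 ≤ P) (hc : 0 ≤ c) (h : P ^ c ≤ p) : 1 ≤ p :=
  (Real.one_le_rpow hP hc).trans h

/-- sizes of the level inequality -/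
theorem sz {P a b c J x : ℝ} (hP : 1 ≤ P) (hJ : 1 ≤ J) (hb : 1 ≤ P ^ b) (hx : x ≤ 2 * P ^ b) (hx0 : 0 ≤ x) (hc : a + b = c)
    (h9 : 8 * (9 * J) * P ^ c ≤ P) (h11 : 8 * P ^ (0.625 : ℝ) ≤ P) (h12 : 8 * P ^ (0.995 : ℝ) ≤ P)
    (hlog : Real.log P ≤ P / 8) :
    P ^ a * (J * (2 * x + 1) + 2 * x) ≤ 7 / 8 * P - Real.log P - P ^ (0.625 : ℝ) - P ^ (0.995 : ℝ) := by
  have hP0 : 0 < P := by linarith
  have g1 : P ^ a * P ^ b = P ^ c := by rw [← Real.rpow_add hP0, hc]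
  have g2 : 0 ≤ P ^ a := Real.rpow_nonneg hP0.le _
  have g3 : J * (2 * x + 1) + 2 * x ≤ 9 * J * P ^ b := by nlinarith
  have g4 : P ^ a * (J * (2 * x + 1) + 2 * x) ≤ 9 * J * P ^ c := by
    calc _ ≤ P ^ a * (9 * J * P ^ b) := by gcongr
      _ = 9 * J * (P ^ a * P ^ b) := by ring
      _ = _ := by rw [g1]
  linarith

/-- rates below the bound of the level inequality -/
theorem rt {P p c x b d e s : ℝ} (hP : 1 ≤ P) (hc : 0 ≤ c) (hp : P ^ c ≤ p) (hx : x ≤ 2 * P ^ b) (hx0 : 0 ≤ x)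
    (hs : 0 ≤ s) (hd : c * s = d) (h : 48 * P ^ (b + e) ≤ P ^ d) :
    12 * x * (P ^ e * p ^ (-(s + 0.001))) * (1 + p ^ (0.001 : ℝ)) ≤ 1 := by
  have hP0 : 0 < P := by linarith
  have hp1 := add_pos' hP hc hp
  have hp0 : 0 < p := by linarith
  have g1 : 1 + p ^ (0.001 : ℝ) ≤ 2 * p ^ (0.001 : ℝ) := by
    have := Real.one_le_rpow hp1 (show (0 : ℝ) ≤ 0.001 by norm_num)
    linarith
  have g2 : p ^ (-(s + 0.001)) * p ^ (0.001 : ℝ) = p ^ (-s) := by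
    rw [← Real.rpow_add hp0]; ring_nf
  have g3 := pw hP0 hs hp
  have g4 : P ^ (-(c * s)) = (P ^ d)⁻¹ := by rw [← Real.rpow_neg hP0.le, hd]
  have g5 : 0 < P ^ d := Real.rpow_pos_of_pos hP0 _
  have g6 : 0 ≤ p ^ (-(s + 0.001)) := Real.rpow_nonneg hp0.le _
  have g7 : P ^ b * P ^ e = P ^ (b + e) := by rw [← Real.rpow_add hP0]
  have g8 : 0 ≤ P ^ e := Real.rpow_nonneg hP0.le _
  calc 12 * x * (P ^ e * p ^ (-(s + 0.001))) * (1 + p ^ (0.001 : ℝ))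
      ≤ 12 * (2 * P ^ b) * (P ^ e * p ^ (-(s + 0.001))) * (2 * p ^ (0.001 : ℝ)) := by
        gcongr
    _ = 48 * (P ^ b * P ^ e) * (p ^ (-(s + 0.001)) * p ^ (0.001 : ℝ)) := by ring
    _ ≤ P ^ d * (P ^ d)⁻¹ := by
      rw [g2, g7]
      rw [g4] at g3
      gcongr
    _ = 1 := mul_inv_cancel₀ g5.ne'

/-- comparison of the true rates and the rates of the second range -/
theorem rr {P p c x b d e s : ℝ} (hP : 1 ≤ P) (hc : 0 ≤ c) (hp : P ^ c ≤ p) (hx : x ≤ 2 * P ^ b) (hx0 : 0 < x)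
    (hs : 0 ≤ s) (hd : c * s = d) (h : 48 * P ^ (b + e) ≤ P ^ d) :
    P ^ e * p ^ (-(s + 0.131)) ≤ 1 / (24 * x * p ^ (0.001 : ℝ)) * p ^ (-0.13 : ℝ) := by
  have hP0 : 0 < P := by linarith
  have hp1 := add_pos' hP hc hp
  have hp0 : 0 < p := by linarith
  have g3 := pw hP0 hs hp
  have g4 : P ^ (-(c * s)) = (P ^ d)⁻¹ := by rw [← Real.rpow_neg hP0.le, hd]
  have g5 : 0 < P ^ d := Real.rpow_pos_of_pos hP0 _
  have g7 : P ^ b * P ^ e = P ^ (b + e) := by rw [← Real.rpow_add hP0]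
  have g8 : p ^ (-(s + 0.131)) = p ^ (-0.13 : ℝ) * p ^ (-(0.001 : ℝ)) * p ^ (-s) := by
    rw [← Real.rpow_add hp0, ← Real.rpow_add hp0]; ring_nf
  have g9 : p ^ (-(0.001 : ℝ)) = (p ^ (0.001 : ℝ))⁻¹ := Real.rpow_neg hp0.le _
  have g10 : 0 < p ^ (0.001 : ℝ) := Real.rpow_pos_of_pos hp0 _
  have g11 : 0 < p ^ (-0.13 : ℝ) := Real.rpow_pos_of_pos hp0 _
  have g12 : 0 ≤ P ^ e := Real.rpow_nonneg hP0.le _
  have g13 : 0 ≤ p ^ (-s) := Real.rpow_nonneg hp0.le _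
  have key : 24 * x * (P ^ e * p ^ (-s)) ≤ 1 := by
    calc _ ≤ 24 * (2 * P ^ b) * (P ^ e * p ^ (-s)) := by gcongr
      _ = 48 * (P ^ b * P ^ e) * p ^ (-s) := by ring
      _ ≤ P ^ d * (P ^ d)⁻¹ := by
        rw [g7]
        rw [g4] at g3
        gcongr
      _ = 1 := mul_inv_cancel₀ g5.ne'
  rw [g8, g9, div_mul_eq_mul_div, one_mul, le_div_iff₀ (by positivity)]
  calc _ = (24 * x * (P ^ e * p ^ (-s))) *
        (p ^ (-0.13 : ℝ) * ((p ^ (0.001 : ℝ))⁻¹ * p ^ (0.001 : ℝ))) := by ring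
    _ = (24 * x * (P ^ e * p ^ (-s))) * p ^ (-0.13 : ℝ) := by
        rw [inv_mul_cancel₀ g10.ne', mul_one]
    _ ≤ 1 * p ^ (-0.13 : ℝ) := by gcongr
    _ = _ := one_mul _

end CoreNumP

open CoreNumP

theorem core_num : CoreNumStmt := by
  intro J' hJ
  have hJ' : (1 : ℝ) ≤ J' := by exact_mod_cast hJ
  have H : ∀ᶠ P : ℝ in atTop, CoreNum J' P := by
    filter_upwards [eventually_ge_atTop 1, ev0 (b := 0.37) (by norm_num) 2,
      ev (a := 0.51) (b := 0.5101) (by norm_num) 4,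
      ev (a := 0.14) (b := 0.489) (by norm_num) (4 * J' / 0.13),
      ev (a := 0.5101) (b := 0.87203) (by norm_num) 48,
      ev (a := 0.5111) (b := 0.51792) (by norm_num) 48,
      ev (a := 0.371) (b := 0.38272) (by norm_num) 48,
      ev (a := 0.37) (b := 0.74593) (by norm_num) 48,
      ev (a := 0.9991) (b := 1) (by norm_num) (8 * (9 * J')),
      ev (a := 0.99) (b := 1) (by norm_num) (8 * (9 * J')),
      ev (a := 0.625) (b := 1) (by norm_num) 8,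
      ev (a := 0.995) (b := 1) (by norm_num) 8,
      ev (a := 0.5) (b := 1) (by norm_num) 16] with P h1 h2 h3 h4 h5 h6 h7 h8 h9 h10 h11 h12 h13
    have hP : 0 < P := by linarith
    have p37 : 1 ≤ P ^ (0.37 : ℝ) := by linarith
    have p51 : P ^ (0.37 : ℝ) ≤ P ^ (0.5101 : ℝ) := Real.rpow_le_rpow_of_exponent_le h1 (by norm_num)
    have p5101 : 1 ≤ P ^ (0.5101 : ℝ) := p37.trans p51
    have c1 := ceil_le p5101
    have c2 := ceil_le p37
    have l1 : P ^ (0.5101 : ℝ) ≤ (⌈P ^ (0.5101 : ℝ)⌉₊ : ℝ) := Nat.le_ceil _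
    have l2 : P ^ (0.37 : ℝ) ≤ (⌈P ^ (0.37 : ℝ)⌉₊ : ℝ) := Nat.le_ceil _
    have q1 : (0 : ℝ) < ⌈P ^ (0.5101 : ℝ)⌉₊ := by linarith
    have q2 : (0 : ℝ) < ⌈P ^ (0.37 : ℝ)⌉₊ := by linarith
    have hm2 : 2 ≤ ⌈P ^ (0.37 : ℝ)⌉₊ := by
      have : (2 : ℝ) ≤ (⌈P ^ (0.37 : ℝ)⌉₊ : ℝ) := by linarith
      exact_mod_cast this
    have hm21 : ⌈P ^ (0.37 : ℝ)⌉₊ ≤ ⌈P ^ (0.5101 : ℝ)⌉₊ := Nat.ceil_mono p51
    have hlog : Real.log P ≤ P / 8 := by
      have g1 := Real.log_le_rpow_div hP.le (show (0 : ℝ) < 0.5 by norm_num)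
      rw [Real.rpow_one] at h13
      have g2 : P ^ (0.5 : ℝ) / 0.5 = 2 * P ^ (0.5 : ℝ) := by ring
      linarith
    rw [Real.rpow_one] at h9 h10 h11 h12 h13
    refine ⟨h1, hm2.trans hm21, hm2, hm21, ?_, ?_, ?_, ?_, ?_, ?_, ?_, ?_⟩
    · have g1 : 4 * P ^ (0.51 : ℝ) / (⌈P ^ (0.5101 : ℝ)⌉₊ : ℝ) ≤ 1 := by
        rw [div_le_one q1]
        linarith
      calc _ ≤ Real.exp 1 := Real.exp_le_exp.2 g1
        _ ≤ 3 := by have := Real.exp_one_lt_d9; linarith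
    · rw [← Real.exp_add]
      refine (Real.exp_le_exp.2 ?_).trans (Real.exp_zero).le
      have g1 : 4 * P ^ (0.51 : ℝ) / (⌈P ^ (0.37 : ℝ)⌉₊ : ℝ) ≤ 4 * P ^ (0.14 : ℝ) := by
        rw [div_le_iff₀ q2]
        have e : P ^ (0.51 : ℝ) = P ^ (0.14 : ℝ) * P ^ (0.37 : ℝ) := by
          rw [← Real.rpow_add hP]; norm_num
        rw [e]
        have := Real.rpow_nonneg hP.le (0.14 : ℝ)
        nlinarith
      have g2 : 4 * P ^ (0.14 : ℝ) ≤ 0.13 / J' * P ^ (0.489 : ℝ) := by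
        have hJp : (0 : ℝ) < J' := by linarith
        calc 4 * P ^ (0.14 : ℝ) = 0.13 / J' * (4 * J' / 0.13 * P ^ (0.14 : ℝ)) := by field_simp
          _ ≤ _ := by gcongr
      linarith
    · intro p hp
      have := rt (e := 0) (s := 0.899) (d := 0.87203) h1 (by norm_num) hp c1 q1.le (by norm_num) (by norm_num)
        (by norm_num at h5 ⊢; exact h5)
      rw [Real.rpow_zero, one_mul] at this
      norm_num at this ⊢
      exact this
    · intro p hp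
      have := rt (e := 0.001) (s := 0.498) (d := 0.51792) h1 (by norm_num) hp c1 q1.le (by norm_num) (by norm_num)
        (by norm_num at h6 ⊢; exact h6)
      norm_num at this ⊢
      exact this
    · intro p hp
      have := rr (e := 0.001) (s := 0.368) (d := 0.38272) h1 (by norm_num) hp c2 q2 (by norm_num) (by norm_num)
        (by norm_num at h7 ⊢; exact h7)
      norm_num at this ⊢
      exact this
    · intro p hp
      have := rr (e := 0) (s := 0.769) (d := 0.74593) h1 (by norm_num) hp c2 q2 (by norm_num) (by norm_num)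
        (by norm_num at h8 ⊢; exact h8)
      rw [Real.rpow_zero, one_mul] at this
      norm_num at this ⊢
      exact this
    · exact sz h1 hJ' p5101 c1 q1.le (by norm_num) h9 h11 h12 hlog
    · exact sz h1 hJ' p37 c2 q2.le (by norm_num) h10 h11 h12 hlog
  obtain ⟨P0, h⟩ := Filter.eventually_atTop.1 H
  exact ⟨P0, fun P hP => h P hP⟩

end Vale.Agent.P042.TT
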