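import Vale.Agent.P042.TT.CoreFibre
import Vale.Agent.P042.TT.CoreA
import Vale.Agent.P042.TT.CoreNum

set_option autoImplicit false

/-!
Block CORE, fibre step: final form (depends on NU2 only).
-/

namespace Vale.Agent.P042.TT

open Polynomial Finset Vale.Agent.P042.SS

theorem coreA_stmt : CoreAStmt := by
  intro Pr g R DT M D m β Gm ρ b G y r x Fm Qs h1 h2 h3 h4 h5 h6 h7 h8 h9 h10 h11 h12 h13 h14 h15
    h16 h17 h18 h19 h20
  exact coreA Pr g R DT M D m β Gm ρ b G y r x Fm Qs h1 h2 h3 h4 h5 h6 h7 h8 h9 h10 h11 h12 h13 h14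
    h15 h16 h17 h18 h19 h20

/-- the fibre step of CORE -/
theorem core_fibre (hNU : NU2Stmt) : CoreFibreStmt := core_fibre_of coreA_stmt core_num hNU

end Vale.Agent.P042.TT
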