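import Vale.Agent.P042.TT.CoreDefs

set_option autoImplicit false

/-!
Block CORE, fibre step, part A: statement consumed from the abstract step, combinatorics of the
moduli.
-/

namespace Vale.Agent.P042.TT

open Polynomial Finset Vale.Agent.P042.SS

/-- abstract fibre step (helper74) -/
def CoreAStmt : Prop :=
  ∀ (Pr : Finset ℕ) (g : ℕ → ℕ) (R DT M D m : ℕ) (β Gm : ℝ) (ρ b : ℕ → ℝ) (G : ℤ → ℝ)
    (y r x : ℤ) (Fm : Finset (Finset ℕ)) (Qs : Finset ℕ),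
    (∀ p ∈ Pr, p.Prime) → (∀ p ∈ Pr, Nat.Coprime p (R * DT)) → (∀ p ∈ Pr, 1 ≤ g p) →
    1 ≤ R → 1 ≤ DT → Nat.Coprime R DT → 2 ≤ m → 0 < β → 0 < Gm →
    (∀ p ∈ Pr, 0 ≤ ρ p) → (∀ p ∈ Pr, 1 ≤ b p) → (∀ p ∈ Pr, 12 * m * ρ p * (1 + b p) ≤ 1) →
    (∀ n, 0 ≤ G n) → (∀ n, G n ≤ Gm) →
    (∀ S ∈ Fm, S ⊆ Pr) → (∀ S ∈ Fm, ∀ T, T ⊆ S → T ∈ Fm) →
    (∀ S ∈ Fm, ∏ p ∈ S, p ^ g p ≤ D) →
    R * DT * (D ^ (2 * m + 1) * Fm.card ^ (2 * m)) ≤ M →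
    (∀ S ∈ Fm, ∀ z : ℤ, z ≡ x [ZMOD (DT : ℕ)] → z ≡ r [ZMOD (R : ℕ)] →
      mass G y M (R * (DT * ∏ p ∈ S, p ^ g p)) z ≤
        β * (∏ p ∈ S, b p) * (M / (R * DT * ∏ p ∈ S, (p : ℝ) ^ g p))) →
    (∀ q ∈ Qs, 1 ≤ q ∧ (∀ p ∈ q.primeFactors, p ∈ Pr ∧ q.factorization p ≤ g p) ∧
      q.primeFactors ∈ Fm) →
    ∑ q ∈ Qs, (∏ p ∈ q.primeFactors, ρ p) * ∑ a ∈ (range q).filter (Nat.Coprime q),
      ‖∑ n ∈ (Ioc y (y + M)).filter (fun n : ℤ => n ≡ r [ZMOD (R : ℕ)] ∧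
          n ≡ x [ZMOD ((DT : ℕ) : ℤ)]),
        (G n : ℂ) * e (-((n : ℝ) * ((a : ℝ) / q)))‖ ^ 2 ≤
      8 * ((M : ℝ) / (R * DT)) ^ 2 * β ^ 2 * (1 + (Gm / β) ^ (1 / (m : ℝ)))

theorem coref_mem_QZ {P : ℝ} {J' : ℕ} {V : Finset ℕ} {Q q : ℕ} (hq : q ∈ QZ P J' V Q) :
    1 ≤ q ∧ q ≤ Q ∧ (∀ p ∈ W2 P, q.factorization p ≠ 1) ∧ (∀ p ∈ V, ¬ p ∣ q) ∧
      ∀ p ∈ q.primeFactors, ⌊P ^ (0.97 : ℝ)⌋₊ < p ∧ q.factorization p ≤ J' := by
  unfold QZ EV at hq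
  rw [Finset.mem_filter, Finset.mem_filter, Finset.mem_Icc] at hq
  exact ⟨hq.1.1.1, hq.1.1.2, hq.1.2.1, hq.1.2.2, hq.2⟩

theorem coref_primeFactors_sub {P : ℝ} (hP : 1 ≤ P) {J' : ℕ} {V : Finset ℕ} {R q : ℕ}
    (hq : q ∈ QZ P J' V (Q2 P)) (hR : Nat.Coprime q R) : q.primeFactors ⊆ PrC P V R := by
  obtain ⟨h1, h2, h3, h4, h5⟩ := coref_mem_QZ hq
  intro p hp
  have hpp := Nat.prime_of_mem_primeFactors hp
  have hd := Nat.dvd_of_mem_primeFactors hp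
  unfold PrC
  rw [Finset.mem_filter, Finset.mem_range]
  refine ⟨?_, hpp, ?_, ?_, ?_⟩
  · have := Nat.le_of_dvd h1 hd
    omega
  · exact (Nat.floor_lt (by positivity)).1 (h5 p hp).1
  · intro hV
    exact h4 p hV hd
  · exact Nat.Coprime.coprime_dvd_left hd hR

theorem coref_good {P : ℝ} (hP : 1 ≤ P) {J' : ℕ} {V : Finset ℕ} {R q : ℕ}
    (hq : q ∈ QZ P J' V (Q2 P)) (hR : Nat.Coprime q R) :
    ∀ p ∈ q.primeFactors, p ∈ PrC P V R ∧ q.factorization p ≤ J' := fun p hp =>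
  ⟨coref_primeFactors_sub hP hq hR hp, ((coref_mem_QZ hq).2.2.2.2 p hp).2⟩

theorem coref_rad_le {q : ℕ} (hq : 1 ≤ q) : ∏ p ∈ q.primeFactors, p ≤ q :=
  Nat.le_of_dvd hq (Nat.prod_primeFactors_dvd q)

theorem coref_le_rad_pow {q J' : ℕ} (hq : 1 ≤ q)
    (h : ∀ p ∈ q.primeFactors, q.factorization p ≤ J') :
    q ≤ (∏ p ∈ q.primeFactors, p) ^ J' := by
  have h1 : ∏ p ∈ q.primeFactors, p ^ q.factorization p = q := by
    have := Nat.prod_factorization_pow_eq_self (n := q) (by omega)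
    rw [Finsupp.prod, Nat.support_factorization] at this
    exact this
  calc q = ∏ p ∈ q.primeFactors, p ^ q.factorization p := h1.symm
    _ ≤ ∏ p ∈ q.primeFactors, p ^ J' := by
        apply Finset.prod_le_prod' 
        intro p hp
        exact Nat.pow_le_pow_right (Nat.prime_of_mem_primeFactors hp).pos (h p hp)
    _ = _ := by rw [Finset.prod_pow]

/-- families of sets of primes with bounded product -/
noncomputable def Fam (Pr : Finset ℕ) (Q : ℕ) : Finset (Finset ℕ) :=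
  Pr.powerset.filter (fun S => ∏ p ∈ S, p ≤ Q)

theorem coref_mem_Fam {Pr S : Finset ℕ} {Q : ℕ} :
    S ∈ Fam Pr Q ↔ S ⊆ Pr ∧ ∏ p ∈ S, p ≤ Q := by
  unfold Fam
  rw [Finset.mem_filter, Finset.mem_powerset]

theorem coref_Fam_down {Pr S T : Finset ℕ} {Q : ℕ} (hPr : ∀ p ∈ Pr, p.Prime) (hS : S ∈ Fam Pr Q)
    (hT : T ⊆ S) : T ∈ Fam Pr Q := by
  rw [coref_mem_Fam] at hS ⊢
  refine ⟨hT.trans hS.1, le_trans ?_ hS.2⟩
  exact Finset.prod_le_prod_of_subset_of_one_le' hT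
    (fun p hp _ => (hPr p (hS.1 hp)).one_le)

theorem coref_Fam_card {Pr : Finset ℕ} {Q : ℕ} (hPr : ∀ p ∈ Pr, p.Prime) :
    (Fam Pr Q).card ≤ Q := by
  have h : (Fam Pr Q).card ≤ (Icc 1 Q).card := by
    apply Finset.card_le_card_of_injOn (fun S => ∏ p ∈ S, p)
    · intro S hS
      rw [Finset.mem_coe, coref_mem_Fam] at hS
      simp only [Finset.coe_Icc, Set.mem_Icc]
      exact ⟨Finset.one_le_prod' (fun p hp => (hPr p (hS.1 hp)).one_le), hS.2⟩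
    · intro S hS T hT hST
      rw [Finset.mem_coe, coref_mem_Fam] at hS hT
      simp only at hST
      have h1 := Nat.primeFactors_prod (fun p hp => hPr p (hS.1 hp))
      have h2 := Nat.primeFactors_prod (fun p hp => hPr p (hT.1 hp))
      rw [← h1, ← h2, hST]
  simpa using h

theorem coref_Fam_D {Pr S : Finset ℕ} {Q J' : ℕ} (hS : S ∈ Fam Pr Q) :
    ∏ p ∈ S, p ^ J' ≤ Q ^ J' := by
  rw [Finset.prod_pow]
  exact Nat.pow_le_pow_left (coref_mem_Fam.1 hS).2 _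

end Vale.Agent.P042.TT
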