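import Vale.Agent.P042.TT.CoreFibA

set_option autoImplicit false

/-!
Block CORE, fibre step, part B: the rates.
-/

namespace Vale.Agent.P042.TT

open Polynomial Finset Vale.Agent.P042.SS

noncomputable def rho1 (P : ℝ) (p : ℕ) : ℝ :=
  if p ∈ W2 P then (p : ℝ) ^ (-0.9 : ℝ) else P ^ (0.001 : ℝ) * (p : ℝ) ^ (-0.499 : ℝ)

noncomputable def rho2 (P : ℝ) (p : ℕ) : ℝ :=
  1 / (24 * (⌈P ^ (0.37 : ℝ)⌉₊ : ℝ) * (p : ℝ) ^ (0.001 : ℝ))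

theorem coref_big {P : ℝ} {p : ℕ} (hp : p.Prime) (h1 : ⌊P ^ (0.97 : ℝ)⌋₊ < p)
    (h2 : p ∉ W2 P) : P ^ (1.04 : ℝ) < p := by
  by_contra h
  apply h2
  unfold W2 Wp
  rw [Finset.mem_filter, Finset.mem_Ioc]
  refine ⟨⟨h1, ?_⟩, hp⟩
  exact Nat.le_floor (not_lt.1 h)

theorem coref_rho1_nn {P : ℝ} (hP : 1 ≤ P) (p : ℕ) : 0 ≤ rho1 P p := by
  unfold rho1
  split_ifs
  · positivity
  · positivity

theorem coref_rho2_nn {P : ℝ} (p : ℕ) : 0 ≤ rho2 P p := by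
  unfold rho2; positivity

theorem coref_zr_nn {P : ℝ} (hP : 1 ≤ P) (p j : ℕ) : 0 ≤ zr P p j := by
  unfold zr
  split_ifs <;> positivity

theorem coref_zR_nn {P : ℝ} (hP : 1 ≤ P) (q : ℕ) : 0 ≤ zR P q :=
  Finset.prod_nonneg (fun p _ => coref_zr_nn hP p _)

theorem coref_cond1 {P : ℝ} {J' : ℕ} (hC : CoreNum J' P) {p : ℕ} (hp : p.Prime)
    (h1 : P ^ (0.97 : ℝ) < p) :
    12 * (⌈P ^ (0.5101 : ℝ)⌉₊ : ℝ) * rho1 P p * (1 + (p : ℝ) ^ (0.001 : ℝ)) ≤ 1 := by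
  unfold rho1
  split_ifs with h
  · exact hC.r1 p h1.le
  · have h2 := coref_big hp ((Nat.floor_lt (by have := hC.one_le; positivity)).2 h1) h
    exact hC.r2 p h2.le

theorem coref_cond2 {P : ℝ} {J' : ℕ} (hC : CoreNum J' P) {p : ℕ} (hp : p.Prime) :
    12 * (⌈P ^ (0.37 : ℝ)⌉₊ : ℝ) * rho2 P p * (1 + (p : ℝ) ^ (0.001 : ℝ)) ≤ 1 := by
  unfold rho2
  have hm : (0 : ℝ) < (⌈P ^ (0.37 : ℝ)⌉₊ : ℝ) := by
    have := hC.m2
    exact_mod_cast (by omega : 0 < ⌈P ^ (0.37 : ℝ)⌉₊)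
  have hp1 : (1 : ℝ) ≤ p := by exact_mod_cast hp.one_le
  have hx : (1 : ℝ) ≤ (p : ℝ) ^ (0.001 : ℝ) := Real.one_le_rpow hp1 (by norm_num)
  have hx0 : (0 : ℝ) < (p : ℝ) ^ (0.001 : ℝ) := by positivity
  have he : 12 * (⌈P ^ (0.37 : ℝ)⌉₊ : ℝ) *
      (1 / (24 * (⌈P ^ (0.37 : ℝ)⌉₊ : ℝ) * (p : ℝ) ^ (0.001 : ℝ))) *
        (1 + (p : ℝ) ^ (0.001 : ℝ)) = (1 + (p : ℝ) ^ (0.001 : ℝ)) / (2 * (p : ℝ) ^ (0.001 : ℝ)) := by
    field_simp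
    ring
  rw [he, div_le_one (by positivity)]
  linarith

theorem coref_zR_le1 {P : ℝ} (hP : 1 ≤ P) {J' : ℕ} {V : Finset ℕ} {q : ℕ}
    (hq : q ∈ QZ P J' V (Q2 P)) : zR P q ≤ ∏ p ∈ q.primeFactors, rho1 P p := by
  obtain ⟨h1, h2, h3, h4, h5⟩ := coref_mem_QZ hq
  unfold zR
  apply Finset.prod_le_prod (fun p _ => coref_zr_nn hP p _)
  intro p hp
  have hpp := Nat.prime_of_mem_primeFactors hp
  have hp1 : (1 : ℝ) ≤ p := by exact_mod_cast hpp.one_le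
  unfold zr rho1
  by_cases hW : p ∈ W2 P
  · rw [if_neg (h3 p hW), if_pos hW]
  · rw [if_neg hW]
    split_ifs
    · exact le_rfl
    · have ha : (p : ℝ) ^ (-0.9 : ℝ) ≤ (p : ℝ) ^ (-0.499 : ℝ) :=
        Real.rpow_le_rpow_of_exponent_le hp1 (by norm_num)
      have hb : (1 : ℝ) ≤ P ^ (0.001 : ℝ) := Real.one_le_rpow hP (by norm_num)
      have hc : (0 : ℝ) ≤ (p : ℝ) ^ (-0.499 : ℝ) := by positivity
      nlinarith

theorem coref_zR_le2 {P : ℝ} {J' : ℕ} (hJ : 1 ≤ J') (hC : CoreNum J' P) {V : Finset ℕ} {q : ℕ}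
    (hq : q ∈ QZ P J' V (Q2 P)) (hbig : Real.exp (P ^ (0.489 : ℝ)) ≤ q) :
    zR P q ≤ Real.exp (-(0.13 / J' * P ^ (0.489 : ℝ))) * ∏ p ∈ q.primeFactors, rho2 P p := by
  obtain ⟨h1, h2, h3, h4, h5⟩ := coref_mem_QZ hq
  have hP := hC.one_le
  have hstep : zR P q ≤ ∏ p ∈ q.primeFactors, (rho2 P p * (p : ℝ) ^ (-0.13 : ℝ)) := by
    unfold zR
    apply Finset.prod_le_prod (fun p _ => coref_zr_nn hP p _)
    intro p hp
    have hpp := Nat.prime_of_mem_primeFactors hp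
    have hlow : P ^ (0.97 : ℝ) < p := (Nat.floor_lt (by positivity)).1 (h5 p hp).1
    unfold zr rho2
    split_ifs with hj
    · have hW : p ∉ W2 P := fun hW => h3 p hW hj
      exact hC.r3 p (coref_big hpp (h5 p hp).1 hW).le
    · exact hC.r4 p hlow.le
  refine hstep.trans ?_
  rw [Finset.prod_mul_distrib, mul_comm]
  apply mul_le_mul_of_nonneg_right _ (Finset.prod_nonneg fun p _ => coref_rho2_nn p)
  -- the radical
  have hJ0 : (0 : ℝ) < J' := by exact_mod_cast hJ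
  have hrad1 : (1 : ℝ) ≤ ((∏ p ∈ q.primeFactors, p : ℕ) : ℝ) := by
    exact_mod_cast Finset.one_le_prod' (fun p hp => (Nat.prime_of_mem_primeFactors hp).one_le)
  have hprod : ∏ p ∈ q.primeFactors, (p : ℝ) ^ (-0.13 : ℝ) =
      ((∏ p ∈ q.primeFactors, p : ℕ) : ℝ) ^ (-0.13 : ℝ) := by
    rw [Nat.cast_prod, Real.finsetProd_rpow _ _ (fun p _ => by positivity)]
  rw [hprod]
  have hq1 : (q : ℝ) ≤ ((∏ p ∈ q.primeFactors, p : ℕ) : ℝ) ^ J' := by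
    exact_mod_cast coref_le_rad_pow h1 (fun p hp => (h5 p hp).2)
  have hlog : P ^ (0.489 : ℝ) ≤ J' * Real.log ((∏ p ∈ q.primeFactors, p : ℕ) : ℝ) := by
    have h6 := hbig.trans hq1
    have h7 := Real.log_le_log (Real.exp_pos _) h6
    rwa [Real.log_exp, Real.log_pow] at h7
  rw [Real.rpow_def_of_pos (by linarith)]
  apply Real.exp_le_exp.2
  have h8 : P ^ (0.489 : ℝ) / J' ≤ Real.log ((∏ p ∈ q.primeFactors, p : ℕ) : ℝ) := by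
    rw [div_le_iff₀ hJ0]; linarith
  have h9 : 0.13 / (J' : ℝ) * P ^ (0.489 : ℝ) = 0.13 * (P ^ (0.489 : ℝ) / J') := by ring
  rw [h9]
  linarith

end Vale.Agent.P042.TT
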