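import Vale.Agent.P042.TT.CoreFibB

set_option autoImplicit false

/-!
Block CORE, fibre step, part C: sizes.
-/

namespace Vale.Agent.P042.TT

open Polynomial Finset Vale.Agent.P042.SS

theorem coref_prime_of_V {P : ℝ} {V : Finset ℕ} (hV : V ⊆ W2 P) {p : ℕ} (hp : p ∈ V) :
    p.Prime := by
  have := hV hp
  unfold W2 Wp at this
  exact (Finset.mem_filter.1 this).2

theorem coref_prodT_le {P : ℝ} {V T : Finset ℕ} (hV : V ⊆ W2 P)
    (hsum : ∑ p ∈ V, Real.log p ≤ P ^ (0.995 : ℝ)) (hT : T ⊆ V) :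
    ((∏ p ∈ T, p : ℕ) : ℝ) ≤ Real.exp (P ^ (0.995 : ℝ)) := by
  have h1 : Real.log ((∏ p ∈ T, p : ℕ) : ℝ) ≤ P ^ (0.995 : ℝ) := by
    rw [Nat.cast_prod, Real.log_prod (fun p hp => by
      have := (coref_prime_of_V hV (hT hp)).pos
      positivity)]
    refine le_trans ?_ hsum
    apply Finset.sum_le_sum_of_subset_of_nonneg hT
    intro p hp _
    exact Real.log_nonneg (by exact_mod_cast (coref_prime_of_V hV hp).one_le)
  have h2 : (0 : ℝ) < ((∏ p ∈ T, p : ℕ) : ℝ) := by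
    rw [Nat.cast_pos]
    exact Finset.prod_pos (fun p hp => (coref_prime_of_V hV (hT hp)).pos)
  rw [← Real.log_le_iff_le_exp h2]
  exact h1

theorem coref_size {P : ℝ} (hP : 1 ≤ P) {N' M R J' m Qn : ℕ} {V T Pr : Finset ℕ} {E0 : ℝ}
    (hN : Real.exp (7 / 8 * P) ≤ N') (hNM : (N' : ℝ) ≤ P * M) (hV : V ⊆ W2 P)
    (hsum : ∑ p ∈ V, Real.log p ≤ P ^ (0.995 : ℝ)) (hT : T ⊆ V) (hR : 1 ≤ R)
    (hRl : Real.log R ≤ P ^ (0.625 : ℝ)) (hPr : ∀ p ∈ Pr, p.Prime)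
    (hQ : (Qn : ℝ) ≤ Real.exp E0)
    (hs : E0 * (J' * (2 * (m : ℝ) + 1) + 2 * (m : ℝ)) ≤
      7 / 8 * P - Real.log P - P ^ (0.625 : ℝ) - P ^ (0.995 : ℝ)) :
    R * (∏ p ∈ T, p) * ((Qn ^ J') ^ (2 * m + 1) * (Fam Pr Qn).card ^ (2 * m)) ≤ M := by
  have hR0 : (0 : ℝ) < R := by exact_mod_cast hR
  have h1 : (R : ℝ) ≤ Real.exp (P ^ (0.625 : ℝ)) := by
    rwa [← Real.log_le_iff_le_exp hR0]
  have h2 := coref_prodT_le hV hsum hT
  have h3 : (((Qn ^ J') ^ (2 * m + 1) : ℕ) : ℝ) ≤ Real.exp (E0 * (J' * (2 * (m : ℝ) + 1))) := by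
    rw [← pow_mul, Nat.cast_pow]
    calc (Qn : ℝ) ^ (J' * (2 * m + 1)) ≤ (Real.exp E0) ^ (J' * (2 * m + 1)) :=
          pow_le_pow_left₀ (by positivity) hQ _
      _ = Real.exp (E0 * (J' * (2 * (m : ℝ) + 1))) := by
          rw [← Real.exp_nat_mul]
          congr 1
          push_cast
          ring
  have h4 : (((Fam Pr Qn).card ^ (2 * m) : ℕ) : ℝ) ≤ Real.exp (E0 * (2 * (m : ℝ))) := by
    rw [Nat.cast_pow]
    calc ((Fam Pr Qn).card : ℝ) ^ (2 * m) ≤ (Real.exp E0) ^ (2 * m) := by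
          apply pow_le_pow_left₀ (by positivity)
          exact le_trans (by exact_mod_cast coref_Fam_card hPr) hQ
      _ = Real.exp (E0 * (2 * (m : ℝ))) := by
          rw [← Real.exp_nat_mul]
          congr 1
          push_cast
          ring
  have h5 : ((R * (∏ p ∈ T, p) * ((Qn ^ J') ^ (2 * m + 1) * (Fam Pr Qn).card ^ (2 * m)) : ℕ) : ℝ)
      ≤ Real.exp (P ^ (0.625 : ℝ)) * Real.exp (P ^ (0.995 : ℝ)) *
        (Real.exp (E0 * (J' * (2 * (m : ℝ) + 1))) * Real.exp (E0 * (2 * (m : ℝ)))) := by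
    push_cast at h2 h3 h4 ⊢
    gcongr
  have h6 : Real.exp (P ^ (0.625 : ℝ)) * Real.exp (P ^ (0.995 : ℝ)) *
        (Real.exp (E0 * (J' * (2 * (m : ℝ) + 1))) * Real.exp (E0 * (2 * (m : ℝ)))) ≤
      Real.exp (7 / 8 * P) / P := by
    have hP0 : 0 < P := by linarith
    rw [← Real.exp_add, ← Real.exp_add, ← Real.exp_add]
    have : Real.exp (7 / 8 * P) / P = Real.exp (7 / 8 * P - Real.log P) := by
      rw [Real.exp_sub, Real.exp_log hP0]
    rw [this]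
    apply Real.exp_le_exp.2
    nlinarith
  have h7 : Real.exp (7 / 8 * P) / P ≤ M := by
    have hP0 : 0 < P := by linarith
    rw [div_le_iff₀ hP0]
    linarith
  exact_mod_cast h5.trans (h6.trans h7)

theorem coref_Q2_le {P : ℝ} : (Q2 P : ℝ) ≤ Real.exp (P ^ (0.62 : ℝ)) :=
  Nat.floor_le (Real.exp_pos _).le

theorem coref_PrC_prime {P : ℝ} {V : Finset ℕ} {R p : ℕ} (hp : p ∈ PrC P V R) : p.Prime := by
  unfold PrC at hp
  exact (Finset.mem_filter.1 hp).2.1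

theorem coref_PrC_low {P : ℝ} {V : Finset ℕ} {R p : ℕ} (hp : p ∈ PrC P V R) :
    P ^ (0.97 : ℝ) < p := by
  unfold PrC at hp
  exact (Finset.mem_filter.1 hp).2.2.1

theorem coref_PrC_cop {P : ℝ} {V T : Finset ℕ} (hV : V ⊆ W2 P) (hT : T ⊆ V) {R p : ℕ}
    (hp : p ∈ PrC P V R) : Nat.Coprime p (R * ∏ p ∈ T, p) := by
  have hpp := coref_PrC_prime hp
  unfold PrC at hp
  obtain ⟨_, _, _, h3, h4⟩ := Finset.mem_filter.1 hp
  apply Nat.Coprime.mul_right h4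
  apply Nat.Coprime.prod_right
  intro l hl
  rw [Nat.coprime_primes hpp (coref_prime_of_V hV (hT hl))]
  rintro rfl
  exact h3 (hT hl)

end Vale.Agent.P042.TT
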