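import Vale.Agent.P042.TT.CoreFibC

set_option autoImplicit false

/-!
Block CORE, fibre step: `core_fibre_of`.
-/

namespace Vale.Agent.P042.TT

open Polynomial Finset Vale.Agent.P042.SS

/-- energy of the cell at the modulus `q` -/
noncomputable def cellE (G : ℤ → ℝ) (y : ℤ) (M R DT : ℕ) (r x : ℤ) (q : ℕ) : ℝ :=
  ∑ a ∈ (range q).filter (Nat.Coprime q),
    ‖∑ n ∈ (Ioc y (y + M)).filter (fun n : ℤ => n ≡ r [ZMOD (R : ℕ)] ∧
        n ≡ x [ZMOD ((DT : ℕ) : ℤ)]),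
      (G n : ℂ) * e (-((n : ℝ) * ((a : ℝ) / q)))‖ ^ 2

theorem coref_cellE_nn (G : ℤ → ℝ) (y : ℤ) (M R DT : ℕ) (r x : ℤ) (q : ℕ) :
    0 ≤ cellE G y M R DT r x q :=
  Finset.sum_nonneg (fun _ _ => by positivity)

/-- one range of moduli -/
theorem coref_range (hA : CoreAStmt) {P : ℝ} (hP : 1 ≤ P) {J' : ℕ} (hJ : 1 ≤ J')
    {N' M R m Qn : ℕ} {V T : Finset ℕ} {E0 Φ B Gm : ℝ} {G : ℤ → ℝ} {ν : ℕ → ℤ → ℝ}
    {y r : ℤ} {x : ℕ} {ρ : ℕ → ℝ} {Qs : Finset ℕ}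
    (hN : Real.exp (7 / 8 * P) ≤ N') (hNM : (N' : ℝ) ≤ P * M) (hV : V ⊆ W2 P)
    (hsum : ∑ p ∈ V, Real.log p ≤ P ^ (0.995 : ℝ)) (hT : T ⊆ V) (hR : 1 ≤ R)
    (hcop : ∀ p ∈ V, Nat.Coprime p R)
    (hRl : Real.log R ≤ P ^ (0.625 : ℝ))
    (hQ : (Qn : ℝ) ≤ Real.exp E0)
    (hs : E0 * (J' * (2 * (m : ℝ) + 1) + 2 * (m : ℝ)) ≤
      7 / 8 * P - Real.log P - P ^ (0.625 : ℝ) - P ^ (0.995 : ℝ))
    (hQ2 : Qn ≤ Q2 P) (hm : 2 ≤ m) (hΦ : 0 < Φ) (hB : 1 ≤ B) (hGm : 0 < Gm)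
    (hν : ∀ p ∈ T, 0 < ν p x) (hρ0 : ∀ p, 0 ≤ ρ p)
    (hρ : ∀ p ∈ PrC P V R, 12 * (m : ℝ) * ρ p * (1 + (p : ℝ) ^ (0.001 : ℝ)) ≤ 1)
    (hG0 : ∀ n, 0 ≤ G n) (hG1 : ∀ n, G n ≤ Gm)
    (hmass : ∀ S ⊆ PrC P V R, ∏ p ∈ S, p ≤ Q2 P → ∀ z : ℤ,
        z ≡ (x : ℤ) [ZMOD ((∏ p ∈ T, p : ℕ) : ℤ)] → z ≡ r [ZMOD (R : ℕ)] →
        mass G y M (R * ((∏ p ∈ T, p) * ∏ p ∈ S, p ^ J')) z ≤
          B * (∏ p ∈ S, (p : ℝ) ^ (0.001 : ℝ)) * (∏ p ∈ T, (ν p x / p)) *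
            (Φ * M / (R * ∏ p ∈ S, (p : ℝ) ^ J')))
    (hQs : ∀ q ∈ Qs, 1 ≤ q ∧ q ≤ Qn ∧ q ∈ QZ P J' V (Q2 P) ∧ Nat.Coprime q R) :
    ∑ q ∈ Qs, (∏ p ∈ q.primeFactors, ρ p) * cellE G y M R (∏ p ∈ T, p) r x q ≤
      8 * ((M : ℝ) / (R * ((∏ p ∈ T, p : ℕ) : ℝ))) ^ 2 * (B * Φ * ∏ p ∈ T, ν p x) ^ 2 *
        (1 + (Gm / (B * Φ * ∏ p ∈ T, ν p x)) ^ (1 / (m : ℝ))) := by
  have hTp : ∀ p ∈ T, p.Prime := fun p hp => coref_prime_of_V hV (hT hp)
  have hDT : 1 ≤ ∏ p ∈ T, p := Finset.one_le_prod' (fun p hp => (hTp p hp).one_le)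
  have hνp : 0 < ∏ p ∈ T, ν p x := Finset.prod_pos hν
  have hβ : 0 < B * Φ * ∏ p ∈ T, ν p x := by positivity
  refine hA (PrC P V R) (fun _ => J') R (∏ p ∈ T, p) M (Qn ^ J') m
    (B * Φ * ∏ p ∈ T, ν p x) Gm ρ (fun p => (p : ℝ) ^ (0.001 : ℝ)) G y r x
    (Fam (PrC P V R) Qn) Qs
    (fun p hp => coref_PrC_prime hp) (fun p hp => coref_PrC_cop hV hT hp) (fun _ _ => hJ)
    hR hDT ?_ hm hβ hGm (fun p _ => hρ0 p) ?_ hρ hG0 hG1 ?_ ?_ ?_ ?_ ?_ ?_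
  · exact (Nat.Coprime.prod_left fun p hp => hcop p (hT hp)).symm
  · intro p hp
    exact Real.one_le_rpow (by exact_mod_cast (coref_PrC_prime hp).one_le) (by norm_num)
  · intro S hS
    exact (coref_mem_Fam.1 hS).1
  · intro S hS T' hT'
    exact coref_Fam_down (fun p hp => coref_PrC_prime hp) hS hT'
  · intro S hS
    exact coref_Fam_D hS
  · exact coref_size hP hN hNM hV hsum hT hR hRl (fun p hp => coref_PrC_prime hp) hQ hs
  · intro S hS z hz1 hz2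
    have h1 := hmass S (coref_mem_Fam.1 hS).1 (le_trans (coref_mem_Fam.1 hS).2 hQ2) z hz1 hz2
    refine h1.trans (le_of_eq ?_)
    rw [Finset.prod_div_distrib, Nat.cast_prod]
    ring
  · intro q hq
    obtain ⟨h1, h2, h3, h4⟩ := hQs q hq
    refine ⟨h1, coref_good hP h3 h4, ?_⟩
    rw [coref_mem_Fam]
    exact ⟨coref_primeFactors_sub hP h3 h4, (coref_rad_le h1).trans h2⟩

theorem core_fibre_of (hA : CoreAStmt) (hNum : CoreNumStmt) (hNU : NU2Stmt) :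
    CoreFibreStmt := by
  intro k J' hk hJ
  obtain ⟨P1, hP1⟩ := hNum J' hJ
  obtain ⟨P2, hP2⟩ := hNU k hk
  refine ⟨max P1 P2, ?_⟩
  intro P hPP N' Nmin Φ G ν hSt V R M y r hV hsum hR hcop hRl hMN hNM T x B hT hν0 hB hmass
  have hC := hP1 P ((le_max_left _ _).trans hPP)
  have hNu := hP2 P ((le_max_right _ _).trans hPP) N' Nmin Φ G ν hSt
  have hP := hC.one_le
  have hΦ := hSt.pin.Φpos
  have hG1 := hNu.2.2.2.1
  have hGm : 0 < Real.exp (4 * P ^ (0.51 : ℝ)) * Φ := by positivity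
  have hν : ∀ p ∈ T, 0 < ν p x := fun p hp =>
    lt_of_le_of_ne (hSt.pin.wts.nn p x) (Ne.symm (hν0 p hp))
  have hνp : 0 < ∏ p ∈ T, ν p x := Finset.prod_pos hν
  have hm1 := hC.m1
  have hm2 := hC.m2
  set m1 : ℕ := ⌈P ^ (0.5101 : ℝ)⌉₊ with hm1d
  set m2 : ℕ := ⌈P ^ (0.37 : ℝ)⌉₊ with hm2d
  set DT : ℕ := ∏ p ∈ T, p with hDTd
  set Q1 : ℕ := ⌊Real.exp (P ^ (0.489 : ℝ))⌋₊ with hQ1d
  have hQ1e : (Q1 : ℝ) ≤ Real.exp (P ^ (0.489 : ℝ)) := Nat.floor_le (Real.exp_pos _).le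
  have hQ12 : Q1 ≤ Q2 P := by
    apply Nat.floor_mono
    apply Real.exp_le_exp.2
    exact Real.rpow_le_rpow_of_exponent_le hP (by norm_num)
  set Qs := (QZ P J' V (Q2 P)).filter (fun q => Nat.Coprime q R) with hQsd
  set X : ℝ := ∏ p ∈ T, max 1 (1 / ν p x) with hXd
  have hX1 : 1 ≤ X := by
    calc (1 : ℝ) = ∏ p ∈ T, (1 : ℝ) := by simp
      _ ≤ X := Finset.prod_le_prod (fun _ _ => zero_le_one) (fun p _ => le_max_left _ _)
  set K : ℝ := 8 * ((M : ℝ) / (R * (DT : ℝ))) ^ 2 * (B * Φ * ∏ p ∈ T, ν p x) ^ 2 with hKd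
  have hK0 : 0 ≤ K := by positivity
  -- the ratio
  have hratio : ∀ m : ℕ, 1 ≤ m →
      ((Real.exp (4 * P ^ (0.51 : ℝ)) * Φ) / (B * Φ * ∏ p ∈ T, ν p x)) ^ (1 / (m : ℝ)) ≤
        Real.exp (4 * P ^ (0.51 : ℝ) / m) * X ^ (1 / (m : ℝ)) := by
    intro m hm
    have h1 : (Real.exp (4 * P ^ (0.51 : ℝ)) * Φ) / (B * Φ * ∏ p ∈ T, ν p x) ≤
        Real.exp (4 * P ^ (0.51 : ℝ)) * X := by
      have h2 : 1 / ∏ p ∈ T, ν p x ≤ X := by
        rw [one_div, ← Finset.prod_inv_distrib]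
        apply Finset.prod_le_prod
        · intro p hp
          exact (inv_pos.2 (hν p hp)).le
        · intro p hp
          rw [← one_div]
          exact le_max_right _ _
      have h3 : (Real.exp (4 * P ^ (0.51 : ℝ)) * Φ) / (B * Φ * ∏ p ∈ T, ν p x) =
          Real.exp (4 * P ^ (0.51 : ℝ)) * ((1 / B) * (1 / ∏ p ∈ T, ν p x)) := by
        field_simp
      rw [h3]
      have h4 : 1 / B ≤ 1 := by
        rw [div_le_one (by linarith)]; exact hB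
      have h5 : (0 : ℝ) ≤ 1 / ∏ p ∈ T, ν p x := by positivity
      have h6 : (1 / B) * (1 / ∏ p ∈ T, ν p x) ≤ X := by
        calc (1 / B) * (1 / ∏ p ∈ T, ν p x) ≤ 1 * (1 / ∏ p ∈ T, ν p x) :=
              mul_le_mul_of_nonneg_right h4 h5
          _ ≤ X := by rw [one_mul]; exact h2
      exact mul_le_mul_of_nonneg_left h6 (Real.exp_pos _).le
    calc _ ≤ (Real.exp (4 * P ^ (0.51 : ℝ)) * X) ^ (1 / (m : ℝ)) := by
          apply Real.rpow_le_rpow _ h1 (by positivity)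
          positivity
      _ = Real.exp (4 * P ^ (0.51 : ℝ) / m) * X ^ (1 / (m : ℝ)) := by
          rw [Real.mul_rpow (Real.exp_pos _).le (by linarith), ← Real.exp_mul]
          congr 2
          ring
  -- first range
  have hr1 : ∑ q ∈ Qs.filter (fun q => q ≤ Q1), zR P q * cellE G y M R DT r x q ≤
      K * (1 + 3 * X ^ (1 / (m2 : ℝ))) := by
    have hstep : ∑ q ∈ Qs.filter (fun q => q ≤ Q1), zR P q * cellE G y M R DT r x q ≤
        ∑ q ∈ Qs.filter (fun q => q ≤ Q1),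
          (∏ p ∈ q.primeFactors, rho1 P p) * cellE G y M R DT r x q := by
      apply Finset.sum_le_sum
      intro q hq
      have hq' := (Finset.mem_filter.1 (Finset.mem_filter.1 hq).1).1
      exact mul_le_mul_of_nonneg_right (coref_zR_le1 hP hq') (coref_cellE_nn _ _ _ _ _ _ _ _)
    refine hstep.trans ?_
    have h1 := coref_range hA hP hJ (m := m1) (Qn := Q1) (E0 := P ^ (0.489 : ℝ))
      (ρ := rho1 P) (Qs := Qs.filter (fun q => q ≤ Q1)) (r := r) hSt.N'lo hNM hV hsum hT hR hcop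
      hRl hQ1e hC.s1 hQ12 hm1 hΦ hB hGm hν (coref_rho1_nn hP)
      (fun p hp => coref_cond1 hC (coref_PrC_prime hp) (coref_PrC_low hp)) hSt.pin.G0 hG1 hmass
      (by
        intro q hq
        rw [Finset.mem_filter] at hq
        have h2 := Finset.mem_filter.1 hq.1
        exact ⟨(coref_mem_QZ h2.1).1, hq.2, h2.1, h2.2⟩)
    refine h1.trans ?_
    rw [← hKd]
    apply mul_le_mul_of_nonneg_left _ hK0
    have h3 := hratio m1 (by omega)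
    have h4 : X ^ (1 / (m1 : ℝ)) ≤ X ^ (1 / (m2 : ℝ)) := by
      apply Real.rpow_le_rpow_of_exponent_le hX1
      apply one_div_le_one_div_of_le
      · exact_mod_cast (by omega : 0 < m2)
      · exact_mod_cast hC.m21
    have h5 : 0 ≤ X ^ (1 / (m1 : ℝ)) := by positivity
    have h6 := hC.e1
    have h7 : Real.exp (4 * P ^ (0.51 : ℝ) / m1) * X ^ (1 / (m1 : ℝ)) ≤
        3 * X ^ (1 / (m2 : ℝ)) := by
      calc _ ≤ 3 * X ^ (1 / (m1 : ℝ)) := mul_le_mul_of_nonneg_right h6 h5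
        _ ≤ _ := by linarith
    linarith
  -- second range
  have hr2 : ∑ q ∈ Qs.filter (fun q => ¬ q ≤ Q1), zR P q * cellE G y M R DT r x q ≤
      K * (1 + X ^ (1 / (m2 : ℝ))) := by
    set c : ℝ := Real.exp (-(0.13 / J' * P ^ (0.489 : ℝ))) with hcd
    have hc0 : 0 < c := Real.exp_pos _
    have hc1 : c ≤ 1 := by
      rw [hcd, Real.exp_le_one_iff]
      have : 0 ≤ 0.13 / (J' : ℝ) * P ^ (0.489 : ℝ) := by positivity
      linarith
    have hstep : ∑ q ∈ Qs.filter (fun q => ¬ q ≤ Q1), zR P q * cellE G y M R DT r x q ≤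
        c * ∑ q ∈ Qs.filter (fun q => ¬ q ≤ Q1),
          (∏ p ∈ q.primeFactors, rho2 P p) * cellE G y M R DT r x q := by
      rw [Finset.mul_sum]
      apply Finset.sum_le_sum
      intro q hq
      have hq' := (Finset.mem_filter.1 (Finset.mem_filter.1 hq).1).1
      have hq2 : Real.exp (P ^ (0.489 : ℝ)) ≤ q := by
        have h1 := (Finset.mem_filter.1 hq).2
        rw [not_le] at h1
        have h2 := Nat.lt_of_floor_lt h1
        exact h2.le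
      rw [← mul_assoc]
      exact mul_le_mul_of_nonneg_right (coref_zR_le2 hJ hC hq' hq2)
        (coref_cellE_nn _ _ _ _ _ _ _ _)
    refine hstep.trans ?_
    have h1 := coref_range hA hP hJ (m := m2) (Qn := Q2 P) (E0 := P ^ (0.62 : ℝ))
      (ρ := rho2 P) (Qs := Qs.filter (fun q => ¬ q ≤ Q1)) (r := r) hSt.N'lo hNM hV hsum hT hR
      hcop hRl coref_Q2_le hC.s2 le_rfl hm2 hΦ hB hGm hν (fun p => coref_rho2_nn p)
      (fun p hp => coref_cond2 hC (coref_PrC_prime hp)) hSt.pin.G0 hG1 hmass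
      (by
        intro q hq
        rw [Finset.mem_filter] at hq
        have h2 := Finset.mem_filter.1 hq.1
        exact ⟨(coref_mem_QZ h2.1).1, (coref_mem_QZ h2.1).2.1, h2.1, h2.2⟩)
    have h2 : c * ∑ q ∈ Qs.filter (fun q => ¬ q ≤ Q1),
          (∏ p ∈ q.primeFactors, rho2 P p) * cellE G y M R DT r x q ≤
        c * (K * (1 + Real.exp (4 * P ^ (0.51 : ℝ) / m2) * X ^ (1 / (m2 : ℝ)))) := by
      apply mul_le_mul_of_nonneg_left _ hc0.le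
      refine h1.trans ?_
      rw [← hKd]
      apply mul_le_mul_of_nonneg_left _ hK0
      have h3 := hratio m2 (by omega)
      linarith
    refine h2.trans ?_
    have h5 : 0 ≤ X ^ (1 / (m2 : ℝ)) := by positivity
    have h6 : c * Real.exp (4 * P ^ (0.51 : ℝ) / m2) ≤ 1 := hC.e2
    have h7 : c * (K * (1 + Real.exp (4 * P ^ (0.51 : ℝ) / m2) * X ^ (1 / (m2 : ℝ)))) =
        K * (c + (c * Real.exp (4 * P ^ (0.51 : ℝ) / m2)) * X ^ (1 / (m2 : ℝ))) := by ring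
    rw [h7]
    apply mul_le_mul_of_nonneg_left _ hK0
    have h8 : (c * Real.exp (4 * P ^ (0.51 : ℝ) / m2)) * X ^ (1 / (m2 : ℝ)) ≤
        1 * X ^ (1 / (m2 : ℝ)) := mul_le_mul_of_nonneg_right h6 h5
    linarith
  have hsplit : ∑ q ∈ Qs, zR P q * cellE G y M R DT r x q =
      ∑ q ∈ Qs.filter (fun q => q ≤ Q1), zR P q * cellE G y M R DT r x q +
      ∑ q ∈ Qs.filter (fun q => ¬ q ≤ Q1), zR P q * cellE G y M R DT r x q :=
    (Finset.sum_filter_add_sum_filter_not _ _ _).symm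
  have hgoal : ∑ q ∈ Qs, zR P q * cellE G y M R DT r x q ≤
      48 * (M * Φ / (R * ∏ p ∈ T, (p : ℝ))) ^ 2 * (∏ p ∈ T, (ν p x) ^ 2) * B ^ 2 *
        X ^ (1 / (m2 : ℝ)) := by
    rw [hsplit]
    have hY : 1 ≤ X ^ (1 / (m2 : ℝ)) := Real.one_le_rpow hX1 (by positivity)
    have h1 : K * (1 + 3 * X ^ (1 / (m2 : ℝ))) + K * (1 + X ^ (1 / (m2 : ℝ))) ≤
        K * (6 * X ^ (1 / (m2 : ℝ))) := by
      rw [← mul_add]
      apply mul_le_mul_of_nonneg_left _ hK0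
      linarith
    refine (add_le_add hr1 hr2).trans (h1.trans (le_of_eq ?_))
    rw [hKd, hDTd, Nat.cast_prod, Finset.prod_pow]
    ring
  exact hgoal

end Vale.Agent.P042.TT
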