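import Vale.Agent.P042.SS.Spec

set_option autoImplicit false

/-!
Definitions for Theorem S2 (exponent beyond 1/2).
-/

namespace Vale.Agent.P042.TT

open Polynomial Finset Vale.Agent.P042.SS

/-! ### finite product probability spaces -/

section prodspace

variable {ι : Type} [Fintype ι] [DecidableEq ι] {Ω : ι → Type} [∀ i, Fintype (Ω i)]
variable {F : Type*} [AddCommGroup F] [Module ℝ F]

/-- probability weights on each coordinate -/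
structure IsPr (π : ∀ i, Ω i → ℝ) : Prop where
  nn : ∀ i x, 0 ≤ π i x
  one : ∀ i, ∑ x, π i x = 1

/-- full expectation -/
noncomputable def Ev (π : ∀ i, Ω i → ℝ) (f : (∀ i, Ω i) → F) : F :=
  ∑ y : ∀ i, Ω i, (∏ i, π i (y i)) • f y

/-- average over the coordinates in `S`, the others stay fixed -/
noncomputable def Ex (π : ∀ i, Ω i → ℝ) (S : Finset ι) (f : (∀ i, Ω i) → F)
    (x : ∀ i, Ω i) : F :=
  Ev π (fun y => f (S.piecewise y x))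

/-- conditional expectation given the coordinates in `S` -/
noncomputable def rho (π : ∀ i, Ω i → ℝ) (f : (∀ i, Ω i) → F) (S : Finset ι)
    (x : ∀ i, Ω i) : F :=
  Ex π Sᶜ f x

/-- Efron-Stein component on `W` -/
noncomputable def comp (π : ∀ i, Ω i → ℝ) (f : (∀ i, Ω i) → F) (W : Finset ι)
    (x : ∀ i, Ω i) : F :=
  ∑ T ∈ W.powerset, ((-1 : ℝ) ^ (W \ T).card) • rho π f T x

/-- energy of the component on `W` -/
noncomputable def en (π : ∀ i, Ω i → ℝ) (f : (∀ i, Ω i) → ℂ) (W : Finset ι) : ℝ :=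
  Ev π (fun x => ‖comp π f W x‖ ^ 2)

/-- bilinear form of the kernel `∏ (1 + κ i)` -/
noncomputable def Bform (π : ∀ i, Ω i → ℝ) (κ : ∀ i, Ω i → Ω i → ℝ)
    (f f' : (∀ i, Ω i) → ℂ) : ℂ :=
  ∑ x : ∀ i, Ω i, ∑ y : ∀ i, Ω i,
    ((∏ i, (π i (x i) * π i (y i) * (1 + κ i (x i) (y i))) : ℝ) : ℂ) *
      (f x * (starRingEnd ℂ) (f' y))

/-- `∑_z π_i(z) ρ_{S+i}(x[i:=z]) log (ρ_{S+i}(x[i:=z]) / ρ_S(x))` -/
noncomputable def klr (π : ∀ i, Ω i → ℝ) (f : (∀ i, Ω i) → ℝ) (S : Finset ι) (i : ι)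
    (x : ∀ i, Ω i) : ℝ :=
  ∑ z, π i z * (rho π f (insert i S) (Function.update x i z) *
    Real.log (rho π f (insert i S) (Function.update x i z) / rho π f S x))

end prodspace

/-! ### the extremal state with zero sets -/

/-- proportion of the classes mod `p` where `ν p` vanishes -/
noncomputable def zf (ν : ℕ → ℤ → ℝ) (p : ℕ) : ℝ :=
  (((range p).filter (fun x : ℕ => ν p x = 0)).card : ℝ) / p

/-- the extremal state -/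
structure Pin2 (k N' Nmin : ℕ) (W : Finset ℕ) (τ η ξ Φ : ℝ) (G : ℤ → ℝ) (ν : ℕ → ℤ → ℝ) :
    Prop where
  prime : ∀ p ∈ W, p.Prime
  wts : Wts W ν
  Φpos : 0 < Φ
  G0 : ∀ n, 0 ≤ G n
  Gsupp : ∀ n, G n ≠ 0 → 1 ≤ n ∧ n ≤ N'
  Gsum : ∑ n ∈ Icc (1 : ℤ) N', G n = N' * Φ
  Gle : ∀ n, G n ≤ ∏ p ∈ W, (ν p n) ^ τ
  marg : ∀ p ∈ W, ∀ x : ℤ, mass G 0 N' p x = N' * Φ * ν p x / p
  low : ∀ p ∈ W, ∀ x, ν p x = 0 ∨ ξ / 2 ≤ ν p x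
  klv : ∀ (D M : ℕ) (y x : ℤ) (U : Finset ℕ) (F : ℕ → ℤ → ℝ), 1 ≤ D → D ^ k * Nmin ≤ M →
    D ^ k * Nmin ≤ N' → U ⊆ W → (∀ p ∈ U, ¬ p ∣ D) → (∀ p n, 0 ≤ F p n) →
    (∀ p ∈ U, ∀ n, F p (n + p) = F p n) → (∀ p ∈ U, ∑ z ∈ range p, ν p z * F p z = p) →
    ∑ n ∈ (Ioc y (y + M)).filter (fun n : ℤ => n ≡ x [ZMOD (D : ℕ)]),
      G n * ∏ p ∈ U, (F p n) ^ τ ≤
    (M : ℝ) / D * Φ * (1 + (D : ℝ) ^ k / M) * ((N' * (D : ℝ) ^ k / M) ^ η) *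
      Real.exp (ξ * ∑ p ∈ W.filter (fun p => p ∣ D), zf ν p) *
      ∏ p ∈ W.filter (fun p => p ∣ D), (ν p x) ^ τ

/-! ### parameters (`P = log N`) -/

/-- the window of primes `(P^0.97, P^1.04]` -/
noncomputable def W2 (P : ℝ) : Finset ℕ := Wp ⌊P ^ (0.97 : ℝ)⌋₊ ⌊P ^ (1.04 : ℝ)⌋₊

noncomputable def J2 (P : ℝ) : ℕ := ⌈P ^ (0.05 : ℝ)⌉₊

noncomputable def tau2 (P : ℝ) : ℝ := 1 / (2 * (J2 P : ℝ))

noncomputable def eta2 (P : ℝ) : ℝ := P ^ (-0.489 : ℝ)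

noncomputable def b2 (P : ℝ) : ℝ := P ^ (-0.488 : ℝ)

/-- rate at which everything is bounded -/
noncomputable def t2 (P : ℝ) : ℝ := P ^ (-0.34 : ℝ)

/-- true rates are at most this -/
noncomputable def t1 (P : ℝ) : ℝ := P ^ (-0.345 : ℝ)

/-- thinning probability -/
noncomputable def mu2 (P : ℝ) : ℝ := P ^ (-0.05 : ℝ)

noncomputable def Q2 (P : ℝ) : ℕ := ⌊Real.exp (P ^ (0.62 : ℝ))⌋₊

/-- the standing situation -/
structure St (P : ℝ) (k N' Nmin : ℕ) (Φ : ℝ) (G : ℤ → ℝ) (ν : ℕ → ℤ → ℝ) : Prop where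
  pin : Pin2 k N' Nmin (W2 P) (tau2 P) (eta2 P) (1 / 8) Φ G ν
  N'lo : Real.exp (7 / 8 * P) ≤ N'
  N'hi : (N' : ℝ) ≤ Real.exp P
  Nmin_le : (Nmin : ℝ) ≤ Real.exp (P / 2) + 1
  Φlo : Real.exp (-(3 * P ^ (0.51 : ℝ))) ≤ Φ
  Φhi : Φ ≤ 3

/-! ### cells, densities on the product of the residues mod `p`, `p ∈ V` -/

/-- exponential sum over the window `(y, y+M]`, class `r mod R` -/
noncomputable def Fc (G : ℤ → ℝ) (y : ℤ) (M R : ℕ) (r : ℤ) (θ : ℝ) : ℂ :=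
  ∑ n ∈ (Ioc y (y + M)).filter (fun n : ℤ => n ≡ r [ZMOD (R : ℕ)]),
    (G n : ℂ) * e (-((n : ℝ) * θ))

/-- `∏_{p ∈ T} p / ν_p(x)` (zero if some `ν_p(x)` is zero) -/
noncomputable def dn (ν : ℕ → ℤ → ℝ) (T : Finset ℕ) (x : ℤ) : ℝ :=
  ∏ p ∈ T, ((p : ℝ) * (ν p x)⁻¹)

/-- relative density of the sub-cell `x mod ∏ T` of the cell -/
noncomputable def rT (ν : ℕ → ℤ → ℝ) (G : ℤ → ℝ) (y : ℤ) (M R : ℕ) (r : ℤ) (T : Finset ℕ)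
    (x : ℤ) : ℝ :=
  dn ν T x * ∑ n ∈ (Ioc y (y + M)).filter
    (fun n : ℤ => n ≡ r [ZMOD (R : ℕ)] ∧ n ≡ x [ZMOD ((∏ p ∈ T, p : ℕ) : ℤ)]), G n

/-- `M2`-th moment of `rT` -/
noncomputable def moT (ν : ℕ → ℤ → ℝ) (G : ℤ → ℝ) (y : ℤ) (M R : ℕ) (r : ℤ) (T : Finset ℕ)
    (M2 : ℕ) : ℝ :=
  ∑ x ∈ range (∏ p ∈ T, p), (∏ p ∈ T, (ν p x / p)) * (rT ν G y M R r T x) ^ M2

/-- energy of the sub-cells at frequency `θ` -/
noncomputable def enT (ν : ℕ → ℤ → ℝ) (G : ℤ → ℝ) (y : ℤ) (M R : ℕ) (r : ℤ) (θ : ℝ)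
    (T : Finset ℕ) : ℝ :=
  ∑ x ∈ range (∏ p ∈ T, p), dn ν T x *
    ‖∑ n ∈ (Ioc y (y + M)).filter
      (fun n : ℤ => n ≡ r [ZMOD (R : ℕ)] ∧ n ≡ x [ZMOD ((∏ p ∈ T, p : ℕ) : ℤ)]),
      (G n : ℂ) * e (-((n : ℝ) * θ))‖ ^ 2

/-- average of the energies over a random `T ⊆ V` of rate `t` -/
noncomputable def tot (t : ℝ) (V : Finset ℕ) (ν : ℕ → ℤ → ℝ) (G : ℤ → ℝ) (y : ℤ) (M R : ℕ)
    (r : ℤ) (θ : ℝ) : ℝ :=
  ∑ T ∈ V.powerset, wtR (fun _ => t) V T * enT ν G y M R r θ T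

/-- energy of the component on `W` (alternating sum of the energies of the sub-cells) -/
noncomputable def ew (ν : ℕ → ℤ → ℝ) (G : ℤ → ℝ) (y : ℤ) (M R : ℕ) (r : ℤ) (θ : ℝ)
    (W : Finset ℕ) : ℝ :=
  ∑ T ∈ W.powerset, (-1 : ℝ) ^ (W \ T).card * enT ν G y M R r θ T

/-- residue vectors -/
abbrev XS (V : Finset ℕ) : Type := ∀ p : ↥V, Fin (p : ℕ)

/-- the marginal measure of the state -/
noncomputable def piV (ν : ℕ → ℤ → ℝ) (V : Finset ℕ) (p : ↥V) (x : Fin (p : ℕ)) : ℝ :=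
  ν p (x : ℕ) / (p : ℕ)

/-- density with respect to `piV` of the cell, twisted by the frequency `θ` -/
noncomputable def fV (ν : ℕ → ℤ → ℝ) (V : Finset ℕ) (G : ℤ → ℝ) (y : ℤ) (M R : ℕ) (r : ℤ)
    (θ : ℝ) (x : XS V) : ℂ :=
  ((∏ p : ↥V, (((p : ℕ) : ℝ) * (ν p (x p : ℕ))⁻¹) : ℝ) : ℂ) *
    ∑ n ∈ (Ioc y (y + M)).filter
      (fun n : ℤ => n ≡ r [ZMOD (R : ℕ)] ∧ ∀ p : ↥V, n ≡ ((x p : ℕ) : ℤ) [ZMOD ((p : ℕ) : ℤ)]),
      (G n : ℂ) * e (-((n : ℝ) * θ))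

/-- the same without frequency, real valued -/
noncomputable def gV (ν : ℕ → ℤ → ℝ) (V : Finset ℕ) (G : ℤ → ℝ) (y : ℤ) (M R : ℕ) (r : ℤ)
    (x : XS V) : ℝ :=
  (∏ p : ↥V, (((p : ℕ) : ℝ) * (ν p (x p : ℕ))⁻¹)) *
    ∑ n ∈ (Ioc y (y + M)).filter
      (fun n : ℤ => n ≡ r [ZMOD (R : ℕ)] ∧ ∀ p : ↥V, n ≡ ((x p : ℕ) : ℤ) [ZMOD ((p : ℕ) : ℤ)]),
      G n

/-- the kernel of the prime `p` -/
noncomputable def kern (f : ℤ[X]) (μ : ℝ) (V : Finset ℕ) (p : ↥V) (x y : Fin (p : ℕ)) : ℝ :=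
  (1 / μ) * ∑ b ∈ Ico 1 (p : ℕ),
    (Gam f b p * e (-((b : ℝ) * (((x : ℕ) : ℝ) - ((y : ℕ) : ℝ)) / ((p : ℕ) : ℝ)))).re

/-- exceptional moduli: no prime of `V` divides `q`, no prime of the window divides `q`
exactly once -/
noncomputable def EV (P : ℝ) (V : Finset ℕ) (Q : ℕ) : Finset ℕ :=
  (Icc 1 Q).filter (fun q => (∀ p ∈ W2 P, q.factorization p ≠ 1) ∧ ∀ p ∈ V, ¬ p ∣ q)

/-- number of primes of the window dividing `q` -/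
noncomputable def yc (P : ℝ) (q : ℕ) : ℕ := ((W2 P).filter (fun p => p ∣ q)).card

/-- moduli of the `z`-part: all prime factors are larger than `P^0.97`, exponents at most `J'`,
primes of the window with exponent at least two, no prime of `V` -/
noncomputable def QZ (P : ℝ) (J' : ℕ) (V : Finset ℕ) (Q : ℕ) : Finset ℕ :=
  (EV P V Q).filter (fun q => ∀ p ∈ q.primeFactors, ⌊P ^ (0.97 : ℝ)⌋₊ < p ∧ q.factorization p ≤ J')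

/-- boosted rates of the `z`-part -/
noncomputable def zr (P : ℝ) (p j : ℕ) : ℝ :=
  if j = 1 then P ^ (0.001 : ℝ) * (p : ℝ) ^ (-0.499 : ℝ) else (p : ℝ) ^ (-0.9 : ℝ)

noncomputable def zR (P : ℝ) (q : ℕ) : ℝ := ∏ p ∈ q.primeFactors, zr P p (q.factorization p)

end Vale.Agent.P042.TT
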