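import Vale.Agent.P042.TT.Nu2

set_option autoImplicit false

/-!
Block DEN: sharp upper bound for the mass of a cell.
-/

namespace Vale.Agent.P042.TT.DEN

open Polynomial Finset Filter Vale.Agent.P042.SS Vale.Agent.P042.TT.NU2

variable {k N' Nmin : ℕ} {P Φ : ℝ} {G : ℤ → ℝ} {ν : ℕ → ℤ → ℝ}

/-- number of primes of the window dividing `R` -/
theorem card_dvd_le (hB : Big k P) {R : ℕ} (hR : 1 ≤ R) :
    (((W2 P).filter (fun p => p ∣ R)).card : ℝ) ≤ Real.log R := by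
  have hP := hB.pos
  set S := (W2 P).filter (fun p => p ∣ R) with hS
  have h1 : ∏ p ∈ S, p ∣ R := by
    refine Finset.prod_primes_dvd R (fun p hp => ?_) (fun p hp => (mem_filter.1 hp).2)
    exact (mem_W2_prime (mem_filter.1 hp).1).prime
  have h2 : ∏ p ∈ S, p ≤ R := Nat.le_of_dvd hR h1
  have h3 : (S.card : ℝ) ≤ ∑ p ∈ S, Real.log p := by
    have h4 : ∀ p ∈ S, (1 : ℝ) ≤ Real.log p := by
      intro p hp
      have h5 := mem_W2_gt (mem_filter.1 hp).1
      have h6 : (1000 : ℝ) ≤ P ^ (0.97 : ℝ) := by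
        have h7 := hB.rpow_le (a := 0.0001) (b := 0.97) (by norm_num)
        have h8 := hB.const_le
        have h9 : (0 : ℝ) ≤ k := Nat.cast_nonneg k
        nlinarith
      rw [Real.le_log_iff_exp_le (by linarith)]
      have := Real.exp_one_lt_d9
      linarith
    calc (S.card : ℝ) = ∑ p ∈ S, (1 : ℝ) := by simp
      _ ≤ _ := sum_le_sum h4
  refine h3.trans ?_
  have h5 : ∀ p ∈ S, (p : ℝ) ≠ 0 := fun p hp =>
    Nat.cast_ne_zero.2 (mem_W2_prime (mem_filter.1 hp).1).ne_zero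
  rw [← Real.log_prod h5]
  refine Real.log_le_log (prod_pos fun p hp => ?_) ?_
  · exact Nat.cast_pos.2 (mem_W2_prime (mem_filter.1 hp).1).pos
  · have h6 : ((∏ p ∈ S, p : ℕ) : ℝ) ≤ R := Nat.cast_le.2 h2
    push_cast at h6
    exact h6

/-- the exponent of the class bound -/
theorem mass_le_exp (hB : Big k P) (hS : St P k N' Nmin Φ G ν) {R M : ℕ} (y r : ℤ)
    (hR : 1 ≤ R) (hRP : Real.log R ≤ P ^ (0.487 : ℝ)) (hMN : M ≤ N') (hM : (N' : ℝ) ≤ P * M) :
    mass G y M R r ≤ (M : ℝ) / R * Φ * Real.exp (P ^ (-0.0008 : ℝ)) := by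
  have hP := hB.pos
  have hb := b2_nonneg hB
  have ht := tau2_pos hB
  have hR0 : (0 : ℝ) < R := Nat.cast_pos.2 hR
  have hN0 := N'_pos hS
  have hlR : 0 ≤ Real.log R := Real.log_nonneg (by exact_mod_cast hR)
  have hM0 : (0 : ℝ) < M := by
    by_contra h
    push Not at h
    have : P * M ≤ 0 := mul_nonpos_of_nonneg_of_nonpos hP.le h
    linarith
  have hk : (k : ℝ) ≤ P ^ (0.0001 : ℝ) / 1000 := by linarith [hB.const_le]
  -- size of the modulus
  have hkR : (k : ℝ) * Real.log R ≤ P ^ (0.4871 : ℝ) / 1000 := by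
    calc (k : ℝ) * Real.log R ≤ (P ^ (0.0001 : ℝ) / 1000) * P ^ (0.487 : ℝ) :=
          mul_le_mul hk hRP hlR (by positivity)
      _ = P ^ (0.4871 : ℝ) / 1000 := by
          rw [div_mul_eq_mul_div, ← Real.rpow_add hP]; norm_num
  have hDP : (k : ℝ) * Real.log R ≤ P / 100 := by
    have h := hB.rpow_le (a := 0.4871) (b := 1) (by norm_num)
    rw [Real.rpow_one] at h
    linarith
  have h1 := klv_mass hB hS (D := R) y r hR hDP hMN hM
  have h2 := (size_ok hB hS hR hDP hM).2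
  set S := (W2 P).filter (fun p => p ∣ R) with hSdef
  have hcard : (S.card : ℝ) ≤ P ^ (0.487 : ℝ) := (card_dvd_le hB hR).trans hRP
  -- the four factors
  have e1 : 1 + (R : ℝ) ^ k / M ≤ Real.exp (P ^ (-0.001 : ℝ) / 300) := by
    have h3 : Real.exp (-(P / 4)) ≤ P ^ (-0.001 : ℝ) / 300 := by
      refine hB.exp_neg_le.trans ?_
      have h := hB.rpow_le (a := -1) (b := -0.001) (by norm_num)
      linarith
    have h4 := Real.add_one_le_exp (P ^ (-0.001 : ℝ) / 300)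
    linarith
  have e2 : ((N' : ℝ) * (R : ℝ) ^ k / M) ^ (eta2 P) ≤ Real.exp (P ^ (-0.001 : ℝ) / 300) := by
    have hRk : (R : ℝ) ^ k = Real.exp (k * Real.log R) := by
      rw [mul_comm, Real.exp_mul, Real.exp_log hR0, Real.rpow_natCast]
    have h3 : (N' : ℝ) * (R : ℝ) ^ k / M ≤ Real.exp (Real.log P + k * Real.log R) := by
      rw [Real.exp_add, Real.exp_log hP, ← hRk, div_le_iff₀ hM0]
      calc (N' : ℝ) * (R : ℝ) ^ k ≤ (P * M) * (R : ℝ) ^ k := by gcongr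
        _ = P * (R : ℝ) ^ k * M := by ring
    have h4 : 0 ≤ eta2 P := by unfold eta2; positivity
    have h5 : 0 ≤ (N' : ℝ) * (R : ℝ) ^ k / M := by positivity
    refine (Real.rpow_le_rpow h5 h3 h4).trans ?_
    rw [← Real.exp_mul]
    refine Real.exp_le_exp.2 ?_
    have h6 : Real.log P + k * Real.log R ≤ P ^ (0.4871 : ℝ) / 500 := by
      have h7 : P ^ (0.0001 : ℝ) * 1000 ≤ P ^ (0.0002 : ℝ) := by
        have h8 : (1000 : ℝ) ≤ P ^ (0.0001 : ℝ) := by
          have h9 : (0 : ℝ) ≤ k := Nat.cast_nonneg k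
          linarith [hB.const_le]
        have h9 : P ^ (0.0002 : ℝ) = P ^ (0.0001 : ℝ) * P ^ (0.0001 : ℝ) := by
          rw [← Real.rpow_add hP]; norm_num
        rw [h9]
        have h10 : 0 ≤ P ^ (0.0001 : ℝ) := by positivity
        nlinarith
      have h8 := hB.rpow_le (a := 0.0002) (b := 0.4871) (by norm_num)
      have h9 := hB.log_le
      linarith
    have h7 : P ^ (0.4871 : ℝ) * P ^ (-0.489 : ℝ) = P ^ (-0.0019 : ℝ) := by
      rw [← Real.rpow_add hP]; norm_num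
    calc (Real.log P + k * Real.log R) * eta2 P ≤ (P ^ (0.4871 : ℝ) / 500) * eta2 P :=
          mul_le_mul_of_nonneg_right h6 h4
      _ = P ^ (-0.0019 : ℝ) / 500 := by
          unfold eta2
          rw [← h7]; ring
      _ ≤ P ^ (-0.001 : ℝ) / 300 := by
          have h8 := hB.rpow_le (a := -0.0019) (b := -0.001) (by norm_num)
          have h9 : 0 ≤ P ^ (-0.0019 : ℝ) := by positivity
          linarith
  have hbb : P ^ (0.487 : ℝ) * b2 P = P ^ (-0.001 : ℝ) := by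
    unfold b2
    rw [← Real.rpow_add hP]; norm_num
  have e3 : Real.exp (1 / 8 * ∑ p ∈ S, zf ν p) ≤ Real.exp (P ^ (-0.001 : ℝ) / 300) := by
    refine Real.exp_le_exp.2 ?_
    have h3 : ∑ p ∈ S, zf ν p ≤ S.card * (b2 P / 100) := by
      rw [← nsmul_eq_mul]
      exact sum_le_card_nsmul _ _ _ fun p hp => zf_le' hB hS (mem_filter.1 hp).1
    have h4 : (S.card : ℝ) * (b2 P / 100) ≤ P ^ (-0.001 : ℝ) / 100 := by
      rw [← hbb, ← mul_div_assoc]
      gcongr
    have h5 : 0 ≤ P ^ (-0.001 : ℝ) := by positivity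
    linarith
  have e4 : ∏ p ∈ S, (ν p r) ^ (tau2 P) ≤ Real.exp (P ^ (-0.001 : ℝ) / 300) := by
    calc ∏ p ∈ S, (ν p r) ^ (tau2 P) ≤ ∏ _p ∈ S, Real.exp (tau2 P * (b2 P / 100)) := by
          refine prod_le_prod (fun p _ => Real.rpow_nonneg (hS.pin.wts.nn p r) _) fun p hp => ?_
          calc (ν p r) ^ (tau2 P) ≤ (Real.exp (b2 P / 100)) ^ (tau2 P) :=
                Real.rpow_le_rpow (hS.pin.wts.nn p r) (nu_le hB hS (mem_filter.1 hp).1 r) ht.le
            _ = Real.exp (tau2 P * (b2 P / 100)) := by rw [← Real.exp_mul, mul_comm]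
      _ = Real.exp (S.card * (tau2 P * (b2 P / 100))) := by
          rw [prod_const, ← Real.exp_nat_mul]
      _ ≤ _ := by
          refine Real.exp_le_exp.2 ?_
          have h3 : (S.card : ℝ) * (tau2 P * (b2 P / 100)) ≤
              P ^ (0.487 : ℝ) * (1 / 4 * (b2 P / 100)) := by
            have := tau2_le hB
            gcongr
          refine h3.trans ?_
          have h5 : 0 ≤ P ^ (-0.001 : ℝ) := by positivity
          have h4 : P ^ (0.487 : ℝ) * (1 / 4 * (b2 P / 100)) = P ^ (-0.001 : ℝ) / 400 := by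
            rw [← hbb]; ring
          rw [h4]
          linarith
  have hc : 0 ≤ (M : ℝ) / R * Φ := by have := hS.pin.Φpos; positivity
  have hprod0 : 0 ≤ ∏ p ∈ S, (ν p r) ^ (tau2 P) :=
    prod_nonneg fun p _ => Real.rpow_nonneg (hS.pin.wts.nn p r) _
  have hrp0 : 0 ≤ ((N' : ℝ) * (R : ℝ) ^ k / M) ^ (eta2 P) := by positivity
  refine h1.trans ?_
  calc (M : ℝ) / R * Φ * (1 + (R : ℝ) ^ k / M) * ((N' : ℝ) * (R : ℝ) ^ k / M) ^ (eta2 P) *
        Real.exp (1 / 8 * ∑ p ∈ S, zf ν p) * ∏ p ∈ S, (ν p r) ^ (tau2 P) ≤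
      (M : ℝ) / R * Φ * Real.exp (P ^ (-0.001 : ℝ) / 300) *
        Real.exp (P ^ (-0.001 : ℝ) / 300) * Real.exp (P ^ (-0.001 : ℝ) / 300) *
        Real.exp (P ^ (-0.001 : ℝ) / 300) := by gcongr
    _ = (M : ℝ) / R * Φ * Real.exp (4 * (P ^ (-0.001 : ℝ) / 300)) := by
        rw [mul_assoc, mul_assoc, mul_assoc, ← Real.exp_add, ← Real.exp_add, ← Real.exp_add]
        congr 2
        ring
    _ ≤ (M : ℝ) / R * Φ * Real.exp (P ^ (-0.0008 : ℝ)) := by
        refine mul_le_mul_of_nonneg_left (Real.exp_le_exp.2 ?_) hc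
        have h5 : 0 ≤ P ^ (-0.001 : ℝ) := by positivity
        have h6 := hB.rpow_le (a := -0.001) (b := -0.0008) (by norm_num)
        linarith

theorem exp_small_le (hB : Big k P) :
    Real.exp (P ^ (-0.0008 : ℝ)) ≤ 1 + P ^ (-0.0005 : ℝ) := by
  have hP := hB.pos
  have h1 : (1000 : ℝ) ≤ P ^ (0.0001 : ℝ) := by
    have h9 : (0 : ℝ) ≤ k := Nat.cast_nonneg k
    linarith [hB.const_le]
  have h2 := hB.rpow_le (a := 0.0001) (b := 0.0003) (by norm_num)
  have h3 : P ^ (-0.0008 : ℝ) * P ^ (0.0003 : ℝ) = P ^ (-0.0005 : ℝ) := by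
    rw [← Real.rpow_add hP]; norm_num
  have h4 : 0 ≤ P ^ (-0.0008 : ℝ) := by positivity
  have h5 : 2 * P ^ (-0.0008 : ℝ) ≤ P ^ (-0.0005 : ℝ) := by
    rw [← h3]
    nlinarith
  have h6 : P ^ (-0.0005 : ℝ) ≤ 1 := by
    have h := hB.rpow_le (a := -0.0005) (b := 0) (by norm_num)
    rwa [Real.rpow_zero] at h
  have h7 := exp_sub_one_le h4 (by linarith)
  linarith

/-- **DEN** for one state. -/
theorem mass_le (hB : Big k P) (hS : St P k N' Nmin Φ G ν) {R M : ℕ} (y r : ℤ)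
    (hR : 1 ≤ R) (hRP : Real.log R ≤ P ^ (0.487 : ℝ)) (hMN : M ≤ N') (hM : (N' : ℝ) ≤ P * M) :
    mass G y M R r ≤ (1 + P ^ (-0.0005 : ℝ)) * Φ * M / R := by
  have hc : 0 ≤ (M : ℝ) / R * Φ := by have := hS.pin.Φpos; positivity
  refine (mass_le_exp hB hS y r hR hRP hMN hM).trans ?_
  refine (mul_le_mul_of_nonneg_left (exp_small_le hB) hc).trans_eq ?_
  ring

/-- the part of a window in `[1, N']` is a window of length `cnt` -/
theorem win_inter (N' : ℕ) (y : ℤ) (M : ℕ) :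
    (Ioc y (y + M)).filter (fun n : ℤ => 1 ≤ n ∧ n ≤ (N' : ℤ)) =
      Ioc (max y 0) (max y 0 + cnt N' y M) := by
  have h1 : (Ioc y (y + M)).filter (fun n : ℤ => 1 ≤ n ∧ n ≤ (N' : ℤ)) =
      Ioc (max y 0) (min (y + M) N') := by
    ext n
    simp only [mem_filter, mem_Ioc]
    omega
  have h2 : (cnt N' y M : ℤ) = max (min (y + M) N' - max y 0) 0 := by
    unfold cnt
    rw [h1, Int.card_Ioc]
    omega
  rw [h1, h2]
  ext n
  simp only [mem_Ioc]
  omega

theorem cnt_le (N' : ℕ) (y : ℤ) (M : ℕ) : cnt N' y M ≤ N' := by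
  have h1 : (Ioc y (y + M)).filter (fun n : ℤ => 1 ≤ n ∧ n ≤ (N' : ℤ)) ⊆ Icc 1 (N' : ℤ) := by
    intro n hn
    exact mem_Icc.2 (mem_filter.1 hn).2
  have h2 := card_le_card h1
  rw [Int.card_Icc] at h2
  unfold cnt
  omega

/-- the mass of a window is the mass of its part in `[1, N']` -/
theorem mass_inter {N' : ℕ} {G : ℤ → ℝ} (hG : ∀ n, G n ≠ 0 → 1 ≤ n ∧ n ≤ N') (y : ℤ) (M R : ℕ)
    (r : ℤ) : mass G y M R r = mass G (max y 0) (cnt N' y M) R r := by
  unfold mass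
  rw [← win_inter N' y M, filter_filter]
  symm
  refine sum_subset (fun n hn => ?_) (fun n hn hn' => ?_)
  · simp only [mem_filter] at hn ⊢
    exact ⟨hn.1, hn.2.2⟩
  · by_contra h0
    have h1 := hG n h0
    simp only [mem_filter] at hn hn'
    exact hn' ⟨hn.1, h1, hn.2⟩

theorem mass_mono {G : ℤ → ℝ} (hG : ∀ n, 0 ≤ G n) (y : ℤ) {M M' : ℕ} (h : M ≤ M') (R : ℕ)
    (r : ℤ) : mass G y M R r ≤ mass G y M' R r := by
  unfold mass
  refine sum_le_sum_of_subset_of_nonneg (filter_subset_filter _ ?_) fun n _ _ => hG n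
  exact Ioc_subset_Ioc_right (by omega)

end Vale.Agent.P042.TT.DEN

namespace Vale.Agent.P042.TT

open Polynomial Finset Filter Vale.Agent.P042.SS NU2 DEN

/-- mass of an arbitrary window, in terms of the number of its points in `[1, N']` -/
theorem den_win : ∀ k : ℕ, ∃ P0 : ℝ, ∀ P : ℝ, P0 ≤ P →
    ∀ (N' Nmin : ℕ) (Φ : ℝ) (G : ℤ → ℝ) (ν : ℕ → ℤ → ℝ), St P k N' Nmin Φ G ν →
    ∀ (R M : ℕ) (y r : ℤ), 1 ≤ R → Real.log R ≤ P ^ (0.487 : ℝ) →
      ((N' : ℝ) ≤ P * cnt N' y M →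
        mass G y M R r ≤ (1 + P ^ (-0.0005 : ℝ)) * Φ * cnt N' y M / R) ∧
      (P * cnt N' y M < N' → mass G y M R r ≤ 2 * Φ * ((N' : ℝ) / P + 1) / R) := by
  intro k
  obtain ⟨P0, hP0⟩ := big_eventually k
  refine ⟨P0, fun P hP N' Nmin Φ G ν hS R M y r hR hRP => ?_⟩
  have hB := hP0 P hP
  have hPp := hB.pos
  have hΦ := hS.pin.Φpos
  have hN0 := N'_pos hS
  rw [mass_inter hS.pin.Gsupp y M R r]
  refine ⟨fun h => DEN.mass_le hB hS _ r hR hRP (cnt_le N' y M) h, fun h => ?_⟩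
  set M2 := ⌈(N' : ℝ) / P⌉₊ with hM2
  have h1 : (N' : ℝ) / P ≤ M2 := Nat.le_ceil _
  have h2 : (M2 : ℝ) ≤ N' / P + 1 := (Nat.ceil_lt_add_one (by positivity)).le
  have h3 : cnt N' y M ≤ M2 := by
    have h4 : (cnt N' y M : ℝ) ≤ M2 := by
      refine le_trans ?_ h1
      rw [le_div_iff₀ hPp]
      linarith
    exact_mod_cast h4
  have h4 : M2 ≤ N' := by
    rw [hM2, Nat.ceil_le]
    exact div_le_self hN0.le hB.one_le
  have h5 : (N' : ℝ) ≤ P * M2 := by
    rw [div_le_iff₀ hPp] at h1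
    linarith
  refine (mass_mono hS.pin.G0 _ h3 R r).trans ?_
  refine (DEN.mass_le hB hS _ r hR hRP h4 h5).trans ?_
  have h6 : P ^ (-0.0005 : ℝ) ≤ 1 := by
    have h := hB.rpow_le (a := -0.0005) (b := 0) (by norm_num)
    rwa [Real.rpow_zero] at h
  have hR0 : (0 : ℝ) < R := Nat.cast_pos.2 hR
  gcongr
  linarith

/-- **Block DEN.** -/
theorem den_holds : DENStmt := by
  intro k _
  obtain ⟨P0, hP0⟩ := big_eventually k
  exact ⟨P0, fun P hP N' Nmin Φ G ν hS R M y r hR hRP hMN hM =>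
    DEN.mass_le (hP0 P hP) hS y r hR hRP hMN hM⟩

end Vale.Agent.P042.TT
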