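import Vale.Agent.P042.TT.BrB

set_option autoImplicit false

/-!
Block EW: energies of the components of a cell.
-/

namespace Vale.Agent.P042.TT

open Finset Vale.Agent.P042.SS

lemma ew_eq_mob (ν : ℕ → ℤ → ℝ) (G : ℤ → ℝ) (y : ℤ) (M R : ℕ) (r : ℤ) (θ : ℝ) (W : Finset ℕ) :
    ew ν G y M R r θ W = mob (enT ν G y M R r θ) W := rfl

lemma mob_map {κ κ' : Type*} [DecidableEq κ] [DecidableEq κ'] {R : Type*} [CommRing R]
    (e : κ ↪ κ') (N : Finset κ' → R) (W : Finset κ) :
    mob N (W.map e) = mob (fun T => N (T.map e)) W := by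
  unfold mob
  have : (W.map e).powerset = W.powerset.map ⟨fun T => T.map e, map_injective e⟩ := by
    ext T
    simp only [mem_powerset, mem_map, Function.Embedding.coeFn_mk]
    constructor
    · intro h
      obtain ⟨T', h1, h2⟩ := subset_map_iff.1 h
      exact ⟨T', h1, h2.symm⟩
    · rintro ⟨T', h1, rfl⟩
      exact map_subset_map.2 h1
  rw [this, sum_map]
  refine sum_congr rfl fun T _ => ?_
  simp only [Function.Embedding.coeFn_mk]
  have : (W.map e \ T.map e).card = (W \ T).card := by
    rw [← card_map e (s := W \ T)]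
    congr 1
    ext j
    simp only [mem_sdiff, mem_map]
    constructor
    · rintro ⟨⟨a, ha, rfl⟩, h2⟩
      exact ⟨a, ⟨ha, fun h => h2 ⟨a, h, rfl⟩⟩, rfl⟩
    · rintro ⟨a, ⟨ha, hb⟩, rfl⟩
      refine ⟨⟨a, ha, rfl⟩, ?_⟩
      rintro ⟨b, hb', hbe⟩
      exact hb (e.injective hbe ▸ hb')
  rw [this]

theorem ew_holds : EWStmt := by
  intro V ν G y M R r θ hp hw hG
  have hpi := piV_isPr hp hw
  have hbr := (br_holds V ν G y M R r θ hp hw hG)
  have hen : ∀ W : Finset ↥V, en (piV ν V) (fV ν V G y M R r θ) W =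
      ew ν G y M R r θ (W.map (Function.Embedding.subtype _)) := by
    intro W
    rw [hpi.en_eq, ew_eq_mob, mob_map]
    refine mob_congr fun T _ => ?_
    exact hbr.2.2.2.2.1 T
  refine ⟨?_, ?_, ?_, ?_, hen⟩
  · intro W hW
    have : W = (W.subtype (fun p => p ∈ V)).map (Function.Embedding.subtype _) := by
      ext p
      simp only [mem_map, mem_subtype, Function.Embedding.subtype_apply]
      constructor
      · intro h
        exact ⟨⟨p, hW h⟩, h, rfl⟩
      · rintro ⟨a, ha, rfl⟩
        exact ha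
    rw [this, ← hen]
    exact hpi.en_nonneg _ _
  · rw [ew_eq_mob, mob_empty]
    unfold enT dn Fc
    simp [Int.modEq_one]
  · intro V' _ t
    unfold tot
    rw [sum_wtR_mob]
    refine sum_congr rfl fun W _ => ?_
    rw [prod_const]
    rfl
  · intro T _
    exact (sum_mob _ _).symm

end Vale.Agent.P042.TT
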