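import Vale.Agent.P042.TT.Spec
import Vale.Agent.P042.SS.ExtA
import Vale.Agent.P042.SS2.ExtK
import Vale.Agent.P042.SS2.ExtL
import Vale.Agent.P042.SS2.ExtM

set_option autoImplicit false

/-!
Block EXT2: the extremal state with a reward for the zeros of the weights.
-/

namespace Vale.Agent.P042.TT

open Polynomial Finset Pointwise Vale.Agent.P042.SS

lemma zf_eq_SS2 (ν : ℕ → ℤ → ℝ) (p : ℕ) : zf ν p = SS2.zf ν p := by
  classical
  unfold zf SS2.zf
  congr!

theorem ext2_holds : EXT2Stmt := by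
  classical
  intro h lam r Hh R hA hk N Nmin J Y A α η X1 W blk hAN hfree hα hα1 hcard hNmin hNN hη hη1 hJ
    hWb hblk hX1 hlog
  have hW : ∀ p ∈ W, p.Prime := fun p hp => (hWb p hp).1
  have hJ0 : (0 : ℝ) < J := by
    have : 0 < J := by omega
    exact_mod_cast this
  have hτ0 : (0 : ℝ) < 1 / (2 * (J : ℝ)) := by positivity
  have hlogα : 0 ≤ Real.log (2 / α) := by
    apply Real.log_nonneg
    rw [le_div_iff₀ hα]
    linarith only [hα1]
  have hX10 : 0 ≤ X1 := by linarith only [hX1, hlogα]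
  -- the maximal state
  set S : Finset (ℕ × ℤ × ℕ) := ((Icc 0 N) ×ˢ (Icc (-(N : ℤ)) N) ×ˢ (Icc 0 N)).filter
    (fun s => Adm lam N Nmin s.1 s.2.1 s.2.2) with hS
  have hmem : ∀ d a l, Adm lam N Nmin d a l → (d, a, l) ∈ S := by
    intro d a l hs
    obtain ⟨-, h1, h2, h3, h4⟩ := hs.bounds hA hNmin
    rw [hS, Finset.mem_filter, Finset.mem_product, Finset.mem_product, Finset.mem_Icc,
      Finset.mem_Icc, Finset.mem_Icc]
    exact ⟨⟨⟨Nat.zero_le _, h2⟩, ⟨h3, h4⟩, ⟨Nat.zero_le _, h1⟩⟩, hs⟩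
  have h0 : Adm lam N Nmin 1 0 N := Adm.zero hA hNN
  obtain ⟨⟨d, a, l⟩, hi, T, hT0, hTX, ν, hν', hTν, hmax0⟩ := SS2.exists_max_state3 S
    ⟨_, hmem _ _ _ h0⟩ (fun s => gA lam A s.1 s.2.1) (fun s => s.2.2)
    (fun s => (s.2.2 : ℝ) ^ (η - 1)) W hW (1 / (2 * (J : ℝ))) (1 / 8) X1 hτ0.le hX10
    (fun s => Real.rpow_nonneg (Nat.cast_nonneg _) _)
  have hν : Wts W ν := hν'.1
  have hs : Adm lam N Nmin d a l := (Finset.mem_filter.1 hi).2
  have hmax : ∀ (d' : ℕ) (a' : ℤ) (l' : ℕ) (ν' : ℕ → ℤ → ℝ) (T' : Finset (ℕ × ℕ)),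
        Adm lam N Nmin d' a' l' → Wts W ν' → T' ⊆ SS2.T0 W → (∀ t ∈ T', ν' t.1 (t.2 : ℤ) = 0) →
        SS2.wt T' ≤ X1 →
        (l' : ℝ) ^ (η - 1) * Sst (gA lam A d' a') W (1 / (2 * (J : ℝ))) l' ν' *
          Real.exp (1 / 8 * SS2.wt T') ≤
          (l : ℝ) ^ (η - 1) * Sst (gA lam A d a) W (1 / (2 * (J : ℝ))) l ν *
            Real.exp (1 / 8 * SS2.wt T) :=
    fun d' a' l' ν' T' h1 h2 h3 h4 h5 => hmax0 (d', a', l') (hmem _ _ _ h1) ν' h2 T' h3 h4 h5
  clear hmax0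
  have hs' := hs
  obtain ⟨hd, hlmin, hs1, hs2⟩ := hs'
  obtain ⟨hb1, hb2, -, -, -⟩ := hs.bounds hA hNmin
  have hlpos : 0 < l := by omega
  have hl0 : (0 : ℝ) < l := by exact_mod_cast hlpos
  have hNpos : 0 < N := by omega
  have hN0 : (0 : ℝ) < N := by exact_mod_cast hNpos
  set τ : ℝ := 1 / (2 * (J : ℝ)) with hτ
  set Φ : ℝ := Sst (gA lam A d a) W τ l ν / l with hΦdef
  have hΦ : Sst (gA lam A d a) W τ l ν = l * Φ := by
    rw [hΦdef]
    field_simp
  set X : ℝ := SS2.wt T with hXdef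
  have hX0 : 0 ≤ X := SS2.wt_nonneg T
  -- the value of the initial state
  have hone : Wts W (fun _ _ => 1 : ℕ → ℤ → ℝ) := (KW_one W).1
  have hinit : Sst (gA lam A 1 0) W τ N (fun _ _ => 1 : ℕ → ℤ → ℝ) = A.card := by
    unfold Sst gA
    simp only [Real.one_rpow, Finset.prod_const_one, mul_one, aux_lam_one hA, Nat.cast_one,
      zero_add, one_mul]
    rw [Finset.sum_ite_mem, Finset.inter_eq_right.2 hAN]
    simp
  have h1 := hmax 1 0 N _ ∅ (Adm.zero hA hNN) hone (Finset.empty_subset _)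
    (fun t ht => absurd ht (Finset.notMem_empty t))
    (by unfold SS2.wt; rw [Finset.sum_empty]; exact hX10)
  have hwt0 : SS2.wt (∅ : Finset (ℕ × ℕ)) = 0 := by
    unfold SS2.wt
    rw [Finset.sum_empty]
  rw [hinit, hΦ, hwt0, mul_zero, Real.exp_zero, mul_one] at h1
  have e1 : ∀ t : ℝ, 0 < t → t ^ (η - 1) * t = t ^ η := fun t ht => by
    rw [← Real.rpow_add_one ht.ne']
    norm_num
  have h2 : α * (N : ℝ) ^ η ≤ Φ * (l : ℝ) ^ η * Real.exp (1 / 8 * X) := by
    calc α * (N : ℝ) ^ η = (N : ℝ) ^ (η - 1) * (α * N) := by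
          rw [← e1 N hN0]
          ring
      _ ≤ (N : ℝ) ^ (η - 1) * A.card :=
          mul_le_mul_of_nonneg_left hcard (Real.rpow_nonneg hN0.le _)
      _ ≤ (l : ℝ) ^ (η - 1) * (l * Φ) * Real.exp (1 / 8 * X) := h1
      _ = Φ * (l : ℝ) ^ η * Real.exp (1 / 8 * X) := by
          rw [← e1 l hl0]
          ring
  have hNη : 0 < (N : ℝ) ^ η := Real.rpow_pos_of_pos hN0 _
  have hlη : 0 < (l : ℝ) ^ η := Real.rpow_pos_of_pos hl0 _
  have hΦ0 : 0 < Φ := by
    have h3 : 0 < α * (N : ℝ) ^ η := mul_pos hα hNη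
    have h4 : 0 < Φ * (l : ℝ) ^ η * Real.exp (1 / 8 * X) := lt_of_lt_of_le h3 h2
    have h5 : 0 < Φ * (l : ℝ) ^ η := (mul_pos_iff_of_pos_right (Real.exp_pos _)).1 h4
    exact (mul_pos_iff_of_pos_right hlη).1 h5
  have hlN : (l : ℝ) ^ η ≤ (N : ℝ) ^ η :=
    Real.rpow_le_rpow hl0.le (by exact_mod_cast hb2) hη.le
  -- upper bound for `Φ`
  have hNmin0 : (0 : ℝ) < Nmin := by
    have : 0 < Nmin := by omega
    exact_mod_cast this
  have hlogl : (16 * X1 + 8) * Real.log (Y + 1) + X1 ≤ Real.log l :=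
    hlog.trans (Real.log_le_log hNmin0 (by exact_mod_cast hlmin))
  have hΦup : Φ ≤ 3 * Real.exp (-(X / 2)) := by
    have h5 := SS2.phi_bound (W := W) hW (J := J) (l := l) (Y := Y) (blk := blk) (by omega)
      (fun p hp => (hWb p hp).2.1) (fun i hi => (hblk i hi).trans hlmin)
      (fun p hp => (hWb p hp).2.2) T hT0 X1 hTX (by omega) hlogl hν hTν
      (g := gA lam A d a) (fun n => gA_nonneg _ _ _ _ _) (fun n => gA_le_one _ _ _ _ _)
    rw [hΦdef, div_le_iff₀ hl0]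
    exact h5
  have hαX : α ≤ 3 * Real.exp (-(3 / 8 * X)) := by
    have h3 : α * (N : ℝ) ^ η ≤ 3 * Real.exp (-(3 / 8 * X)) * (N : ℝ) ^ η := by
      calc α * (N : ℝ) ^ η ≤ Φ * (l : ℝ) ^ η * Real.exp (1 / 8 * X) := h2
        _ ≤ (3 * Real.exp (-(X / 2))) * (N : ℝ) ^ η * Real.exp (1 / 8 * X) := by
            gcongr
        _ = 3 * (Real.exp (-(X / 2)) * Real.exp (1 / 8 * X)) * (N : ℝ) ^ η := by ring
        _ = 3 * Real.exp (-(3 / 8 * X)) * (N : ℝ) ^ η := by
            rw [← Real.exp_add]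
            congr 3
            ring
    exact le_of_mul_le_mul_right h3 hNη
  have hXX1 : X + 1 ≤ X1 := by
    have h3 : Real.log α ≤ Real.log 3 + -(3 / 8 * X) := by
      have h4 := Real.log_le_log hα hαX
      rwa [Real.log_mul (by norm_num) (Real.exp_pos _).ne', Real.log_exp] at h4
    have h5 : Real.log (2 / α) = Real.log 2 - Real.log α :=
      Real.log_div (by norm_num) hα.ne'
    have h6 : Real.log 3 ≤ 2 * Real.log 2 := by
      have : Real.log 3 ≤ Real.log (2 ^ 2) := Real.log_le_log (by norm_num) (by norm_num)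
      rwa [Real.log_pow, Nat.cast_ofNat] at this
    have h7 : Real.log α ≤ 0 := Real.log_nonpos hα.le hα1
    have h8 : 0 ≤ Real.log 2 := Real.log_nonneg (by norm_num)
    linarith only [h3, h5, h6, h7, h8, hX1]
  -- the pattern is the full set of zeros
  have hcpos : 0 < (l : ℝ) ^ (η - 1) * Sst (gA lam A d a) W τ l ν := by
    rw [hΦ]
    have := Real.rpow_pos_of_pos hl0 (η - 1)
    positivity
  have hTTP : T = SS2.TP W ν := by
    apply Finset.Subset.antisymm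
    · intro t ht
      unfold SS2.TP
      exact Finset.mem_filter.2 ⟨hT0 ht, hTν t ht⟩
    · intro t ht
      by_contra htT
      unfold SS2.TP at ht
      obtain ⟨ht0, htν⟩ := Finset.mem_filter.1 ht
      have htW : t.1 ∈ W := (SS2.mem_T0.1 ht0).1
      have htp : (1 : ℝ) ≤ t.1 := by exact_mod_cast (hW _ htW).one_lt.le
      have hwt : SS2.wt (insert t T) = 1 / (t.1 : ℝ) + X := by
        rw [hXdef]
        unfold SS2.wt
        rw [Finset.sum_insert htT]
      have hle1 : 1 / (t.1 : ℝ) ≤ 1 := by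
        rw [div_le_one (by linarith only [htp])]
        exact htp
      have hpos1 : 0 < 1 / (t.1 : ℝ) := by
        apply div_pos one_pos
        linarith only [htp]
      have h5 := hmax d a l ν (insert t T) hs hν
        (Finset.insert_subset ht0 hT0)
        (fun s hs => by
          rcases Finset.mem_insert.1 hs with h | h
          · rw [h]
            exact htν
          · exact hTν s h)
        (by rw [hwt]; linarith only [hle1, hXX1])
      rw [hwt] at h5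
      have h6 := le_of_mul_le_mul_left h5 hcpos
      rw [Real.exp_le_exp] at h6
      linarith only [h6, hpos1]
  have hXX : SS2.XX W ν = X := by
    rw [SS2.XX_wt, ← hTTP]
  -- maximality over the weights
  have hsum : ∑ n ∈ Icc (1 : ℤ) l, Gst lam A W τ d a l ν n = l * Φ := by
    rw [Gst_sum, hΦ]
  have hmaxν : ∀ (ν' : ℕ → ℤ → ℝ) (T' : Finset (ℕ × ℕ)), Wts W ν' → T' ⊆ SS2.T0 W →
      (∀ t ∈ T', ν' t.1 (t.2 : ℤ) = 0) → SS2.wt T' ≤ X1 →
      Sst (gA lam A d a) W τ l ν' * Real.exp (1 / 8 * SS2.wt T') ≤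
        Sst (gA lam A d a) W τ l ν * Real.exp (1 / 8 * SS2.XX W ν) := by
    intro ν' T' h3 h4 h5 h6
    have h7 := hmax d a l ν' T' hs h3 h4 h5 h6
    rw [hXX]
    rw [mul_assoc, mul_assoc] at h7
    exact le_of_mul_le_mul_left h7 (Real.rpow_pos_of_pos hl0 _)
  have hWM : SS2.WMax2 l W τ (gA lam A d a) ν := by
    refine ⟨hW, hν, fun n => gA_nonneg _ _ _ _ _, ?_, ?_⟩
    · have : 0 < (l : ℝ) * Φ := mul_pos hl0 hΦ0
      rw [← hΦ] at this
      exact this
    · intro ν' hν' hz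
      have h5 := hmaxν ν' T hν' hT0 (fun t ht => hz t.1 (SS2.mem_T0.1 (hT0 ht)).1 _ (hTν t ht)) hTX
      rw [hXX] at h5
      exact le_of_mul_le_mul_right h5 (Real.exp_pos _)
  have hG : ∀ n ∈ Icc (1 : ℤ) l, Gst lam A W τ d a l ν n =
      gA lam A d a n * ∏ p ∈ W, (ν p n) ^ τ := by
    intro n hn
    rw [Finset.mem_Icc] at hn
    unfold Gst
    rw [if_pos hn]
  have hmarg := hWM.marg hτ0 hG hsum
  have hexp1 : Real.exp (-(3 / 8 * X)) ≤ 1 := by
    rw [Real.exp_le_one_iff]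
    linarith only [hX0]
  refine ⟨d, l, Φ, Gst lam A W τ d a l ν, ν, hd, hlmin, hb2, ?_, ?_, ?_, ?_, ?_, ?_⟩
  · have h5 : ((d * (l - 1) : ℕ) : ℤ) ≤ N := by
      push_cast [Nat.cast_sub (show 1 ≤ l by omega)]
      linarith only [hb1]
    exact_mod_cast h5
  · -- lower bound for `Φ`
    have h3 : α ≤ Φ * Real.exp (1 / 8 * X) := by
      have h4 : α * (N : ℝ) ^ η ≤ Φ * Real.exp (1 / 8 * X) * (N : ℝ) ^ η := by
        calc α * (N : ℝ) ^ η ≤ Φ * (l : ℝ) ^ η * Real.exp (1 / 8 * X) := h2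
          _ ≤ Φ * (N : ℝ) ^ η * Real.exp (1 / 8 * X) := by gcongr
          _ = _ := by ring
      exact le_of_mul_le_mul_right h4 hNη
    have h5 : α / 3 ≤ Real.exp (-(1 / 8 * X)) := by
      have h6 : α / 3 ≤ Real.exp (-(3 / 8 * X)) := by linarith only [hαX]
      refine h6.trans ?_
      rw [Real.exp_le_exp]
      linarith only [hX0]
    have h7 : Real.exp (1 / 8 * X) * Real.exp (-(1 / 8 * X)) = 1 := by
      rw [← Real.exp_add]
      simp
    calc α ^ 2 / 3 = α * (α / 3) := by ring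
      _ ≤ (Φ * Real.exp (1 / 8 * X)) * Real.exp (-(1 / 8 * X)) :=
          mul_le_mul h3 h5 (by positivity) (by positivity)
      _ = Φ := by rw [mul_assoc, h7, mul_one]
  · have h3 : Real.exp (-(X / 2)) ≤ 1 := by
      rw [Real.exp_le_one_iff]
      linarith only [hX0]
    linarith only [hΦup, h3]
  · calc α * (N : ℝ) ^ η ≤ Φ * (l : ℝ) ^ η * Real.exp (1 / 8 * X) := h2
      _ ≤ (3 * Real.exp (-(X / 2))) * (l : ℝ) ^ η * Real.exp (1 / 8 * X) := by gcongr
      _ = 3 * (Real.exp (-(X / 2)) * Real.exp (1 / 8 * X)) * (l : ℝ) ^ η := by ring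
      _ = 3 * Real.exp (-(3 / 8 * X)) * (l : ℝ) ^ η := by
          rw [← Real.exp_add]
          congr 3
          ring
      _ ≤ 3 * 1 * (l : ℝ) ^ η := by gcongr
      _ = _ := by ring
  · refine ⟨hW, hν, hΦ0, Gst_nonneg A τ d a l hν.nn, fun n hn => (Gst_supp n hn).1, hsum, ?_,
      hmarg, ?_, ?_⟩
    · intro n
      have h7 := prod_nonneg' (W := W) hν.nn τ n
      unfold Gst
      split_ifs
      · calc gA lam A d a n * ∏ p ∈ W, (ν p n) ^ τ ≤ 1 * ∏ p ∈ W, (ν p n) ^ τ :=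
            mul_le_mul_of_nonneg_right (gA_le_one _ _ _ _ _) h7
          _ = _ := one_mul _
      · exact h7
    · intro p hp x
      exact SS2.low_state hW hν hτ0 (by norm_num) (by norm_num) (X1 := X1)
        (by rw [hXX]; exact hXX1) hG (mul_pos hl0 hΦ0) hΦ hmarg hmaxν p hp x
    · intro D M y x U F hD hM hl hU hUD hF0 hFper hFm
      have h5 := SS2.klv_state hA A hNmin hW τ η (1 / 8) hη hη1 hs hν X1
        (by rw [hXX]; exact hTX)
        (fun d' a' l' ν' T' h3 h4 h5 h6 h7 => by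
          rw [hXX]
          exact hmax d' a' l' ν' T' h3 h4 h5 h6 h7)
        Φ hΦ0.le hΦ D M y x hD hM hl U F hU hUD hF0 hFper hFm
      simp only [zf_eq_SS2]
      refine le_trans (le_of_eq ?_) h5
      unfold mass
      rfl
  · intro n m hn hm x hx hxe
    set B : Finset ℤ := (Icc (1 : ℤ) l).filter (fun n => a + lam d * n ∈ A) with hB
    have hfree1 : DiffFree (Hh 1) A := by
      rw [aux_H_one hA]
      exact hfree
    have h5 : DiffFree (Hh (1 * d)) B := hA.diffFree_sub 1 d le_rfl hd A hfree1 a B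
      (fun j hj => (Finset.mem_filter.1 hj).2)
    rw [one_mul] at h5
    have hmem : ∀ n, Gst lam A W τ d a l ν n ≠ 0 → n ∈ B := fun n hn => by
      obtain ⟨h6, h7⟩ := Gst_supp n hn
      exact Finset.mem_filter.2 ⟨Finset.mem_Icc.2 h6, h7⟩
    have h6 : n - m ∈ ((B : Set ℤ) - (B : Set ℤ)) ∩
        {y : ℤ | ∃ n : ℕ, 1 ≤ n ∧ (Hh d).eval (n : ℤ) = y} :=
      ⟨Set.sub_mem_sub (Finset.mem_coe.2 (hmem n hn)) (Finset.mem_coe.2 (hmem m hm)),
        x, hx, hxe.symm⟩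
    have h7 := h5 h6
    rw [Set.mem_singleton_iff] at h7
    linarith only [h7]

end Vale.Agent.P042.TT
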