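import Vale.Agent.P042.TT.Spec

set_option autoImplicit false

/-!
# Block FAC: the factorisation `q = qs * qh * qz` of the exceptional moduli
-/

namespace Vale.Agent.P042.TT

open Finset Vale.Agent.P042.SS

/-- moduli of the smooth part -/
noncomputable def QS (P : ℝ) (Q : ℕ) : Finset ℕ :=
  (Icc 1 Q).filter (fun q => ∀ p ∈ q.primeFactors, p ≤ ⌊P ^ (0.97 : ℝ)⌋₊)

/-- moduli of the high part: all prime factors are larger than `P^0.97`, exponents larger than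
`J'`, no prime of `V` -/
noncomputable def QH (P : ℝ) (J' : ℕ) (V : Finset ℕ) (Q : ℕ) : Finset ℕ :=
  (EV P V Q).filter (fun q => ∀ p ∈ q.primeFactors, ⌊P ^ (0.97 : ℝ)⌋₊ < p ∧
    J' < q.factorization p)

/-- the part of `q` over the primes with property `A` -/
def fpart (A : ℕ → Prop) [DecidablePred A] (q : ℕ) : ℕ :=
  ∏ p ∈ q.primeFactors.filter A, p ^ q.factorization p

section fpart

variable (A : ℕ → Prop) [DecidablePred A] (q : ℕ)

lemma fac_fpart_pos : 0 < fpart A q :=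
  Finset.prod_pos fun _ hp => pow_pos
    (Nat.prime_of_mem_primeFactors (mem_filter.1 hp).1).pos _

lemma fac_fpart_factorization (p : ℕ) :
    (fpart A q).factorization p = if p ∈ q.primeFactors.filter A then q.factorization p else 0 := by
  unfold fpart
  rw [Nat.factorization_prod (fun r hr => pow_ne_zero _
    (Nat.prime_of_mem_primeFactors (mem_filter.1 hr).1).ne_zero), Finsupp.finsetSum_apply]
  have h1 : ∀ r ∈ q.primeFactors.filter A, (r ^ q.factorization r).factorization p =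
      if r = p then q.factorization p else 0 := by
    intro r hr
    have hrp := Nat.prime_of_mem_primeFactors (mem_filter.1 hr).1
    rw [Nat.factorization_pow, hrp.factorization]
    by_cases h : r = p
    · subst h; simp
    · simp [h]
  rw [sum_congr rfl h1, sum_ite_eq' ]

lemma fac_fpart_primeFactors : (fpart A q).primeFactors = q.primeFactors.filter A := by
  ext p
  rw [← Nat.support_factorization, Finsupp.mem_support_iff, fac_fpart_factorization]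
  constructor
  · intro h
    by_contra hn
    rw [if_neg hn] at h
    exact h rfl
  · intro h
    rw [if_pos h]
    have := (mem_filter.1 h).1
    rw [← Nat.support_factorization, Finsupp.mem_support_iff] at this
    exact this

lemma fac_fpart_dvd (hq : q ≠ 0) : fpart A q ∣ q := by
  rw [← (Nat.factorization_le_iff_dvd (fac_fpart_pos A q).ne' hq)]
  intro p
  rw [fac_fpart_factorization]
  split_ifs
  · exact le_rfl
  · exact Nat.zero_le _

end fpart

/-- the smooth part of `q` -/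
noncomputable def fS (P : ℝ) (q : ℕ) : ℕ := fpart (fun p => p ≤ ⌊P ^ (0.97 : ℝ)⌋₊) q

/-- the high part of `q` -/
noncomputable def fH (P : ℝ) (J' : ℕ) (q : ℕ) : ℕ :=
  fpart (fun p => ⌊P ^ (0.97 : ℝ)⌋₊ < p ∧ J' < q.factorization p) q

/-- the `z`-part of `q` -/
noncomputable def fZ (P : ℝ) (J' : ℕ) (q : ℕ) : ℕ :=
  fpart (fun p => ⌊P ^ (0.97 : ℝ)⌋₊ < p ∧ q.factorization p ≤ J') q

lemma fac_mul {P : ℝ} {J' q : ℕ} (hq : q ≠ 0) : fS P q * fH P J' q * fZ P J' q = q := by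
  refine Nat.eq_of_factorization_eq (mul_ne_zero (mul_ne_zero (fac_fpart_pos _ q).ne'
    (fac_fpart_pos _ q).ne') (fac_fpart_pos _ q).ne') hq fun p => ?_
  unfold fS fH fZ
  rw [Nat.factorization_mul (mul_ne_zero (fac_fpart_pos _ q).ne' (fac_fpart_pos _ q).ne')
    (fac_fpart_pos _ q).ne', Nat.factorization_mul (fac_fpart_pos _ q).ne'
    (fac_fpart_pos _ q).ne', Finsupp.add_apply, Finsupp.add_apply, fac_fpart_factorization,
    fac_fpart_factorization, fac_fpart_factorization]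
  by_cases hp : p ∈ q.primeFactors
  · simp only [mem_filter, hp, true_and]
    by_cases h1 : p ≤ ⌊P ^ (0.97 : ℝ)⌋₊
    · have h2 : ¬ ⌊P ^ (0.97 : ℝ)⌋₊ < p := not_lt.2 h1
      rw [if_pos h1, if_neg (fun h => h2 h.1), if_neg (fun h => h2 h.1)]
      rfl
    · have h2 : ⌊P ^ (0.97 : ℝ)⌋₊ < p := not_le.1 h1
      by_cases h3 : J' < q.factorization p
      · rw [if_neg h1, if_pos ⟨h2, h3⟩, if_neg (fun h => absurd h3 (not_lt.2 h.2)), zero_add,
          add_zero]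
      · rw [if_neg h1, if_neg (fun h => h3 h.2), if_pos ⟨h2, not_lt.1 h3⟩, zero_add, zero_add]
  · have h0 : q.factorization p = 0 := by
      rw [← Nat.support_factorization, Finsupp.mem_support_iff, not_not] at hp
      exact hp
    simp [hp, h0]

lemma fac_mem_EV {P : ℝ} {V : Finset ℕ} {Q q d : ℕ} (hq : q ∈ EV P V Q) (hd : d ∣ q)
    (h : ∀ p, d.factorization p = 0 ∨ d.factorization p = q.factorization p) :
    d ∈ EV P V Q := by
  unfold EV at hq ⊢
  rw [mem_filter, mem_Icc] at hq ⊢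
  obtain ⟨⟨h1, h2⟩, h3, h4⟩ := hq
  refine ⟨⟨Nat.pos_of_dvd_of_pos hd (by omega), (Nat.le_of_dvd (by omega) hd).trans h2⟩,
    fun p hp => ?_, fun p hp hpd => h4 p hp (hpd.trans hd)⟩
  rcases h p with h5 | h5
  · rw [h5]; exact zero_ne_one
  · rw [h5]; exact h3 p hp

lemma fac_fpart_alt (A : ℕ → Prop) [DecidablePred A] (q p : ℕ) :
    (fpart A q).factorization p = 0 ∨ (fpart A q).factorization p = q.factorization p := by
  rw [fac_fpart_factorization]
  split_ifs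
  · exact Or.inr rfl
  · exact Or.inl rfl

lemma fac_EV_pos {P : ℝ} {V : Finset ℕ} {Q q : ℕ} (hq : q ∈ EV P V Q) : 0 < q := by
  unfold EV at hq
  rw [mem_filter, mem_Icc] at hq
  exact hq.1.1

lemma fac_fS_mem {P : ℝ} {V : Finset ℕ} {Q q : ℕ} (hq : q ∈ EV P V Q) : fS P q ∈ QS P Q := by
  have h0 := fac_EV_pos hq
  have h1 := fac_fpart_dvd (fun p => p ≤ ⌊P ^ (0.97 : ℝ)⌋₊) q h0.ne'
  unfold QS
  rw [mem_filter, mem_Icc]
  refine ⟨⟨fac_fpart_pos _ q, (Nat.le_of_dvd h0 h1).trans ?_⟩, fun p hp => ?_⟩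
  · unfold EV at hq
    rw [mem_filter, mem_Icc] at hq
    exact hq.1.2
  · unfold fS at hp
    rw [fac_fpart_primeFactors] at hp
    exact (mem_filter.1 hp).2

lemma fac_fH_mem {P : ℝ} {J' : ℕ} {V : Finset ℕ} {Q q : ℕ} (hq : q ∈ EV P V Q) :
    fH P J' q ∈ QH P J' V Q := by
  have h0 := fac_EV_pos hq
  unfold QH
  rw [mem_filter]
  refine ⟨fac_mem_EV hq (fac_fpart_dvd _ q h0.ne') (fac_fpart_alt _ q), fun p hp => ?_⟩
  unfold fH at hp ⊢
  rw [fac_fpart_primeFactors] at hp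
  rw [fac_fpart_factorization, if_pos hp]
  exact (mem_filter.1 hp).2

lemma fac_fZ_mem {P : ℝ} {J' : ℕ} {V : Finset ℕ} {Q q : ℕ} (hq : q ∈ EV P V Q) :
    fZ P J' q ∈ QZ P J' V Q := by
  have h0 := fac_EV_pos hq
  unfold QZ
  rw [mem_filter]
  refine ⟨fac_mem_EV hq (fac_fpart_dvd _ q h0.ne') (fac_fpart_alt _ q), fun p hp => ?_⟩
  unfold fZ at hp ⊢
  rw [fac_fpart_primeFactors] at hp
  rw [fac_fpart_factorization, if_pos hp]
  exact (mem_filter.1 hp).2

lemma fac_coprime_of {a b : ℕ} (ha : a ≠ 0) (hb : b ≠ 0)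
    (h : ∀ p ∈ a.primeFactors, p ∉ b.primeFactors) : Nat.Coprime a b :=
  (Nat.disjoint_primeFactors ha hb).1 (disjoint_left.2 fun _ h1 h2 => h _ h1 h2)

lemma fac_QS_pos {P : ℝ} {Q s : ℕ} (hs : s ∈ QS P Q) : 0 < s := by
  unfold QS at hs
  rw [mem_filter, mem_Icc] at hs
  exact hs.1.1

lemma fac_QH_pos {P : ℝ} {J' : ℕ} {V : Finset ℕ} {Q h : ℕ} (hh : h ∈ QH P J' V Q) : 0 < h :=
  fac_EV_pos (mem_filter.1 hh).1

lemma fac_QZ_pos {P : ℝ} {J' : ℕ} {V : Finset ℕ} {Q z : ℕ} (hz : z ∈ QZ P J' V Q) : 0 < z :=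
  fac_EV_pos (mem_filter.1 hz).1

lemma fac_cop_sh {P : ℝ} {J' : ℕ} {V : Finset ℕ} {Q Q' s h : ℕ} (hs : s ∈ QS P Q)
    (hh : h ∈ QH P J' V Q') : Nat.Coprime s h :=
  fac_coprime_of (fac_QS_pos hs).ne' (fac_QH_pos hh).ne' fun p h1 h2 =>
    absurd ((mem_filter.1 hs).2 p h1) (not_le.2 ((mem_filter.1 hh).2 p h2).1)

lemma fac_cop_sz {P : ℝ} {J' : ℕ} {V : Finset ℕ} {Q Q' s z : ℕ} (hs : s ∈ QS P Q)
    (hz : z ∈ QZ P J' V Q') : Nat.Coprime s z :=
  fac_coprime_of (fac_QS_pos hs).ne' (fac_QZ_pos hz).ne' fun p h1 h2 =>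
    absurd ((mem_filter.1 hs).2 p h1) (not_le.2 ((mem_filter.1 hz).2 p h2).1)

lemma fac_W2_gt {P : ℝ} {p : ℕ} (hp : p ∈ W2 P) :
    ⌊P ^ (0.97 : ℝ)⌋₊ < p ∧ p ≤ ⌊P ^ (1.04 : ℝ)⌋₊ ∧ p.Prime := by
  unfold W2 Wp at hp
  rw [mem_filter, mem_Ioc] at hp
  exact ⟨hp.1.1, hp.1.2, hp.2⟩

/-- primes of `V` do not divide the smooth part -/
lemma fac_V_s {P : ℝ} {V : Finset ℕ} {Q s p : ℕ} (hV : V ⊆ W2 P) (hs : s ∈ QS P Q) (hp : p ∈ V) :
    Nat.Coprime p s := by
  obtain ⟨h1, -, h2⟩ := fac_W2_gt (hV hp)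
  rw [h2.coprime_iff_not_dvd]
  intro h3
  have h4 := (mem_filter.1 hs).2 p (Nat.mem_primeFactors.2 ⟨h2, h3, (fac_QS_pos hs).ne'⟩)
  omega

lemma fac_V_EV {P : ℝ} {V : Finset ℕ} {Q q p : ℕ} (hV : V ⊆ W2 P) (hq : q ∈ EV P V Q)
    (hp : p ∈ V) : Nat.Coprime p q := by
  obtain ⟨-, -, h2⟩ := fac_W2_gt (hV hp)
  rw [h2.coprime_iff_not_dvd]
  unfold EV at hq
  exact (mem_filter.1 hq).2.2 p hp

lemma fac_V_h {P : ℝ} {J' : ℕ} {V : Finset ℕ} {Q h p : ℕ} (hV : V ⊆ W2 P)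
    (hh : h ∈ QH P J' V Q) (hp : p ∈ V) : Nat.Coprime p h :=
  fac_V_EV hV (mem_filter.1 hh).1 hp

lemma fac_V_z {P : ℝ} {J' : ℕ} {V : Finset ℕ} {Q z p : ℕ} (hV : V ⊆ W2 P)
    (hz : z ∈ QZ P J' V Q) (hp : p ∈ V) : Nat.Coprime p z :=
  fac_V_EV hV (mem_filter.1 hz).1 hp

lemma fac_cop_hz {P : ℝ} {J' q : ℕ} : Nat.Coprime (fZ P J' q) (fH P J' q) := by
  refine fac_coprime_of (fac_fpart_pos _ q).ne' (fac_fpart_pos _ q).ne' fun p h1 h2 => ?_
  unfold fZ at h1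
  unfold fH at h2
  rw [fac_fpart_primeFactors, mem_filter] at h1 h2
  exact absurd h1.2.2 (not_le.2 h2.2.2)

/-- **the sum over the exceptional moduli is at most the triple sum** -/
theorem fac_sum (P : ℝ) (J' : ℕ) (V : Finset ℕ) (Q : ℕ) (F : ℕ → ℝ) (hF : ∀ q, 0 ≤ F q) :
    ∑ q ∈ EV P V Q, F q ≤ ∑ h ∈ QH P J' V Q, ∑ s ∈ QS P Q,
      ∑ z ∈ (QZ P J' V Q).filter (fun z => Nat.Coprime z h), F (s * h * z) := by
  have h1 : ∑ h ∈ QH P J' V Q, ∑ s ∈ QS P Q,
      ∑ z ∈ (QZ P J' V Q).filter (fun z => Nat.Coprime z h), F (s * h * z) =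
      ∑ t ∈ ((QH P J' V Q) ×ˢ ((QS P Q) ×ˢ (QZ P J' V Q))).filter
        (fun t => Nat.Coprime t.2.2 t.1), F (t.2.1 * t.1 * t.2.2) := by
    rw [sum_filter, sum_product]
    refine sum_congr rfl fun h _ => ?_
    rw [sum_product]
    refine sum_congr rfl fun s _ => ?_
    rw [sum_filter]
  rw [h1]
  set φ : ℕ → ℕ × ℕ × ℕ := fun q => (fH P J' q, fS P q, fZ P J' q) with hφ
  have h2 : ∑ q ∈ EV P V Q, F q = ∑ t ∈ (EV P V Q).image φ, F (t.2.1 * t.1 * t.2.2) := by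
    rw [sum_image]
    · refine sum_congr rfl fun q hq => ?_
      rw [hφ]
      simp only
      rw [fac_mul (fac_EV_pos hq).ne']
    · intro q hq q' hq' he
      have e1 := fac_mul (P := P) (J' := J') (fac_EV_pos hq).ne'
      have e2 := fac_mul (P := P) (J' := J') (fac_EV_pos hq').ne'
      rw [hφ] at he
      simp only [Prod.mk.injEq] at he
      rw [← e1, ← e2, he.1, he.2.1, he.2.2]
  rw [h2]
  refine sum_le_sum_of_subset_of_nonneg ?_ fun t _ _ => hF _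
  intro t ht
  rw [mem_image] at ht
  obtain ⟨q, hq, rfl⟩ := ht
  rw [mem_filter, mem_product, mem_product]
  exact ⟨⟨fac_fH_mem hq, fac_fS_mem hq, fac_fZ_mem hq⟩, fac_cop_hz⟩

/-! ### multiplicativity -/

lemma fac_kapProd_mul (kap : ℕ → ℕ → ℝ) {a b : ℕ} (ha : a ≠ 0) (hb : b ≠ 0)
    (h : Nat.Coprime a b) : kapProd kap (a * b) = kapProd kap a * kapProd kap b := by
  unfold kapProd
  rw [h.primeFactors_mul, prod_union h.disjoint_primeFactors]
  congr 1
  · refine prod_congr rfl fun p hp => ?_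
    rw [Nat.factorization_mul ha hb, Finsupp.add_apply]
    have : b.factorization p = 0 := by
      rw [← Finsupp.notMem_support_iff, Nat.support_factorization]
      exact disjoint_left.1 h.disjoint_primeFactors hp
    rw [this, add_zero]
  · refine prod_congr rfl fun p hp => ?_
    rw [Nat.factorization_mul ha hb, Finsupp.add_apply]
    have : a.factorization p = 0 := by
      rw [← Finsupp.notMem_support_iff, Nat.support_factorization]
      exact disjoint_right.1 h.disjoint_primeFactors hp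
    rw [this, zero_add]

lemma fac_yc_mul (P : ℝ) {a b : ℕ} (h : Nat.Coprime a b) :
    yc P (a * b) = yc P a + yc P b := by
  unfold yc
  rw [← card_union_of_disjoint]
  · congr 1
    ext p
    rw [mem_union, mem_filter, mem_filter, mem_filter]
    constructor
    · rintro ⟨h1, h2⟩
      rcases (fac_W2_gt h1).2.2.dvd_mul.1 h2 with h3 | h3
      · exact Or.inl ⟨h1, h3⟩
      · exact Or.inr ⟨h1, h3⟩
    · rintro (⟨h1, h2⟩ | ⟨h1, h2⟩)
      · exact ⟨h1, h2.mul_right b⟩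
      · exact ⟨h1, h2.mul_left a⟩
  · rw [disjoint_left]
    intro p h1 h2
    rw [mem_filter] at h1 h2
    have h3 := Nat.dvd_gcd h1.2 h2.2
    rw [Nat.Coprime.gcd_eq_one h] at h3
    exact (fac_W2_gt h1.1).2.2.one_lt.ne' (Nat.dvd_one.1 h3)

lemma fac_yc_s {P : ℝ} {Q s : ℕ} (hs : s ∈ QS P Q) : yc P s = 0 := by
  unfold yc
  rw [card_eq_zero, filter_eq_empty_iff]
  intro p hp h
  obtain ⟨h1, -, h2⟩ := fac_W2_gt hp
  have h3 := (mem_filter.1 hs).2 p (Nat.mem_primeFactors.2 ⟨h2, h, (fac_QS_pos hs).ne'⟩)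
  omega

/-- multiplicativity of the weight -/
theorem fac_weight {P : ℝ} {J' : ℕ} {V : Finset ℕ} {Q s h z : ℕ} (kap : ℕ → ℕ → ℝ)
    (hs : s ∈ QS P Q) (hh : h ∈ QH P J' V Q) (hz : z ∈ QZ P J' V Q) (hzh : Nat.Coprime z h) :
    (2 : ℝ) ^ yc P (s * h * z) * kapProd kap (s * h * z) =
      kapProd kap s * (2 ^ yc P h * kapProd kap h) * (2 ^ yc P z * kapProd kap z) := by
  have hs0 := (fac_QS_pos hs).ne'
  have hh0 := (fac_QH_pos hh).ne'
  have hz0 := (fac_QZ_pos hz).ne'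
  have c1 := fac_cop_sh hs hh
  have c2 : Nat.Coprime (s * h) z := Nat.Coprime.mul_left (fac_cop_sz hs hz) hzh.symm
  rw [fac_kapProd_mul kap (mul_ne_zero hs0 hh0) hz0 c2, fac_kapProd_mul kap hs0 hh0 c1,
    fac_yc_mul P c2, fac_yc_mul P c1, fac_yc_s hs, zero_add, pow_add]
  ring

end Vale.Agent.P042.TT
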