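import Vale.Agent.P042.TT.Fac

set_option autoImplicit false

/-!
# Block FAC, part 2: weights of the parts
-/

namespace Vale.Agent.P042.TT

open Finset Filter Vale.Agent.P042.SS

/-- the factor of `2 ^ yc` at the prime `p` -/
noncomputable def yf (P : ℝ) (p : ℕ) : ℝ := if p ∈ W2 P then 2 else 1

lemma facw_yf_le (P : ℝ) (p : ℕ) : yf P p ≤ 2 := by
  unfold yf; split_ifs <;> norm_num

lemma facw_yf_pos (P : ℝ) (p : ℕ) : 0 < yf P p := by
  unfold yf; split_ifs <;> norm_num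

lemma facw_yc (P : ℝ) {z : ℕ} (hz : z ≠ 0) : (2 : ℝ) ^ yc P z = ∏ p ∈ z.primeFactors, yf P p := by
  unfold yc yf
  rw [prod_ite, prod_const, prod_const_one, mul_one]
  congr 2
  ext p
  rw [mem_filter, mem_filter]
  constructor
  · rintro ⟨h1, h2⟩
    exact ⟨Nat.mem_primeFactors.2 ⟨(fac_W2_gt h1).2.2, h2, hz⟩, h1⟩
  · rintro ⟨h1, h2⟩
    exact ⟨h2, Nat.dvd_of_mem_primeFactors h1⟩

lemma facw_rpow {z : ℕ} (hz : z ≠ 0) (t : ℝ) :
    (z : ℝ) ^ t = ∏ p ∈ z.primeFactors, (p : ℝ) ^ (z.factorization p * t) := by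
  conv_lhs => rw [← Nat.prod_factorization_pow_eq_self hz]
  rw [Finsupp.prod, Nat.support_factorization]
  push_cast
  rw [← Real.finsetProd_rpow _ _ (fun p _ => by positivity)]
  refine prod_congr rfl fun p _ => ?_
  rw [← Real.rpow_natCast, ← Real.rpow_mul (Nat.cast_nonneg p)]

/-- the weight as a product over primes -/
lemma facw_prod (P : ℝ) (kap : ℕ → ℕ → ℝ) {z : ℕ} (hz : z ≠ 0) (t : ℝ) :
    2 ^ yc P z * kapProd kap z * (z : ℝ) ^ t = ∏ p ∈ z.primeFactors,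
      (yf P p * kap p (z.factorization p) * (p : ℝ) ^ (z.factorization p * t)) := by
  rw [facw_yc P hz, facw_rpow hz t]
  unfold kapProd
  rw [← prod_mul_distrib, ← prod_mul_distrib]

lemma facw_prod0 (P : ℝ) (kap : ℕ → ℕ → ℝ) {z : ℕ} (hz : z ≠ 0) :
    2 ^ yc P z * kapProd kap z = ∏ p ∈ z.primeFactors,
      (yf P p * kap p (z.factorization p)) := by
  rw [facw_yc P hz]
  unfold kapProd
  rw [← prod_mul_distrib]

lemma facw_floor {P : ℝ} {p : ℕ} {a : ℝ} (h : ⌊P ^ a⌋₊ < p) : P ^ a < p :=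
  Nat.lt_of_floor_lt h

/-- conditions on `P` used for the comparisons of weights -/
structure BigP (k p0 : ℕ) (P : ℝ) : Prop where
  one : 1 ≤ P
  k : 2 * (k : ℝ) ≤ P ^ (0.0001 : ℝ)
  p0 : (p0 : ℝ) ≤ P ^ (0.97 : ℝ)

lemma facw_big (k p0 : ℕ) : ∃ P0 : ℝ, ∀ P : ℝ, P0 ≤ P → BigP k p0 P := by
  have h1 : ∀ᶠ P : ℝ in atTop, 1 ≤ P := eventually_ge_atTop 1
  have h2 : ∀ᶠ P : ℝ in atTop, 2 * (k : ℝ) ≤ P ^ (0.0001 : ℝ) :=
    (tendsto_rpow_atTop (by norm_num : (0 : ℝ) < 0.0001)).eventually_ge_atTop _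
  have h3 : ∀ᶠ P : ℝ in atTop, (p0 : ℝ) ≤ P ^ (0.97 : ℝ) :=
    (tendsto_rpow_atTop (by norm_num : (0 : ℝ) < 0.97)).eventually_ge_atTop _
  obtain ⟨P0, h⟩ := eventually_atTop.1 (h1.and (h2.and h3))
  exact ⟨P0, fun P hP => ⟨(h P hP).1, (h P hP).2.1, (h P hP).2.2⟩⟩

/-- comparison at one prime -/
lemma facw_one {k E K p0 : ℕ} {kap : ℕ → ℕ → ℝ} (hk : 1 ≤ k) (hE : 1 ≤ E)
    (hK : KapOK k E K p0 kap) {P : ℝ} (hP : BigP k p0 P) {t : ℝ} (ht0 : 0 ≤ t)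
    (ht1 : t ≤ 1 / 2000) (ht2 : t ≤ 1 / (100 * (E : ℝ))) {p j : ℕ} (hp : p.Prime)
    (hpw : ⌊P ^ (0.97 : ℝ)⌋₊ < p) (hj1 : 1 ≤ j) (hj2 : j ≤ 4 * E) (hpW : p ∈ W2 P → j ≠ 1) :
    yf P p * kap p j * (p : ℝ) ^ (j * t) ≤ zr P p j ∧
      yf P p * kap p j ≤ P ^ (-0.0009 : ℝ) * zr P p j := by
  have hPp : P ^ (0.97 : ℝ) < p := facw_floor hpw
  have hP0 : 0 < P := lt_of_lt_of_le one_pos hP.one
  have hp0 : p0 < p := by
    have : (p0 : ℝ) < p := lt_of_le_of_lt hP.p0 hPp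
    exact_mod_cast this
  have hp1 : (1 : ℝ) ≤ p := by exact_mod_cast hp.one_lt.le
  have hpR : (0 : ℝ) < p := by linarith
  have hkR : (1 : ℝ) ≤ k := by exact_mod_cast hk
  have hER : (1 : ℝ) ≤ E := by exact_mod_cast hE
  by_cases hj : j = 1
  · -- exponent one: `p` is beyond the window
    subst hj
    have hpn : p ∉ W2 P := fun h => hpW h rfl
    have hy : yf P p = 1 := if_neg hpn
    have hk1 := hK.one p hp hp0
    have hs : (k : ℝ) / Real.sqrt p = k * (p : ℝ) ^ (-(1 / 2) : ℝ) := by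
      rw [Real.sqrt_eq_rpow, Real.rpow_neg hpR.le, div_eq_mul_inv]
    rw [hs] at hk1
    have hz : zr P p 1 = P ^ (0.001 : ℝ) * (p : ℝ) ^ (-0.499 : ℝ) := by
      unfold zr; rw [if_pos rfl]
    rw [hz, hy, one_mul]
    have hP4 : P ^ (0.0001 : ℝ) ≤ P ^ (0.001 : ℝ) :=
      Real.rpow_le_rpow_of_exponent_le hP.one (by norm_num)
    constructor
    · have e1 : (p : ℝ) ^ (-(1 / 2) : ℝ) * (p : ℝ) ^ (((1 : ℕ) : ℝ) * t) ≤
          (p : ℝ) ^ (-0.499 : ℝ) := by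
        rw [← Real.rpow_add hpR]
        refine Real.rpow_le_rpow_of_exponent_le hp1 ?_
        push_cast
        linarith
      calc kap p 1 * (p : ℝ) ^ (((1 : ℕ) : ℝ) * t)
          ≤ (k * (p : ℝ) ^ (-(1 / 2) : ℝ)) * (p : ℝ) ^ (((1 : ℕ) : ℝ) * t) :=
            mul_le_mul_of_nonneg_right hk1 (by positivity)
        _ = k * ((p : ℝ) ^ (-(1 / 2) : ℝ) * (p : ℝ) ^ (((1 : ℕ) : ℝ) * t)) := by ring
        _ ≤ P ^ (0.001 : ℝ) * (p : ℝ) ^ (-0.499 : ℝ) := by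
            refine mul_le_mul ?_ e1 (by positivity) (by positivity)
            linarith [hP.k]
    · have e1 : (p : ℝ) ^ (-(1 / 2) : ℝ) ≤ (p : ℝ) ^ (-0.499 : ℝ) :=
        Real.rpow_le_rpow_of_exponent_le hp1 (by norm_num)
      have e2 : P ^ (-0.0009 : ℝ) * (P ^ (0.001 : ℝ) * (p : ℝ) ^ (-0.499 : ℝ)) =
          P ^ (0.0001 : ℝ) * (p : ℝ) ^ (-0.499 : ℝ) := by
        rw [← mul_assoc, ← Real.rpow_add hP0]
        norm_num
      rw [e2]
      calc kap p 1 ≤ k * (p : ℝ) ^ (-(1 / 2) : ℝ) := hk1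
        _ ≤ P ^ (0.0001 : ℝ) * (p : ℝ) ^ (-0.499 : ℝ) := by
            refine mul_le_mul ?_ e1 (by positivity) (by positivity)
            linarith [hP.k]
  · have hj2' : 2 ≤ j := by omega
    have hk2 := hK.two p j hp hp0 hj2'
    have hz : zr P p j = (p : ℝ) ^ (-0.9 : ℝ) := by
      unfold zr; rw [if_neg hj]
    rw [hz]
    have hy := facw_yf_le P p
    have hy0 := (facw_yf_pos P p).le
    have hkn : 0 ≤ kap p j := hK.nn p j
    have hyk : yf P p * kap p j ≤ 2 * k * (p : ℝ) ^ (-1 : ℝ) := by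
      rw [Real.rpow_neg_one, mul_assoc]
      refine mul_le_mul hy ?_ hkn (by norm_num)
      rw [← div_eq_mul_inv]
      exact hk2
    have hP97 : (0 : ℝ) < P ^ (0.97 : ℝ) := by positivity
    constructor
    · have hjt : (j : ℝ) * t ≤ 0.04 := by
        have h1 : (j : ℝ) ≤ 4 * E := by exact_mod_cast hj2
        have h2 : (4 * (E : ℝ)) * (1 / (100 * (E : ℝ))) = 0.04 := by
          field_simp; norm_num
        calc (j : ℝ) * t ≤ (4 * E) * (1 / (100 * (E : ℝ))) :=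
              mul_le_mul h1 ht2 ht0 (by positivity)
          _ = 0.04 := h2
      have h3 : 2 * (k : ℝ) ≤ (p : ℝ) ^ (0.06 : ℝ) := by
        calc 2 * (k : ℝ) ≤ P ^ (0.0001 : ℝ) := hP.k
          _ ≤ P ^ (0.97 * 0.06 : ℝ) := Real.rpow_le_rpow_of_exponent_le hP.one (by norm_num)
          _ = (P ^ (0.97 : ℝ)) ^ (0.06 : ℝ) := by rw [Real.rpow_mul hP0.le]
          _ ≤ (p : ℝ) ^ (0.06 : ℝ) := Real.rpow_le_rpow hP97.le hPp.le (by norm_num)
      calc yf P p * kap p j * (p : ℝ) ^ (j * t)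
          ≤ (2 * k * (p : ℝ) ^ (-1 : ℝ)) * (p : ℝ) ^ (0.04 : ℝ) :=
            mul_le_mul hyk (Real.rpow_le_rpow_of_exponent_le hp1 hjt) (by positivity)
              (by positivity)
        _ ≤ ((p : ℝ) ^ (0.06 : ℝ) * (p : ℝ) ^ (-1 : ℝ)) * (p : ℝ) ^ (0.04 : ℝ) := by
            refine mul_le_mul_of_nonneg_right ?_ (by positivity)
            exact mul_le_mul_of_nonneg_right h3 (by positivity)
        _ = (p : ℝ) ^ (-0.9 : ℝ) := by
            rw [← Real.rpow_add hpR, ← Real.rpow_add hpR]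
            norm_num
    · have h3 : 2 * (k : ℝ) ≤ P ^ (-0.0009 : ℝ) * (p : ℝ) ^ (0.1 : ℝ) := by
        calc 2 * (k : ℝ) ≤ P ^ (0.0001 : ℝ) := hP.k
          _ ≤ P ^ (-0.0009 + 0.97 * 0.1 : ℝ) :=
              Real.rpow_le_rpow_of_exponent_le hP.one (by norm_num)
          _ = P ^ (-0.0009 : ℝ) * (P ^ (0.97 : ℝ)) ^ (0.1 : ℝ) := by
              rw [Real.rpow_add hP0, Real.rpow_mul hP0.le]
          _ ≤ P ^ (-0.0009 : ℝ) * (p : ℝ) ^ (0.1 : ℝ) :=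
              mul_le_mul_of_nonneg_left (Real.rpow_le_rpow hP97.le hPp.le (by norm_num))
                (by positivity)
      calc yf P p * kap p j ≤ 2 * k * (p : ℝ) ^ (-1 : ℝ) := hyk
        _ ≤ (P ^ (-0.0009 : ℝ) * (p : ℝ) ^ (0.1 : ℝ)) * (p : ℝ) ^ (-1 : ℝ) :=
            mul_le_mul_of_nonneg_right h3 (by positivity)
        _ = P ^ (-0.0009 : ℝ) * (p : ℝ) ^ (-0.9 : ℝ) := by
            rw [mul_assoc, ← Real.rpow_add hpR]
            norm_num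

lemma facw_mem {P : ℝ} {J' : ℕ} {V : Finset ℕ} {Q z : ℕ} (hz : z ∈ QZ P J' V Q) {p : ℕ}
    (hp : p ∈ z.primeFactors) : p.Prime ∧ ⌊P ^ (0.97 : ℝ)⌋₊ < p ∧ 1 ≤ z.factorization p ∧
      z.factorization p ≤ J' ∧ (p ∈ W2 P → z.factorization p ≠ 1) := by
  have h1 := Nat.prime_of_mem_primeFactors hp
  have h2 := (mem_filter.1 hz).2 p hp
  refine ⟨h1, h2.1, ?_, h2.2, ?_⟩
  · exact h1.factorization_pos_of_dvd (fac_QZ_pos hz).ne' (Nat.dvd_of_mem_primeFactors hp)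
  · have h3 := (mem_filter.1 hz).1
    unfold EV at h3
    exact (mem_filter.1 h3).2.1 p

/-- **comparison of the weights of the `z`-part, with a Rankin factor** -/
theorem fac_wt (k E K p0 : ℕ) (kap : ℕ → ℕ → ℝ) (hk : 1 ≤ k) (hE : 1 ≤ E)
    (hK : KapOK k E K p0 kap) : ∃ P0 : ℝ, ∀ P : ℝ, P0 ≤ P → ∀ t' : ℝ, 0 ≤ t' →
    t' ≤ 1 / 2000 → t' ≤ 1 / (100 * (E : ℝ)) → ∀ (V : Finset ℕ) (Q : ℕ),
    ∀ z ∈ QZ P (4 * E) V Q, 2 ^ yc P z * kapProd kap z * (z : ℝ) ^ t' ≤ zR P z := by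
  obtain ⟨P0, hP0⟩ := facw_big k p0
  refine ⟨P0, fun P hP t' ht0 ht1 ht2 V Q z hz => ?_⟩
  rw [facw_prod P kap (fac_QZ_pos hz).ne' t']
  unfold zR
  refine prod_le_prod (fun p hp => ?_) fun p hp => ?_
  · have := hK.nn p (z.factorization p)
    have := (facw_yf_pos P p).le
    positivity
  · obtain ⟨h1, h2, h3, h4, h5⟩ := facw_mem hz hp
    exact (facw_one hk hE hK (hP0 P hP) ht0 ht1 ht2 h1 h2 h3 h4 h5).1

lemma facw_zr_nonneg {P : ℝ} (hP : 0 ≤ P) (p j : ℕ) : 0 ≤ zr P p j := by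
  unfold zr; split_ifs <;> positivity

lemma facw_zR_nonneg {P : ℝ} (hP : 0 ≤ P) (q : ℕ) : 0 ≤ zR P q :=
  prod_nonneg fun _ _ => facw_zr_nonneg hP _ _

/-- **comparison of the weights of the `z`-part, with a gain** -/
theorem fac_wt1 (k E K p0 : ℕ) (kap : ℕ → ℕ → ℝ) (hk : 1 ≤ k) (hE : 1 ≤ E)
    (hK : KapOK k E K p0 kap) : ∃ P0 : ℝ, ∀ P : ℝ, P0 ≤ P → ∀ (V : Finset ℕ) (Q : ℕ),
    ∀ z ∈ QZ P (4 * E) V Q, z ≠ 1 →
      2 ^ yc P z * kapProd kap z ≤ P ^ (-0.0009 : ℝ) * zR P z := by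
  obtain ⟨P0, hP0⟩ := facw_big k p0
  refine ⟨P0, fun P hP V Q z hz hz1 => ?_⟩
  have hPP := hP0 P hP
  have hP0' : 0 < P := lt_of_lt_of_le one_pos hPP.one
  rw [facw_prod0 P kap (fac_QZ_pos hz).ne']
  have h1 : ∏ p ∈ z.primeFactors, (yf P p * kap p (z.factorization p)) ≤
      ∏ p ∈ z.primeFactors, (P ^ (-0.0009 : ℝ) * zr P p (z.factorization p)) := by
    refine prod_le_prod (fun p hp => ?_) fun p hp => ?_
    · exact mul_nonneg (facw_yf_pos P p).le (hK.nn p _)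
    · obtain ⟨h1, h2, h3, h4, h5⟩ := facw_mem hz hp
      exact (facw_one hk hE hK hPP le_rfl (by norm_num) (by positivity) h1 h2 h3 h4 h5).2
  refine h1.trans ?_
  rw [prod_mul_distrib, prod_const]
  unfold zR
  refine mul_le_mul_of_nonneg_right ?_ (prod_nonneg fun _ _ => facw_zr_nonneg hP0'.le _ _)
  have h2 : P ^ (-0.0009 : ℝ) ≤ 1 := Real.rpow_le_one_of_one_le_of_nonpos hPP.one (by norm_num)
  have h3 : z.primeFactors.card ≠ 0 := by
    rw [card_ne_zero]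
    refine Nat.nonempty_primeFactors.2 ?_
    have := fac_QZ_pos hz
    omega
  exact pow_le_of_le_one (by positivity) h2 h3

/-! ### the high part -/

/-- a finite Euler product bounds the sum over a finite set of moduli -/
lemma facw_euler (Pr Js : Finset ℕ) (g : ℕ → ℕ → ℝ) (hg : ∀ p j, 0 ≤ g p j) (hJ : 0 ∉ Js)
    (Hs : Finset ℕ) (hH : ∀ h ∈ Hs, h ≠ 0 ∧ ∀ p ∈ h.primeFactors, p ∈ Pr ∧
      h.factorization p ∈ Js) :
    ∑ h ∈ Hs, ∏ p ∈ h.primeFactors, g p (h.factorization p) ≤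
      ∏ p ∈ Pr, (1 + ∑ j ∈ Js, g p j) := by
  set g0 : ℕ → ℕ → ℝ := fun p j => if j = 0 then 1 else g p j with hg0
  have hg0n : ∀ p j, 0 ≤ g0 p j := by
    intro p j
    rw [hg0]
    simp only
    split_ifs
    · exact zero_le_one
    · exact hg p j
  have e1 : ∏ p ∈ Pr, (1 + ∑ j ∈ Js, g p j) = ∏ p ∈ Pr, ∑ j ∈ insert 0 Js, g0 p j := by
    refine prod_congr rfl fun p _ => ?_
    rw [sum_insert hJ]
    congr 1
    refine sum_congr rfl fun j hj => ?_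
    rw [hg0]
    simp only
    rw [if_neg]
    rintro rfl
    exact hJ hj
  rw [e1, prod_sum]
  set φ : ℕ → (∀ a ∈ Pr, ℕ) := fun h => fun a _ => h.factorization a with hφ
  have e2 : ∀ h ∈ Hs, ∏ p ∈ h.primeFactors, g p (h.factorization p) =
      ∏ x ∈ Pr.attach, g0 x.1 (φ h x.1 x.2) := by
    intro h hh
    have hsub : h.primeFactors ⊆ Pr := fun p hp => ((hH h hh).2 p hp).1
    rw [hφ]
    simp only
    rw [prod_attach Pr (fun x => g0 x (h.factorization x)), ← prod_subset hsub]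
    · refine prod_congr rfl fun p hp => ?_
      rw [hg0]
      simp only
      rw [if_neg]
      intro h0
      rw [← Nat.support_factorization, Finsupp.mem_support_iff] at hp
      exact hp h0
    · intro p _ hp
      rw [← Nat.support_factorization, Finsupp.notMem_support_iff] at hp
      rw [hg0]
      simp only
      rw [if_pos hp]
  rw [sum_congr rfl e2]
  have hinj : ∀ h ∈ Hs, ∀ h' ∈ Hs, φ h = φ h' → h = h' := by
    intro h hh h' hh' he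
    refine Nat.eq_of_factorization_eq (hH h hh).1 (hH h' hh').1 fun p => ?_
    by_cases hp : p ∈ Pr
    · exact congrFun (congrFun he p) hp
    · have a1 : h.factorization p = 0 := by
        rw [← Finsupp.notMem_support_iff, Nat.support_factorization]
        exact fun hm => hp ((hH h hh).2 p hm).1
      have a2 : h'.factorization p = 0 := by
        rw [← Finsupp.notMem_support_iff, Nat.support_factorization]
        exact fun hm => hp ((hH h' hh').2 p hm).1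
      rw [a1, a2]
  rw [← sum_image (f := fun ψ : (∀ a ∈ Pr, ℕ) => ∏ x ∈ Pr.attach, g0 x.1 (ψ x.1 x.2)) hinj]
  refine sum_le_sum_of_subset_of_nonneg ?_ fun ψ _ _ => prod_nonneg fun _ _ => hg0n _ _
  intro ψ hψ
  rw [mem_image] at hψ
  obtain ⟨h, hh, rfl⟩ := hψ
  rw [Finset.mem_pi]
  intro p hp
  rw [hφ]
  simp only
  rw [mem_insert]
  by_cases hm : p ∈ h.primeFactors
  · exact Or.inr ((hH h hh).2 p hm).2
  · left
    rw [← Finsupp.notMem_support_iff, Nat.support_factorization]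
    exact hm

/-- the geometric constant -/
lemma facw_geo (E : ℕ) (hE : 1 ≤ E) : ∃ S : ℝ, 0 < S ∧ ∀ Js : Finset ℕ,
    ∑ j ∈ Js, ((2 : ℝ) ^ (-(0.98 : ℝ) / E)) ^ j ≤ S := by
  have hER : (0 : ℝ) < E := by exact_mod_cast hE
  have h0 : (0 : ℝ) ≤ (2 : ℝ) ^ (-(0.98 : ℝ) / E) := by positivity
  have h1 : (2 : ℝ) ^ (-(0.98 : ℝ) / E) < 1 :=
    Real.rpow_lt_one_of_one_lt_of_neg (by norm_num) (div_neg_of_neg_of_pos (by norm_num) hER)
  have hs := summable_geometric_of_lt_one h0 h1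
  refine ⟨∑' j, ((2 : ℝ) ^ (-(0.98 : ℝ) / E)) ^ j, ?_, fun Js =>
    hs.sum_le_tsum Js fun j _ => pow_nonneg h0 j⟩
  rw [tsum_geometric_of_lt_one h0 h1]
  exact inv_pos.2 (sub_pos.2 h1)

/-- the sum over the high exponents of one prime -/
lemma facw_high {E K : ℕ} {kap : ℕ → ℕ → ℝ} (hE : 1 ≤ E)
    (hk : ∀ p j, p.Prime → 1 ≤ j → kap p j ≤ K * (p : ℝ) ^ (-(j : ℝ) / E)) {S : ℝ}
    (hS : ∀ Js : Finset ℕ, ∑ j ∈ Js, ((2 : ℝ) ^ (-(0.98 : ℝ) / E)) ^ j ≤ S)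
    {t : ℝ} (ht : t ≤ 1 / (50 * (E : ℝ))) {p : ℕ} (hp : p.Prime) {Js : Finset ℕ}
    (hJ : ∀ j ∈ Js, 4 * E < j) :
    ∑ j ∈ Js, 2 * kap p j * (p : ℝ) ^ (j * t) ≤ 32 * K * S * (p : ℝ) ^ (-3.92 : ℝ) := by
  have hER : (0 : ℝ) < E := by exact_mod_cast hE
  have hpR : (0 : ℝ) < p := by exact_mod_cast hp.pos
  have hp1 : (1 : ℝ) ≤ p := by exact_mod_cast hp.one_lt.le
  have hp2 : (2 : ℝ) ≤ p := by exact_mod_cast hp.two_le
  have hterm : ∀ j ∈ Js, 2 * kap p j * (p : ℝ) ^ (j * t) ≤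
      32 * K * (p : ℝ) ^ (-3.92 : ℝ) * ((2 : ℝ) ^ (-(0.98 : ℝ) / E)) ^ j := by
    intro j hj
    have hj4 : 4 * (E : ℝ) ≤ j := by exact_mod_cast (hJ j hj).le
    have h1 := hk p j hp (by have := hJ j hj; omega)
    have h2 : (p : ℝ) ^ (-(j : ℝ) / E) * (p : ℝ) ^ (j * t) ≤
        (p : ℝ) ^ (-3.92 : ℝ) * (p : ℝ) ^ (-(0.98 * ((j : ℝ) - 4 * E)) / E) := by
      rw [← Real.rpow_add hpR, ← Real.rpow_add hpR]
      refine Real.rpow_le_rpow_of_exponent_le hp1 ?_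
      have h3 : (j : ℝ) * t ≤ 0.02 * j / E := by
        calc (j : ℝ) * t ≤ j * (1 / (50 * (E : ℝ))) :=
              mul_le_mul_of_nonneg_left ht (Nat.cast_nonneg j)
          _ = 0.02 * j / E := by field_simp; ring
      have h4 : -(0.98 * ((j : ℝ) - 4 * E)) / E = -(0.98 * j) / E + 3.92 := by
        field_simp; ring
      have h5 : -(j : ℝ) / E + 0.02 * j / E = -(0.98 * j) / E := by
        field_simp; ring
      rw [h4]
      linarith
    have h6 : (p : ℝ) ^ (-(0.98 * ((j : ℝ) - 4 * E)) / E) ≤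
        (2 : ℝ) ^ (-(0.98 * ((j : ℝ) - 4 * E)) / E) := by
      apply Real.rpow_le_rpow_of_nonpos (by norm_num) hp2
      apply div_nonpos_of_nonpos_of_nonneg _ hER.le
      linarith only [hj4]
    have h7 : (2 : ℝ) ^ (-(0.98 * ((j : ℝ) - 4 * E)) / E) ≤
        16 * ((2 : ℝ) ^ (-(0.98 : ℝ) / E)) ^ j := by
      have e1 : -(0.98 * ((j : ℝ) - 4 * E)) / E = 3.92 + (-(0.98 : ℝ) / E) * j := by
        field_simp; ring
      rw [e1, Real.rpow_add (by norm_num), Real.rpow_mul (by norm_num), Real.rpow_natCast]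
      refine mul_le_mul_of_nonneg_right ?_ (by positivity)
      calc (2 : ℝ) ^ (3.92 : ℝ) ≤ (2 : ℝ) ^ (4 : ℝ) :=
            Real.rpow_le_rpow_of_exponent_le (by norm_num) (by norm_num)
        _ = 16 := by norm_num
    calc 2 * kap p j * (p : ℝ) ^ (j * t)
        ≤ 2 * (K * (p : ℝ) ^ (-(j : ℝ) / E)) * (p : ℝ) ^ (j * t) := by
          refine mul_le_mul_of_nonneg_right ?_ (by positivity)
          linarith
      _ = 2 * K * ((p : ℝ) ^ (-(j : ℝ) / E) * (p : ℝ) ^ (j * t)) := by ring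
      _ ≤ 2 * K * ((p : ℝ) ^ (-3.92 : ℝ) * (p : ℝ) ^ (-(0.98 * ((j : ℝ) - 4 * E)) / E)) :=
          mul_le_mul_of_nonneg_left h2 (by positivity)
      _ ≤ 2 * K * ((p : ℝ) ^ (-3.92 : ℝ) * (16 * ((2 : ℝ) ^ (-(0.98 : ℝ) / E)) ^ j)) := by
          refine mul_le_mul_of_nonneg_left ?_ (by positivity)
          exact mul_le_mul_of_nonneg_left (h6.trans h7) (by positivity)
      _ = _ := by ring
  refine (sum_le_sum hterm).trans ?_
  rw [← mul_sum]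
  calc 32 * K * (p : ℝ) ^ (-3.92 : ℝ) * ∑ j ∈ Js, ((2 : ℝ) ^ (-(0.98 : ℝ) / E)) ^ j
      ≤ 32 * K * (p : ℝ) ^ (-3.92 : ℝ) * S :=
        mul_le_mul_of_nonneg_left (hS Js) (by positivity)
    _ = _ := by ring

/-- **the sum over the high part** -/
theorem fac_h (k E K p0 : ℕ) (kap : ℕ → ℕ → ℝ) (_hk : 1 ≤ k) (hE : 1 ≤ E)
    (hK : KapOK k E K p0 kap) : ∃ P0 : ℝ, ∀ P : ℝ, P0 ≤ P → ∀ t' : ℝ, 0 ≤ t' →
    t' ≤ 1 / (50 * (E : ℝ)) → ∀ (V : Finset ℕ) (Q : ℕ),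
    ∑ h ∈ QH P (4 * E) V Q, 2 ^ yc P h * kapProd kap h * (h : ℝ) ^ t' ≤ 2 ∧
    ∑ h ∈ (QH P (4 * E) V Q).erase 1, 2 ^ yc P h * kapProd kap h * (h : ℝ) ^ t' ≤
      P ^ (-2 : ℝ) := by
  obtain ⟨S, hS0, hS⟩ := facw_geo E hE
  -- the convergent series
  have hsumT : Summable (fun n : ℕ => (n : ℝ) ^ (-1.5 : ℝ)) :=
    Real.summable_nat_rpow.2 (by norm_num)
  set T : ℝ := ∑' n : ℕ, (n : ℝ) ^ (-1.5 : ℝ) with hT
  have hTle : ∀ s : Finset ℕ, ∑ n ∈ s, (n : ℝ) ^ (-1.5 : ℝ) ≤ T := fun s =>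
    hsumT.sum_le_tsum s (fun n _ => by positivity)
  have hT0 : 0 ≤ T := tsum_nonneg (fun n => by positivity)
  set C : ℝ := 32 * K * S * T with hC
  have hC0 : 0 ≤ C := by positivity
  have h1 : ∀ᶠ P : ℝ in atTop, 1 ≤ P := eventually_ge_atTop 1
  have h2 : ∀ᶠ P : ℝ in atTop, 2 * C ≤ P ^ (0.3 : ℝ) :=
    (tendsto_rpow_atTop (by norm_num : (0 : ℝ) < 0.3)).eventually_ge_atTop _
  obtain ⟨P0, h⟩ := eventually_atTop.1 (h1.and h2)
  refine ⟨P0, fun P hP t' ht0 ht V Q => ?_⟩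
  obtain ⟨hP1, hPC⟩ := h P hP
  have hP0 : 0 < P := by linarith
  set Hs : Finset ℕ := insert 1 ((QH P (4 * E) V Q).erase 1) with hHs
  set Pr : Finset ℕ := Hs.biUnion Nat.primeFactors with hPr
  set Js : Finset ℕ := Hs.biUnion (fun h => h.primeFactors.image h.factorization) with hJs
  set g : ℕ → ℕ → ℝ := fun p j => 2 * kap p j * (p : ℝ) ^ (j * t') with hg
  have hg0 : ∀ p j, 0 ≤ g p j := by
    intro p j
    have := hK.nn p j
    rw [hg]
    positivity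
  -- properties of the elements of `Hs`
  have hmem : ∀ h ∈ Hs, h ≠ 0 ∧ ∀ p ∈ h.primeFactors, ⌊P ^ (0.97 : ℝ)⌋₊ < p ∧
      4 * E < h.factorization p := by
    intro h hh
    rw [hHs, mem_insert] at hh
    rcases hh with rfl | hh
    · refine ⟨one_ne_zero, fun p hp => ?_⟩
      simp at hp
    · have := (mem_erase.1 hh).2
      exact ⟨(fac_QH_pos this).ne', (mem_filter.1 this).2⟩
  have hJ4 : ∀ j ∈ Js, 4 * E < j := by
    intro j hj
    rw [hJs, mem_biUnion] at hj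
    obtain ⟨h, hh, hj⟩ := hj
    rw [mem_image] at hj
    obtain ⟨p, hp, rfl⟩ := hj
    exact ((hmem h hh).2 p hp).2
  have hPrp : ∀ p ∈ Pr, p.Prime ∧ P ^ (0.97 : ℝ) < p := by
    intro p hp
    rw [hPr, mem_biUnion] at hp
    obtain ⟨h, hh, hp⟩ := hp
    exact ⟨Nat.prime_of_mem_primeFactors hp, facw_floor ((hmem h hh).2 p hp).1⟩
  have hJ0 : 0 ∉ Js := fun h0 => by have := hJ4 0 h0; omega
  have hmain := facw_euler Pr Js g hg0 hJ0 Hs (fun h hh => ⟨(hmem h hh).1, fun p hp =>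
    ⟨mem_biUnion.2 ⟨h, hh, hp⟩, mem_biUnion.2 ⟨h, hh, mem_image_of_mem _ hp⟩⟩⟩)
  -- each weight is at most the product of the `g`
  have hwt : ∀ h ∈ Hs, 2 ^ yc P h * kapProd kap h * (h : ℝ) ^ t' ≤
      ∏ p ∈ h.primeFactors, g p (h.factorization p) := by
    intro h hh
    rw [facw_prod P kap (hmem h hh).1 t']
    refine prod_le_prod (fun p _ => ?_) fun p _ => ?_
    · have := hK.nn p (h.factorization p)
      have := (facw_yf_pos P p).le
      positivity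
    · rw [hg]
      simp only
      refine mul_le_mul_of_nonneg_right ?_ (by positivity)
      exact mul_le_mul_of_nonneg_right (facw_yf_le P p) (hK.nn _ _)
  -- the exponent
  have hx : ∑ p ∈ Pr, ∑ j ∈ Js, g p j ≤ P ^ (-2 : ℝ) / 2 := by
    have e1 : ∀ p ∈ Pr, ∑ j ∈ Js, g p j ≤
        32 * K * S * (P ^ (-2.3 : ℝ) * (p : ℝ) ^ (-1.5 : ℝ)) := by
      intro p hp
      obtain ⟨hp1, hp2⟩ := hPrp p hp
      have hpR : (0 : ℝ) < p := by exact_mod_cast hp1.pos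
      have a1 := facw_high hE hK.pw hS ht hp1 hJ4
      refine a1.trans (mul_le_mul_of_nonneg_left ?_ (by positivity))
      have a2 : (p : ℝ) ^ (-3.92 : ℝ) = (p : ℝ) ^ (-2.42 : ℝ) * (p : ℝ) ^ (-1.5 : ℝ) := by
        rw [← Real.rpow_add hpR]
        norm_num
      rw [a2]
      refine mul_le_mul_of_nonneg_right ?_ (by positivity)
      calc (p : ℝ) ^ (-2.42 : ℝ) ≤ (P ^ (0.97 : ℝ)) ^ (-2.42 : ℝ) :=
            Real.rpow_le_rpow_of_nonpos (by positivity) hp2.le (by norm_num)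
        _ = P ^ (0.97 * -2.42 : ℝ) := by rw [Real.rpow_mul hP0.le]
        _ ≤ P ^ (-2.3 : ℝ) := Real.rpow_le_rpow_of_exponent_le hP1 (by norm_num)
    refine (sum_le_sum e1).trans ?_
    rw [← mul_sum, ← mul_sum]
    have e2 : 32 * K * S * (P ^ (-2.3 : ℝ) * ∑ p ∈ Pr, (p : ℝ) ^ (-1.5 : ℝ)) ≤
        C * P ^ (-2.3 : ℝ) := by
      calc 32 * K * S * (P ^ (-2.3 : ℝ) * ∑ p ∈ Pr, (p : ℝ) ^ (-1.5 : ℝ))
          ≤ 32 * K * S * (P ^ (-2.3 : ℝ) * T) := by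
            refine mul_le_mul_of_nonneg_left ?_ (by positivity)
            exact mul_le_mul_of_nonneg_left (hTle Pr) (by positivity)
        _ = C * P ^ (-2.3 : ℝ) := by rw [hC]; ring
    refine e2.trans ?_
    have e3 : P ^ (-2 : ℝ) = P ^ (0.3 : ℝ) * P ^ (-2.3 : ℝ) := by
      rw [← Real.rpow_add hP0]
      norm_num
    rw [e3]
    have e4 : 0 ≤ P ^ (-2.3 : ℝ) := by positivity
    nlinarith [mul_le_mul_of_nonneg_right hPC e4]
  have hx1 : P ^ (-2 : ℝ) ≤ 1 := Real.rpow_le_one_of_one_le_of_nonpos hP1 (by norm_num)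
  have hx0 : 0 ≤ ∑ p ∈ Pr, ∑ j ∈ Js, g p j :=
    sum_nonneg fun p _ => sum_nonneg fun j _ => hg0 p j
  -- the product
  have hprod : ∏ p ∈ Pr, (1 + ∑ j ∈ Js, g p j) ≤ 1 + P ^ (-2 : ℝ) := by
    have a1 : ∏ p ∈ Pr, (1 + ∑ j ∈ Js, g p j) ≤ Real.exp (∑ p ∈ Pr, ∑ j ∈ Js, g p j) := by
      rw [Real.exp_sum]
      refine prod_le_prod (fun p _ => ?_) fun p _ => ?_
      · have := sum_nonneg (s := Js) fun j _ => hg0 p j
        linarith
      · have := Real.add_one_le_exp (∑ j ∈ Js, g p j)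
        linarith
    refine a1.trans ?_
    have a2 : Real.exp (∑ p ∈ Pr, ∑ j ∈ Js, g p j) ≤ 1 + 2 * ∑ p ∈ Pr, ∑ j ∈ Js, g p j := by
      set x := ∑ p ∈ Pr, ∑ j ∈ Js, g p j with hxdef
      have hx2 : x ≤ 1 / 2 := by linarith
      have a3 := Real.abs_exp_sub_one_sub_id_le (x := x) (by rw [abs_of_nonneg hx0]; linarith)
      have a4 := le_of_abs_le a3
      nlinarith
    linarith
  have htot : ∑ h ∈ Hs, 2 ^ yc P h * kapProd kap h * (h : ℝ) ^ t' ≤ 1 + P ^ (-2 : ℝ) :=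
    (sum_le_sum hwt).trans (hmain.trans hprod)
  have hone : 2 ^ yc P 1 * kapProd kap 1 * ((1 : ℕ) : ℝ) ^ t' = 1 := by
    rw [facw_prod P kap one_ne_zero t']
    simp
  rw [hHs, sum_insert (notMem_erase 1 _), hone] at htot
  have hE1 : ∑ h ∈ (QH P (4 * E) V Q).erase 1, 2 ^ yc P h * kapProd kap h * (h : ℝ) ^ t' ≤
      P ^ (-2 : ℝ) := by linarith
  refine ⟨?_, hE1⟩
  by_cases h1 : 1 ∈ QH P (4 * E) V Q
  · rw [← add_sum_erase _ _ h1, hone]
    linarith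
  · rw [erase_eq_of_notMem h1] at hE1
    linarith

end Vale.Agent.P042.TT
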