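import Vale.Agent.P042.TT.Spec

set_option autoImplicit false

/-!
Statements for the final assembly of Theorem S2.
-/

namespace Vale.Agent.P042.TT

open Polynomial Finset Vale.Agent.P042.SS

/-- the extremal state at one scale (from EXT2Stmt and SS.PartStmt) -/
def STATEStmt : Prop :=
  ∀ (h : ℤ[X]) (lam : ℕ → ℕ) (r : ℕ → ℤ) (Hh : ℕ → ℤ[X]) (R : ℕ), AuxData h lam r Hh R →
  1 ≤ h.natDegree → ∃ P0 : ℝ, ∀ P : ℝ, P0 ≤ P → ∀ N : ℕ, 1 ≤ N → Real.log N = P →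
  ∀ A : Finset ℤ, A ⊆ Icc (1 : ℤ) N → DiffFree h A →
    Real.exp (-(P ^ (0.51 : ℝ))) * N ≤ A.card →
    ∃ (d N' Nmin : ℕ) (Φ : ℝ) (G : ℤ → ℝ) (ν : ℕ → ℤ → ℝ), 1 ≤ d ∧
      (d : ℝ) ≤ Real.exp (P ^ (0.9996 : ℝ)) ∧ St P h.natDegree N' Nmin Φ G ν ∧
      (∀ n m : ℤ, G n ≠ 0 → G m ≠ 0 → ∀ x : ℕ, 1 ≤ x → n - m = (Hh d).eval (x : ℤ) → n = m)

/-- lower bound for the circle method sum (from GOOD, KER, TAIL, VAVG, BAD, NU2) -/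
def LOWERStmt : Prop :=
  ∀ (k E K p0 : ℕ) (kap : ℕ → ℕ → ℝ), 1 ≤ k → 1 ≤ E → KapOK k E K p0 kap →
  ∃ P0 : ℝ, ∀ P : ℝ, P0 ≤ P →
  ∀ (N' Nmin H : ℕ) (Φ : ℝ) (G : ℤ → ℝ) (ν : ℕ → ℤ → ℝ),
    St P k N' Nmin Φ G ν → 8 * H ≤ N' → N' ≤ 16 * H →
  ∀ f : ℤ[X],
    (∀ (q : ℕ) (a : ℤ), 1 ≤ q → IsCoprime a (q : ℤ) → ‖Gam f a q‖ ≤ kapProd kap q) →
    Gam f 0 1 = 1 →
    1 / 20 * Real.exp (-(P ^ (0.1 : ℝ))) * N' * (H * Φ) ^ 2 ≤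
      ‖∑ q ∈ Icc 1 (Q2 P), ∑ a ∈ (range q).filter (Nat.Coprime q),
        Gam f a q * Bil G N' H ((a : ℝ) / q)‖

end Vale.Agent.P042.TT
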