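import Vale.Agent.P042.TT.FinSpec

set_option autoImplicit false

/-!
Final assembly of Theorem S2: the extremal state at one scale.
-/

namespace Vale.Agent.P042.TT

open Polynomial Finset Vale.Agent.P042.SS Filter

lemma state_Wp_mem {w w1 p : ℕ} : p ∈ Wp w w1 ↔ w < p ∧ p ≤ w1 ∧ p.Prime := by
  unfold Wp
  simp only [mem_filter, mem_Ioc, and_assoc]

/-- Chebyshev bound -/
lemma state_theta (w w1 : ℕ) : ∑ p ∈ Wp w w1, Real.log p ≤ Real.log 4 * w1 := by
  have hpos : ∀ p ∈ Wp w w1, (p : ℝ) ≠ 0 := fun p hp => by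
    exact_mod_cast (state_Wp_mem.1 hp).2.2.pos.ne'
  rw [← Real.log_prod hpos]
  have hsub : Wp w w1 ⊆ (range (w1 + 1)).filter Nat.Prime := by
    intro p hp
    obtain ⟨-, h2, h3⟩ := state_Wp_mem.1 hp
    rw [mem_filter, mem_range]
    exact ⟨by omega, h3⟩
  have h1 : ∏ p ∈ Wp w w1, p ≤ primorial w1 := by
    unfold primorial
    exact prod_le_prod_of_subset_of_one_le' hsub
      (fun p hp _ => (mem_filter.1 hp).2.one_le)
  have h2 : (∏ p ∈ Wp w w1, (p : ℝ)) ≤ (4 : ℝ) ^ w1 := by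
    have h3 : ((∏ p ∈ Wp w w1, p : ℕ) : ℝ) ≤ ((4 ^ w1 : ℕ) : ℝ) := by
      exact_mod_cast h1.trans (primorial_le_four_pow w1)
    push_cast at h3
    exact h3
  have h4 : 0 < ∏ p ∈ Wp w w1, (p : ℝ) := prod_pos fun p hp => by
    exact_mod_cast (state_Wp_mem.1 hp).2.2.pos
  calc Real.log (∏ p ∈ Wp w w1, (p : ℝ)) ≤ Real.log ((4 : ℝ) ^ w1) := Real.log_le_log h4 h2
    _ = Real.log 4 * w1 := by rw [Real.log_pow]; ring

/-- comparison of powers at infinity -/
lemma state_pow_ev (a b C D : ℝ) (h : a < b) (hD : 0 < D) :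
    ∀ᶠ P : ℝ in atTop, C * P ^ a ≤ D * P ^ b := by
  have h1 : Tendsto (fun P : ℝ => P ^ (b - a)) atTop atTop :=
    tendsto_rpow_atTop (by linarith)
  filter_upwards [h1.eventually_ge_atTop (|C| / D), eventually_gt_atTop 0] with P h2 h3
  have h4 : P ^ b = P ^ (b - a) * P ^ a := by
    rw [← Real.rpow_add h3]; congr 1; ring
  have h5 : 0 < P ^ a := Real.rpow_pos_of_pos h3 a
  rw [h4, ← mul_assoc]
  apply mul_le_mul_of_nonneg_right _ h5.le
  rw [div_le_iff₀ hD] at h2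
  calc C ≤ |C| := le_abs_self C
    _ ≤ P ^ (b - a) * D := h2
    _ = D * P ^ (b - a) := by ring

lemma state_const_ev (b C D : ℝ) (h : 0 < b) (hD : 0 < D) :
    ∀ᶠ P : ℝ in atTop, C ≤ D * P ^ b := by
  filter_upwards [state_pow_ev 0 b C D h hD] with P h1
  simpa using h1

lemma state_log_ev (b C D : ℝ) (h : 0 < b) (hC : 0 ≤ C) (hD : 0 < D) :
    ∀ᶠ P : ℝ in atTop, C * Real.log P ≤ D * P ^ b := by
  have h1 := (isLittleO_log_rpow_atTop h).def (show (0 : ℝ) < D / (C + 1) by positivity)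
  filter_upwards [h1, eventually_ge_atTop 1] with P h2 h3
  have h4 : 0 ≤ Real.log P := Real.log_nonneg h3
  have h5 : 0 ≤ P ^ b := Real.rpow_nonneg (by linarith) b
  rw [Real.norm_of_nonneg h4, Real.norm_of_nonneg h5] at h2
  calc C * Real.log P ≤ (C + 1) * Real.log P := by nlinarith
    _ ≤ (C + 1) * (D / (C + 1) * P ^ b) := mul_le_mul_of_nonneg_left h2 (by linarith)
    _ = D * P ^ b := by field_simp

/-- numeric facts at one scale -/
structure StateNum (P : ℝ) : Prop where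
  ge : 100 ≤ P
  log1 : 1.04 * Real.log P ≤ P / 4
  theta : Real.log 4 * P ^ (1.04 : ℝ) + P / 4 ≤ P ^ (0.05 : ℝ) * (P / 4)
  X1a : 8 * (Real.log 2 + P ^ (0.51 : ℝ)) + 10 ≤ P ^ (0.9 : ℝ)
  X1b : (16 * P ^ (0.9 : ℝ) + 8) * (2 * Real.log P) + P ^ (0.9 : ℝ) ≤ P / 2
  drop : (P ^ (0.51 : ℝ) + Real.log 3) * P ^ (0.489 : ℝ) ≤ P ^ (0.9995 : ℝ)
  drop2 : P ^ (0.9995 : ℝ) ≤ P / 8
  dle : Real.log 2 + P ^ (0.9995 : ℝ) ≤ P ^ (0.9996 : ℝ)
  Phi : Real.log 3 ≤ P ^ (0.51 : ℝ)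

lemma state_num : ∃ P0 : ℝ, ∀ P : ℝ, P0 ≤ P → StateNum P := by
  have key : ∀ᶠ P : ℝ in atTop, StateNum P := by
    have hlog4 : Real.log 4 ≤ 3 / 2 := by
      have : Real.log 4 = 2 * Real.log 2 := by
        rw [show (4 : ℝ) = 2 ^ 2 by norm_num, Real.log_pow]; norm_num
      rw [this]
      have := Real.log_two_lt_d9
      linarith
    have hlog2 : Real.log 2 ≤ 1 := by
      have := Real.log_two_lt_d9
      linarith
    have hlog3 : Real.log 3 ≤ 2 := by
      have : Real.log 3 ≤ Real.log 4 := Real.log_le_log (by norm_num) (by norm_num)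
      linarith
    filter_upwards [eventually_ge_atTop (100 : ℝ),
      state_log_ev 1 1.04 (1 / 4) (by norm_num) (by norm_num) (by norm_num),
      state_pow_ev 1.04 1.05 (3 / 2) (1 / 8) (by norm_num) (by norm_num),
      state_pow_ev 1 1.05 (1 / 4) (1 / 8) (by norm_num) (by norm_num),
      state_pow_ev 0.51 0.9 8 (1 / 2) (by norm_num) (by norm_num),
      state_const_ev 0.9 18 (1 / 2) (by norm_num) (by norm_num),
      state_log_ev (1 / 100) 2 (1 / 100) (by norm_num) (by norm_num) (by norm_num),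
      state_pow_ev 0.91 1 1 (1 / 10) (by norm_num) (by norm_num),
      state_pow_ev 0.9 1 1 (1 / 10) (by norm_num) (by norm_num),
      state_const_ev 0.9 8 16 (by norm_num) (by norm_num),
      state_pow_ev 0.999 0.9995 1 (1 / 2) (by norm_num) (by norm_num),
      state_pow_ev 0.489 0.9995 2 (1 / 2) (by norm_num) (by norm_num),
      state_pow_ev 0.9995 1 1 (1 / 8) (by norm_num) (by norm_num),
      state_pow_ev 0.9995 0.9996 1 (1 / 2) (by norm_num) (by norm_num),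
      state_const_ev 0.9996 1 (1 / 2) (by norm_num) (by norm_num),
      state_const_ev 0.51 2 1 (by norm_num) (by norm_num)] with P g1 g2 g3 g4 g5 g6 g7 g8 g9 g10
        g11 g12 g13 g14 g15 g16
    have hP0 : 0 < P := lt_of_lt_of_le (by norm_num) g1
    simp only [Real.rpow_one] at g2 g4 g8 g9 g13
    have e1 : P ^ (1.05 : ℝ) = P ^ (0.05 : ℝ) * P := by
      rw [show (1.05 : ℝ) = 0.05 + 1 by norm_num, Real.rpow_add hP0, Real.rpow_one]
    have e2 : P ^ (0.51 : ℝ) * P ^ (0.489 : ℝ) = P ^ (0.999 : ℝ) := by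
      rw [← Real.rpow_add hP0]; norm_num
    have e3 : P ^ (0.9 : ℝ) * P ^ (1 / 100 : ℝ) = P ^ (0.91 : ℝ) := by
      rw [← Real.rpow_add hP0]; norm_num
    have p1 : 0 < P ^ (1.04 : ℝ) := Real.rpow_pos_of_pos hP0 _
    have p2 : 0 < P ^ (0.489 : ℝ) := Real.rpow_pos_of_pos hP0 _
    have p3 : 0 < P ^ (0.9 : ℝ) := Real.rpow_pos_of_pos hP0 _
    have p4 : 0 < P ^ (1 / 100 : ℝ) := Real.rpow_pos_of_pos hP0 _
    have l0 : 0 ≤ Real.log P := Real.log_nonneg (by linarith)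
    refine ⟨g1, by linarith, ?_, by linarith, ?_, ?_, by linarith, by linarith, by linarith⟩
    · rw [e1] at g3 g4
      nlinarith
    · have h1 : (16 * P ^ (0.9 : ℝ) + 8) * (2 * Real.log P) ≤
          (32 * P ^ (0.9 : ℝ)) * (1 / 100 * P ^ (1 / 100 : ℝ)) := by
        apply mul_le_mul _ g7 (by positivity) (by positivity)
        linarith
      have h2 : (32 * P ^ (0.9 : ℝ)) * (1 / 100 * P ^ (1 / 100 : ℝ)) =
          32 / 100 * P ^ (0.91 : ℝ) := by rw [← e3]; ring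
      rw [h2] at h1
      linarith
    · rw [add_mul, e2]
      have h1 : Real.log 3 * P ^ (0.489 : ℝ) ≤ 2 * P ^ (0.489 : ℝ) :=
        mul_le_mul_of_nonneg_right hlog3 p2.le
      linarith
  obtain ⟨P0, hP0⟩ := eventually_atTop.1 key
  exact ⟨P0, hP0⟩

theorem state_of (hExt : EXT2Stmt) (hPart : SS.PartStmt) : STATEStmt := by
  intro h lam r Hh R hAux hk
  obtain ⟨P0, hP0⟩ := state_num
  refine ⟨P0, ?_⟩
  intro P hP N hN1 hN A hA hfree hcard
  have hn := hP0 P hP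
  have hPge := hn.ge
  have hPpos : 0 < P := by linarith
  have hNr : (0 : ℝ) < N := by exact_mod_cast hN1
  have hNexp : (N : ℝ) = Real.exp P := by rw [← hN, Real.exp_log hNr]
  have hYle : ((⌊P ^ (1.04 : ℝ)⌋₊ : ℕ) : ℝ) ≤ P ^ (1.04 : ℝ) :=
    Nat.floor_le (Real.rpow_nonneg hPpos.le _)
  have hlogY : Real.log (P ^ (1.04 : ℝ)) = 1.04 * Real.log P := Real.log_rpow hPpos _
  have hlP : 0 ≤ Real.log P := Real.log_nonneg (by linarith)
  have hlogp : ∀ p ∈ W2 P, 1 ≤ p ∧ Real.log p ≤ P / 4 := by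
    intro p hp
    obtain ⟨h1, h2, h3⟩ := state_Wp_mem.1 hp
    refine ⟨h3.one_le, ?_⟩
    have h4 : Real.log p ≤ Real.log (P ^ (1.04 : ℝ)) := by
      apply Real.log_le_log
      · exact_mod_cast h3.pos
      · exact le_trans (by exact_mod_cast h2) hYle
    rw [hlogY] at h4
    linarith [hn.log1]
  have hJge : P ^ (0.05 : ℝ) ≤ (J2 P : ℝ) := Nat.le_ceil _
  have hJ2 : 2 ≤ J2 P := by
    have h1 : 1 < P ^ (0.05 : ℝ) := Real.one_lt_rpow (by linarith) (by norm_num)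
    have h2 : (1 : ℝ) < J2 P := lt_of_lt_of_le h1 hJge
    have h3 : 1 < J2 P := by exact_mod_cast h2
    omega
  have hJr : (2 : ℝ) ≤ (J2 P : ℝ) := by exact_mod_cast hJ2
  have hθ : ∑ p ∈ W2 P, Real.log p ≤ ((J2 P : ℕ) - 1 : ℝ) * (P / 4) := by
    refine (state_theta _ _).trans ?_
    have h1 : Real.log 4 * ((⌊P ^ (1.04 : ℝ)⌋₊ : ℕ) : ℝ) ≤ Real.log 4 * P ^ (1.04 : ℝ) :=
      mul_le_mul_of_nonneg_left hYle (Real.log_nonneg (by norm_num))
    have h2 := hn.theta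
    have h3 : P ^ (0.05 : ℝ) * (P / 4) ≤ (J2 P : ℝ) * (P / 4) :=
      mul_le_mul_of_nonneg_right hJge (by linarith)
    linarith
  obtain ⟨bk, hbk1, hbk2⟩ := hPart (W2 P) (P / 4) (J2 P) (by linarith) hlogp hθ (by omega)
  set Nmin := ⌈Real.exp (P / 2)⌉₊ with hNmin
  have hNminle : (Nmin : ℝ) ≤ Real.exp (P / 2) + 1 := (Nat.ceil_lt_add_one (Real.exp_pos _).le).le
  have hNminge : Real.exp (P / 2) ≤ Nmin := Nat.le_ceil _
  have hprod : ∀ i < J2 P, ∏ p ∈ (W2 P).filter (fun p => bk p = i), p ≤ Nmin := by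
    intro i _
    have h1 := hbk2 i
    have h2 : ∑ p ∈ (W2 P).filter (fun p => bk p = i), Real.log p =
        Real.log ((∏ p ∈ (W2 P).filter (fun p => bk p = i), p : ℕ) : ℝ) := by
      push_cast
      rw [Real.log_prod]
      intro p hp
      have := (state_Wp_mem.1 (mem_filter.1 hp).1).2.2.pos
      positivity
    have hpos : (0 : ℝ) < ((∏ p ∈ (W2 P).filter (fun p => bk p = i), p : ℕ) : ℝ) := by
      have : 0 < ∏ p ∈ (W2 P).filter (fun p => bk p = i), p :=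
        prod_pos fun p hp => (state_Wp_mem.1 (mem_filter.1 hp).1).2.2.pos
      exact_mod_cast this
    rw [h2] at h1
    have h3 : ((∏ p ∈ (W2 P).filter (fun p => bk p = i), p : ℕ) : ℝ) ≤ Real.exp (P / 2) := by
      rw [← Real.exp_log hpos]
      exact Real.exp_le_exp.2 (by linarith)
    exact_mod_cast h3.trans hNminge
  have hη0 : 0 < eta2 P := Real.rpow_pos_of_pos hPpos _
  have hη1 : eta2 P ≤ 1 := Real.rpow_le_one_of_one_le_of_nonpos (by linarith) (by norm_num)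
  have hNmin2 : 2 ≤ Nmin := by
    have h1 : (2 : ℝ) ≤ Nmin := by
      refine le_trans ?_ hNminge
      have := Real.add_one_le_exp (P / 2)
      linarith
    exact_mod_cast h1
  have hNminN : Nmin ≤ N := by
    have h1 : (Nmin : ℝ) ≤ N := by
      refine hNminle.trans ?_
      rw [hNexp]
      have h2 : Real.exp P = Real.exp (P / 2) * Real.exp (P / 2) := by
        rw [← Real.exp_add]; congr 1; ring
      have h3 : 2 ≤ Real.exp (P / 2) := by
        have := Real.add_one_le_exp (P / 2)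
        linarith
      rw [h2]
      nlinarith only [h3]
    exact_mod_cast h1
  have hα1 : Real.exp (-(P ^ (0.51 : ℝ))) ≤ 1 := by
    rw [Real.exp_le_one_iff, neg_nonpos]
    exact Real.rpow_nonneg hPpos.le _
  have hlogα : Real.log (2 / Real.exp (-(P ^ (0.51 : ℝ)))) = Real.log 2 + P ^ (0.51 : ℝ) := by
    rw [Real.log_div (by norm_num) (Real.exp_pos _).ne', Real.log_exp]
    ring
  have hX1 : 8 * Real.log (2 / Real.exp (-(P ^ (0.51 : ℝ)))) + 10 ≤ P ^ (0.9 : ℝ) := by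
    rw [hlogα]; exact hn.X1a
  have hY1 : Real.log (((⌊P ^ (1.04 : ℝ)⌋₊ : ℕ) : ℝ) + 1) ≤ 2 * Real.log P := by
    have h1 : ((⌊P ^ (1.04 : ℝ)⌋₊ : ℕ) : ℝ) + 1 ≤ P ^ (2 : ℝ) := by
      have h2 : (1 : ℝ) ≤ P ^ (1.04 : ℝ) := Real.one_le_rpow (by linarith) (by norm_num)
      have h3 : P ^ (2 : ℝ) = P ^ (0.96 : ℝ) * P ^ (1.04 : ℝ) := by
        rw [← Real.rpow_add hPpos]; norm_num
      have h4 : (2 : ℝ) ≤ P ^ (0.96 : ℝ) := by
        have h5 : (100 : ℝ) ^ (0.96 : ℝ) ≤ P ^ (0.96 : ℝ) :=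
          Real.rpow_le_rpow (by norm_num) hPge (by norm_num)
        have h6 : (100 : ℝ) ^ (0.5 : ℝ) ≤ (100 : ℝ) ^ (0.96 : ℝ) :=
          Real.rpow_le_rpow_of_exponent_le (by norm_num) (by norm_num)
        have h7 : (100 : ℝ) ^ (0.5 : ℝ) = 10 := by
          rw [show (100 : ℝ) = 10 ^ (2 : ℝ) by norm_num, ← Real.rpow_mul (by norm_num)]
          norm_num
        linarith
      rw [h3]
      nlinarith
    calc Real.log (((⌊P ^ (1.04 : ℝ)⌋₊ : ℕ) : ℝ) + 1) ≤ Real.log (P ^ (2 : ℝ)) :=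
          Real.log_le_log (by positivity) h1
      _ = 2 * Real.log P := Real.log_rpow hPpos _
  have hX2 : (16 * P ^ (0.9 : ℝ) + 8) * Real.log (((⌊P ^ (1.04 : ℝ)⌋₊ : ℕ) : ℝ) + 1) +
      P ^ (0.9 : ℝ) ≤ Real.log Nmin := by
    have h0 : 0 < P ^ (0.9 : ℝ) := Real.rpow_pos_of_pos hPpos _
    have h1 : (16 * P ^ (0.9 : ℝ) + 8) * Real.log (((⌊P ^ (1.04 : ℝ)⌋₊ : ℕ) : ℝ) + 1) ≤
        (16 * P ^ (0.9 : ℝ) + 8) * (2 * Real.log P) :=
      mul_le_mul_of_nonneg_left hY1 (by positivity)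
    have h2 : P / 2 ≤ Real.log Nmin := by
      rw [← Real.log_exp (P / 2)]
      exact Real.log_le_log (Real.exp_pos _) hNminge
    linarith [hn.X1b]
  obtain ⟨d, N', Φ, G, ν, hd1, hNN', hN'N, hdN, hαΦ, hΦ3, hmax, hpin, hdf⟩ :=
    hExt h lam r Hh R hAux hk N Nmin (J2 P) ⌊P ^ (1.04 : ℝ)⌋₊ A (Real.exp (-(P ^ (0.51 : ℝ))))
      (eta2 P) (P ^ (0.9 : ℝ)) (W2 P) bk hA hfree (Real.exp_pos _) hα1 hcard hNmin2 hNminN hη0
      hη1 hJ2 (fun p hp => ⟨(state_Wp_mem.1 hp).2.2, hbk1 p hp, (state_Wp_mem.1 hp).2.1⟩)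
      hprod hX1 hX2
  have hN'1 : 1 ≤ N' := by omega
  have hN'r : (0 : ℝ) < N' := by exact_mod_cast hN'1
  -- size of N'
  have hlow : P - P ^ (0.9995 : ℝ) ≤ Real.log N' := by
    have h1 : -(P ^ (0.51 : ℝ)) + eta2 P * P ≤ Real.log 3 + eta2 P * Real.log N' := by
      have h2 := Real.log_le_log (by positivity) hmax
      rw [Real.log_mul (Real.exp_pos _).ne' (by positivity), Real.log_exp, Real.log_rpow hNr, hN,
        Real.log_mul (by norm_num) (by positivity), Real.log_rpow hN'r] at h2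
      exact h2
    have h3 : eta2 P * (P - Real.log N') ≤ P ^ (0.51 : ℝ) + Real.log 3 := by linarith
    have h4 : P ^ (0.489 : ℝ) * eta2 P = 1 := by
      unfold eta2
      rw [← Real.rpow_add hPpos]; norm_num
    have h5 : 0 < P ^ (0.489 : ℝ) := Real.rpow_pos_of_pos hPpos _
    have h6 := mul_le_mul_of_nonneg_left h3 h5.le
    rw [← mul_assoc, h4, one_mul] at h6
    have h7 := hn.drop
    linarith
  have hlow1 : Real.exp (P - P ^ (0.9995 : ℝ)) ≤ N' := by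
    rw [← Real.exp_log hN'r]
    exact Real.exp_le_exp.2 hlow
  have hN'lo : Real.exp (7 / 8 * P) ≤ N' := by
    refine le_trans (Real.exp_le_exp.2 ?_) hlow1
    linarith [hn.drop2]
  have hN'hi : (N' : ℝ) ≤ Real.exp P := by
    rw [← hNexp]; exact_mod_cast hN'N
  refine ⟨d, N', Nmin, Φ, G, ν, hd1, ?_, ⟨hpin, hN'lo, hN'hi, hNminle, ?_, hΦ3⟩, hdf⟩
  · -- bound for d
    have h1 : (d : ℝ) * (N' - 1 : ℕ) ≤ N := by exact_mod_cast hdN
    have h2 : (N' : ℝ) / 2 ≤ ((N' - 1 : ℕ) : ℝ) := by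
      have h3 : 2 ≤ N' := le_trans hNmin2 hNN'
      rw [Nat.cast_sub (by omega)]
      have : (2 : ℝ) ≤ N' := by exact_mod_cast h3
      push_cast
      linarith
    have h4 : (d : ℝ) * (N' / 2) ≤ N :=
      (mul_le_mul_of_nonneg_left h2 (Nat.cast_nonneg _)).trans h1
    rw [hNexp] at h4
    have h5 : Real.exp P = Real.exp (P ^ (0.9995 : ℝ)) * Real.exp (P - P ^ (0.9995 : ℝ)) := by
      rw [← Real.exp_add]; congr 1; ring
    have h6 : Real.exp P ≤ Real.exp (P ^ (0.9995 : ℝ)) * N' := by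
      rw [h5]
      exact mul_le_mul_of_nonneg_left hlow1 (Real.exp_pos _).le
    have h7 : (d : ℝ) * N' ≤ (2 * Real.exp (P ^ (0.9995 : ℝ))) * N' := by linarith only [h4, h6]
    have h8 := le_of_mul_le_mul_right h7 hN'r
    refine h8.trans ?_
    have h9 : 2 * Real.exp (P ^ (0.9995 : ℝ)) = Real.exp (Real.log 2 + P ^ (0.9995 : ℝ)) := by
      rw [Real.exp_add, Real.exp_log (by norm_num)]
    rw [h9]
    exact Real.exp_le_exp.2 hn.dle
  · -- lower bound for Φ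
    refine le_trans ?_ hαΦ
    rw [le_div_iff₀ (by norm_num), ← Real.exp_nat_mul]
    have h1 : (3 : ℝ) = Real.exp (Real.log 3) := (Real.exp_log (by norm_num)).symm
    calc Real.exp (-(3 * P ^ (0.51 : ℝ))) * 3
        = Real.exp (-(3 * P ^ (0.51 : ℝ))) * Real.exp (Real.log 3) := by rw [← h1]
      _ = Real.exp (-(3 * P ^ (0.51 : ℝ)) + Real.log 3) := by rw [Real.exp_add]
      _ ≤ Real.exp (((2 : ℕ) : ℝ) * -(P ^ (0.51 : ℝ))) := by
          apply Real.exp_le_exp.2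
          push_cast
          linarith [hn.Phi]

end Vale.Agent.P042.TT
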