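import Vale.Agent.P042.TT.FinSpec
import Vale.Agent.P042.SS.FinE2
import Vale.Agent.P042.SS.FinG0

set_option autoImplicit false

/-!
Last step of the assembly of Theorem S2.
-/

namespace Vale.Agent.P042.TT

open Polynomial Finset Vale.Agent.P042.SS

theorem finz_ev_const (c b : ℝ) (hb : 0 < b) : ∀ᶠ P : ℝ in Filter.atTop, c ≤ P ^ b :=
  (tendsto_rpow_atTop hb).eventually_ge_atTop c

theorem finz_ev_pow (c a b : ℝ) (hab : a < b) :
    ∀ᶠ P : ℝ in Filter.atTop, c * P ^ a ≤ P ^ b := by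
  filter_upwards [finz_ev_const c (b - a) (by linarith), Filter.eventually_gt_atTop 0] with P h1 h2
  have h3 : P ^ b = P ^ (b - a) * P ^ a := by
    rw [← Real.rpow_add h2]
    congr 1
    ring
  rw [h3]
  exact mul_le_mul_of_nonneg_right h1 (Real.rpow_nonneg h2.le _)

/-- everything that is needed of `P` in the last step -/
theorem finz_ev (k E2 K2 S : ℕ) :
    ∀ᶠ P : ℝ in Filter.atTop,
      1 ≤ P ∧ Real.log 2 + E2 * (Real.log K2 + P ^ (0.6 : ℝ)) ≤ P ^ (0.62 : ℝ) ∧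
      E2 * (Real.log K2 + (2 * Real.log S + k * (Real.log 2 + P ^ (0.9996 : ℝ))) +
        P ^ (0.62 : ℝ) + P ^ (0.6 : ℝ)) ≤ 7 / 8 * P ∧
      Real.log 20 + P ^ (0.1 : ℝ) + 4 * P ^ (0.51 : ℝ) + 1 ≤ P ^ (0.6 : ℝ) := by
  have hc := fun c : ℝ => Filter.eventually_ge_atTop (α := ℝ) c
  filter_upwards [hc 1, finz_ev_pow (2 * E2) 0.6 0.62 (by norm_num),
    finz_ev_const (2 * (Real.log 2 + E2 * Real.log K2)) 0.62 (by norm_num),
    finz_ev_pow (8 * E2 * k) 0.9996 1 (by norm_num),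
    finz_ev_pow (8 * E2) 0.62 1 (by norm_num),
    finz_ev_pow (8 * E2) 0.6 1 (by norm_num),
    hc (8 * E2 * (Real.log K2 + 2 * Real.log S + k * Real.log 2)),
    finz_ev_pow 3 0.1 0.6 (by norm_num), finz_ev_pow 12 0.51 0.6 (by norm_num),
    finz_ev_const (3 * (Real.log 20 + 1)) 0.6 (by norm_num)] with
    P h1 h2 h3 h4 h5 h6 h7 h8 h9 h10
  rw [Real.rpow_one] at h4 h5 h6
  refine ⟨h1, ?_, ?_, ?_⟩
  · nlinarith
  · nlinarith
  · linarith

theorem fin2_of (hState : STATEStmt) (hLow : LOWERStmt) (hNu : NU2Stmt) (hAN : ANStmt) :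
    Final2Stmt := by
  classical
  intro h hdeg hpos hint
  obtain ⟨k, hk⟩ : ∃ k : ℕ, h.natDegree = k := ⟨_, rfl⟩
  have hk2 : 2 ≤ k := hk ▸ hdeg
  have hk1 : 1 ≤ k := by omega
  have hk' : 1 ≤ h.natDegree := by omega
  have hkr : (0 : ℝ) < k := by exact_mod_cast hk1
  obtain ⟨lam0, r, Hh, R, hR, hH, hmul, hdvd, hr, hrr, hgcd⟩ := exists_aux h hk' hpos hint
  have hAux : AuxData h lam0 r Hh R := ⟨hR, hH, hmul, hdvd, hr, hrr, hgcd⟩
  obtain ⟨S, hS, hcoef⟩ := hAux.coeff_bound hk' hpos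
  obtain ⟨E2, hE2, hAN2⟩ := hAN k hk2
  obtain ⟨K2, hK2, hANi⟩ := hAN2 R hR
  obtain ⟨E, hE, hcomp⟩ := complete_sums k hk1
  obtain ⟨K, p0, kap, hK, hkap0, hkap1, hkapK, hkapp1, hkappj, hkapS⟩ := hcomp R hR
  have hKap : KapOK k E K p0 kap := ⟨hkap0, hkap1, hkapK, hkapp1, hkappj⟩
  obtain ⟨Pa, hPa⟩ := hState h lam0 r Hh R hAux hk'
  obtain ⟨Pb, hPb⟩ := hLow k E K p0 kap hk1 hE hKap
  obtain ⟨Pc, hPc⟩ := hNu k hk1
  obtain ⟨Pd, hPd⟩ := Filter.eventually_atTop.1 (finz_ev k E2 K2 S)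
  obtain ⟨Ps, hPs⟩ : ∃ x : ℝ, x = max (max (max Pa Pb) (max Pc Pd)) 1 := ⟨_, rfl⟩
  have hPa' : Pa ≤ Ps := by
    rw [hPs]; exact (le_max_left _ _).trans ((le_max_left _ _).trans (le_max_left _ _))
  have hPb' : Pb ≤ Ps := by
    rw [hPs]; exact (le_max_right _ _).trans ((le_max_left _ _).trans (le_max_left _ _))
  have hPc' : Pc ≤ Ps := by
    rw [hPs]; exact (le_max_left _ _).trans ((le_max_right _ _).trans (le_max_left _ _))
  have hPd' : Pd ≤ Ps := by
    rw [hPs]; exact (le_max_right _ _).trans ((le_max_right _ _).trans (le_max_left _ _))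
  have hPs1 : 1 ≤ Ps := by rw [hPs]; exact le_max_right _ _
  refine ⟨Real.exp (Ps ^ (0.51 : ℝ)), Real.exp_pos _, fun N hN => ?_⟩
  have hN0 : (0 : ℝ) < N := by exact_mod_cast hN
  have hred : ∀ B : ℝ, 0 ≤ B → (∀ A0 : Finset ℤ, A0 ⊆ Icc (1 : ℤ) N → DiffFree h A0 →
      (A0.card : ℝ) ≤ B) → (rMax h N : ℝ) ≤ B := by
    intro B hB hall
    have h1 : rMax h N ≤ ⌊B⌋₊ := by
      unfold rMax
      refine Finset.sup_le fun A0 hA0 => ?_
      rw [mem_filter, mem_powerset] at hA0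
      exact Nat.le_floor (hall A0 hA0.1 hA0.2)
    exact (Nat.cast_le.2 h1).trans (Nat.floor_le hB)
  have hlogN : 0 ≤ Real.log N := Real.log_nonneg (by exact_mod_cast hN)
  rcases lt_or_ge (Real.log N) Ps with hlt | hge
  · have h1 : (rMax h N : ℝ) ≤ N := by
      refine hred N hN0.le fun A0 hA0 _ => ?_
      have h2 := Finset.card_le_card hA0
      rw [Int.card_Icc] at h2
      have h3 : A0.card ≤ N := by omega
      exact_mod_cast h3
    have h2 : (Real.log N) ^ (0.51 : ℝ) ≤ Ps ^ (0.51 : ℝ) :=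
      Real.rpow_le_rpow hlogN hlt.le (by norm_num)
    have h3 : (1 : ℝ) ≤ Real.exp (Ps ^ (0.51 : ℝ)) *
        Real.exp (-(Real.log N) ^ (0.51 : ℝ)) := by
      rw [← Real.exp_add]
      apply Real.one_le_exp
      linarith
    calc (rMax h N : ℝ) ≤ N := h1
      _ = N * 1 := (mul_one _).symm
      _ ≤ N * (Real.exp (Ps ^ (0.51 : ℝ)) * Real.exp (-(Real.log N) ^ (0.51 : ℝ))) :=
          mul_le_mul_of_nonneg_left h3 hN0.le
      _ = _ := by ring
  · obtain ⟨P, hP⟩ : ∃ x : ℝ, x = Real.log N := ⟨_, rfl⟩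
    rw [← hP] at hge ⊢
    have h1 : (rMax h N : ℝ) ≤ Real.exp (-(P ^ (0.51 : ℝ))) * N := by
      refine hred _ (by positivity) fun A0 hA0 hfree => ?_
      by_contra hcon
      rw [not_le] at hcon
      obtain ⟨d, N', Nmin, Φ, G, ν, hd1, hdle, hSt, hdf⟩ :=
        hPa P (hPa'.trans hge) N hN hP.symm A0 hA0 hfree hcon.le
      obtain ⟨hP1, hn1, hn2, hn3⟩ := hPd P (hPd'.trans hge)
      rw [hk] at hSt
      obtain ⟨-, -, -, hGm, -, -⟩ := hPc P (hPc'.trans hge) N' Nmin Φ G ν hSt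
      have hΦpos := hSt.pin.Φpos
      have hfdeg : (Hh d).natDegree = k := by rw [hAux.natDegree_H (by omega) d hd1, hk]
      have hflead : 0 < (Hh d).leadingCoeff := hAux.lead_pos (by omega) hpos d hd1
      have hfcont := hAux.hgcd d hd1
      have hgam : ∀ (q : ℕ) (a : ℤ), 1 ≤ q → IsCoprime a (q : ℤ) →
          ‖Gam (Hh d) a q‖ ≤ kapProd kap q := fun q a hq hqa => by
        have h2 := hkapS (Hh d) hfdeg hflead hfcont q a hq hqa
        have hq0 : (0 : ℝ) < q := by exact_mod_cast hq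
        unfold Gam kapProd
        rw [norm_div, Complex.norm_natCast, div_le_iff₀ hq0]
        exact h2
      have hgam1 : Gam (Hh d) 0 1 = 1 := by
        unfold Gam e
        simp
      -- the window length
      have hN'r : (1 : ℝ) ≤ N' := by
        refine le_trans ?_ hSt.N'lo
        exact Real.one_le_exp (by linarith)
      have hN'1 : 1 ≤ N' := by exact_mod_cast hN'r
      have hN'16 : 16 ≤ N' := by
        by_contra hlt
        push Not at hlt
        have h3 : (N' : ℝ) ≤ 16 := by exact_mod_cast hlt.le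
        have h4 := hSt.N'lo
        have h5 : Real.exp (7 / 8 * P) ≤ 16 := h4.trans h3
        have h6 : 7 / 8 * P ≤ Real.log 16 := by
          rw [← Real.log_exp (7 / 8 * P)]
          exact Real.log_le_log (Real.exp_pos _) h5
        have h7 : Real.log 16 ≤ 4 * 0.7 := by
          have : (16 : ℝ) = 2 ^ 4 := by norm_num
          rw [this, Real.log_pow]
          have := Real.log_two_lt_d9
          push_cast
          linarith
        have h8 : (20 : ℝ) ≤ P ^ (0.6 : ℝ) + 16 := by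
          have h9 : 4 ≤ 4 * P ^ (0.51 : ℝ) := by
            have := Real.one_le_rpow hP1 (by norm_num : (0:ℝ) ≤ 0.51)
            linarith
          have h10 := Real.one_le_rpow hP1 (by norm_num : (0:ℝ) ≤ 0.1)
          have h11 : 0 ≤ Real.log 20 := Real.log_nonneg (by norm_num)
          linarith
        have h9 : P ^ (0.6 : ℝ) ≤ P := by
          calc P ^ (0.6 : ℝ) ≤ P ^ (1 : ℝ) := Real.rpow_le_rpow_of_exponent_le hP1 (by norm_num)
            _ = P := Real.rpow_one P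
        linarith
      obtain ⟨H, hHdef⟩ : ∃ H : ℕ, H = N' / 8 := ⟨_, rfl⟩
      have h8H : 8 * H ≤ N' := by omega
      have h16H : N' ≤ 16 * H := by omega
      have hH1 : 1 ≤ H := by omega
      have hHr : (1 : ℝ) ≤ H := by exact_mod_cast hH1
      have hlower := hPb P (hPb'.trans hge) N' Nmin H Φ G ν hSt h8H h16H (Hh d) hgam hgam1
      -- the circle method
      obtain ⟨δ, hδ⟩ : ∃ x : ℝ, x = Real.exp (-(P ^ (0.6 : ℝ))) := ⟨_, rfl⟩
      have hδ0 : 0 < δ := by rw [hδ]; exact Real.exp_pos _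
      have hP06 : 0 ≤ P ^ (0.6 : ℝ) := Real.rpow_nonneg (by linarith) _
      have hδ1 : δ ≤ 1 := by
        rw [hδ]
        exact Real.exp_le_one_iff.2 (by linarith)
      have hP9996 : 0 ≤ P ^ (0.9996 : ℝ) := Real.rpow_nonneg (by linarith) _
      obtain ⟨X, hX⟩ : ∃ x : ℝ, x = Real.exp (P ^ (0.9996 : ℝ)) := ⟨_, rfl⟩
      have hX1 : 1 ≤ X := by rw [hX]; exact Real.one_le_exp hP9996
      have hcoef' := hcoef d hd1
      rw [hk] at hcoef'
      obtain ⟨hB1, hBc⟩ := coeff_B k S d (Hh d) X hS hX1 hcoef'.1 hcoef'.2 (by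
        rw [hX]
        have := Real.exp_pos (P ^ (0.9996 : ℝ))
        linarith)
      have hK2r : (1 : ℝ) ≤ K2 := by exact_mod_cast hK2
      have hSr : (1 : ℝ) ≤ S := by exact_mod_cast hS
      have hQle : (Q2 P : ℝ) ≤ Real.exp (P ^ (0.62 : ℝ)) := Nat.floor_le (Real.exp_pos _).le
      have hQge : ((K2 : ℝ) / δ) ^ E2 ≤ (Q2 P : ℝ) := by
        have h3 : ((K2 : ℝ) / δ) ^ E2 = Real.exp (E2 * (Real.log K2 + P ^ (0.6 : ℝ))) := by
          rw [hδ, Real.exp_neg, div_inv_eq_mul, mul_pow, ← Real.exp_nat_mul, mul_add, Real.exp_add]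
          congr 1
          rw [← Real.log_pow, Real.exp_log (by positivity)]
        have h4 : 2 * Real.exp (E2 * (Real.log K2 + P ^ (0.6 : ℝ))) ≤
            Real.exp (P ^ (0.62 : ℝ)) := by
          calc 2 * Real.exp (E2 * (Real.log K2 + P ^ (0.6 : ℝ)))
              = Real.exp (Real.log 2 + E2 * (Real.log K2 + P ^ (0.6 : ℝ))) := by
                rw [Real.exp_add, Real.exp_log (by norm_num)]
            _ ≤ _ := Real.exp_le_exp.2 hn1
        have h5 : Real.exp (P ^ (0.62 : ℝ)) < Q2 P + 1 := Nat.lt_floor_add_one _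
        have h6 : (1 : ℝ) ≤ Real.exp (E2 * (Real.log K2 + P ^ (0.6 : ℝ))) := by
          apply Real.one_le_exp
          have := Real.log_nonneg hK2r
          positivity
        rw [h3]
        linarith
      have hKBQ : ((K2 : ℝ) * (S * (S * (2 * X) ^ k)) * Q2 P / δ) ^ E2 ≤ (N' : ℝ) := by
        have hQ0 : (0 : ℝ) ≤ Q2 P := Nat.cast_nonneg _
        have h3 : ((K2 : ℝ) * (S * (S * (2 * X) ^ k)) * Q2 P / δ) ^ E2 ≤
            (K2 * (S * (S * (2 * X) ^ k)) * Real.exp (P ^ (0.62 : ℝ)) / δ) ^ E2 := by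
          apply pow_le_pow_left₀ (by positivity)
          gcongr
        refine h3.trans ?_
        have h4 : (K2 : ℝ) * (S * (S * (2 * X) ^ k)) * Real.exp (P ^ (0.62 : ℝ)) / δ =
            Real.exp (Real.log K2 + (2 * Real.log S + k * (Real.log 2 + P ^ (0.9996 : ℝ))) +
              P ^ (0.62 : ℝ) + P ^ (0.6 : ℝ)) := by
          have hXk : (2 * X) ^ k = Real.exp (k * (Real.log 2 + P ^ (0.9996 : ℝ))) := by
            rw [hX, Real.exp_nat_mul, Real.exp_add, Real.exp_log (by norm_num)]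
          rw [hXk, hδ, Real.exp_neg, div_inv_eq_mul, Real.exp_add, Real.exp_add, Real.exp_add,
            Real.exp_add, Real.exp_log (by linarith), two_mul (Real.log (S : ℝ)), Real.exp_add,
            Real.exp_log (by linarith)]
          ring
        rw [h4, ← Real.exp_nat_mul]
        exact (Real.exp_le_exp.2 hn2).trans hSt.N'lo
      have hANres := hANi (Hh d) N' H (Q2 P) δ _ G hfdeg hflead hfcont hδ0 hδ1 hB1 hBc
        h8H h16H hQge hKBQ hSt.pin.G0 hSt.pin.Gsupp hdf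
      have hsum : ∑ n ∈ Icc (1 : ℤ) N', G n ^ 2 ≤
          Real.exp (4 * P ^ (0.51 : ℝ)) * Φ * (N' * Φ) := by
        rw [← hSt.pin.Gsum, mul_sum]
        refine sum_le_sum fun n _ => ?_
        rw [sq]
        exact mul_le_mul_of_nonneg_right (hGm n) (hSt.pin.G0 n)
      have hfin := hlower.trans (hANres.trans
        (mul_le_mul_of_nonneg_left hsum (by positivity)))
      have hZ : (0 : ℝ) < N' * (H * Φ) ^ 2 := by positivity
      have h3 : 1 / 20 * Real.exp (-(P ^ (0.1 : ℝ))) * (N' * (H * Φ) ^ 2) ≤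
          (δ * Real.exp (4 * P ^ (0.51 : ℝ))) * (N' * (H * Φ) ^ 2) := by
        calc 1 / 20 * Real.exp (-(P ^ (0.1 : ℝ))) * (N' * (H * Φ) ^ 2)
            = 1 / 20 * Real.exp (-(P ^ (0.1 : ℝ))) * N' * (H * Φ) ^ 2 := by ring
          _ ≤ _ := hfin
          _ = _ := by ring
      have h4 := le_of_mul_le_mul_right h3 hZ
      have h5 : δ * Real.exp (4 * P ^ (0.51 : ℝ)) =
          Real.exp (-(P ^ (0.6 : ℝ)) + 4 * P ^ (0.51 : ℝ)) := by
        rw [hδ, ← Real.exp_add]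
      have h6 : 1 / 20 * Real.exp (-(P ^ (0.1 : ℝ))) =
          Real.exp (-(Real.log 20) + -(P ^ (0.1 : ℝ))) := by
        rw [Real.exp_add, Real.exp_neg (Real.log 20), Real.exp_log (by norm_num)]
        norm_num
      rw [h5, h6, Real.exp_le_exp] at h4
      linarith
    have h2 : (1 : ℝ) ≤ Real.exp (Ps ^ (0.51 : ℝ)) :=
      Real.one_le_exp (Real.rpow_nonneg (by linarith) _)
    calc (rMax h N : ℝ) ≤ Real.exp (-(P ^ (0.51 : ℝ))) * N := h1
      _ = 1 * (N * Real.exp (-P ^ (0.51 : ℝ))) := by ring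
      _ ≤ Real.exp (Ps ^ (0.51 : ℝ)) * (N * Real.exp (-P ^ (0.51 : ℝ))) :=
          mul_le_mul_of_nonneg_right h2 (by positivity)
      _ = _ := by ring

end Vale.Agent.P042.TT
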