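import Vale.Agent.P042.TT.Spec

set_option autoImplicit false

/-!
Block GOOD, part A: sums over the windows.
-/

namespace Vale.Agent.P042.TT

open Polynomial Finset Vale.Agent.P042.SS

namespace Good

theorem mass_one (G : ℤ → ℝ) (y : ℤ) (M : ℕ) :
    mass G y M 1 0 = ∑ n ∈ Ioc y (y + M), G n := by
  unfold mass
  congr 1
  apply Finset.filter_true_of_mem
  intro n _
  simp [Int.modEq_one]

theorem Fc_zero (G : ℤ → ℝ) (y : ℤ) (M : ℕ) :
    Fc G y M 1 0 0 = ((mass G y M 1 0 : ℝ) : ℂ) := by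
  unfold Fc mass
  rw [Complex.ofReal_sum]
  refine Finset.sum_congr rfl fun n _ => ?_
  simp [e]

theorem sum_windows (g : ℤ → ℝ) (N' H : ℕ) (y0 : ℤ) (hg : ∀ n, g n ≠ 0 → 1 ≤ n ∧ n ≤ (N' : ℤ))
    (h1 : y0 + H ≤ N' + 1) (h2 : -y0 - 1 ≤ N') :
    ∑ y ∈ Icc (-(N' : ℤ)) (2 * N'), ∑ n ∈ Ioc (y + y0) (y + y0 + H), g n =
      H * ∑ n ∈ Icc (1 : ℤ) N', g n := by
  have e1 : ∀ y ∈ Icc (-(N' : ℤ)) (2 * N'), ∑ n ∈ Ioc (y + y0) (y + y0 + H), g n
      = ∑ n ∈ Icc (1 : ℤ) N', if n ∈ Ioc (y + y0) (y + y0 + H) then g n else 0 := by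
    intro y _
    rw [← Finset.sum_filter, Finset.filter_mem_eq_inter]
    symm
    apply Finset.sum_subset
    · exact Finset.inter_subset_right
    · intro n hn hn2
      by_contra h0
      apply hn2
      rw [Finset.mem_inter]
      exact ⟨Finset.mem_Icc.2 (hg n h0), hn⟩
  rw [Finset.sum_congr rfl e1, Finset.sum_comm, Finset.mul_sum]
  refine Finset.sum_congr rfl fun n hn => ?_
  rw [Finset.mem_Icc] at hn
  rw [← Finset.sum_filter, Finset.sum_const, nsmul_eq_mul]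
  congr 1
  have e2 : (Icc (-(N' : ℤ)) (2 * N')).filter (fun y => n ∈ Ioc (y + y0) (y + y0 + H))
      = Icc (n - y0 - H) (n - y0 - 1) := by
    ext y
    simp only [Finset.mem_filter, Finset.mem_Icc, Finset.mem_Ioc]
    constructor
    · rintro ⟨_, h3, h4⟩
      constructor <;> linarith
    · rintro ⟨h3, h4⟩
      refine ⟨⟨?_, ?_⟩, ?_, ?_⟩ <;> linarith
  rw [e2, Int.card_Icc]
  have : n - y0 - 1 + 1 - (n - y0 - H) = (H : ℤ) := by ring
  rw [this]; simp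

theorem cnt_eq (N' : ℕ) (y : ℤ) (M : ℕ) :
    (cnt N' y M : ℝ) = ∑ n ∈ Ioc y (y + M), if 1 ≤ n ∧ n ≤ (N' : ℤ) then (1 : ℝ) else 0 := by
  unfold cnt
  rw [Finset.sum_ite, Finset.sum_const_zero, add_zero, Finset.sum_const, nsmul_eq_mul, mul_one]

theorem sum_mass (G : ℤ → ℝ) (N' H : ℕ) (y0 : ℤ) (Φ : ℝ)
    (hg : ∀ n, G n ≠ 0 → 1 ≤ n ∧ n ≤ (N' : ℤ)) (hs : ∑ n ∈ Icc (1 : ℤ) N', G n = N' * Φ)
    (h1 : y0 + H ≤ N' + 1) (h2 : -y0 - 1 ≤ N') :
    ∑ y ∈ Icc (-(N' : ℤ)) (2 * N'), mass G (y + y0) H 1 0 = H * (N' * Φ) := by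
  rw [← hs, ← sum_windows G N' H y0 hg h1 h2]
  exact Finset.sum_congr rfl fun y _ => mass_one _ _ _

theorem sum_cnt (N' H : ℕ) (y0 : ℤ) (h1 : y0 + H ≤ N' + 1) (h2 : -y0 - 1 ≤ N') :
    ∑ y ∈ Icc (-(N' : ℤ)) (2 * N'), (cnt N' (y + y0) H : ℝ) = H * N' := by
  have h3 := sum_windows (fun n => if 1 ≤ n ∧ n ≤ (N' : ℤ) then (1 : ℝ) else 0) N' H y0
    (fun n hn => by
      by_contra hc
      exact hn (if_neg hc)) h1 h2
  rw [Finset.sum_congr rfl fun y _ => cnt_eq N' (y + y0) H, h3]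
  congr 1
  rw [Finset.sum_congr rfl (g := fun _ => (1 : ℝ))
    (fun n hn => if_pos (Finset.mem_Icc.1 hn))]
  simp

/-- full windows -/
theorem cnt_full (N' H : ℕ) (y : ℤ) (h1 : 0 ≤ y) (h2 : y + H ≤ N') : cnt N' y H = H := by
  unfold cnt
  rw [Finset.filter_true_of_mem, Int.card_Ioc]
  · simp
  · intro n hn
    rw [Finset.mem_Ioc] at hn
    constructor <;> linarith [hn.1, hn.2]

theorem cnt_le (N' H : ℕ) (y : ℤ) : cnt N' y H ≤ H := by
  unfold cnt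
  refine (Finset.card_filter_le _ _).trans ?_
  rw [Int.card_Ioc]; simp

/-- a window is contained in a window of length `max (cnt, M1)` -/
theorem mass_sub (G : ℤ → ℝ) (N' H M1 : ℕ) (y : ℤ) (hG0 : ∀ n, 0 ≤ G n)
    (hg : ∀ n, G n ≠ 0 → 1 ≤ n ∧ n ≤ (N' : ℤ)) :
    mass G y H 1 0 ≤ mass G (max y 0) (max (cnt N' y H) M1) 1 0 := by
  rw [mass_one, mass_one]
  have e1 : ∑ n ∈ Ioc y (y + H), G n = ∑ n ∈ (Ioc y (y + H)).filter
      (fun n : ℤ => 1 ≤ n ∧ n ≤ (N' : ℤ)), G n := by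
    rw [Finset.sum_filter]
    refine Finset.sum_congr rfl fun n _ => ?_
    by_cases h : 1 ≤ n ∧ n ≤ (N' : ℤ)
    · rw [if_pos h]
    · rw [if_neg h]
      by_contra h0
      exact h (hg n h0)
  rw [e1]
  have e2 : (Ioc y (y + H)).filter (fun n : ℤ => 1 ≤ n ∧ n ≤ (N' : ℤ))
      = Ioc (max y 0) (min (y + H) N') := by
    ext n
    simp only [Finset.mem_filter, Finset.mem_Ioc, max_lt_iff, le_min_iff]
    constructor
    · rintro ⟨⟨a, b⟩, c, d⟩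
      exact ⟨⟨a, by linarith⟩, b, d⟩
    · rintro ⟨⟨a, b⟩, c, d⟩
      exact ⟨⟨a, c⟩, by omega, d⟩
  have e3 : (cnt N' y H : ℤ) = ((min (y + H) N' - max y 0).toNat : ℤ) := by
    unfold cnt
    rw [e2, Int.card_Ioc]
  rw [e2]
  apply Finset.sum_le_sum_of_subset_of_nonneg
  · intro n hn
    rw [Finset.mem_Ioc] at hn ⊢
    refine ⟨hn.1, hn.2.trans ?_⟩
    have h1 : min (y + H) N' - max y 0 ≤ (cnt N' y H : ℤ) := by
      rw [e3]; exact Int.self_le_toNat _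
    have h2 : (cnt N' y H : ℤ) ≤ ((max (cnt N' y H) M1 : ℕ) : ℤ) := by
      exact_mod_cast le_max_left _ _
    linarith
  · intro n _ _
    exact hG0 n

/-- from a one sided bound and equality of the sums to an `L^1` bound -/
theorem sum_abs_le {ι : Type*} (s : Finset ι) (u : ι → ℝ) (B : ℝ) (hsum : ∑ i ∈ s, u i = 0)
    (h : ∀ i ∈ s, -B ≤ u i) (hB : 0 ≤ B) : ∑ i ∈ s, |u i| ≤ 2 * (s.card * B) := by
  have h1 : ∀ i ∈ s, |u i| ≤ u i + 2 * B := by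
    intro i hi
    have := h i hi
    rw [abs_le]; constructor <;> linarith
  calc ∑ i ∈ s, |u i| ≤ ∑ i ∈ s, (u i + 2 * B) := Finset.sum_le_sum h1
    _ = 2 * (s.card * B) := by
      rw [Finset.sum_add_distrib, hsum, Finset.sum_const, nsmul_eq_mul]; ring

end Good

end Vale.Agent.P042.TT
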