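import Vale.Agent.P042.TT.GoodA

set_option autoImplicit false

/-!
Block GOOD, part B: upper bounds for the masses of the windows.
-/

namespace Vale.Agent.P042.TT

open Polynomial Finset Vale.Agent.P042.SS Filter

namespace Good

theorem ev_small (C a ε : ℝ) (ha : 0 < a) (hε : 0 < ε) :
    ∀ᶠ P : ℝ in atTop, C * P ^ (-a) ≤ ε := by
  have h := (tendsto_rpow_neg_atTop ha).const_mul C
  rw [mul_zero] at h
  exact (h.eventually_lt_const hε).mono fun _ h => h.le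

theorem ev_ge (a C : ℝ) (ha : 0 < a) : ∀ᶠ P : ℝ in atTop, C ≤ P ^ a :=
  (tendsto_rpow_atTop ha).eventually_ge_atTop C

/-- the numbers used for the windows -/
theorem ev_win : ∀ᶠ P : ℝ in atTop, ∀ (N' H : ℕ), Real.exp (7 / 8 * P) ≤ N' →
    N' ≤ 16 * H → 2 * ((N' : ℝ) / P + 1) ≤ P ^ (-0.0005 : ℝ) * H := by
  filter_upwards [ev_small 64 0.9995 1 (by norm_num) one_pos,
    ev_ge 0.9995 64 (by norm_num), eventually_ge_atTop (1 : ℝ)] with P h1 h2 hP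
  intro N' H hN hH
  have hP0 : (0 : ℝ) < P := by linarith
  have e0 : (0 : ℝ) < P ^ (-0.0005 : ℝ) := Real.rpow_pos_of_pos hP0 _
  have e1 : P ^ (-0.0005 : ℝ) = P ^ (0.9995 : ℝ) * P⁻¹ := by
    rw [← Real.rpow_neg_one, ← Real.rpow_add hP0]; norm_num
  have hHr : (N' : ℝ) ≤ 16 * H := by exact_mod_cast hH
  have hexp : P ^ 2 / 4 ≤ Real.exp (7 / 8 * P) := by
    have := Real.quadratic_le_exp_of_nonneg (x := 7 / 8 * P) (by positivity)
    nlinarith [sq_nonneg P]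
  have hHlow : P ^ 2 / 64 ≤ H := by linarith
  -- first part
  have a1 : 2 * ((N' : ℝ) / P) ≤ P ^ (-0.0005 : ℝ) * H / 2 := by
    rw [e1]
    have : 2 * ((N' : ℝ) / P) = (2 * N') * P⁻¹ := by field_simp
    rw [this]
    have : P ^ (0.9995 : ℝ) * P⁻¹ * H / 2 = (P ^ (0.9995 : ℝ) * H / 2) * P⁻¹ := by ring
    rw [this]
    apply mul_le_mul_of_nonneg_right _ (by positivity)
    have hH0 : (0 : ℝ) ≤ H := Nat.cast_nonneg _
    nlinarith
  have a2 : (2 : ℝ) ≤ P ^ (-0.0005 : ℝ) * H / 2 := by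
    rw [e1]
    have h3 : P ^ (0.9995 : ℝ) * P⁻¹ * H / 2 ≥ P ^ (0.9995 : ℝ) * P⁻¹ * (P ^ 2 / 64) / 2 := by
      have : 0 < P ^ (0.9995 : ℝ) * P⁻¹ := by positivity
      nlinarith
    have h4 : P ^ (0.9995 : ℝ) * P⁻¹ * (P ^ 2 / 64) / 2 = P ^ (0.9995 : ℝ) * P / 128 := by
      field_simp; ring
    rw [h4] at h3
    have h5 : (64 : ℝ) * 64 ≤ P ^ (0.9995 : ℝ) * P := by
      have hPP : (64 : ℝ) ≤ P := by
        have : P ^ (0.9995 : ℝ) ≤ P ^ (1 : ℝ) := Real.rpow_le_rpow_of_exponent_le hP (by norm_num)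
        rw [Real.rpow_one] at this
        linarith
      exact mul_le_mul h2 hPP (by norm_num) (by positivity)
    linarith
  linarith

/-- upper bounds for the masses of windows -/
theorem ev_mass (hD : DENStmt) (k : ℕ) (hk : 1 ≤ k) : ∀ᶠ P : ℝ in atTop,
    ∀ (N' Nmin H : ℕ) (Φ : ℝ) (G : ℤ → ℝ) (ν : ℕ → ℤ → ℝ), St P k N' Nmin Φ G ν →
    8 * H ≤ N' → N' ≤ 16 * H → ∀ y : ℤ,
      mass G y H 1 0 ≤ 2 * (H * Φ) ∧
      mass G y H 1 0 ≤ Φ * cnt N' y H + 2 * P ^ (-0.0005 : ℝ) * (H * Φ) := by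
  obtain ⟨P0, hP0⟩ := hD k hk
  filter_upwards [ev_win, eventually_ge_atTop P0, eventually_ge_atTop (16 : ℝ),
    ev_small 1 0.0005 1 (by norm_num) one_pos] with P h1 h2 h3 h4
  intro N' Nmin H Φ G ν hSt hH1 hH2 y
  have hDen := hP0 P h2 N' Nmin Φ G ν hSt
  have hP : (0 : ℝ) < P := by linarith
  have hw := h1 N' H hSt.N'lo hH2
  have hΦ : 0 < Φ := hSt.pin.Φpos
  have e0 : (0 : ℝ) < P ^ (-0.0005 : ℝ) := Real.rpow_pos_of_pos hP _
  have e1 : P ^ (-0.0005 : ℝ) ≤ 1 := by simpa using h4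
  have hH0 : (0 : ℝ) ≤ H := Nat.cast_nonneg _
  have hHr2 : (N' : ℝ) ≤ 16 * H := by exact_mod_cast hH2
  have hlog : Real.log ((1 : ℕ) : ℝ) ≤ P ^ (0.487 : ℝ) := by
    simp; positivity
  have hHN : H ≤ N' := by omega
  constructor
  · have := hDen 1 H y 0 le_rfl hlog hHN (by nlinarith)
    refine this.trans ?_
    have : (1 + P ^ (-0.0005 : ℝ)) * Φ * H / ((1 : ℕ) : ℝ) = (1 + P ^ (-0.0005 : ℝ)) * (H * Φ) := by
      push_cast; ring
    rw [this]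
    have : 0 ≤ H * Φ := by positivity
    nlinarith
  · set M1 : ℕ := ⌈(N' : ℝ) / P⌉₊ with hM1
    have hM1lo : (N' : ℝ) / P ≤ M1 := Nat.le_ceil _
    have hM1hi : (M1 : ℝ) ≤ (N' : ℝ) / P + 1 := (Nat.ceil_lt_add_one (by positivity)).le
    have hM1N : M1 ≤ N' := by
      apply Nat.ceil_le.2
      apply div_le_self (Nat.cast_nonneg _) (by linarith)
    have hcnt : cnt N' y H ≤ H := cnt_le N' H y
    have hsub := mass_sub G N' H M1 y hSt.pin.G0 hSt.pin.Gsupp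
    have := hDen 1 (max (cnt N' y H) M1) (max y 0) 0 le_rfl hlog
      (max_le (hcnt.trans hHN) hM1N) (by
        have : (M1 : ℝ) ≤ ((max (cnt N' y H) M1 : ℕ) : ℝ) := by exact_mod_cast le_max_right _ _
        rw [div_le_iff₀ hP] at hM1lo
        nlinarith)
    refine hsub.trans (this.trans ?_)
    have hmax : ((max (cnt N' y H) M1 : ℕ) : ℝ) ≤ cnt N' y H + M1 := by
      rw [Nat.cast_max]
      apply max_le
      · have : (0 : ℝ) ≤ M1 := Nat.cast_nonneg _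
        linarith
      · have : (0 : ℝ) ≤ cnt N' y H := Nat.cast_nonneg _
        linarith
    have hcr : (cnt N' y H : ℝ) ≤ H := by exact_mod_cast hcnt
    have : (1 + P ^ (-0.0005 : ℝ)) * Φ * ((max (cnt N' y H) M1 : ℕ) : ℝ) / ((1 : ℕ) : ℝ)
        = Φ * ((1 + P ^ (-0.0005 : ℝ)) * ((max (cnt N' y H) M1 : ℕ) : ℝ)) := by
      push_cast; ring
    rw [this]
    have h7 : (1 + P ^ (-0.0005 : ℝ)) * ((max (cnt N' y H) M1 : ℕ) : ℝ) ≤
        cnt N' y H + 2 * P ^ (-0.0005 : ℝ) * H := by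
      have h8 : (1 + P ^ (-0.0005 : ℝ)) * ((max (cnt N' y H) M1 : ℕ) : ℝ) ≤
          (1 + P ^ (-0.0005 : ℝ)) * (cnt N' y H + M1) :=
        mul_le_mul_of_nonneg_left hmax (by linarith)
      have h9 : (1 + P ^ (-0.0005 : ℝ)) * (cnt N' y H + M1 : ℝ) =
          cnt N' y H + P ^ (-0.0005 : ℝ) * cnt N' y H + (1 + P ^ (-0.0005 : ℝ)) * M1 := by ring
      have h10 : (1 + P ^ (-0.0005 : ℝ)) * (M1 : ℝ) ≤ 2 * M1 :=
        mul_le_mul_of_nonneg_right (by linarith) (Nat.cast_nonneg _)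
      have h11 : P ^ (-0.0005 : ℝ) * (cnt N' y H : ℝ) ≤ P ^ (-0.0005 : ℝ) * H :=
        mul_le_mul_of_nonneg_left hcr e0.le
      linarith
    calc Φ * ((1 + P ^ (-0.0005 : ℝ)) * ((max (cnt N' y H) M1 : ℕ) : ℝ))
        ≤ Φ * (cnt N' y H + 2 * P ^ (-0.0005 : ℝ) * H) := mul_le_mul_of_nonneg_left h7 hΦ.le
      _ = _ := by ring

/-- the `L^1` distance of the masses from `Φ cnt` -/
theorem ev_abs (hD : DENStmt) (k : ℕ) (hk : 1 ≤ k) : ∀ᶠ P : ℝ in atTop,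
    ∀ (N' Nmin H : ℕ) (Φ : ℝ) (G : ℤ → ℝ) (ν : ℕ → ℤ → ℝ), St P k N' Nmin Φ G ν →
    8 * H ≤ N' → N' ≤ 16 * H → ∀ y0 : ℤ, y0 + H ≤ N' + 1 → -y0 - 1 ≤ N' →
      ∑ y ∈ Icc (-(N' : ℤ)) (2 * N'), |Φ * cnt N' (y + y0) H - mass G (y + y0) H 1 0| ≤
        16 * P ^ (-0.0005 : ℝ) * (N' * (H * Φ)) := by
  filter_upwards [ev_mass hD k hk, eventually_gt_atTop (0 : ℝ)] with P h1 hP
  intro N' Nmin H Φ G ν hSt hH1 hH2 y0 hy1 hy2
  have hΦ : 0 < Φ := hSt.pin.Φpos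
  have e0 : (0 : ℝ) < P ^ (-0.0005 : ℝ) := Real.rpow_pos_of_pos hP _
  have hN1 : (1 : ℝ) ≤ N' := (Real.one_le_exp (by positivity)).trans hSt.N'lo
  have hsum : ∑ y ∈ Icc (-(N' : ℤ)) (2 * N'),
      (Φ * cnt N' (y + y0) H - mass G (y + y0) H 1 0) = 0 := by
    rw [Finset.sum_sub_distrib, ← Finset.mul_sum, sum_cnt N' H y0 hy1 hy2,
      sum_mass G N' H y0 Φ hSt.pin.Gsupp hSt.pin.Gsum hy1 hy2]
    ring
  refine (sum_abs_le _ _ (2 * P ^ (-0.0005 : ℝ) * (H * Φ)) hsum (fun y _ => ?_)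
    (by positivity)).trans ?_
  · have := (h1 N' Nmin H Φ G ν hSt hH1 hH2 (y + y0)).2
    linarith
  · rw [Int.card_Icc]
    have : (2 * (N' : ℤ) + 1 - -(N' : ℤ)).toNat = 3 * N' + 1 := by omega
    rw [this]; push_cast
    have h5 : (3 * (N' : ℝ) + 1) ≤ 4 * N' := by linarith
    have h6 : 0 ≤ 2 * P ^ (-0.0005 : ℝ) * (H * Φ) := by positivity
    nlinarith

end Good

end Vale.Agent.P042.TT
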