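import Vale.Agent.P042.TT.GoodB

set_option autoImplicit false

/-!
Block GOOD, part C: the main term.
-/

namespace Vale.Agent.P042.TT

open Polynomial Finset Vale.Agent.P042.SS Filter

namespace Good

theorem mass_nonneg (G : ℤ → ℝ) (hG0 : ∀ n, 0 ≤ G n) (y : ℤ) (M D : ℕ) (x : ℤ) :
    0 ≤ mass G y M D x := Finset.sum_nonneg fun n _ => hG0 n

theorem ev_main (hD : DENStmt) (k : ℕ) (hk : 1 ≤ k) : ∀ᶠ P : ℝ in atTop,
    ∀ (N' Nmin H : ℕ) (Φ : ℝ) (G : ℤ → ℝ) (ν : ℕ → ℤ → ℝ), St P k N' Nmin Φ G ν →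
    8 * H ≤ N' → N' ≤ 16 * H →
      9 / 20 * (N' * (H * Φ) ^ 2) ≤ ∑ y ∈ Icc (-(N' : ℤ)) (2 * N'),
        mass G (y + H) H 1 0 * mass G (y - 2 * H - 1) H 1 0 := by
  filter_upwards [ev_mass hD k hk, ev_abs hD k hk, eventually_gt_atTop (0 : ℝ),
    ev_small 1 0.0005 (1 / 1000) (by norm_num) (by norm_num)] with P h1 h2 hP h3
  intro N' Nmin H Φ G ν hSt hH1 hH2
  have hΦ : 0 < Φ := hSt.pin.Φpos
  have e0 : (0 : ℝ) < P ^ (-0.0005 : ℝ) := Real.rpow_pos_of_pos hP _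
  have e1 : P ^ (-0.0005 : ℝ) ≤ 1 / 1000 := by simpa using h3
  have hH1i : (8 * H : ℤ) ≤ N' := by exact_mod_cast hH1
  have hH1r : (8 * H : ℝ) ≤ N' := by exact_mod_cast hH1
  have hA := h2 N' Nmin H Φ G ν hSt hH1 hH2 (H : ℤ) (by linarith) (by linarith)
  have hB := h2 N' Nmin H Φ G ν hSt hH1 hH2 (-2 * H - 1 : ℤ) (by linarith) (by linarith)
  have hM := h1 N' Nmin H Φ G ν hSt hH1 hH2
  have hB' : ∑ y ∈ Icc (-(N' : ℤ)) (2 * N'),
      |Φ * cnt N' (y - 2 * H - 1) H - mass G (y - 2 * H - 1) H 1 0| ≤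
        16 * P ^ (-0.0005 : ℝ) * (N' * (H * Φ)) := by
    refine le_trans (le_of_eq ?_) hB
    refine Finset.sum_congr rfl fun y _ => ?_
    have : y + (-2 * H - 1) = y - 2 * (H : ℤ) - 1 := by ring
    rw [this]
  set a : ℝ := H * Φ with ha
  have ha0 : 0 ≤ a := by positivity
  set I := Icc (-(N' : ℤ)) (2 * N')
  set C := Icc (2 * (H : ℤ) + 1) ((N' : ℤ) - 2 * H)
  have hCI : C ⊆ I := by
    intro y hy
    rw [Finset.mem_Icc] at hy ⊢
    constructor <;> linarith [hy.1, hy.2, Int.natCast_nonneg H, Int.natCast_nonneg N']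
  have hnn : ∀ y ∈ I, 0 ≤ mass G (y + H) H 1 0 * mass G (y - 2 * H - 1) H 1 0 := fun y _ =>
    mul_nonneg (mass_nonneg G hSt.pin.G0 _ _ _ _) (mass_nonneg G hSt.pin.G0 _ _ _ _)
  have s1 : ∑ y ∈ C, mass G (y + H) H 1 0 * mass G (y - 2 * H - 1) H 1 0 ≤
      ∑ y ∈ I, mass G (y + H) H 1 0 * mass G (y - 2 * H - 1) H 1 0 :=
    Finset.sum_le_sum_of_subset_of_nonneg hCI fun y hy _ => hnn y hy
  have s2 : ∑ y ∈ C, (a ^ 2 - (2 * a * |Φ * cnt N' (y + H) H - mass G (y + H) H 1 0| +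
      a * |Φ * cnt N' (y - 2 * H - 1) H - mass G (y - 2 * H - 1) H 1 0|)) ≤
      ∑ y ∈ C, mass G (y + H) H 1 0 * mass G (y - 2 * H - 1) H 1 0 := by
    refine Finset.sum_le_sum fun y hy => ?_
    rw [Finset.mem_Icc] at hy
    have c1 : cnt N' (y + H) H = H := cnt_full _ _ _ (by linarith [hy.1, Int.natCast_nonneg H])
      (by linarith [hy.2])
    have c2 : cnt N' (y - 2 * H - 1) H = H := cnt_full _ _ _ (by linarith [hy.1])
      (by linarith [hy.2, Int.natCast_nonneg H])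
    rw [c1, c2]
    have m1 := mass_nonneg G hSt.pin.G0 (y + H) H 1 0
    have m2 := mass_nonneg G hSt.pin.G0 (y - 2 * H - 1) H 1 0
    have m3 := (hM (y + H)).1
    have m4 := (hM (y - 2 * H - 1)).1
    set m := mass G (y + H) H 1 0
    set m' := mass G (y - 2 * H - 1) H 1 0
    have hΦH : Φ * (H : ℝ) = a := by rw [ha]; ring
    rw [hΦH]
    have k1 : a - m ≤ |a - m| := le_abs_self _
    have k2 : a - m' ≤ |a - m'| := le_abs_self _
    have k3 : 0 ≤ |a - m| := abs_nonneg _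
    have k4 : 0 ≤ |a - m'| := abs_nonneg _
    -- m m' = a^2 - (a - m) m' - a (a - m')
    have k5 : (a - m) * m' ≤ |a - m| * (2 * a) :=
      (mul_le_mul_of_nonneg_right k1 m2).trans (mul_le_mul_of_nonneg_left m4 k3)
    have k6 : a * (a - m') ≤ a * |a - m'| := mul_le_mul_of_nonneg_left k2 ha0
    nlinarith
  have s3 : ∑ y ∈ C, (2 * a * |Φ * cnt N' (y + H) H - mass G (y + H) H 1 0| +
      a * |Φ * cnt N' (y - 2 * H - 1) H - mass G (y - 2 * H - 1) H 1 0|) ≤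
      ∑ y ∈ I, (2 * a * |Φ * cnt N' (y + H) H - mass G (y + H) H 1 0| +
      a * |Φ * cnt N' (y - 2 * H - 1) H - mass G (y - 2 * H - 1) H 1 0|) :=
    Finset.sum_le_sum_of_subset_of_nonneg hCI fun y _ _ => by positivity
  rw [Finset.sum_add_distrib (s := I), ← Finset.mul_sum, ← Finset.mul_sum] at s3
  rw [Finset.sum_sub_distrib, Finset.sum_const, nsmul_eq_mul] at s2
  have hcard : (N' : ℝ) / 2 ≤ (C.card : ℝ) := by
    have : (C.card : ℤ) = N' - 4 * H := by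
      rw [Int.card_Icc]
      omega
    have h' : (C.card : ℝ) = N' - 4 * H := by exact_mod_cast this
    rw [h']; linarith
  have hcard2 : (N' : ℝ) / 2 * a ^ 2 ≤ (C.card : ℝ) * a ^ 2 :=
    mul_le_mul_of_nonneg_right hcard (by positivity)
  have t1 : 2 * a * ∑ y ∈ I, |Φ * cnt N' (y + H) H - mass G (y + H) H 1 0| ≤
      2 * a * (16 * (1 / 1000) * (N' * a)) := by
    apply mul_le_mul_of_nonneg_left _ (by positivity)
    refine hA.trans ?_
    apply mul_le_mul_of_nonneg_right _ (by positivity)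
    linarith
  have t2 : a * ∑ y ∈ I, |Φ * cnt N' (y - 2 * H - 1) H - mass G (y - 2 * H - 1) H 1 0| ≤
      a * (16 * (1 / 1000) * (N' * a)) := by
    apply mul_le_mul_of_nonneg_left _ (by positivity)
    refine hB'.trans ?_
    apply mul_le_mul_of_nonneg_right _ (by positivity)
    linarith
  have hNa : 0 ≤ (N' : ℝ) * a ^ 2 := by positivity
  nlinarith

end Good

end Vale.Agent.P042.TT
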