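import Vale.Agent.P042.TT.GoodC

set_option autoImplicit false

/-!
Block GOOD, part D: use of TILT for one frequency and one pair of windows.
-/

namespace Vale.Agent.P042.TT

open Polynomial Finset Vale.Agent.P042.SS Filter

namespace Good

theorem sum_powerset_sub (V : Finset ℕ) (g : Finset ℕ → ℝ) :
    ∑ W : Finset ↥V, g (W.map (Function.Embedding.subtype _)) = ∑ W ∈ V.powerset, g W := by
  classical
  refine Finset.sum_nbij' (fun W => W.map (Function.Embedding.subtype _))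
    (fun S => S.subtype (· ∈ V)) ?_ ?_ ?_ ?_ ?_
  · intro W _
    rw [Finset.mem_powerset]
    intro x hx
    rw [Finset.mem_map] at hx
    obtain ⟨y, _, rfl⟩ := hx
    exact y.2
  · intro S _
    exact Finset.mem_univ _
  · intro W _
    ext x
    simp
  · intro S hS
    rw [Finset.mem_powerset] at hS
    exact Finset.subtype_map_of_mem fun x hx => hS hx
  · intro W _
    rfl

/-- the centre of the kernel of the prime `p` -/
noncomputable def cp (f : ℤ[X]) (μ : ℝ) (ν : ℕ → ℤ → ℝ) (V : Finset ℕ) (p : ↥V) : ℝ :=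
  ∑ x, ∑ y, piV ν V p x * piV ν V p y * kern f μ V p x y

/-- the bounds of block KB -/
def KBf (P : ℝ) (f : ℤ[X]) (ν : ℕ → ℤ → ℝ) (V : Finset ℕ) : Prop :=
  ∀ p : ↥V,
      |∑ x, ∑ y, piV ν V p x * piV ν V p y * kern f (mu2 P) V p x y| ≤ P ^ (-0.91 : ℝ) ∧
      (∀ φ ψ : Fin (p : ℕ) → ℝ,
        |∑ x, ∑ y, piV ν V p x * piV ν V p y * (φ x * kern f (mu2 P) V p x y * ψ y)| ≤
          P ^ (-0.43 : ℝ) * (Real.sqrt (∑ x, piV ν V p x * φ x ^ 2) *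
            Real.sqrt (∑ y, piV ν V p y * ψ y ^ 2))) ∧
      ∑ x, piV ν V p x * ((∑ y, piV ν V p y * kern f (mu2 P) V p x y) -
        ∑ x, ∑ y, piV ν V p x * piV ν V p y * kern f (mu2 P) V p x y) ^ 2 ≤
        (P ^ (-0.6785 : ℝ)) ^ 2 ∧
      ∑ y, piV ν V p y * ((∑ x, piV ν V p x * kern f (mu2 P) V p x y) -
        ∑ x, ∑ y, piV ν V p x * piV ν V p y * kern f (mu2 P) V p x y) ^ 2 ≤
        (P ^ (-0.6785 : ℝ)) ^ 2

/-- numbers used in TILT -/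
structure NumT (P : ℝ) : Prop where
  one_le : 1 ≤ P
  n1 : 12 * P ^ (-0.43 : ℝ) + P ^ (-0.35 : ℝ) ≤ P ^ (-0.345 : ℝ)
  n2 : P ^ (-0.6785 : ℝ) ≤ P ^ (-0.43 : ℝ)
  n3 : P ^ (-0.43 : ℝ) ≤ 1
  n4 : P ^ (-0.91 : ℝ) ≤ 1 / 2
  n5 : 4 * P ^ (-0.012 : ℝ) ≤ 1

theorem ev_numT : ∀ᶠ P : ℝ in atTop, NumT P := by
  filter_upwards [eventually_ge_atTop (1 : ℝ), ev_ge 0.08 24 (by norm_num), ev_ge 0.005 2 (by norm_num),
    ev_small 1 0.91 (1 / 2) (by norm_num) (by norm_num),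
    ev_small 4 0.012 1 (by norm_num) one_pos] with P h1 h2 h3 h4 h5
  have hP : (0 : ℝ) < P := by linarith
  refine ⟨h1, ?_, ?_, ?_, by simpa using h4, h5⟩
  · have e1 : P ^ (-0.345 : ℝ) = P ^ (-0.35 : ℝ) * P ^ (0.005 : ℝ) := by
      rw [← Real.rpow_add hP]; norm_num
    have e2 : P ^ (-0.35 : ℝ) = P ^ (-0.43 : ℝ) * P ^ (0.08 : ℝ) := by
      rw [← Real.rpow_add hP]; norm_num
    have p1 : 0 < P ^ (-0.35 : ℝ) := Real.rpow_pos_of_pos hP _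
    have p2 : 0 < P ^ (-0.43 : ℝ) := Real.rpow_pos_of_pos hP _
    rw [e1]
    nlinarith
  · exact Real.rpow_le_rpow_of_exponent_le h1 (by norm_num)
  · exact Real.rpow_le_one_of_one_le_of_nonpos h1 (by norm_num)

theorem tilt_use (hT : TILTStmt) (hEW : EWStmt) (hBR : BRStmt) {P : ℝ} (hN : NumT P)
    (f : ℤ[X]) (V : Finset ℕ) (ν : ℕ → ℤ → ℝ) (G : ℤ → ℝ) (hV : (V.card : ℝ) ≤ P ^ (0.995 : ℝ))
    (hp : ∀ p ∈ V, p.Prime) (hW : Wts V ν) (hne : ∀ n, G n ≠ 0 → ∀ p ∈ V, ν p n ≠ 0)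
    (hKB : KBf P f ν V) (y y' : ℤ) (M : ℕ) (θ : ℝ) :
    ‖Bform (piV ν V) (kern f (mu2 P) V) (fV ν V G y M 1 0 θ) (fV ν V G y' M 1 0 θ) -
      ((∏ p : ↥V, (1 + cp f (mu2 P) ν V p) : ℝ) : ℂ) *
        (Fc G y M 1 0 θ * (starRingEnd ℂ) (Fc G y' M 1 0 θ))‖ ≤
    (∏ p : ↥V, (1 + cp f (mu2 P) ν V p)) *
      (8 * Real.sqrt ((tot (t1 P) V ν G y M 1 0 θ - ‖Fc G y M 1 0 θ‖ ^ 2) *
          (tot (t1 P) V ν G y' M 1 0 θ - ‖Fc G y' M 1 0 θ‖ ^ 2)) +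
        4 * Real.sqrt (4 * P ^ (-0.012 : ℝ)) *
          (Real.sqrt (tot (t1 P) V ν G y M 1 0 θ - ‖Fc G y M 1 0 θ‖ ^ 2) *
              ‖Fc G y' M 1 0 θ‖ +
            Real.sqrt (tot (t1 P) V ν G y' M 1 0 θ - ‖Fc G y' M 1 0 θ‖ ^ 2) *
              ‖Fc G y M 1 0 θ‖)) := by
  classical
  have hP : (0 : ℝ) < P := by linarith [hN.one_le]
  have hpi : IsPr (piV ν V) := (hBR V ν G y M 1 0 θ hp hW hne).1
  have hEv : ∀ z : ℤ, Ev (piV ν V) (fV ν V G z M 1 0 θ) = Fc G z M 1 0 θ := fun z =>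
    (hBR V ν G z M 1 0 θ hp hW hne).2.2.2.2.2
  have hX : ∀ z : ℤ, ∑ W ∈ (univ : Finset (Finset ↥V)).erase ∅,
      (∏ i ∈ W, (12 * P ^ (-0.43 : ℝ) + P ^ (-0.35 : ℝ))) * en (piV ν V) (fV ν V G z M 1 0 θ) W ≤
      tot (t1 P) V ν G z M 1 0 θ - ‖Fc G z M 1 0 θ‖ ^ 2 := by
    intro z
    obtain ⟨w1, w2, w3, _, w5⟩ := hEW V ν G z M 1 0 θ hp hW hne
    have a1 : ∑ W ∈ (univ : Finset (Finset ↥V)).erase ∅,
      (∏ i ∈ W, (12 * P ^ (-0.43 : ℝ) + P ^ (-0.35 : ℝ))) *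
        en (piV ν V) (fV ν V G z M 1 0 θ) W ≤
        ∑ W ∈ (univ : Finset (Finset ↥V)).erase ∅,
          (t1 P) ^ (W.map (Function.Embedding.subtype _)).card *
            ew ν G z M 1 0 θ (W.map (Function.Embedding.subtype _)) := by
      refine Finset.sum_le_sum fun W _ => ?_
      rw [w5 W, Finset.prod_const, Finset.card_map]
      have hsub : W.map (Function.Embedding.subtype _) ⊆ V := by
        intro x hx
        rw [Finset.mem_map] at hx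
        obtain ⟨y, _, rfl⟩ := hx
        exact y.2
      apply mul_le_mul_of_nonneg_right _ (w1 _ hsub)
      apply pow_le_pow_left₀ (by positivity)
      exact hN.n1
    refine a1.trans ?_
    have a2 := Finset.add_sum_erase (univ : Finset (Finset ↥V))
      (fun W => (t1 P) ^ (W.map (Function.Embedding.subtype _)).card *
            ew ν G z M 1 0 θ (W.map (Function.Embedding.subtype _))) (Finset.mem_univ ∅)
    rw [sum_powerset_sub V (fun W => (t1 P) ^ W.card * ew ν G z M 1 0 θ W),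
      ← w3 V (Finset.Subset.refl _) (t1 P)] at a2
    simp only [Finset.map_empty, Finset.card_empty, pow_zero, one_mul, w2] at a2
    linarith
  have key := hT ↥V (fun p => Fin (p : ℕ)) (piV ν V) (kern f (mu2 P) V)
    (fV ν V G y M 1 0 θ) (fV ν V G y' M 1 0 θ) (fun _ => P ^ (-0.43 : ℝ))
    (fun _ => P ^ (-0.6785 : ℝ)) (fun _ => P ^ (-0.35 : ℝ)) (cp f (mu2 P) ν V)
    (4 * P ^ (-0.012 : ℝ))
    (tot (t1 P) V ν G y M 1 0 θ - ‖Fc G y M 1 0 θ‖ ^ 2)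
    (tot (t1 P) V ν G y' M 1 0 θ - ‖Fc G y' M 1 0 θ‖ ^ 2)
    hpi (fun _ => rfl) (fun p => (hKB p).1.trans hN.n4)
    (fun p => ⟨(Real.rpow_pos_of_pos hP _).le, hN.n2, hN.n3⟩)
    (fun p => (hKB p).2.1) (fun p => (hKB p).2.2.1) (fun p => (hKB p).2.2.2)
    (fun _ => Real.rpow_pos_of_pos hP _) (by
      rw [Finset.sum_const, nsmul_eq_mul, Finset.card_univ, Fintype.card_coe]
      have e1 : 4 * (P ^ (-0.6785 : ℝ)) ^ 2 / P ^ (-0.35 : ℝ) = 4 * P ^ (-1.007 : ℝ) := by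
        have : (P ^ (-0.6785 : ℝ)) ^ 2 = P ^ (-1.357 : ℝ) := by
          rw [← Real.rpow_natCast, ← Real.rpow_mul hP.le]; norm_num
        rw [this, mul_div_assoc, ← Real.rpow_sub hP]; norm_num
      rw [e1]
      have e2 : P ^ (-0.012 : ℝ) = P ^ (0.995 : ℝ) * P ^ (-1.007 : ℝ) := by
        rw [← Real.rpow_add hP]; norm_num
      rw [e2]
      have : 0 < P ^ (-1.007 : ℝ) := Real.rpow_pos_of_pos hP _
      nlinarith) hN.n5 (hX y) (hX y')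
  rw [hEv, hEv] at key
  exact key

end Good

end Vale.Agent.P042.TT
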