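import Vale.Agent.P042.TT.GoodD

set_option autoImplicit false

/-!
Block GOOD, part E: assembly.
-/

namespace Vale.Agent.P042.TT

open Polynomial Finset Vale.Agent.P042.SS Filter

namespace Good

theorem exp_le_one_add (c : ℝ) (hc : |c| ≤ 1 / 2) : Real.exp (-(2 * |c|)) ≤ 1 + c := by
  have h0 : 0 ≤ |c| := abs_nonneg c
  have h1 : 1 + 2 * |c| ≤ Real.exp (2 * |c|) := by
    have := Real.add_one_le_exp (2 * |c|); linarith
  have h2 : -|c| ≤ c := neg_abs_le c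
  rw [Real.exp_neg]
  have h3 : (Real.exp (2 * |c|))⁻¹ ≤ (1 + 2 * |c|)⁻¹ := inv_anti₀ (by linarith) h1
  have h4 : (1 + 2 * |c|)⁻¹ ≤ 1 - |c| := by
    rw [inv_le_iff_one_le_mul₀ (by linarith)]
    nlinarith
  linarith

theorem prod_ge {ι : Type*} [Fintype ι] (c : ι → ℝ) (b B : ℝ) (h : ∀ i, |c i| ≤ b)
    (hb : b ≤ 1 / 2) (hB : (Fintype.card ι : ℝ) * (2 * b) ≤ B) :
    Real.exp (-B) ≤ ∏ i, (1 + c i) := by
  calc Real.exp (-B) ≤ Real.exp (-((Fintype.card ι : ℝ) * (2 * b))) := by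
        apply Real.exp_le_exp.2; linarith
    _ = ∏ i : ι, Real.exp (-(2 * b)) := by
        rw [← Real.exp_sum, Finset.sum_const, nsmul_eq_mul, Finset.card_univ]
        congr 1; ring
    _ ≤ ∏ i, (1 + c i) := by
        refine Finset.prod_le_prod (fun i _ => (Real.exp_pos _).le) fun i _ => ?_
        refine le_trans ?_ (exp_le_one_add (c i) ((h i).trans hb))
        apply Real.exp_le_exp.2
        have := h i
        linarith

theorem ev_card : ∀ᶠ P : ℝ in atTop, ∀ V : Finset ℕ, V ⊆ W2 P →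
    ∑ p ∈ V, Real.log p ≤ P ^ (0.995 : ℝ) → (V.card : ℝ) ≤ P ^ (0.995 : ℝ) := by
  filter_upwards [ev_ge 0.97 3 (by norm_num)] with P h1
  intro V hV hs
  refine le_trans ?_ hs
  have : ∀ p ∈ V, (1 : ℝ) ≤ Real.log p := by
    intro p hp
    have h2 := hV hp
    unfold W2 Wp at h2
    rw [Finset.mem_filter, Finset.mem_Ioc] at h2
    have h3 : 3 ≤ ⌊P ^ (0.97 : ℝ)⌋₊ := Nat.le_floor (by exact_mod_cast h1)
    have h4 : 3 ≤ p := by omega
    have h5 : (3 : ℝ) ≤ p := by exact_mod_cast h4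
    rw [Real.le_log_iff_exp_le (by linarith)]
    linarith [Real.exp_one_lt_d9]
  calc (V.card : ℝ) = ∑ p ∈ V, (1 : ℝ) := by simp
    _ ≤ _ := Finset.sum_le_sum this

theorem prime_of_mem_W2 {P : ℝ} {p : ℕ} (h : p ∈ W2 P) : p.Prime := by
  unfold W2 Wp at h
  exact (Finset.mem_filter.1 h).2

theorem tot_ge (hEW : EWStmt) (V : Finset ℕ) (ν : ℕ → ℤ → ℝ) (G : ℤ → ℝ)
    (hp : ∀ p ∈ V, p.Prime) (hW : Wts V ν) (hne : ∀ n, G n ≠ 0 → ∀ p ∈ V, ν p n ≠ 0)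
    (t : ℝ) (ht : 0 ≤ t) (y : ℤ) (M : ℕ) (θ : ℝ) :
    ‖Fc G y M 1 0 θ‖ ^ 2 ≤ tot t V ν G y M 1 0 θ := by
  obtain ⟨w1, w2, w3, _, _⟩ := hEW V ν G y M 1 0 θ hp hW hne
  rw [w3 V (Finset.Subset.refl _) t]
  have := Finset.single_le_sum (f := fun W : Finset ℕ => t ^ W.card * ew ν G y M 1 0 θ W)
    (s := V.powerset) (fun W hW' => mul_nonneg (pow_nonneg ht _) (w1 W (Finset.mem_powerset.1 hW')))
    (Finset.empty_mem_powerset V)
  simpa [w2] using this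

/-- real inequality behind the moduli `q ≠ 1` -/
theorem real_q (F F' T T' d : ℝ) (hF : 0 ≤ F) (hF' : 0 ≤ F') (hT : F ^ 2 ≤ T) (hT' : F' ^ 2 ≤ T')
    (hd0 : 0 ≤ d) (hd : d ≤ 1) :
    F * F' + (8 * Real.sqrt ((T - F ^ 2) * (T' - F' ^ 2)) + 4 * d *
      (Real.sqrt (T - F ^ 2) * F' + Real.sqrt (T' - F' ^ 2) * F)) ≤ 17 / 2 * (T + T') := by
  have hT0 : 0 ≤ T := (sq_nonneg F).trans hT
  have hT0' : 0 ≤ T' := (sq_nonneg F').trans hT'
  have a1 : Real.sqrt (T - F ^ 2) ≤ Real.sqrt T := Real.sqrt_le_sqrt (by nlinarith)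
  have a2 : Real.sqrt (T' - F' ^ 2) ≤ Real.sqrt T' := Real.sqrt_le_sqrt (by nlinarith)
  have a3 : F ≤ Real.sqrt T := Real.le_sqrt_of_sq_le hT
  have a4 : F' ≤ Real.sqrt T' := Real.le_sqrt_of_sq_le hT'
  have b0 : 0 ≤ Real.sqrt T := Real.sqrt_nonneg _
  have b1 : 0 ≤ Real.sqrt T' := Real.sqrt_nonneg _
  have b2 : 0 ≤ Real.sqrt (T - F ^ 2) := Real.sqrt_nonneg _
  have b3 : 0 ≤ Real.sqrt (T' - F' ^ 2) := Real.sqrt_nonneg _
  have c1 : F * F' ≤ Real.sqrt T * Real.sqrt T' := mul_le_mul a3 a4 hF' b0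
  have c2 : Real.sqrt ((T - F ^ 2) * (T' - F' ^ 2)) ≤ Real.sqrt T * Real.sqrt T' := by
    rw [Real.sqrt_mul (by linarith)]
    exact mul_le_mul a1 a2 b3 b0
  have c3 : Real.sqrt (T - F ^ 2) * F' ≤ Real.sqrt T * Real.sqrt T' := mul_le_mul a1 a4 hF' b0
  have c4 : Real.sqrt (T' - F' ^ 2) * F ≤ Real.sqrt T * Real.sqrt T' := by
    rw [mul_comm (Real.sqrt T)]
    exact mul_le_mul a2 a3 hF b1
  have c5 : 4 * d * (Real.sqrt (T - F ^ 2) * F' + Real.sqrt (T' - F' ^ 2) * F) ≤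
      4 * 1 * (Real.sqrt T * Real.sqrt T' + Real.sqrt T * Real.sqrt T') := by
    apply mul_le_mul (by linarith) (by linarith) (by positivity) (by norm_num)
  have c6 : Real.sqrt T * Real.sqrt T' ≤ (T + T') / 2 := by
    nlinarith [Real.sq_sqrt hT0, Real.sq_sqrt hT0', sq_nonneg (Real.sqrt T - Real.sqrt T')]
  linarith

/-- real inequality behind the modulus `1` -/
theorem real_one (m m' X X' d S ε : ℝ) (hm : 0 ≤ m) (hm' : 0 ≤ m') (hS : 0 ≤ S)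
    (hmS : m ≤ 2 * S) (hmS' : m' ≤ 2 * S) (hd0 : 0 ≤ d) (hd : d ≤ 1) (hε : 0 ≤ ε)
    (hX : X ≤ ε ^ 2 * S ^ 2) (hX' : X' ≤ ε ^ 2 * S ^ 2) (hX0 : 0 ≤ X) (hX0' : 0 ≤ X')
    (hε1 : ε ≤ 1) :
    8 * Real.sqrt (X * X') + 4 * d * (Real.sqrt X * m' + Real.sqrt X' * m) ≤
      24 * ε * S ^ 2 := by
  have a1 : Real.sqrt X ≤ ε * S := by
    apply Real.sqrt_le_iff.2 ⟨by positivity, by rw [mul_pow]; exact hX⟩
  have a2 : Real.sqrt X' ≤ ε * S := by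
    apply Real.sqrt_le_iff.2 ⟨by positivity, by rw [mul_pow]; exact hX'⟩
  have b1 : 0 ≤ Real.sqrt X := Real.sqrt_nonneg _
  have b2 : 0 ≤ Real.sqrt X' := Real.sqrt_nonneg _
  rw [Real.sqrt_mul hX0]
  have c1 : Real.sqrt X * Real.sqrt X' ≤ ε * S * (ε * S) := mul_le_mul a1 a2 b2 (by positivity)
  have c2 : Real.sqrt X * m' ≤ ε * S * (2 * S) := mul_le_mul a1 hmS' hm' (by positivity)
  have c3 : Real.sqrt X' * m ≤ ε * S * (2 * S) := mul_le_mul a2 hmS hm (by positivity)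
  have c4 : 4 * d * (Real.sqrt X * m' + Real.sqrt X' * m) ≤
      4 * 1 * (ε * S * (2 * S) + ε * S * (2 * S)) :=
    mul_le_mul (by linarith) (by linarith) (by positivity) (by norm_num)
  have c5 : ε * S * (ε * S) ≤ ε * S ^ 2 := by
    have : ε * ε ≤ ε * 1 := mul_le_mul_of_nonneg_left hε1 hε
    nlinarith [sq_nonneg S]
  nlinarith

end Good

end Vale.Agent.P042.TT
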