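import Vale.Agent.P042.TT.GoodE

set_option autoImplicit false

/-!
Block GOOD, part F: the theorem.
-/

namespace Vale.Agent.P042.TT

open Polynomial Finset Vale.Agent.P042.SS Filter

namespace Good

/-- numbers used in the assembly -/
structure NumG (P : ℝ) : Prop where
  g1 : P ^ (-0.0005 : ℝ) ≤ 1 / 100000
  g2 : P ^ (-0.0002 : ℝ) ≤ 1 / 100000
  g3 : P ^ (-0.001 : ℝ) ≤ 1 / 100000
  g4 : P ^ (-0.05 : ℝ) ≤ 1 / 2
  g5 : 2 * P ^ (0.085 : ℝ) ≤ P ^ (0.1 : ℝ)

theorem ev_numG : ∀ᶠ P : ℝ in atTop, NumG P := by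
  filter_upwards [ev_small 1 0.0005 (1 / 100000) (by norm_num) (by norm_num),
    ev_small 1 0.0002 (1 / 100000) (by norm_num) (by norm_num),
    ev_small 1 0.001 (1 / 100000) (by norm_num) (by norm_num),
    ev_small 1 0.05 (1 / 2) (by norm_num) (by norm_num), ev_ge 0.015 2 (by norm_num),
    eventually_gt_atTop (0 : ℝ)] with P h1 h2 h3 h4 h5 hP
  refine ⟨by simpa using h1, by simpa using h2, by simpa using h3, by simpa using h4, ?_⟩
  have e1 : P ^ (0.1 : ℝ) = P ^ (0.015 : ℝ) * P ^ (0.085 : ℝ) := by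
    rw [← Real.rpow_add hP]; norm_num
  have : 0 < P ^ (0.085 : ℝ) := Real.rpow_pos_of_pos hP _
  rw [e1]; nlinarith

/-- the complex sum for one `y`, abstractly -/
theorem sum_q (S : Finset ℕ) (h1 : 1 ∈ S) (w kp : ℕ → ℝ) (Γ : ℕ → ℕ → ℂ) (B : ℕ → ℕ → ℂ)
    (u : ℕ → ℝ) (T : ℕ → ℕ → ℝ) (mV L : ℝ) (hw : ∀ q, 0 ≤ w q) (hwu : ∀ q, w q ≤ u q)
    (hkp : ∀ q ∈ S, ∀ a ∈ (range q).filter (Nat.Coprime q), ‖Γ q a‖ ≤ kp q)
    (hB : ∀ q ∈ S, ∀ a ∈ (range q).filter (Nat.Coprime q), ‖B q a‖ ≤ mV * (17 / 2 * T q a))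
    (hL : mV * L ≤ ((w 1 : ℂ) * ∑ a ∈ (range 1).filter (Nat.Coprime 1), Γ 1 a * B 1 a).re) :
    mV * (L - 17 / 2 * ∑ q ∈ S.erase 1, u q * kp q *
      ∑ a ∈ (range q).filter (Nat.Coprime q), T q a) ≤
      (∑ q ∈ S, (w q : ℂ) * ∑ a ∈ (range q).filter (Nat.Coprime q), Γ q a * B q a).re := by
  rw [← Finset.add_sum_erase S _ h1, Complex.add_re]
  have h2 : -(mV * (17 / 2 * ∑ q ∈ S.erase 1, u q * kp q *
      ∑ a ∈ (range q).filter (Nat.Coprime q), T q a)) ≤
      (∑ q ∈ S.erase 1, (w q : ℂ) *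
        ∑ a ∈ (range q).filter (Nat.Coprime q), Γ q a * B q a).re := by
    have h3 : ‖∑ q ∈ S.erase 1, (w q : ℂ) *
        ∑ a ∈ (range q).filter (Nat.Coprime q), Γ q a * B q a‖ ≤
        mV * (17 / 2 * ∑ q ∈ S.erase 1, u q * kp q *
      ∑ a ∈ (range q).filter (Nat.Coprime q), T q a) := by
      refine (norm_sum_le _ _).trans ?_
      rw [Finset.mul_sum, Finset.mul_sum]
      refine Finset.sum_le_sum fun q hq => ?_
      have hq' := Finset.mem_of_mem_erase hq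
      rw [norm_mul, Complex.norm_real, Real.norm_of_nonneg (hw q)]
      have h4 : ‖∑ a ∈ (range q).filter (Nat.Coprime q), Γ q a * B q a‖ ≤
          ∑ a ∈ (range q).filter (Nat.Coprime q), kp q * (mV * (17 / 2 * T q a)) := by
        refine (norm_sum_le _ _).trans (Finset.sum_le_sum fun a ha => ?_)
        rw [norm_mul]
        exact mul_le_mul (hkp q hq' a ha) (hB q hq' a ha) (norm_nonneg _)
          ((norm_nonneg _).trans (hkp q hq' a ha))
      have h5 : 0 ≤ ∑ a ∈ (range q).filter (Nat.Coprime q), kp q * (mV * (17 / 2 * T q a)) :=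
        (norm_nonneg _).trans h4
      calc w q * ‖∑ a ∈ (range q).filter (Nat.Coprime q), Γ q a * B q a‖
          ≤ u q * ∑ a ∈ (range q).filter (Nat.Coprime q), kp q * (mV * (17 / 2 * T q a)) :=
            mul_le_mul (hwu q) h4 (norm_nonneg _) ((hw q).trans (hwu q))
        _ = _ := by
            rw [← Finset.mul_sum, ← Finset.mul_sum, ← Finset.mul_sum]; ring
    have h6 := Complex.abs_re_le_norm (∑ q ∈ S.erase 1, (w q : ℂ) *
        ∑ a ∈ (range q).filter (Nat.Coprime q), Γ q a * B q a)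
    have h7 := (abs_le.1 h6).1
    linarith
  have e : mV * (L - 17 / 2 * ∑ q ∈ S.erase 1, u q * kp q *
      ∑ a ∈ (range q).filter (Nat.Coprime q), T q a) = mV * L -
      mV * (17 / 2 * ∑ q ∈ S.erase 1, u q * kp q *
      ∑ a ∈ (range q).filter (Nat.Coprime q), T q a) := by ring
  rw [e]
  linarith

end Good

open Good in
theorem good_of (hT : TILTStmt) (hEW : EWStmt) (hBR : BRStmt) (hONE : ONEStmt)
    (hREST : RESTStmt) (hKB : KBStmt) (hDEN : DENStmt) (hNU : NU2Stmt) : GOODStmt := by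
  classical
  intro k E K p0 kap hk hE hkap
  obtain ⟨P1, hP1⟩ := hONE k hk
  obtain ⟨P2, hP2⟩ := hREST k E K p0 kap hk hE hkap
  obtain ⟨P3, hP3⟩ := hKB k E K p0 kap hk hE hkap
  obtain ⟨P4, hP4⟩ := hNU k hk
  have main : ∀ᶠ P : ℝ in atTop, ∀ (N' Nmin H : ℕ) (Φ : ℝ) (G : ℤ → ℝ) (ν : ℕ → ℤ → ℝ),
    St P k N' Nmin Φ G ν → 8 * H ≤ N' → N' ≤ 16 * H →
  ∀ (f : ℤ[X]) (V : Finset ℕ), V ⊆ W2 P → ∑ p ∈ V, Real.log p ≤ P ^ (0.995 : ℝ) →
    (∀ (q : ℕ) (a : ℤ), 1 ≤ q → IsCoprime a (q : ℤ) → ‖Gam f a q‖ ≤ kapProd kap q) →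
    Gam f 0 1 = 1 →
    1 / 8 * Real.exp (-(P ^ (0.1 : ℝ))) * N' * (H * Φ) ^ 2 ≤
    (∑ q ∈ EV P V (Q2 P), (((1 - mu2 P)⁻¹ ^ yc P q : ℝ) : ℂ) *
      ∑ a ∈ (range q).filter (Nat.Coprime q), Gam f a q *
      ∑ y ∈ Icc (-(N' : ℤ)) (2 * N'),
        Bform (piV ν V) (kern f (mu2 P) V)
          (fV ν V G (y + H) H 1 0 ((a : ℝ) / q))
          (fV ν V G (y - 2 * H - 1) H 1 0 ((a : ℝ) / q))).re := by
    filter_upwards [eventually_ge_atTop P1, eventually_ge_atTop P2, eventually_ge_atTop P3,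
      eventually_ge_atTop P4, ev_numT, ev_numG, ev_card, ev_mass hDEN k hk, ev_abs hDEN k hk,
      ev_main hDEN k hk] with P q1 q2 q3 q4 nT nG hcard hmass habs hmain
    intro N' Nmin H Φ G ν hSt hH1 hH2 f V hV hVs hGam hG1
    have hP : (0 : ℝ) < P := by linarith [nT.one_le]
    have hVc := hcard V hV hVs
    have hprime : ∀ p ∈ V, p.Prime := fun p hp => prime_of_mem_W2 (hV hp)
    have hWts : Wts V ν := ⟨hSt.pin.wts.nn, fun p hp => hSt.pin.wts.per p (hV hp),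
      fun p hp => hSt.pin.wts.mean p (hV hp)⟩
    obtain ⟨_, _, hne', _, _, _⟩ := hP4 P q4 N' Nmin Φ G ν hSt
    have hne : ∀ n, G n ≠ 0 → ∀ p ∈ V, ν p n ≠ 0 := fun n hn p hp => hne' n hn p (hV hp)
    have hKBf : KBf P f ν V := hP3 P q3 N' Nmin Φ G ν hSt f V hV hGam
    have hΦ : 0 < Φ := hSt.pin.Φpos
    have hHN : H ≤ N' := by omega
    have hN32 : N' ≤ 32 * H := by omega
    have hmu : mu2 P ≤ 1 / 2 := by unfold mu2; exact nG.g4
    have hmu0 : 0 < mu2 P := Real.rpow_pos_of_pos hP _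
    set S2 : ℝ := (H * Φ) with hS2
    have hS20 : 0 ≤ S2 := by positivity
    set mV : ℝ := ∏ p : ↥V, (1 + cp f (mu2 P) ν V p) with hmV
    have hmVlo : Real.exp (-(P ^ (0.1 : ℝ))) ≤ mV := by
      refine prod_ge _ (P ^ (-0.91 : ℝ)) _ (fun p => (hKBf p).1) nT.n4 ?_
      rw [Fintype.card_coe]
      have e1 : P ^ (0.085 : ℝ) = P ^ (0.995 : ℝ) * P ^ (-0.91 : ℝ) := by
        rw [← Real.rpow_add hP]; norm_num
      have := nG.g5
      rw [e1] at this
      have h0 : 0 < P ^ (-0.91 : ℝ) := Real.rpow_pos_of_pos hP _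
      nlinarith
    have hmV0 : 0 < mV := (Real.exp_pos _).trans_le hmVlo
    -- abbreviations
    let B : ℤ → ℕ → ℕ → ℂ := fun y q a => Bform (piV ν V) (kern f (mu2 P) V)
          (fV ν V G (y + H) H 1 0 ((a : ℝ) / q))
          (fV ν V G (y - 2 * H - 1) H 1 0 ((a : ℝ) / q))
    let Tp : ℤ → ℕ → ℕ → ℝ := fun y q a => tot (t1 P) V ν G (y + H) H 1 0 ((a : ℝ) / q)
    let Tm : ℤ → ℕ → ℕ → ℝ := fun y q a => tot (t1 P) V ν G (y - 2 * H - 1) H 1 0 ((a : ℝ) / q)
    let w : ℕ → ℝ := fun q => (1 - mu2 P)⁻¹ ^ yc P q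
    let u : ℕ → ℝ := fun q => 2 ^ yc P q
    have hw0 : ∀ q, 0 ≤ w q := fun q => pow_nonneg (inv_nonneg.2 (by linarith)) _
    have hwu : ∀ q, w q ≤ u q := fun q => by
      apply pow_le_pow_left₀ (inv_nonneg.2 (by linarith))
      rw [inv_le_comm₀ (by linarith) (by norm_num)]
      linarith
    have ht1 : 0 ≤ t1 P := Real.rpow_nonneg hP.le _
    have hd1 : Real.sqrt (4 * P ^ (-0.012 : ℝ)) ≤ 1 := by
      rw [Real.sqrt_le_one]; exact nT.n5
    have hd0 : 0 ≤ Real.sqrt (4 * P ^ (-0.012 : ℝ)) := Real.sqrt_nonneg _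
    -- general bound for the bilinear forms
    have hBb : ∀ y q a, ‖B y q a‖ ≤ mV * (17 / 2 * (Tp y q a + Tm y q a)) := by
      intro y q a
      have h1 := tilt_use hT hEW hBR nT f V ν G hVc hprime hWts hne hKBf (y + H)
        (y - 2 * H - 1) H ((a : ℝ) / q)
      rw [← hmV] at h1
      have hTp := tot_ge hEW V ν G hprime hWts hne (t1 P) ht1 (y + H) H ((a : ℝ) / q)
      have hTm := tot_ge hEW V ν G hprime hWts hne (t1 P) ht1 (y - 2 * H - 1) H ((a : ℝ) / q)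
      have h2 := real_q _ _ _ _ _ (norm_nonneg (Fc G (y + H) H 1 0 ((a : ℝ) / q)))
        (norm_nonneg (Fc G (y - 2 * H - 1) H 1 0 ((a : ℝ) / q))) hTp hTm hd0 hd1
      have h3 : ‖((mV : ℝ) : ℂ) * (Fc G (y + H) H 1 0 ((a : ℝ) / q) *
          (starRingEnd ℂ) (Fc G (y - 2 * H - 1) H 1 0 ((a : ℝ) / q)))‖ =
          mV * (‖Fc G (y + H) H 1 0 ((a : ℝ) / q)‖ *
            ‖Fc G (y - 2 * H - 1) H 1 0 ((a : ℝ) / q)‖) := by
        rw [norm_mul, norm_mul, Complex.norm_real, Real.norm_of_nonneg hmV0.le,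
          RCLike.norm_conj]
      have h4 : ‖B y q a‖ ≤ ‖B y q a - ((mV : ℝ) : ℂ) * (Fc G (y + H) H 1 0 ((a : ℝ) / q) *
          (starRingEnd ℂ) (Fc G (y - 2 * H - 1) H 1 0 ((a : ℝ) / q)))‖ +
          ‖((mV : ℝ) : ℂ) * (Fc G (y + H) H 1 0 ((a : ℝ) / q) *
          (starRingEnd ℂ) (Fc G (y - 2 * H - 1) H 1 0 ((a : ℝ) / q)))‖ := by
        have := norm_add_le (B y q a - ((mV : ℝ) : ℂ) * (Fc G (y + H) H 1 0 ((a : ℝ) / q) *
          (starRingEnd ℂ) (Fc G (y - 2 * H - 1) H 1 0 ((a : ℝ) / q))))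
          (((mV : ℝ) : ℂ) * (Fc G (y + H) H 1 0 ((a : ℝ) / q) *
          (starRingEnd ℂ) (Fc G (y - 2 * H - 1) H 1 0 ((a : ℝ) / q))))
        rwa [sub_add_cancel] at this
      refine h4.trans ?_
      rw [h3]
      refine (add_le_add_left h1 _).trans ?_
      rw [← mul_add]
      apply mul_le_mul_of_nonneg_left _ hmV0.le
      rw [add_comm]
      exact h2
    -- the modulus one
    have hB1 : ∀ y, mV * (mass G (y + H) H 1 0 * mass G (y - 2 * H - 1) H 1 0 -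
        24 * P ^ (-0.001 : ℝ) * S2 ^ 2) ≤
        ((w 1 : ℂ) * ∑ a ∈ (range 1).filter (Nat.Coprime 1), Gam f a 1 * B y 1 a).re := by
      intro y
      have hyc : yc P 1 = 0 := by
        unfold yc
        rw [Finset.card_eq_zero, Finset.filter_eq_empty_iff]
        intro p hp hdiv
        have := prime_of_mem_W2 hp
        exact this.one_lt.ne' (Nat.dvd_one.1 hdiv)
      have hw1 : w 1 = 1 := by simp [w, hyc]
      have hr : (range 1).filter (Nat.Coprime 1) = {0} := by decide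
      rw [hw1, hr, Finset.sum_singleton]
      have hG1' : Gam f ((0 : ℕ) : ℤ) 1 = 1 := by simpa using hG1
      rw [hG1']
      simp only [Complex.ofReal_one, one_mul]
      have h1 := tilt_use hT hEW hBR nT f V ν G hVc hprime hWts hne hKBf (y + H)
        (y - 2 * H - 1) H 0
      rw [← hmV, Fc_zero, Fc_zero] at h1
      have m0 := mass_nonneg G hSt.pin.G0 (y + H) H 1 0
      have m1 := mass_nonneg G hSt.pin.G0 (y - 2 * H - 1) H 1 0
      rw [Complex.norm_real, Complex.norm_real, Real.norm_of_nonneg m0,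
        Real.norm_of_nonneg m1] at h1
      have o1 := hP1 P q1 N' Nmin Φ G ν hSt V H (y + H) hV hVs hHN hN32
      have o2 := hP1 P q1 N' Nmin Φ G ν hSt V H (y - 2 * H - 1) hV hVs hHN hN32
      have t1' := tot_ge hEW V ν G hprime hWts hne (t1 P) ht1 (y + H) H 0
      have t2' := tot_ge hEW V ν G hprime hWts hne (t1 P) ht1 (y - 2 * H - 1) H 0
      rw [Fc_zero, Complex.norm_real, Real.norm_of_nonneg m0] at t1'
      rw [Fc_zero, Complex.norm_real, Real.norm_of_nonneg m1] at t2'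
      have e2 : P ^ (-0.002 : ℝ) = (P ^ (-0.001 : ℝ)) ^ 2 := by
        rw [← Real.rpow_natCast, ← Real.rpow_mul hP.le]; norm_num
      rw [e2, ← hS2] at o1 o2
      have h2 := real_one (mass G (y + H) H 1 0) (mass G (y - 2 * H - 1) H 1 0)
        (tot (t1 P) V ν G (y + H) H 1 0 0 - mass G (y + H) H 1 0 ^ 2)
        (tot (t1 P) V ν G (y - 2 * H - 1) H 1 0 0 - mass G (y - 2 * H - 1) H 1 0 ^ 2)
        (Real.sqrt (4 * P ^ (-0.012 : ℝ))) S2 (P ^ (-0.001 : ℝ)) m0 m1 hS20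
        ((hmass N' Nmin H Φ G ν hSt hH1 hH2 _).1) ((hmass N' Nmin H Φ G ν hSt hH1 hH2 _).1)
        hd0 hd1 (Real.rpow_nonneg hP.le _) o1 o2 (by linarith) (by linarith)
        (by linarith [nG.g3])
      have h3 : B y 1 0 = Bform (piV ν V) (kern f (mu2 P) V) (fV ν V G (y + H) H 1 0 0)
          (fV ν V G (y - 2 * H - 1) H 1 0 0) := by
        simp only [B, Nat.cast_zero, zero_div]
      rw [h3]
      set Z := Bform (piV ν V) (kern f (mu2 P) V) (fV ν V G (y + H) H 1 0 0)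
          (fV ν V G (y - 2 * H - 1) H 1 0 0)
      have h4 := h1.trans (mul_le_mul_of_nonneg_left h2 hmV0.le)
      have h5 := (abs_le.1 ((Complex.abs_re_le_norm _).trans h4)).1
      rw [Complex.sub_re] at h5
      have h6 : (((mV : ℝ) : ℂ) * (((mass G (y + H) H 1 0 : ℝ) : ℂ) *
          (starRingEnd ℂ) ((mass G (y - 2 * H - 1) H 1 0 : ℝ) : ℂ))).re =
          mV * (mass G (y + H) H 1 0 * mass G (y - 2 * H - 1) H 1 0) := by
        rw [Complex.conj_ofReal, ← Complex.ofReal_mul, ← Complex.ofReal_mul, Complex.ofReal_re]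
      rw [h6] at h5
      have e3 : mV * (mass G (y + H) H 1 0 * mass G (y - 2 * H - 1) H 1 0 -
        24 * P ^ (-0.001 : ℝ) * S2 ^ 2) = mV * (mass G (y + H) H 1 0 *
          mass G (y - 2 * H - 1) H 1 0) - mV * (24 * P ^ (-0.001 : ℝ) * S2 ^ 2) := by ring
      rw [e3]; linarith
    have h1EV : 1 ∈ EV P V (Q2 P) := by
      unfold EV
      rw [Finset.mem_filter, Finset.mem_Icc]
      refine ⟨⟨le_rfl, ?_⟩, fun p _ => by simp, fun p hp hdiv => ?_⟩
      · unfold Q2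
        apply Nat.le_floor
        rw [Nat.cast_one]
        exact Real.one_le_exp (Real.rpow_nonneg hP.le _)
      · exact (hprime p hp).one_lt.ne' (Nat.dvd_one.1 hdiv)
    -- one `y`
    have hy : ∀ y, mV * ((mass G (y + H) H 1 0 * mass G (y - 2 * H - 1) H 1 0 -
        24 * P ^ (-0.001 : ℝ) * S2 ^ 2) - 17 / 2 * ∑ q ∈ (EV P V (Q2 P)).erase 1,
          u q * kapProd kap q * ∑ a ∈ (range q).filter (Nat.Coprime q), (Tp y q a + Tm y q a)) ≤
        (∑ q ∈ EV P V (Q2 P), (w q : ℂ) * ∑ a ∈ (range q).filter (Nat.Coprime q),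
          Gam f a q * B y q a).re := by
      intro y
      refine sum_q (EV P V (Q2 P)) h1EV w (kapProd kap) (fun q a => Gam f a q) (B y) u
        (fun q a => Tp y q a + Tm y q a) mV _ hw0 hwu ?_ (fun q _ a _ => hBb y q a) (hB1 y)
      intro q hq a ha
      rw [Finset.mem_filter] at ha
      have hq1 : 1 ≤ q := by
        unfold EV at hq
        exact (Finset.mem_Icc.1 (Finset.mem_filter.1 hq).1).1
      exact hGam q a hq1 ((Nat.isCoprime_iff_coprime.2 ha.2).symm)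
    have hRest : ∀ y, ∑ q ∈ (EV P V (Q2 P)).erase 1,
          u q * kapProd kap q * ∑ a ∈ (range q).filter (Nat.Coprime q), (Tp y q a + Tm y q a) ≤
        2 * P ^ (-0.0002 : ℝ) * S2 ^ 2 +
          8 * S2 * |Φ * cnt N' (y + H) H - mass G (y + H) H 1 0| +
          8 * S2 * |Φ * cnt N' (y - 2 * H - 1) H - mass G (y - 2 * H - 1) H 1 0| := by
      intro y
      have r1 := hP2 P q2 N' Nmin Φ G ν hSt V H (y + H) hV hVs hHN hN32
      have r2 := hP2 P q2 N' Nmin Φ G ν hSt V H (y - 2 * H - 1) hV hVs hHN hN32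
      have m1 := (hmass N' Nmin H Φ G ν hSt hH1 hH2 (y + H)).1
      have m2 := (hmass N' Nmin H Φ G ν hSt hH1 hH2 (y - 2 * H - 1)).1
      have e : ∑ q ∈ (EV P V (Q2 P)).erase 1,
          u q * kapProd kap q * ∑ a ∈ (range q).filter (Nat.Coprime q), (Tp y q a + Tm y q a) =
          ∑ q ∈ (EV P V (Q2 P)).erase 1, 2 ^ yc P q * kapProd kap q *
            ∑ a ∈ (range q).filter (Nat.Coprime q),
              tot (t1 P) V ν G (y + H) H 1 0 ((a : ℝ) / q) +
          ∑ q ∈ (EV P V (Q2 P)).erase 1, 2 ^ yc P q * kapProd kap q *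
            ∑ a ∈ (range q).filter (Nat.Coprime q),
              tot (t1 P) V ν G (y - 2 * H - 1) H 1 0 ((a : ℝ) / q) := by
        rw [← Finset.sum_add_distrib]
        refine Finset.sum_congr rfl fun q _ => ?_
        rw [Finset.sum_add_distrib, mul_add]
      rw [e]
      rw [← hS2] at r1 r2 m1 m2
      have a1 : 4 * mass G (y + H) H 1 0 * |Φ * cnt N' (y + H) H - mass G (y + H) H 1 0| ≤
          8 * S2 * |Φ * cnt N' (y + H) H - mass G (y + H) H 1 0| :=
        mul_le_mul_of_nonneg_right (by linarith) (abs_nonneg _)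
      have a2 : 4 * mass G (y - 2 * H - 1) H 1 0 *
          |Φ * cnt N' (y - 2 * H - 1) H - mass G (y - 2 * H - 1) H 1 0| ≤
          8 * S2 * |Φ * cnt N' (y - 2 * H - 1) H - mass G (y - 2 * H - 1) H 1 0| :=
        mul_le_mul_of_nonneg_right (by linarith) (abs_nonneg _)
      linarith
    -- exchange the sums
    have hex : (∑ q ∈ EV P V (Q2 P), (((1 - mu2 P)⁻¹ ^ yc P q : ℝ) : ℂ) *
      ∑ a ∈ (range q).filter (Nat.Coprime q), Gam f a q *
      ∑ y ∈ Icc (-(N' : ℤ)) (2 * N'),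
        Bform (piV ν V) (kern f (mu2 P) V)
          (fV ν V G (y + H) H 1 0 ((a : ℝ) / q))
          (fV ν V G (y - 2 * H - 1) H 1 0 ((a : ℝ) / q))).re =
        ∑ y ∈ Icc (-(N' : ℤ)) (2 * N'), (∑ q ∈ EV P V (Q2 P), (w q : ℂ) *
          ∑ a ∈ (range q).filter (Nat.Coprime q), Gam f a q * B y q a).re := by
      rw [← Complex.re_sum, Finset.sum_comm]
      congr 1
      refine Finset.sum_congr rfl fun q _ => ?_
      rw [← Finset.mul_sum, Finset.sum_comm]
      congr 1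
      refine Finset.sum_congr rfl fun a _ => ?_
      rw [← Finset.mul_sum]
    rw [hex]
    have hsum : mV * (9 / 20 * (N' * S2 ^ 2) - (4 * N') * (24 * P ^ (-0.001 : ℝ) * S2 ^ 2) -
        17 / 2 * ((4 * N') * (2 * P ^ (-0.0002 : ℝ) * S2 ^ 2) +
          8 * S2 * (16 * P ^ (-0.0005 : ℝ) * (N' * S2)) +
          8 * S2 * (16 * P ^ (-0.0005 : ℝ) * (N' * S2)))) ≤
        ∑ y ∈ Icc (-(N' : ℤ)) (2 * N'), (∑ q ∈ EV P V (Q2 P), (w q : ℂ) *
          ∑ a ∈ (range q).filter (Nat.Coprime q), Gam f a q * B y q a).re := by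
      refine le_trans ?_ (Finset.sum_le_sum fun y _ => hy y)
      rw [← Finset.mul_sum]
      apply mul_le_mul_of_nonneg_left _ hmV0.le
      rw [Finset.sum_sub_distrib, Finset.sum_sub_distrib, Finset.sum_const, nsmul_eq_mul,
        ← Finset.mul_sum]
      have hN1 : (1 : ℝ) ≤ N' := (Real.one_le_exp (by positivity)).trans hSt.N'lo
      have hcardI : ((Icc (-(N' : ℤ)) (2 * N')).card : ℝ) ≤ 4 * N' := by
        rw [Int.card_Icc]
        have : (2 * (N' : ℤ) + 1 - -(N' : ℤ)).toNat = 3 * N' + 1 := by omega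
        rw [this]; push_cast; linarith
      have hm := hmain N' Nmin H Φ G ν hSt hH1 hH2
      rw [← hS2] at hm
      have hH1i : (8 * H : ℤ) ≤ N' := by exact_mod_cast hH1
      have hA := habs N' Nmin H Φ G ν hSt hH1 hH2 (H : ℤ) (by linarith) (by linarith)
      have hB := habs N' Nmin H Φ G ν hSt hH1 hH2 (-2 * H - 1 : ℤ) (by linarith) (by linarith)
      have hB' : ∑ y ∈ Icc (-(N' : ℤ)) (2 * N'),
          |Φ * cnt N' (y - 2 * H - 1) H - mass G (y - 2 * H - 1) H 1 0| ≤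
            16 * P ^ (-0.0005 : ℝ) * (N' * (H * Φ)) := by
        refine le_trans (le_of_eq ?_) hB
        refine Finset.sum_congr rfl fun y _ => ?_
        have : y + (-2 * H - 1) = y - 2 * (H : ℤ) - 1 := by ring
        rw [this]
      rw [← hS2] at hA hB'
      have c1 : ((Icc (-(N' : ℤ)) (2 * N')).card : ℝ) * (24 * P ^ (-0.001 : ℝ) * S2 ^ 2) ≤
          (4 * N') * (24 * P ^ (-0.001 : ℝ) * S2 ^ 2) := by
        apply mul_le_mul_of_nonneg_right hcardI
        have := Real.rpow_nonneg hP.le (-0.001 : ℝ)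
        positivity
      have c2 : ∑ y ∈ Icc (-(N' : ℤ)) (2 * N'), ∑ q ∈ (EV P V (Q2 P)).erase 1,
          u q * kapProd kap q * ∑ a ∈ (range q).filter (Nat.Coprime q), (Tp y q a + Tm y q a) ≤
          (4 * N') * (2 * P ^ (-0.0002 : ℝ) * S2 ^ 2) +
          8 * S2 * (16 * P ^ (-0.0005 : ℝ) * (N' * S2)) +
          8 * S2 * (16 * P ^ (-0.0005 : ℝ) * (N' * S2)) := by
        refine (Finset.sum_le_sum fun y _ => hRest y).trans ?_
        rw [Finset.sum_add_distrib, Finset.sum_add_distrib, Finset.sum_const, nsmul_eq_mul,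
          ← Finset.mul_sum, ← Finset.mul_sum]
        have d1 : ((Icc (-(N' : ℤ)) (2 * N')).card : ℝ) * (2 * P ^ (-0.0002 : ℝ) * S2 ^ 2) ≤
            (4 * N') * (2 * P ^ (-0.0002 : ℝ) * S2 ^ 2) := by
          apply mul_le_mul_of_nonneg_right hcardI
          have := Real.rpow_nonneg hP.le (-0.0002 : ℝ)
          positivity
        have d2 := mul_le_mul_of_nonneg_left hA (by positivity : 0 ≤ 8 * S2)
        have d3 := mul_le_mul_of_nonneg_left hB' (by positivity : 0 ≤ 8 * S2)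
        linarith
      linarith
    refine le_trans ?_ hsum
    have hNS : 0 ≤ (N' : ℝ) * S2 ^ 2 := by positivity
    have hfin : 1 / 8 * ((N' : ℝ) * S2 ^ 2) ≤ 9 / 20 * (N' * S2 ^ 2) -
        (4 * N') * (24 * P ^ (-0.001 : ℝ) * S2 ^ 2) -
        17 / 2 * ((4 * N') * (2 * P ^ (-0.0002 : ℝ) * S2 ^ 2) +
          8 * S2 * (16 * P ^ (-0.0005 : ℝ) * (N' * S2)) +
          8 * S2 * (16 * P ^ (-0.0005 : ℝ) * (N' * S2))) := by
      have f1 := mul_le_mul_of_nonneg_left nG.g1 hNS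
      have f2 := mul_le_mul_of_nonneg_left nG.g2 hNS
      have f3 := mul_le_mul_of_nonneg_left nG.g3 hNS
      nlinarith
    calc 1 / 8 * Real.exp (-(P ^ (0.1 : ℝ))) * N' * S2 ^ 2
        = Real.exp (-(P ^ (0.1 : ℝ))) * (1 / 8 * (N' * S2 ^ 2)) := by ring
      _ ≤ mV * (1 / 8 * (N' * S2 ^ 2)) :=
          mul_le_mul_of_nonneg_right hmVlo (by positivity)
      _ ≤ _ := mul_le_mul_of_nonneg_left hfin hmV0.le
  exact eventually_atTop.1 main

end Vale.Agent.P042.TT
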