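import Vale.Agent.P042.TT.Spec
import Vale.Agent.P042.SS2.Li2

set_option autoImplicit false

/-! Block LIG: the level inequality with growth. -/

namespace Vale.Agent.P042.TT

open Finset Vale.Agent.P042.SS

theorem lig_holds : LIGStmt := by
  intro Pr g W D m N1 β ρ b G y Fm Qs hP _ hW hm hβ hρ0 hb hρ hG0 hG1 hFmP hFmd hFmD hN1 hmass hQs
  exact li2_holds Pr g W D m N1 β ρ b G y Fm Qs hP hW hm hβ hρ0 hb hρ hG0 hG1 hFmP hFmd hFmD hN1
    hmass hQs

end Vale.Agent.P042.TT
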