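import Vale.Agent.P042.TT.LocEn

set_option autoImplicit false
set_option linter.unusedSectionVars false

/-!
Block LOC of Theorem S2, part 5: the bound for the noisy function under local energy bounds.
-/

namespace Vale.Agent.P042.TT.Loc

open Finset

variable {ι : Type} [Fintype ι] [DecidableEq ι]
variable {X : ι → Type} [∀ i, Fintype (X i)] [∀ i, DecidableEq (X i)]

theorem bf_ten {Y : ι → Type} [∀ i, Fintype (Y i)] (b : ∀ i, Y i → Y i → ℝ)
    (k : ∀ i, Y i → X i → ℝ) (F G : (∀ i, X i) → ℝ) :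
    bf b (ten k F) (ten k G) =
      bf (fun i z z' => ∑ x, ∑ x', b i x x' * (k i x z * k i x' z')) F G := by
  unfold bf ten
  have h : ∀ z z' : (∀ i, X i), ∏ i, ∑ x, ∑ x', b i x x' * (k i x (z i) * k i x' (z' i)) =
      ∑ x : (∀ i, Y i), ∑ x' : (∀ i, Y i), (∏ i, b i (x i) (x' i)) * ((∏ i, k i (x i) (z i)) *
        ∏ i, k i (x' i) (z' i)) := by
    intro z z'
    rw [prod_sum_pi]
    refine sum_congr rfl fun x _ => ?_
    rw [prod_sum_pi]
    simp only [prod_mul_distrib]
  have h2 : ∀ x x' : (∀ i, Y i), (∏ i, b i (x i) (x' i)) *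
      ((∑ z : (∀ i, X i), (∏ i, k i (x i) (z i)) * F z) *
      (∑ z' : (∀ i, X i), (∏ i, k i (x' i) (z' i)) * G z')) =
      ∑ z : (∀ i, X i), ∑ z' : (∀ i, X i), (∏ i, b i (x i) (x' i)) * ((∏ i, k i (x i) (z i)) *
        ∏ i, k i (x' i) (z' i)) * (F z * G z') := by
    intro x x'
    rw [sum_mul_sum, mul_sum]
    refine sum_congr rfl fun x _ => ?_
    rw [mul_sum]
    refine sum_congr rfl fun x' _ => ?_
    ring
  simp only [h]
  rw [sum_congr rfl fun x _ => sum_congr rfl fun x' _ => h2 x x']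
  simp only [sum_mul]
  rw [sum_congr rfl fun x _ => sum_comm]
  rw [sum_comm]
  refine sum_congr rfl fun z _ => ?_
  rw [sum_congr rfl fun x _ => sum_comm]
  rw [sum_comm]

theorem ex_bf {Y : ι → Type} [∀ i, Fintype (Y i)] (w : ∀ i, Y i → ℝ)
    (k : ∀ i, Y i → X i → X i → ℝ) (F G : (∀ i, X i) → ℝ) :
    (ex w fun y => bf (fun i x x' => k i (y i) x x') F G) =
      bf (fun i x x' => ∑ y, w i y * k i y x x') F G := by
  unfold bf ex wt
  have h : ∀ x x' : (∀ i, X i), ∏ i, ∑ y, w i y * k i y (x i) (x' i) =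
      ∑ y : (∀ i, Y i), (∏ i, w i (y i)) * ∏ i, k i (y i) (x i) (x' i) := by
    intro x x'
    rw [prod_sum_pi]
    simp only [prod_mul_distrib]
  simp only [h, mul_sum, sum_mul]
  rw [sum_comm]
  refine sum_congr rfl fun x _ => ?_
  rw [sum_comm]
  refine sum_congr rfl fun x' _ => sum_congr rfl fun y _ => ?_
  ring

/-- mixed restriction and derivative -/
noncomputable def Hk (π : ∀ i, X i → ℝ) (S T : Finset ι) (a : ∀ i, X i) (i : ι) (x z : X i) : ℝ :=
  if i ∈ S then dl π i (a i) z else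
    if i ∈ T then (if a i = z then 1 else 0) else (if x = z then 1 else 0)

theorem ten_Hk_empty (π : ∀ i, X i → ℝ) (T : Finset ι) (a : ∀ i, X i) (F : (∀ i, X i) → ℝ) :
    ten (Hk π ∅ T a) F = restr T a F := by
  funext x
  unfold ten restr
  rw [Finset.sum_eq_single (T.piecewise a x)]
  · rw [Finset.prod_eq_one, one_mul]
    intro i _
    by_cases hi : i ∈ T <;> simp [Hk, hi]
  · intro z _ hz
    obtain ⟨i, hi⟩ := Function.ne_iff.1 hz
    have : (∏ i, Hk π ∅ T a i (x i) (z i)) = 0 := by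
      apply Finset.prod_eq_zero (mem_univ i)
      by_cases hT : i ∈ T
      · simp only [Finset.piecewise, hT, if_true] at hi
        simp only [Hk, notMem_empty, if_false, hT, if_true]
        rw [if_neg]
        exact fun h' => hi h'.symm
      · simp only [Finset.piecewise, hT, if_false] at hi
        simp only [Hk, notMem_empty, if_false, hT]
        rw [if_neg]
        exact fun h' => hi h'.symm
    rw [this, zero_mul]
  · intro h'
    exact absurd (mem_univ _) h'

theorem sum_vk_all (π : ∀ i, X i → ℝ) (hπ1 : ∀ i, ∑ x, π i x = 1) (i : ι) :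
    ∑ x, ∑ x', vk π i x x' = 0 := by
  have h : ∀ x, ∑ x', vk π i x x' = 0 := by
    intro x
    unfold vk
    rw [sum_sub_distrib, ← mul_sum, ← mul_sum, hπ1]
    simp
  simp [h]

theorem sum_sum_delta (G : ∀ i, X i → X i → ℝ) (i : ι) (z z' : X i) :
    ∑ x, ∑ x', G i x x' * ((if x = z then 1 else 0) * (if x' = z' then 1 else 0)) = G i z z' := by
  have h : ∀ x, ∑ x', G i x x' * ((if x = z then (1:ℝ) else 0) * (if x' = z' then 1 else 0)) =
      if x = z then G i x z' else 0 := by
    intro x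
    by_cases hx : x = z <;> simp [hx]
  simp [h]

theorem en_Hk (π : ∀ i, X i → ℝ) (hπ1 : ∀ i, ∑ x, π i x = 1) (r : ι → ℝ) (S T : Finset ι)
    (a : ∀ i, X i) (F : (∀ i, X i) → ℝ) :
    en π r (ten (Hk π S T a) F) =
      bf (fun i z z' => if i ∈ S then dl π i (a i) z * dl π i (a i) z' else
        if i ∈ T then (if a i = z then 1 else 0) * (if a i = z' then 1 else 0)
        else r i * vk π i z z' + π i z * π i z') F F := by
  unfold en
  rw [bf_ten]
  congr 1
  funext i z z'
  have hb : ∑ x, ∑ x', (r i * vk π i x x' + π i x * π i x') = 1 := by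
    simp only [sum_add_distrib, ← mul_sum, hπ1, sum_vk_all π hπ1]
    simp [hπ1]
  by_cases hS : i ∈ S
  · simp only [Hk, hS, if_true]
    simp only [← sum_mul, hb, one_mul]
  · by_cases hT : i ∈ T
    · simp only [Hk, hS, if_false, hT, if_true]
      simp only [← sum_mul, hb, one_mul]
    · simp only [Hk, hS, if_false, hT]
      exact sum_sum_delta (fun i x x' => r i * vk π i x x' + π i x * π i x') i z z'

/-- the averaged function has smaller energy -/
theorem en_avg (π : ∀ i, X i → ℝ) (hπ : ∀ i x, 0 ≤ π i x) (hπ1 : ∀ i, ∑ x, π i x = 1)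
    (r : ι → ℝ) (hr : ∀ i, 0 ≤ r i) (S T : Finset ι) (a : ∀ i, X i) (F : (∀ i, X i) → ℝ) (n : ι)
    (hS : n ∉ S) (hT : n ∉ T) :
    en π r (ten (fun i x z => if i = n then π i z else Hk π S T a i x z) F) ≤
      en π r (ten (Hk π S T a) F) := by
  have e : en π r (ten (fun i x z => if i = n then π i z else Hk π S T a i x z) F) =
      en π (Function.update r n 0) (ten (Hk π S T a) F) := by
    rw [en_Hk π hπ1]
    unfold en
    rw [bf_ten]
    congr 1
    funext i z z'
    have hb : ∑ x, ∑ x', (r i * vk π i x x' + π i x * π i x') = 1 := by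
      simp only [sum_add_distrib, ← mul_sum, hπ1, sum_vk_all π hπ1]
      simp [hπ1]
    by_cases hi : i = n
    · subst hi
      simp only [if_true, hS, hT, if_false, Function.update_self, zero_mul, zero_add]
      simp only [← sum_mul, hb, one_mul]
    · simp only [hi, if_false, Function.update_of_ne hi]
      by_cases hS' : i ∈ S
      · simp only [Hk, hS', if_true]
        simp only [← sum_mul, hb, one_mul]
      · by_cases hT' : i ∈ T
        · simp only [Hk, hS', if_false, hT', if_true]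
          simp only [← sum_mul, hb, one_mul]
        · simp only [Hk, hS', if_false, hT']
          exact sum_sum_delta (fun i x x' => r i * vk π i x x' + π i x * π i x') i z z'
  rw [e]
  refine en_mono π hπ hπ1 _ _ ?_ ?_ _
  · intro i
    by_cases hi : i = n
    · subst hi; simp
    · simp [Function.update_of_ne hi, hr i]
  · intro i
    by_cases hi : i = n
    · subst hi; simp [hr]
    · simp [Function.update_of_ne hi]

theorem ten_sub {Y : ι → Type} (k : ∀ i, Y i → X i → ℝ) (F G : (∀ i, X i) → ℝ) (y : ∀ i, Y i) :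
    ten k (fun x => F x - G x) y = ten k F y - ten k G y := by
  unfold ten
  rw [← sum_sub_distrib]
  refine sum_congr rfl fun x _ => ?_
  ring

theorem sqrt_en_sub (π : ∀ i, X i → ℝ) (hπ : ∀ i x, 0 ≤ π i x) (hπ1 : ∀ i, ∑ x, π i x = 1)
    (r : ι → ℝ) (hr : ∀ i, 0 ≤ r i) (hr1 : ∀ i, r i ≤ 1) (F G : (∀ i, X i) → ℝ) :
    Real.sqrt (en π r (fun x => F x - G x)) ≤ Real.sqrt (en π r F) + Real.sqrt (en π r G) := by
  have hen : ∀ F : (∀ i, X i) → ℝ, en π r F = ex (ew r π) fun y => uo (fun _ => 1) π F y ^ 2 := by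
    intro F
    have h := ex_uo_mul r (fun _ => 1) (fun _ => 1) π hπ1 F
    simp only [mul_one] at h
    rw [← h]
    congr 1
    funext y
    ring
  have hw := ew_nonneg r hr hr1 π hπ
  have h1 : en π r (fun x => F x - G x) ≤ (Real.sqrt (en π r F) + Real.sqrt (en π r G)) ^ 2 := by
    have hF := en_nonneg π hπ hπ1 r hr F
    have hG := en_nonneg π hπ hπ1 r hr G
    rw [hen (fun x => F x - G x)]
    have e : ∀ y, uo (fun _ => 1) π (fun x => F x - G x) y ^ 2 =
        (uo (fun _ => 1) π F y ^ 2 + (-2) * (uo (fun _ => 1) π F y * uo (fun _ => 1) π G y)) +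
        uo (fun _ => 1) π G y ^ 2 := by
      intro y
      unfold uo
      rw [ten_sub]
      ring
    simp only [e]
    rw [ex_add, ex_add, ex_const_mul, ← hen, ← hen]
    have hcs := ex_cs (ew r π) hw (uo (fun _ => 1) π F) (uo (fun _ => 1) π G)
    rw [← hen, ← hen] at hcs
    have h2 : |ex (ew r π) fun y => uo (fun _ => 1) π F y * uo (fun _ => 1) π G y| ≤
        Real.sqrt (en π r F) * Real.sqrt (en π r G) := by
      rw [← Real.sqrt_mul hF]
      exact Real.abs_le_sqrt hcs
    have h3 := (abs_le.1 h2).1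
    rw [add_sq, Real.sq_sqrt hF, Real.sq_sqrt hG]
    nlinarith
  calc Real.sqrt (en π r (fun x => F x - G x)) ≤
      Real.sqrt ((Real.sqrt (en π r F) + Real.sqrt (en π r G)) ^ 2) := Real.sqrt_le_sqrt h1
    _ = _ := Real.sqrt_sq (by positivity)

theorem ten_Hk_insert (π : ∀ i, X i → ℝ) (S T : Finset ι) (a : ∀ i, X i) (F : (∀ i, X i) → ℝ)
    (n : ι) (hS : n ∉ S) :
    ten (Hk π (insert n S) T a) F = fun x => ten (Hk π S (insert n T) a) F x -
      ten (fun i x z => if i = n then π i z else Hk π S T a i x z) F x := by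
  funext x
  unfold ten
  rw [← sum_sub_distrib]
  refine sum_congr rfl fun z _ => ?_
  rw [← sub_mul]
  congr 1
  rw [← Finset.mul_prod_erase univ _ (mem_univ n), ← Finset.mul_prod_erase univ _ (mem_univ n),
    ← Finset.mul_prod_erase univ _ (mem_univ n)]
  have h1 : ∏ i ∈ univ.erase n, Hk π (insert n S) T a i (x i) (z i) =
      ∏ i ∈ univ.erase n, Hk π S T a i (x i) (z i) := by
    refine prod_congr rfl fun i hi => ?_
    have hi' := ne_of_mem_erase hi
    simp only [Hk, mem_insert, hi', false_or]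
  have h2 : ∏ i ∈ univ.erase n, Hk π S (insert n T) a i (x i) (z i) =
      ∏ i ∈ univ.erase n, Hk π S T a i (x i) (z i) := by
    refine prod_congr rfl fun i hi => ?_
    have hi' := ne_of_mem_erase hi
    simp only [Hk, mem_insert, hi', false_or]
  have h3 : ∏ i ∈ univ.erase n, (if i = n then π i (z i) else Hk π S T a i (x i) (z i)) =
      ∏ i ∈ univ.erase n, Hk π S T a i (x i) (z i) := by
    refine prod_congr rfl fun i hi => ?_
    have hi' := ne_of_mem_erase hi
    simp only [hi', if_false]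
  rw [h1, h2, h3, ← sub_mul]
  congr 1
  simp [Hk, hS, dl]

/-- sup bound for the energies of derivatives -/
theorem sqrt_en_Hk (π : ∀ i, X i → ℝ) (hπ : ∀ i x, 0 ≤ π i x) (hπ1 : ∀ i, ∑ x, π i x = 1)
    (r : ι → ℝ) (hr : ∀ i, 0 ≤ r i) (hr1 : ∀ i, r i ≤ 1) (F : (∀ i, X i) → ℝ) (c : ι → ℝ)
    (hc : ∀ i, 0 ≤ c i) (E : ℝ)
    (hE : ∀ (T : Finset ι) (a : ∀ i, X i), (∀ i ∈ T, π i (a i) ≠ 0) →
      en π r (restr T a F) ≤ (∏ i ∈ T, c i) ^ 2 * E) (S : Finset ι) :
    ∀ (T : Finset ι) (a : ∀ i, X i), Disjoint S T → (∀ i ∈ S ∪ T, π i (a i) ≠ 0) →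
      Real.sqrt (en π r (ten (Hk π S T a) F)) ≤
        (∏ i ∈ S, (1 + c i)) * (∏ i ∈ T, c i) * Real.sqrt E := by
  induction S using Finset.induction_on with
  | empty =>
    intro T a _ ha
    rw [ten_Hk_empty, prod_empty, one_mul]
    have hTc : 0 ≤ ∏ i ∈ T, c i := prod_nonneg fun i _ => hc i
    refine (Real.sqrt_le_sqrt (hE T a fun i hi => ha i (mem_union_right _ hi))).trans ?_
    rw [Real.sqrt_mul (sq_nonneg _), Real.sqrt_sq hTc]
  | insert n S hn ih =>
    intro T a hd ha
    have hnT : n ∉ T := fun h => (disjoint_left.1 hd) (mem_insert_self n S) h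
    have hd' : Disjoint S T := disjoint_of_subset_left (subset_insert n S) hd
    rw [ten_Hk_insert π S T a F n hn]
    refine (sqrt_en_sub π hπ hπ1 r hr hr1 _ _).trans ?_
    have h1 := ih (insert n T) a (by
      rw [disjoint_insert_right]
      exact ⟨hn, hd'⟩) (by
      intro i hi
      apply ha
      simp only [mem_union, mem_insert] at hi ⊢
      tauto)
    have h2 := ih T a hd' (by
      intro i hi
      apply ha
      simp only [mem_union, mem_insert] at hi ⊢
      tauto)
    have h3 := Real.sqrt_le_sqrt (en_avg π hπ hπ1 r hr S T a F n hn hnT)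
    rw [prod_insert hnT] at h1
    rw [prod_insert hn]
    calc _ ≤ (∏ i ∈ S, (1 + c i)) * (c n * ∏ i ∈ T, c i) * Real.sqrt E +
        (∏ i ∈ S, (1 + c i)) * (∏ i ∈ T, c i) * Real.sqrt E := add_le_add h1 (h3.trans h2)
      _ = _ := by ring

end Vale.Agent.P042.TT.Loc
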