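import Vale.Agent.P042.TT.LocA

set_option autoImplicit false
set_option linter.unusedSectionVars false

/-!
Block LOC of Theorem S2, part 6: local norms to local energies and to high moments.
-/

namespace Vale.Agent.P042.TT.Loc

open Finset

variable {ι : Type} [Fintype ι] [DecidableEq ι]
variable {X : ι → Type} [∀ i, Fintype (X i)] [∀ i, DecidableEq (X i)]

theorem sum_dl_mul {α : Type} [Fintype α] [DecidableEq α] (w g : α → ℝ) (y : α) :
    ∑ y', ((if y = y' then 1 else 0) - w y') * g y' = g y - ∑ y', w y' * g y' := by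
  simp only [sub_mul, sum_sub_distrib, ite_mul, one_mul, zero_mul]
  simp

theorem Br_uo (r : ℝ) (s q : ι → ℝ) (π : ∀ i, X i → ℝ) (hπ1 : ∀ i, ∑ x, π i x = 1)
    (F : (∀ i, X i) → ℝ) (S : Finset ι) (y : ∀ i, Option (X i)) :
    Br r (ew s π) (uo q π F) univ S y =
      bf (fun i x x' => if i ∈ S then (uk q π i (y i) x - π i x) * (uk q π i (y i) x' - π i x')
        else (r ^ 2 * (s i * (q i * q i))) * vk π i x x' + π i x * π i x') F F := by
  unfold Br uo
  have e : ∀ z, ten (kap r (ew s π) univ S y) (ten (uk q π) F) z ^ 2 =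
      ten (fun i z x => ∑ y', kap r (ew s π) univ S y i z y' * uk q π i y' x) F z *
      ten (fun i z x => ∑ y', kap r (ew s π) univ S y i z y' * uk q π i y' x) F z := by
    intro z
    rw [ten_ten, pow_two]
  simp only [e]
  rw [ex_ten_mul]
  congr 1
  funext i x x'
  have hκ : ∀ (z : Option (X i)) (x : X i),
      ∑ y', kap r (ew s π) univ S y i z y' * uk q π i y' x =
        if i ∈ S then uk q π i (y i) x - π i x else π i x + r * (uk q π i z x - π i x) := by
    intro z x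
    by_cases hi : i ∈ S
    · simp only [kap, hi, if_true, dl]
      rw [sum_dl_mul (ew s π i) (fun y' => uk q π i y' x) (y i), sum_ew_uk s q π hπ1]
    · simp only [kap, hi, if_false, mem_univ, if_true, dl]
      have : ∀ y', (ew s π i y' + r * ((if z = y' then 1 else 0) - ew s π i y')) *
          uk q π i y' x = ew s π i y' * uk q π i y' x +
          r * (((if z = y' then 1 else 0) - ew s π i y') * uk q π i y' x) := by
        intro y'; ring
      rw [sum_congr rfl fun y' _ => this y', sum_add_distrib, ← mul_sum,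
        sum_dl_mul (ew s π i) (fun y' => uk q π i y' x) z, sum_ew_uk s q π hπ1]
  simp only [hκ]
  by_cases hi : i ∈ S
  · simp only [hi, if_true]
    rw [← sum_mul, sum_ew s π hπ1, one_mul]
  · simp only [hi, if_false]
    have : ∀ z, ew s π i z * ((π i x + r * (uk q π i z x - π i x)) *
        (π i x' + r * (uk q π i z x' - π i x'))) =
        (1 - r) ^ 2 * (π i x * π i x') * ew s π i z +
        r * (1 - r) * π i x * (ew s π i z * uk q π i z x') +
        r * (1 - r) * π i x' * (ew s π i z * uk q π i z x) +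
        r ^ 2 * (ew s π i z * (uk q π i z x * uk q π i z x')) := by
      intro z; ring
    rw [sum_congr rfl fun z _ => this z, sum_add_distrib, sum_add_distrib, sum_add_distrib,
      ← mul_sum, ← mul_sum, ← mul_sum, ← mul_sum, sum_ew s π hπ1, sum_ew_uk s q π hπ1,
      sum_ew_uk s q π hπ1, sum_ew_uk_uk s q q π hπ1]
    ring

theorem ex_Br_uo (r : ℝ) (s q : ι → ℝ) (π : ∀ i, X i → ℝ) (hπ1 : ∀ i, ∑ x, π i x = 1)
    (F : (∀ i, X i) → ℝ) (S : Finset ι) :
    (ex (ew s π) fun y => Br r (ew s π) (uo q π F) univ S y) =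
      bf (fun i x x' => if i ∈ S then (s i * (q i * q i)) * vk π i x x'
        else (r ^ 2 * (s i * (q i * q i))) * vk π i x x' + π i x * π i x') F F := by
  simp only [Br_uo r s q π hπ1]
  rw [ex_bf (ew s π) (fun i y x x' => if i ∈ S then (uk q π i y x - π i x) *
    (uk q π i y x' - π i x')
        else (r ^ 2 * (s i * (q i * q i))) * vk π i x x' + π i x * π i x')]
  congr 1
  funext i x x'
  by_cases hi : i ∈ S
  · simp only [hi, if_true]
    have : ∀ z, ew s π i z * ((uk q π i z x - π i x) * (uk q π i z x' - π i x')) =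
        (π i x * π i x') * ew s π i z - π i x * (ew s π i z * uk q π i z x') -
        π i x' * (ew s π i z * uk q π i z x) +
        ew s π i z * (uk q π i z x * uk q π i z x') := by
      intro z; ring
    rw [sum_congr rfl fun z _ => this z, sum_add_distrib, sum_sub_distrib, sum_sub_distrib,
      ← mul_sum, ← mul_sum, ← mul_sum, sum_ew s π hπ1, sum_ew_uk s q π hπ1,
      sum_ew_uk s q π hπ1, sum_ew_uk_uk s q q π hπ1]
    ring
  · simp only [hi, if_false]
    rw [← sum_mul, sum_ew s π hπ1, one_mul]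

theorem Br_le (C1 : ℝ) (hC1 : 0 ≤ C1) (s q r0 c : ι → ℝ) (hs : ∀ i, 0 ≤ s i)
    (hq : ∀ i, 0 ≤ q i) (hr1 : ∀ i, r0 i ≤ 1) (hc : ∀ i, 0 ≤ c i)
    (hC : ∀ i, C1 * (s i * (q i * q i)) ≤ r0 i) (π : ∀ i, X i → ℝ) (hπ : ∀ i x, 0 ≤ π i x)
    (hπ1 : ∀ i, ∑ x, π i x = 1) (F : (∀ i, X i) → ℝ) (E : ℝ) (hE0 : 0 ≤ E)
    (hE : ∀ (T : Finset ι) (a : ∀ i, X i), (∀ i ∈ T, π i (a i) ≠ 0) →
      en π r0 (restr T a F) ≤ (∏ i ∈ T, c i) ^ 2 * E) (S : Finset ι) (y : ∀ i, Option (X i))
    (hy : wt (ew s π) y ≠ 0) :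
    Br (Real.sqrt C1) (ew s π) (uo q π F) univ S y ≤ (∏ i ∈ S, (q i * (1 + c i)) ^ 2) * E := by
  have hr0 : ∀ i, 0 ≤ r0 i := fun i =>
    le_trans (mul_nonneg hC1 (mul_nonneg (hs i) (mul_nonneg (hq i) (hq i)))) (hC i)
  have hsup : ∀ i, ew s π i (y i) ≠ 0 := fun i h =>
    hy (Finset.prod_eq_zero (mem_univ i) h)
  rw [Br_uo _ s q π hπ1, Real.sq_sqrt hC1]
  have hRHS : 0 ≤ (∏ i ∈ S, (q i * (1 + c i)) ^ 2) * E :=
    mul_nonneg (prod_nonneg fun i _ => sq_nonneg _) hE0
  by_cases hnone : ∃ i ∈ S, y i = none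
  · obtain ⟨i, hi, hyi⟩ := hnone
    have : bf (fun i x x' => if i ∈ S then (uk q π i (y i) x - π i x) *
        (uk q π i (y i) x' - π i x')
        else (C1 * (s i * (q i * q i))) * vk π i x x' + π i x * π i x') F F = 0 := by
      unfold bf
      refine sum_eq_zero fun x _ => sum_eq_zero fun x' _ => ?_
      have h0 : (∏ i, if i ∈ S then (uk q π i (y i) (x i) - π i (x i)) *
        (uk q π i (y i) (x' i) - π i (x' i))
        else (C1 * (s i * (q i * q i))) * vk π i (x i) (x' i) + π i (x i) * π i (x' i)) = 0 := by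
        apply Finset.prod_eq_zero (mem_univ i)
        simp only [hi, if_true, hyi, uk]
        ring
      rw [h0, zero_mul]
    rw [this]
    exact hRHS
  · push Not at hnone
    have hne : ∀ i, Nonempty (X i) := by
      intro i
      by_contra h
      rw [not_nonempty_iff] at h
      have := hπ1 i
      simp at this
    have hex : ∀ i, ∃ a : X i, i ∈ S → y i = some a := by
      intro i
      by_cases hi : i ∈ S
      · obtain ⟨a, ha⟩ := Option.ne_none_iff_exists'.1 (hnone i hi)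
        exact ⟨a, fun _ => ha⟩
      · exact ⟨(hne i).some, fun h => absurd h hi⟩
    choose a ha using hex
    have hsa : ∀ i ∈ S ∪ ∅, π i (a i) ≠ 0 := by
      intro i hi
      rw [union_empty] at hi
      have := hsup i
      rw [ha i hi] at this
      exact right_ne_zero_of_mul this
    have e1 : bf (fun i x x' => if i ∈ S then (uk q π i (y i) x - π i x) *
        (uk q π i (y i) x' - π i x')
        else (C1 * (s i * (q i * q i))) * vk π i x x' + π i x * π i x') F F =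
        (∏ i ∈ S, (q i) ^ 2) * en π (fun i => C1 * (s i * (q i * q i)))
          (ten (Hk π S ∅ a) F) := by
      rw [en_Hk π hπ1, ← bf_scale_ite]
      congr 1
      funext i x x'
      by_cases hi : i ∈ S
      · simp only [hi, if_true, ha i hi, uk]
        ring
      · simp only [hi, if_false, notMem_empty]
    rw [e1]
    have h1 := sqrt_en_Hk π hπ hπ1 r0 hr0 hr1 F c hc E hE S ∅ a (disjoint_empty_right S) hsa
    rw [prod_empty, mul_one] at h1
    have h2 := en_mono π hπ hπ1 (fun i => C1 * (s i * (q i * q i))) r0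
      (fun i => mul_nonneg hC1 (mul_nonneg (hs i) (mul_nonneg (hq i) (hq i)))) hC
      (ten (Hk π S ∅ a) F)
    have h3 : en π r0 (ten (Hk π S ∅ a) F) ≤ (∏ i ∈ S, (1 + c i)) ^ 2 * E := by
      have h4 := en_nonneg π hπ hπ1 r0 hr0 (ten (Hk π S ∅ a) F)
      have h5 := pow_le_pow_left₀ (Real.sqrt_nonneg _) h1 2
      rwa [Real.sq_sqrt h4, mul_pow, Real.sq_sqrt hE0] at h5
    calc _ ≤ (∏ i ∈ S, (q i) ^ 2) * ((∏ i ∈ S, (1 + c i)) ^ 2 * E) :=
          mul_le_mul_of_nonneg_left (h2.trans h3) (prod_nonneg fun i _ => sq_nonneg _)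
      _ = (∏ i ∈ S, (q i * (1 + c i)) ^ 2) * E := by
        rw [← mul_assoc, ← prod_pow, ← prod_mul_distrib]
        congr 1
        refine prod_congr rfl fun i _ => ?_
        ring

/-- the moment bound -/
theorem genU (m : ℕ) (C1 C2 : ℝ) (hm : 1 ≤ m) (hC1 : 0 ≤ C1) (hC2 : 0 ≤ C2)
    (hone : OneC m C1 C2) (s q r0 c : ι → ℝ) (hs : ∀ i, 0 ≤ s i) (hs1 : ∀ i, s i ≤ 1)
    (hq : ∀ i, 0 ≤ q i) (hr1 : ∀ i, r0 i ≤ 1) (hc : ∀ i, 0 ≤ c i)
    (hC : ∀ i, s i * (q i * q i) * (C1 + C2 * ((q i * (1 + c i)) ^ 2) ^ (m - 1)) ≤ r0 i)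
    (π : ∀ i, X i → ℝ) (hπ : ∀ i x, 0 ≤ π i x)
    (hπ1 : ∀ i, ∑ x, π i x = 1) (F : (∀ i, X i) → ℝ) (E : ℝ) (hE0 : 0 ≤ E)
    (hE : ∀ (T : Finset ι) (a : ∀ i, X i), (∀ i ∈ T, π i (a i) ≠ 0) →
      en π r0 (restr T a F) ≤ (∏ i ∈ T, c i) ^ 2 * E) :
    (ex (ew s π) fun y => uo q π F y ^ (2 * m)) ≤ E ^ m := by
  have hsq : ∀ i, 0 ≤ s i * (q i * q i) := fun i => mul_nonneg (hs i) (mul_nonneg (hq i) (hq i))
  have hqc : ∀ i, 0 ≤ ((q i * (1 + c i)) ^ 2) ^ (m - 1) := fun i => pow_nonneg (sq_nonneg _) _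
  have hC' : ∀ i, C1 * (s i * (q i * q i)) ≤ r0 i := by
    intro i
    refine le_trans ?_ (hC i)
    have := mul_nonneg (hsq i) (mul_nonneg hC2 (hqc i))
    nlinarith
  have hr0 : ∀ i, 0 ≤ r0 i := fun i => le_trans (mul_nonneg hC1 (hsq i)) (hC' i)
  have hw := ew_nonneg s hs hs1 π hπ
  have hw1 := sum_ew s π hπ1
  refine (gen m C1 C2 hC1 hC2 hone (ew s π) hw hw1 (uo q π F)).trans ?_
  have hBr0 : ∀ S y, 0 ≤ Br (Real.sqrt C1) (ew s π) (uo q π F) univ S y := fun S y =>
    ex_nonneg (ew s π) hw _ fun z => sq_nonneg _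
  have h1 : ∀ S : Finset ι, (ex (ew s π) fun y =>
      Br (Real.sqrt C1) (ew s π) (uo q π F) univ S y ^ m) ≤
      ((∏ i ∈ S, (q i * (1 + c i)) ^ 2) * E) ^ (m - 1) *
        ex (ew s π) fun y => Br (Real.sqrt C1) (ew s π) (uo q π F) univ S y := by
    intro S
    rw [← ex_const_mul]
    unfold ex
    refine sum_le_sum fun y _ => ?_
    by_cases hy : wt (ew s π) y = 0
    · rw [hy]; simp
    · refine mul_le_mul_of_nonneg_left ?_ (wt_nonneg _ hw y)
      have hb := Br_le C1 hC1 s q r0 c hs hq hr1 hc hC' π hπ hπ1 F E hE0 hE S y hy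
      have e : Br (Real.sqrt C1) (ew s π) (uo q π F) univ S y ^ m =
          Br (Real.sqrt C1) (ew s π) (uo q π F) univ S y ^ (m - 1) *
          Br (Real.sqrt C1) (ew s π) (uo q π F) univ S y := by
        rw [← pow_succ]
        congr 1
        omega
      beta_reduce
      rw [e]
      exact mul_le_mul_of_nonneg_right (pow_le_pow_left₀ (hBr0 S y) hb _) (hBr0 S y)
  have h2 : ∑ S : Finset ι, C2 ^ S.card * (ex (ew s π) fun y =>
      Br (Real.sqrt C1) (ew s π) (uo q π F) univ S y ^ m) ≤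
      E ^ (m - 1) * en π (fun i => s i * (q i * q i) *
        (C1 + C2 * ((q i * (1 + c i)) ^ 2) ^ (m - 1))) F := by
    refine (sum_le_sum fun S _ => mul_le_mul_of_nonneg_left (h1 S)
      (pow_nonneg hC2 S.card)).trans (le_of_eq ?_)
    have e1 : en π (fun i => s i * (q i * q i) *
        (C1 + C2 * ((q i * (1 + c i)) ^ 2) ^ (m - 1))) F =
        bf (fun i x x' => (C2 * ((q i * (1 + c i)) ^ 2) ^ (m - 1)) *
          ((s i * (q i * q i)) * vk π i x x') +
          ((C1 * (s i * (q i * q i))) * vk π i x x' + π i x * π i x')) F F := by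
      unfold en
      congr 1
      funext i x x'
      ring
    rw [e1, bf_expand, mul_sum]
    refine sum_congr rfl fun S _ => ?_
    rw [bf_scale_ite (fun i => C2 * ((q i * (1 + c i)) ^ 2) ^ (m - 1))
      (fun i x x' => (s i * (q i * q i)) * vk π i x x')
      (fun i x x' => (C1 * (s i * (q i * q i))) * vk π i x x' + π i x * π i x'),
      ex_Br_uo _ s q π hπ1, Real.sq_sqrt hC1, prod_mul_distrib, prod_const,
      Finset.prod_pow S (m - 1) (fun i => (q i * (1 + c i)) ^ 2), mul_pow]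
    generalize bf (fun i x x' => if i ∈ S then (s i * (q i * q i)) * vk π i x x'
        else (C1 * (s i * (q i * q i))) * vk π i x x' + π i x * π i x') F F = Z
    generalize (∏ i ∈ S, (q i * (1 + c i)) ^ 2) ^ (m - 1) = Z'
    ring
  refine h2.trans ?_
  have h3 := en_mono π hπ hπ1 (fun i => s i * (q i * q i) *
        (C1 + C2 * ((q i * (1 + c i)) ^ 2) ^ (m - 1))) r0 (fun i => mul_nonneg (hsq i)
        (add_nonneg hC1 (mul_nonneg hC2 (hqc i)))) hC F
  have h4 : en π r0 F ≤ E := by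
    have hne : ∀ i, Nonempty (X i) := by
      intro i
      by_contra h
      rw [not_nonempty_iff] at h
      have := hπ1 i
      simp at this
    have := hE ∅ (fun i => (hne i).some) (fun i hi => absurd hi (notMem_empty i))
    rw [prod_empty, one_pow, one_mul] at this
    have e : restr ∅ (fun i => (hne i).some) F = F := by
      funext x
      simp [restr]
    rwa [e] at this
  calc _ ≤ E ^ (m - 1) * E := mul_le_mul_of_nonneg_left (h3.trans h4) (pow_nonneg hE0 _)
    _ = E ^ m := by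
      rw [← pow_succ]
      congr 1
      omega

theorem restr_restr (S T : Finset ι) (a b : ∀ i, X i) (F : (∀ i, X i) → ℝ) :
    restr T b (restr S a F) = restr (S ∪ T) (S.piecewise a b) F := by
  funext y
  unfold restr
  congr 1
  funext i
  by_cases hS : i ∈ S <;> by_cases hT : i ∈ T <;> simp [Finset.piecewise, hS, hT]

/-- weighted Hölder inequality -/
theorem ex_holder {Y : ι → Type} [∀ i, Fintype (Y i)] (w : ∀ i, Y i → ℝ)
    (hw : ∀ i x, 0 ≤ w i x) (f g : (∀ i, Y i) → ℝ) (p q : ℝ) (hpq : p.HolderConjugate q) :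
    (ex w fun y => f y * g y) ≤
      (ex w fun y => |f y| ^ p) ^ (1 / p) * (ex w fun y => |g y| ^ q) ^ (1 / q) := by
  have hp := hpq.pos
  have hq := hpq.symm.pos
  have h := Real.inner_le_Lp_mul_Lq univ (fun y => wt w y ^ (1 / p) * f y)
    (fun y => wt w y ^ (1 / q) * g y) hpq
  have e1 : ∀ y, wt w y ^ (1 / p) * f y * (wt w y ^ (1 / q) * g y) = wt w y * (f y * g y) := by
    intro y
    have h0 := wt_nonneg w hw y
    have : wt w y ^ (1 / p) * wt w y ^ (1 / q) = wt w y := by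
      rw [← Real.rpow_add_of_nonneg h0 (by positivity) (by positivity)]
      have : 1 / p + 1 / q = 1 := by
        have := hpq.inv_add_inv_eq_one
        simpa [one_div] using this
      rw [this, Real.rpow_one]
    calc _ = (wt w y ^ (1 / p) * wt w y ^ (1 / q)) * (f y * g y) := by ring
      _ = _ := by rw [this]
  have e2 : ∀ (p : ℝ) (hp : 0 < p) (f : (∀ i, Y i) → ℝ) (y : ∀ i, Y i),
      |wt w y ^ (1 / p) * f y| ^ p = wt w y * |f y| ^ p := by
    intro p hp f y
    have h0 := wt_nonneg w hw y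
    rw [abs_mul, abs_of_nonneg (Real.rpow_nonneg h0 _), Real.mul_rpow (Real.rpow_nonneg h0 _)
      (abs_nonneg _), ← Real.rpow_mul h0, one_div, inv_mul_cancel₀ hp.ne', Real.rpow_one]
  simp only [e1, e2 p hp, e2 q hq] at h
  exact h

/-- from local norms to local energies -/
theorem locA (m : ℕ) (C1 C2 : ℝ) (hm : 1 ≤ m) (hC1 : 0 ≤ C1) (hC2 : 0 ≤ C2)
    (hone : OneC m C1 C2) (s q c : ι → ℝ) (hs : ∀ i, 0 ≤ s i) (hs1 : ∀ i, s i ≤ 1)
    (hq : ∀ i, 0 ≤ q i) (hq1 : ∀ i, q i ≤ 1) (hc : ∀ i, 1 ≤ c i)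
    (hC : ∀ i, q i * (C1 + C2 * ((q i * (1 + c i)) ^ 2) ^ (m - 1)) ≤ 1)
    (π : ∀ i, X i → ℝ) (hπ : ∀ i x, 0 ≤ π i x)
    (hπ1 : ∀ i, ∑ x, π i x = 1) (F : (∀ i, X i) → ℝ) (B : ℝ) (hB : 0 ≤ B)
    (hF : ∀ (S : Finset ι) (a : ∀ i, X i), (∀ i ∈ S, π i (a i) ≠ 0) →
      (ex (ew s π) (fun y => |uo (fun _ => 1) π (restr S a F) y| ^
        ((2 * m : ℝ) / (2 * m - 1))) ≤ (B * ∏ i ∈ S, c i) ^ ((2 * m : ℝ) / (2 * m - 1))) ∨
      en π (fun i => s i * q i) (restr S a F) ≤ (B * ∏ i ∈ S, c i) ^ 2) :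
    ∀ (S : Finset ι) (a : ∀ i, X i), (∀ i ∈ S, π i (a i) ≠ 0) →
      en π (fun i => s i * q i) (restr S a F) ≤ (B * ∏ i ∈ S, c i) ^ 2 := by
  classical
  set r0 : ι → ℝ := fun i => s i * q i with hr0
  have hr00 : ∀ i, 0 ≤ r0 i := fun i => mul_nonneg (hs i) (hq i)
  have hr01 : ∀ i, r0 i ≤ 1 := fun i => mul_le_one₀ (hs1 i) (hq i) (hq1 i)
  have hcp : ∀ S : Finset ι, 0 < ∏ i ∈ S, c i := fun S =>
    prod_pos fun i _ => lt_of_lt_of_le one_pos (hc i)
  have hne : ∀ i, Nonempty (X i) := by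
    intro i
    by_contra h
    rw [not_nonempty_iff] at h
    have := hπ1 i
    simp at this
  set Z : Finset (Finset ι × (∀ i, X i)) :=
    univ.filter (fun p => ∀ i ∈ p.1, π i (p.2 i) ≠ 0) with hZ
  have hZne : Z.Nonempty := ⟨(∅, fun i => (hne i).some), by simp [hZ]⟩
  obtain ⟨⟨S, a⟩, hSa, hmax⟩ := Finset.exists_max_image Z
    (fun p => en π r0 (restr p.1 p.2 F) / (∏ i ∈ p.1, c i) ^ 2) hZne
  have hsup : ∀ i ∈ S, π i (a i) ≠ 0 := (mem_filter.1 hSa).2
  set E := en π r0 (restr S a F) with hEdef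
  have hE0 : 0 ≤ E := en_nonneg π hπ hπ1 r0 hr00 _
  -- it suffices to bound the maximal quotient
  have hred : E ≤ (B * ∏ i ∈ S, c i) ^ 2 → ∀ (S : Finset ι) (a : ∀ i, X i),
      (∀ i ∈ S, π i (a i) ≠ 0) → en π r0 (restr S a F) ≤ (B * ∏ i ∈ S, c i) ^ 2 := by
    intro hEB S' a' hs'
    have h1 := hmax (S', a') (by simp only [hZ, mem_filter, mem_univ, true_and]; exact hs')
    simp only at h1
    have h2 : E / (∏ i ∈ S, c i) ^ 2 ≤ B ^ 2 := by
      rw [div_le_iff₀ (pow_pos (hcp S) 2), ← mul_pow]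
      exact hEB
    have h3 := h1.trans h2
    rw [div_le_iff₀ (pow_pos (hcp S') 2), ← mul_pow] at h3
    exact h3
  apply hred
  rcases hF S a hsup with h | h
  swap
  · exact h
  -- local energies of `restr S a F`
  have hloc : ∀ (T : Finset ι) (b : ∀ i, X i), (∀ i ∈ T, π i (b i) ≠ 0) →
      en π r0 (restr T b (restr S a F)) ≤ (∏ i ∈ T, c i) ^ 2 * E := by
    intro T b hb
    rw [restr_restr]
    have h1 := hmax (S ∪ T, S.piecewise a b) (by
      simp only [hZ, mem_filter, mem_univ, true_and]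
      intro i hi
      by_cases hiS : i ∈ S
      · rw [Finset.piecewise_eq_of_mem _ _ _ hiS]
        exact hsup i hiS
      · rw [Finset.piecewise_eq_of_notMem _ _ _ hiS]
        exact hb i ((mem_union.1 hi).resolve_left hiS))
    simp only at h1
    rw [div_le_iff₀ (pow_pos (hcp _) 2)] at h1
    refine h1.trans ?_
    have h2 : (∏ i ∈ S ∪ T, c i) ≤ (∏ i ∈ S, c i) * ∏ i ∈ T, c i := by
      rw [← Finset.prod_union_inter]
      have h1' : 1 ≤ ∏ i ∈ S ∩ T, c i := by
        have := Finset.prod_le_prod (s := S ∩ T) (f := fun _ => (1:ℝ)) (g := c)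
          (fun _ _ => zero_le_one) (fun i _ => hc i)
        simpa using this
      exact le_mul_of_one_le_right (hcp _).le h1'
    have h3 : (∏ i ∈ S ∪ T, c i) ^ 2 ≤ (∏ i ∈ S, c i) ^ 2 * (∏ i ∈ T, c i) ^ 2 := by
      rw [← mul_pow]
      exact pow_le_pow_left₀ (hcp _).le h2 2
    calc E / (∏ i ∈ S, c i) ^ 2 * (∏ i ∈ S ∪ T, c i) ^ 2
        ≤ E / (∏ i ∈ S, c i) ^ 2 * ((∏ i ∈ S, c i) ^ 2 * (∏ i ∈ T, c i) ^ 2) :=
          mul_le_mul_of_nonneg_left h3 (div_nonneg hE0 (sq_nonneg _))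
      _ = (∏ i ∈ T, c i) ^ 2 * E := by
        have := (hcp S).ne'
        field_simp
  -- the moment bound
  have hmom := genU m C1 C2 hm hC1 hC2 hone s q r0 c hs hs1 hq hr01
    (fun i => zero_le_one.trans (hc i)) (by
      intro i
      have := mul_le_mul_of_nonneg_left (hC i) (hr00 i)
      simp only [hr0] at this ⊢
      calc _ = s i * q i * (q i * (C1 + C2 * ((q i * (1 + c i)) ^ 2) ^ (m - 1))) := by ring
        _ ≤ _ := this
        _ = _ := mul_one _) π hπ hπ1 (restr S a F) E hE0 hloc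
  have hid : E = ex (ew s π) fun y => uo (fun _ => 1) π (restr S a F) y *
      uo q π (restr S a F) y := by
    rw [ex_uo_mul s (fun _ => 1) q π hπ1]
    simp only [one_mul]
    rfl
  have hmr : (1 : ℝ) ≤ m := by exact_mod_cast hm
  have hpq : ((2 * m : ℝ) / (2 * m - 1)).HolderConjugate (2 * m) := by
    rw [Real.holderConjugate_iff]
    constructor
    · rw [one_lt_div (by linarith)]
      linarith
    · field_simp
      ring
  have hw := ew_nonneg s hs hs1 π hπ
  have hhol := ex_holder (ew s π) hw (uo (fun _ => 1) π (restr S a F))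
    (uo q π (restr S a F)) _ _ hpq
  rw [← hid] at hhol
  have hBc : 0 ≤ B * ∏ i ∈ S, c i := mul_nonneg hB (hcp S).le
  have hp0 : 0 < (2 * m : ℝ) / (2 * m - 1) := div_pos (by linarith) (by linarith)
  have h1 : (ex (ew s π) fun y => |uo (fun _ => 1) π (restr S a F) y| ^
      ((2 * m : ℝ) / (2 * m - 1))) ^ (1 / ((2 * m : ℝ) / (2 * m - 1))) ≤ B * ∏ i ∈ S, c i := by
    refine (Real.rpow_le_rpow (ex_nonneg _ hw _ fun y => Real.rpow_nonneg (abs_nonneg _) _) h
      (by positivity)).trans (le_of_eq ?_)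
    rw [← Real.rpow_mul hBc, mul_one_div_cancel hp0.ne', Real.rpow_one]
  have h2 : (ex (ew s π) fun y => |uo q π (restr S a F) y| ^ ((2 * m : ℝ))) ^
      (1 / (2 * m : ℝ)) ≤ Real.sqrt E := by
    have e : ∀ y, |uo q π (restr S a F) y| ^ ((2 * m : ℝ)) = uo q π (restr S a F) y ^ (2 * m) := by
      intro y
      have : (2 * m : ℝ) = ((2 * m : ℕ) : ℝ) := by push_cast; ring
      rw [this, Real.rpow_natCast, Even.pow_abs (even_two_mul m)]
    simp only [e]
    refine (Real.rpow_le_rpow (ex_nonneg _ hw _ fun y => (even_two_mul m).pow_nonneg _) hmom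
      (by positivity)).trans (le_of_eq ?_)
    rw [← Real.rpow_natCast, ← Real.rpow_mul hE0, Real.sqrt_eq_rpow]
    congr 1
    field_simp
  have h3 : E ≤ (B * ∏ i ∈ S, c i) * Real.sqrt E :=
    hhol.trans (mul_le_mul h1 h2 (Real.rpow_nonneg (ex_nonneg _ hw _ fun y =>
      Real.rpow_nonneg (abs_nonneg _) _) _) hBc)
  by_cases hE : E = 0
  · rw [hE]
    exact sq_nonneg _
  · have hEp : 0 < E := lt_of_le_of_ne hE0 (Ne.symm hE)
    have hsE : 0 < Real.sqrt E := Real.sqrt_pos.2 hEp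
    have h4 : Real.sqrt E ≤ B * ∏ i ∈ S, c i := by
      have : Real.sqrt E * Real.sqrt E ≤ (B * ∏ i ∈ S, c i) * Real.sqrt E := by
        rw [Real.mul_self_sqrt hE0]
        exact h3
      exact le_of_mul_le_mul_right this hsE
    calc E = Real.sqrt E ^ 2 := (Real.sq_sqrt hE0).symm
      _ ≤ _ := pow_le_pow_left₀ hsE.le h4 2

/-- from local energies to moments -/
theorem locB (m : ℕ) (C1 C2 : ℝ) (hm : 1 ≤ m) (hC1 : 0 ≤ C1) (hC2 : 0 ≤ C2)
    (hone : OneC m C1 C2) (t r0 c : ι → ℝ) (ht : ∀ i, 0 ≤ t i) (ht1 : ∀ i, t i ≤ 1)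
    (hr01 : ∀ i, r0 i ≤ 1) (hc : ∀ i, 0 ≤ c i)
    (hC : ∀ i, t i * (C1 + C2 * ((1 + c i) ^ 2) ^ (m - 1)) ≤ r0 i)
    (π : ∀ i, X i → ℝ) (hπ : ∀ i x, 0 ≤ π i x)
    (hπ1 : ∀ i, ∑ x, π i x = 1) (F : (∀ i, X i) → ℝ) (B : ℝ)
    (hF : ∀ (S : Finset ι) (a : ∀ i, X i), (∀ i ∈ S, π i (a i) ≠ 0) →
      en π r0 (restr S a F) ≤ (B * ∏ i ∈ S, c i) ^ 2) :
    (ex (ew t π) fun y => uo (fun _ => 1) π F y ^ (2 * m)) ≤ B ^ (2 * m) := by
  have h := genU m C1 C2 hm hC1 hC2 hone t (fun _ => 1) r0 c ht ht1 (fun _ => zero_le_one) hr01 hc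
    (by
      intro i
      simp only [one_mul, mul_one]
      exact hC i) π hπ hπ1 F (B ^ 2) (sq_nonneg B) (by
      intro T a ha
      have := hF T a ha
      rw [mul_pow] at this
      linarith)
  rwa [← pow_mul] at h

end Vale.Agent.P042.TT.Loc
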