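import Vale.Agent.P042.TT.LocGen

set_option autoImplicit false
set_option linter.unusedSectionVars false

/-!
Block LOC of Theorem S2, part 4: noisy energies, erasures.
-/

namespace Vale.Agent.P042.TT.Loc

open Finset

variable {ι : Type} [Fintype ι] [DecidableEq ι]
variable {X : ι → Type} [∀ i, Fintype (X i)] [∀ i, DecidableEq (X i)]

/-- conditional expectation of `F` given the coordinates in `T` -/
noncomputable def cexp (π : ∀ i, X i → ℝ) (T : Finset ι) (F : (∀ i, X i) → ℝ) (x : ∀ i, X i) : ℝ :=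
  ∑ y, wt π y * F (T.piecewise x y)

/-- `E_{T ~ s} E φ(F_T)` -/
noncomputable def Esm (s : ι → ℝ) (π : ∀ i, X i → ℝ) (φ : ℝ → ℝ) (F : (∀ i, X i) → ℝ) : ℝ :=
  ∑ T : Finset ι, (∏ i ∈ T, s i) * (∏ i ∈ univ \ T, (1 - s i)) *
    ex π (fun x => φ (cexp π T F x))

/-- restriction of `F` at the coordinates in `S` -/
def restr (S : Finset ι) (x : ∀ i, X i) (F : (∀ i, X i) → ℝ) (y : ∀ i, X i) : ℝ :=
  F (S.piecewise x y)

/-- covariance kernel -/
noncomputable def vk (π : ∀ i, X i → ℝ) (i : ι) (x x' : X i) : ℝ :=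
  π i x * (if x = x' then 1 else 0) - π i x * π i x'

/-- energy of `F` at rate `r` -/
noncomputable def en (π : ∀ i, X i → ℝ) (r : ι → ℝ) (F : (∀ i, X i) → ℝ) : ℝ :=
  bf (fun i x x' => r i * vk π i x x' + π i x * π i x') F F

/-- energy of the Efron-Stein component `W` -/
noncomputable def nW (π : ∀ i, X i → ℝ) (W : Finset ι) (F : (∀ i, X i) → ℝ) : ℝ :=
  bf (fun i x x' => if i ∈ W then vk π i x x' else π i x * π i x') F F

theorem sum_vk (π : ∀ i, X i → ℝ) (hπ1 : ∀ i, ∑ x, π i x = 1) (i : ι) (x x' : X i) :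
    ∑ z, π i z * (dl π i z x * dl π i z x') = vk π i x x' := by
  have h : ∀ z, π i z * (dl π i z x * dl π i z x') =
      (if z = x then π i z * (if z = x' then 1 else 0) else 0) - (if z = x then π i z * π i x' else 0)
      - (if z = x' then π i z * π i x else 0) + π i z * (π i x * π i x') := by
    intro z
    unfold dl
    split_ifs <;> ring
  rw [sum_congr rfl fun z _ => h z, sum_add_distrib, sum_sub_distrib, sum_sub_distrib,
    sum_ite_eq' univ x, sum_ite_eq' univ x, sum_ite_eq' univ x', ← sum_mul, hπ1]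
  simp only [mem_univ, if_true]
  unfold vk
  ring

theorem nW_nonneg (π : ∀ i, X i → ℝ) (hπ : ∀ i x, 0 ≤ π i x) (hπ1 : ∀ i, ∑ x, π i x = 1)
    (W : Finset ι) (F : (∀ i, X i) → ℝ) : 0 ≤ nW π W F := by
  have h := ex_ten_mul π (fun i z x => if i ∈ W then dl π i z x else π i x)
    (fun i z x => if i ∈ W then dl π i z x else π i x) F F
  have e : (fun i (x x' : X i) => ∑ z, π i z * ((if i ∈ W then dl π i z x else π i x) *
      (if i ∈ W then dl π i z x' else π i x'))) =
      (fun i x x' => if i ∈ W then vk π i x x' else π i x * π i x') := by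
    funext i x x'
    by_cases hi : i ∈ W
    · simp only [hi, if_true]
      exact sum_vk π hπ1 i x x'
    · simp only [hi, if_false]
      rw [← sum_mul, hπ1, one_mul]
  rw [e] at h
  unfold nW
  rw [← h]
  exact ex_nonneg π hπ _ fun y => mul_self_nonneg _

theorem en_expand (π : ∀ i, X i → ℝ) (r : ι → ℝ) (F : (∀ i, X i) → ℝ) :
    en π r F = ∑ W : Finset ι, (∏ i ∈ W, r i) * nW π W F := by
  unfold en nW
  rw [bf_expand]
  refine sum_congr rfl fun W _ => ?_
  exact bf_scale_ite r (vk π) (fun i x x' => π i x * π i x') F F W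

theorem en_nonneg (π : ∀ i, X i → ℝ) (hπ : ∀ i x, 0 ≤ π i x) (hπ1 : ∀ i, ∑ x, π i x = 1)
    (r : ι → ℝ) (hr : ∀ i, 0 ≤ r i) (F : (∀ i, X i) → ℝ) : 0 ≤ en π r F := by
  rw [en_expand]
  exact sum_nonneg fun W _ => mul_nonneg (prod_nonneg fun i _ => hr i) (nW_nonneg π hπ hπ1 W F)

theorem en_mono (π : ∀ i, X i → ℝ) (hπ : ∀ i x, 0 ≤ π i x) (hπ1 : ∀ i, ∑ x, π i x = 1)
    (r r' : ι → ℝ) (hr : ∀ i, 0 ≤ r i) (hrr : ∀ i, r i ≤ r' i) (F : (∀ i, X i) → ℝ) :
    en π r F ≤ en π r' F := by
  rw [en_expand, en_expand]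
  refine sum_le_sum fun W _ => mul_le_mul_of_nonneg_right ?_ (nW_nonneg π hπ hπ1 W F)
  exact prod_le_prod (fun i _ => hr i) fun i _ => hrr i

/-! ### erasures -/

/-- weights of the erasure space -/
noncomputable def ew (s : ι → ℝ) (π : ∀ i, X i → ℝ) (i : ι) : Option (X i) → ℝ
  | none => 1 - s i
  | some a => s i * π i a

/-- kernel of the operator `E + q D` with erasures -/
noncomputable def uk (q : ι → ℝ) (π : ∀ i, X i → ℝ) (i : ι) : Option (X i) → X i → ℝ
  | none, x => π i x
  | some a, x => π i x + q i * dl π i a x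

theorem ew_nonneg (s : ι → ℝ) (hs : ∀ i, 0 ≤ s i) (hs1 : ∀ i, s i ≤ 1) (π : ∀ i, X i → ℝ)
    (hπ : ∀ i x, 0 ≤ π i x) (i : ι) (y : Option (X i)) : 0 ≤ ew s π i y := by
  cases y with
  | none => exact sub_nonneg.2 (hs1 i)
  | some a => exact mul_nonneg (hs i) (hπ i a)

theorem sum_ew (s : ι → ℝ) (π : ∀ i, X i → ℝ) (hπ1 : ∀ i, ∑ x, π i x = 1) (i : ι) :
    ∑ y, ew s π i y = 1 := by
  rw [Fintype.sum_option]
  simp only [ew]
  rw [← mul_sum, hπ1]
  ring

theorem sum_ew_uk (s q : ι → ℝ) (π : ∀ i, X i → ℝ) (hπ1 : ∀ i, ∑ x, π i x = 1) (i : ι)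
    (x : X i) : ∑ y, ew s π i y * uk q π i y x = π i x := by
  rw [Fintype.sum_option]
  simp only [ew, uk]
  have h : ∀ a, s i * π i a * (π i x + q i * dl π i a x) =
      s i * π i x * π i a + s i * q i * (π i a * dl π i a x) := by
    intro a; ring
  rw [sum_congr rfl fun a _ => h a, sum_add_distrib, ← mul_sum, ← mul_sum, hπ1, sum_dl π hπ1]
  ring

theorem sum_ew_uk_uk (s q q' : ι → ℝ) (π : ∀ i, X i → ℝ) (hπ1 : ∀ i, ∑ x, π i x = 1) (i : ι)
    (x x' : X i) : ∑ y, ew s π i y * (uk q π i y x * uk q' π i y x') =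
      s i * (q i * q' i) * vk π i x x' + π i x * π i x' := by
  rw [Fintype.sum_option]
  simp only [ew, uk]
  have h : ∀ a, s i * π i a * ((π i x + q i * dl π i a x) * (π i x' + q' i * dl π i a x')) =
      s i * (π i x * π i x') * π i a + s i * q i * π i x' * (π i a * dl π i a x) +
      s i * q' i * π i x * (π i a * dl π i a x') +
      s i * (q i * q' i) * (π i a * (dl π i a x * dl π i a x')) := by
    intro a; ring
  rw [sum_congr rfl fun a _ => h a, sum_add_distrib, sum_add_distrib, sum_add_distrib,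
    ← mul_sum, ← mul_sum, ← mul_sum, ← mul_sum, hπ1, sum_dl π hπ1, sum_dl π hπ1,
    sum_vk π hπ1]
  ring

/-- the operator with erasures; `q = 1` gives the conditional expectation -/
noncomputable def uo (q : ι → ℝ) (π : ∀ i, X i → ℝ) (F : (∀ i, X i) → ℝ) :
    (∀ i, Option (X i)) → ℝ := ten (uk q π) F

theorem ex_uo_mul (s q q' : ι → ℝ) (π : ∀ i, X i → ℝ) (hπ1 : ∀ i, ∑ x, π i x = 1)
    (F : (∀ i, X i) → ℝ) :
    (ex (ew s π) fun y => uo q π F y * uo q' π F y) = en π (fun i => s i * (q i * q' i)) F := by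
  unfold uo en
  rw [ex_ten_mul]
  congr 1
  funext i x x'
  exact sum_ew_uk_uk s q q' π hπ1 i x x'

/-- masking -/
def mask (T : Finset ι) (x : ∀ i, X i) (i : ι) : Option (X i) := if i ∈ T then some (x i) else none

theorem ex_mask (s : ι → ℝ) (π : ∀ i, X i → ℝ) (hπ1 : ∀ i, ∑ x, π i x = 1)
    (ψ : (∀ i, Option (X i)) → ℝ) :
    ex (ew s π) ψ = ∑ T : Finset ι, (∏ i ∈ T, s i) * (∏ i ∈ univ \ T, (1 - s i)) *
      ex π (fun x => ψ (mask T x)) := by
  set w0 : ∀ i, Option (X i) → ℝ := fun i y => match y with | none => 1 | some _ => 0 with hw0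
  set w1 : ∀ i, Option (X i) → ℝ := fun i y => match y with | none => 0 | some a => π i a with hw1
  have h1 : ∀ T : Finset ι, ex π (fun x => ψ (mask T x)) =
      ex (fun i y => if i ∈ T then w1 i y else w0 i y) ψ := by
    intro T
    have e1 : (fun x : (∀ i, X i) => ψ (mask T x)) =
        ten (fun i (x : X i) (y : Option (X i)) => if (if i ∈ T then some x else none) = y then (1:ℝ)
          else 0) ψ := by
      funext x
      unfold ten
      rw [Finset.sum_eq_single (mask T x)]
      · rw [Finset.prod_eq_one, one_mul]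
        intro i _
        simp [mask]
      · intro y _ hy
        obtain ⟨i, hi⟩ := Function.ne_iff.1 hy
        have : (∏ i, if (if i ∈ T then some (x i) else none) = y i then (1:ℝ) else 0) = 0 := by
          apply Finset.prod_eq_zero (mem_univ i)
          rw [if_neg]
          intro h'
          exact hi h'.symm
        rw [this, zero_mul]
      · intro h'
        exact absurd (mem_univ _) h'
    rw [e1, ex_ten]
    congr 1
    funext i y
    by_cases hi : i ∈ T
    · simp only [hi, if_true, mul_ite, mul_one, mul_zero]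
      cases y with
      | none => simp [hw1]
      | some a => simp [hw1]
    · simp only [hi, if_false, mul_ite, mul_one, mul_zero]
      cases y with
      | none => simp [hw0, hπ1]
      | some a => simp [hw0]
  simp only [h1]
  unfold ex wt
  simp only [mul_sum]
  rw [sum_comm]
  refine sum_congr rfl fun y _ => ?_
  have h2 : ∏ i, ew s π i (y i) = ∏ i, (s i * w1 i (y i) + (1 - s i) * w0 i (y i)) := by
    refine prod_congr rfl fun i _ => ?_
    cases y i with
    | none => simp [ew, hw0, hw1]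
    | some a => simp [ew, hw0, hw1]
  rw [h2, Finset.prod_add, powerset_univ, sum_mul]
  refine sum_congr rfl fun T _ => ?_
  have h3 : ∏ i, (if i ∈ T then w1 i (y i) else w0 i (y i)) =
      (∏ i ∈ T, w1 i (y i)) * ∏ i ∈ univ \ T, w0 i (y i) := by
    rw [Finset.prod_ite]
    congr 1
    · congr 1; ext i; simp
    · congr 1; ext i; simp
  rw [h3, prod_mul_distrib, prod_mul_distrib]
  ring

theorem uo_one_mask (π : ∀ i, X i → ℝ) (hπ1 : ∀ i, ∑ x, π i x = 1) (F : (∀ i, X i) → ℝ)
    (T : Finset ι) (x : ∀ i, X i) : uo (fun _ => 1) π F (mask T x) = cexp π T F x := by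
  have e1 : cexp π T F x = ex π (ten (fun i (y z : X i) =>
      if (if i ∈ T then x i else y) = z then (1:ℝ) else 0) F) := by
    unfold cexp ex
    refine sum_congr rfl fun y _ => ?_
    congr 1
    unfold ten
    rw [Finset.sum_eq_single (T.piecewise x y)]
    · rw [Finset.prod_eq_one, one_mul]
      intro i _
      simp [Finset.piecewise]
    · intro z _ hz
      obtain ⟨i, hi⟩ := Function.ne_iff.1 hz
      have : (∏ i, if (if i ∈ T then x i else y i) = z i then (1:ℝ) else 0) = 0 := by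
        apply Finset.prod_eq_zero (mem_univ i)
        rw [if_neg]
        intro h'
        apply hi
        rw [← h']
        simp [Finset.piecewise]
      rw [this, zero_mul]
    · intro h'
      exact absurd (mem_univ _) h'
  rw [e1, ex_ten]
  unfold uo ten ex wt
  refine sum_congr rfl fun z _ => ?_
  congr 1
  refine prod_congr rfl fun i _ => ?_
  by_cases hi : i ∈ T
  · simp only [mask, hi, if_true, uk, dl]
    rw [← sum_mul, hπ1]
    ring
  · simp only [mask, hi, if_false, uk, mul_ite, mul_one, mul_zero]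
    simp

/-- `Esm` as an expectation on the erasure space -/
theorem Esm_eq (s : ι → ℝ) (π : ∀ i, X i → ℝ) (hπ1 : ∀ i, ∑ x, π i x = 1) (φ : ℝ → ℝ)
    (F : (∀ i, X i) → ℝ) :
    Esm s π φ F = ex (ew s π) (fun y => φ (uo (fun _ => 1) π F y)) := by
  rw [ex_mask s π hπ1]
  unfold Esm
  simp only [uo_one_mask π hπ1]

theorem Esm_sq (s : ι → ℝ) (π : ∀ i, X i → ℝ) (hπ1 : ∀ i, ∑ x, π i x = 1)
    (F : (∀ i, X i) → ℝ) :
    Esm s π (fun t => t ^ 2) F = en π s F := by
  rw [Esm_eq s π hπ1]
  have h := ex_uo_mul s (fun _ => 1) (fun _ => 1) π hπ1 F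
  simp only [mul_one] at h
  rw [← h]
  congr 1
  funext y
  ring

end Vale.Agent.P042.TT.Loc
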