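import Vale.Agent.P042.TT.LocTen

set_option autoImplicit false
set_option linter.unusedSectionVars false

/-!
Block LOC of Theorem S2, part 3: the general hypercontractive inequality on product spaces.
-/

namespace Vale.Agent.P042.TT.Loc

open Finset

variable {ι : Type} [Fintype ι] [DecidableEq ι]
variable {Y : ι → Type} [∀ i, Fintype (Y i)] [∀ i, DecidableEq (Y i)]

theorem wt_update (w : ∀ i, Y i → ℝ) (y : ∀ i, Y i) (n : ι) (a : Y n) :
    wt w (Function.update y n a) = w n a * ∏ i ∈ univ.erase n, w i (y i) := by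
  unfold wt
  rw [← Finset.mul_prod_erase univ _ (mem_univ n), Function.update_self]
  congr 1
  refine prod_congr rfl fun i hi => ?_
  rw [Function.update_of_ne (ne_of_mem_erase hi)]

theorem ex_update (w : ∀ i, Y i → ℝ) (hw1 : ∀ i, ∑ x, w i x = 1) (n : ι)
    (φ : (∀ i, Y i) → ℝ) :
    ex w (fun y => ∑ a, w n a * φ (Function.update y n a)) = ex w φ := by
  unfold ex
  have e1 : ∑ y, wt w y * ∑ a, w n a * φ (Function.update y n a) =
      ∑ p : (∀ i, Y i) × Y n, wt w p.1 * w n p.2 * φ (Function.update p.1 n p.2) := by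
    rw [Fintype.sum_prod_type]
    refine sum_congr rfl fun y _ => ?_
    rw [mul_sum]
    refine sum_congr rfl fun a _ => ?_
    ring
  have e2 : ∑ y, wt w y * φ y = ∑ p : (∀ i, Y i) × Y n, wt w p.1 * w n p.2 * φ p.1 := by
    rw [Fintype.sum_prod_type]
    refine sum_congr rfl fun y _ => ?_
    have : ∑ a, wt w y * w n a * φ y = (wt w y * φ y) * ∑ a, w n a := by
      rw [mul_sum]
      refine sum_congr rfl fun a _ => ?_
      ring
    rw [this, hw1, mul_one]
  rw [e1, e2]
  let e : (∀ i, Y i) × Y n ≃ (∀ i, Y i) × Y n :=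
    { toFun := fun p => (Function.update p.1 n p.2, p.1 n)
      invFun := fun p => (Function.update p.1 n p.2, p.1 n)
      left_inv := by
        intro p
        simp
      right_inv := by
        intro p
        simp }
  refine Fintype.sum_equiv e _ _ ?_
  intro p
  show wt w p.1 * w n p.2 * φ (Function.update p.1 n p.2) =
    wt w (Function.update p.1 n p.2) * w n (p.1 n) * φ (Function.update p.1 n p.2)
  rw [wt_update]
  have : wt w p.1 = w n (p.1 n) * ∏ i ∈ univ.erase n, w i (p.1 i) := by
    unfold wt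
    rw [← Finset.mul_prod_erase univ _ (mem_univ n)]
  rw [this]
  ring

theorem ex_nonneg (w : ∀ i, Y i → ℝ) (hw : ∀ i x, 0 ≤ w i x) (f : (∀ i, Y i) → ℝ)
    (hf : ∀ y, 0 ≤ f y) : 0 ≤ ex w f :=
  sum_nonneg fun y _ => mul_nonneg (wt_nonneg w hw y) (hf y)

theorem ex_mono (w : ∀ i, Y i → ℝ) (hw : ∀ i x, 0 ≤ w i x) (f g : (∀ i, Y i) → ℝ)
    (hf : ∀ y, f y ≤ g y) : ex w f ≤ ex w g :=
  sum_le_sum fun y _ => mul_le_mul_of_nonneg_left (hf y) (wt_nonneg w hw y)

theorem ex_const_mul (w : ∀ i, Y i → ℝ) (c : ℝ) (f : (∀ i, Y i) → ℝ) :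
    ex w (fun y => c * f y) = c * ex w f := by
  unfold ex
  rw [mul_sum]
  refine sum_congr rfl fun y _ => ?_
  ring

theorem ex_add (w : ∀ i, Y i → ℝ) (f g : (∀ i, Y i) → ℝ) :
    ex w (fun y => f y + g y) = ex w f + ex w g := by
  unfold ex
  rw [← sum_add_distrib]
  refine sum_congr rfl fun y _ => ?_
  ring

theorem ex_sum {α : Type} (s : Finset α) (w : ∀ i, Y i → ℝ) (f : α → (∀ i, Y i) → ℝ) :
    ex w (fun y => ∑ a ∈ s, f a y) = ∑ a ∈ s, ex w (f a) := by
  unfold ex
  simp only [mul_sum]
  exact sum_comm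

theorem ex_const (w : ∀ i, Y i → ℝ) (hw1 : ∀ i, ∑ x, w i x = 1) (c : ℝ) :
    ex w (fun _ => c) = c := by
  unfold ex
  rw [← sum_mul, sum_wt w hw1, one_mul]

theorem ex_cs (w : ∀ i, Y i → ℝ) (hw : ∀ i x, 0 ≤ w i x) (f g : (∀ i, Y i) → ℝ) :
    (ex w fun y => f y * g y) ^ 2 ≤ (ex w fun y => f y ^ 2) * ex w fun y => g y ^ 2 := by
  have h := Finset.sum_mul_sq_le_sq_mul_sq univ (fun y => Real.sqrt (wt w y) * f y)
    (fun y => Real.sqrt (wt w y) * g y)
  have e : ∀ y : (∀ i, Y i), Real.sqrt (wt w y) * Real.sqrt (wt w y) = wt w y := fun y =>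
    Real.mul_self_sqrt (wt_nonneg w hw y)
  unfold ex
  have e1 : ∀ y : (∀ i, Y i), Real.sqrt (wt w y) * f y * (Real.sqrt (wt w y) * g y) =
      wt w y * (f y * g y) := by
    intro y
    calc _ = (Real.sqrt (wt w y) * Real.sqrt (wt w y)) * (f y * g y) := by ring
      _ = _ := by rw [e]
  have e2 : ∀ (f : (∀ i, Y i) → ℝ) (y : (∀ i, Y i)), (Real.sqrt (wt w y) * f y) ^ 2 =
      wt w y * f y ^ 2 := by
    intro f y
    rw [mul_pow, Real.sq_sqrt (wt_nonneg w hw y)]
  simp only [e1, e2] at h
  exact h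

/-- centred point mass -/
noncomputable def dl (w : ∀ i, Y i → ℝ) (i : ι) (y x : Y i) : ℝ := (if y = x then 1 else 0) - w i x

theorem sum_dl (w : ∀ i, Y i → ℝ) (hw1 : ∀ i, ∑ x, w i x = 1) (i : ι) (x : Y i) :
    ∑ y, w i y * dl w i y x = 0 := by
  unfold dl
  simp only [mul_sub, sum_sub_distrib, ← sum_mul, hw1]
  simp

/-- kernels of the partially processed function -/
noncomputable def kap (r : ℝ) (w : ∀ i, Y i → ℝ) (U S : Finset ι) (y : ∀ i, Y i) (i : ι)
    (z x : Y i) : ℝ :=
  if i ∈ S then dl w i (y i) x else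
    if i ∈ U then w i x + r * dl w i z x else (if y i = x then 1 else 0)

/-- local energy -/
noncomputable def Br (r : ℝ) (w : ∀ i, Y i → ℝ) (h : (∀ i, Y i) → ℝ) (U S : Finset ι)
    (y : ∀ i, Y i) : ℝ :=
  ex w fun z => ten (kap r w U S y) h z ^ 2

/-- contraction at the coordinate `n` -/
noncomputable def tn (k : ∀ i, Y i → Y i → ℝ) (n : ι) (h : (∀ i, Y i) → ℝ) (u : Y n → ℝ)
    (z : ∀ i, Y i) : ℝ :=
  ∑ x, (u (x n) * ∏ i ∈ univ.erase n, k i (z i) (x i)) * h x

theorem ten_eq_tn (k k' : ∀ i, Y i → Y i → ℝ) (n : ι) (h : (∀ i, Y i) → ℝ) (u : Y n → ℝ)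
    (z : ∀ i, Y i) (hk : ∀ i, i ≠ n → ∀ x, k' i (z i) x = k i (z i) x)
    (hu : ∀ x, k' n (z n) x = u x) : ten k' h z = tn k n h u z := by
  unfold ten tn
  refine sum_congr rfl fun x _ => ?_
  rw [← Finset.mul_prod_erase univ _ (mem_univ n), hu]
  congr 2
  refine prod_congr rfl fun i hi => ?_
  rw [hk i (ne_of_mem_erase hi)]

theorem tn_update (k : ∀ i, Y i → Y i → ℝ) (n : ι) (h : (∀ i, Y i) → ℝ) (u : Y n → ℝ)
    (z : ∀ i, Y i) (b : Y n) : tn k n h u (Function.update z n b) = tn k n h u z := by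
  unfold tn
  refine sum_congr rfl fun x _ => ?_
  congr 2
  refine prod_congr rfl fun i hi => ?_
  rw [Function.update_of_ne (ne_of_mem_erase hi)]

theorem tn_lin (k : ∀ i, Y i → Y i → ℝ) (n : ι) (h : (∀ i, Y i) → ℝ) (u v : Y n → ℝ) (r : ℝ)
    (z : ∀ i, Y i) : tn k n h (fun x => u x + r * v x) z = tn k n h u z + r * tn k n h v z := by
  unfold tn
  rw [mul_sum, ← sum_add_distrib]
  refine sum_congr rfl fun x _ => ?_
  ring

theorem tn_sum (k : ∀ i, Y i → Y i → ℝ) (n : ι) (h : (∀ i, Y i) → ℝ) (w : Y n → ℝ)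
    (v : Y n → Y n → ℝ) (z : ∀ i, Y i) :
    ∑ b, w b * tn k n h (v b) z = tn k n h (fun x => ∑ b, w b * v b x) z := by
  unfold tn
  simp only [mul_sum, sum_mul]
  rw [sum_comm]
  refine sum_congr rfl fun x _ => sum_congr rfl fun b _ => ?_
  ring

/-- one step of the induction -/
theorem gen_step (m : ℕ) (C1 C2 : ℝ) (hC1 : 0 ≤ C1) (hone : OneC m C1 C2)
    (w : ∀ i, Y i → ℝ) (hw : ∀ i x, 0 ≤ w i x) (hw1 : ∀ i, ∑ x, w i x = 1)
    (h : (∀ i, Y i) → ℝ) (U S : Finset ι) (n : ι) (hn : n ∉ U) (hS : S ⊆ U) :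
    (ex w fun y => Br (Real.sqrt C1) w h U S y ^ m) ≤
      (ex w fun y => Br (Real.sqrt C1) w h (insert n U) S y ^ m) +
      C2 * ex w fun y => Br (Real.sqrt C1) w h (insert n U) (insert n S) y ^ m := by
  have hnS : n ∉ S := fun h' => hn (hS h')
  set r := Real.sqrt C1 with hr
  have hr2 : r ^ 2 = C1 := Real.sq_sqrt hC1
  rw [← ex_update w hw1 n (fun y => Br r w h U S y ^ m),
    ← ex_update w hw1 n (fun y => Br r w h (insert n U) (insert n S) y ^ m), ← ex_const_mul,
    ← ex_add]
  refine ex_mono w hw _ _ fun y => ?_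
  set k := kap r w U S y with hk
  set T : (Y n → ℝ) → (∀ i, Y i) → ℝ := tn k n h with hT
  -- the three kinds of functions
  have h1 : ∀ a z, ten (kap r w U S (Function.update y n a)) h z =
      T (fun x => w n x + 1 * dl w n a x) z := by
    intro a z
    refine ten_eq_tn k _ n h _ z ?_ ?_
    · intro i hi x
      simp only [hk, kap, Function.update_of_ne hi]
    · intro x
      simp only [kap, hn, hnS, if_false, Function.update_self, dl]
      ring
  have h2 : ∀ z, ten (kap r w (insert n U) S y) h z =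
      T (fun x => w n x + r * dl w n (z n) x) z := by
    intro z
    refine ten_eq_tn k _ n h _ z ?_ ?_
    · intro i hi x
      simp only [hk, kap, mem_insert, hi, false_or]
    · intro x
      simp only [kap, hnS, if_false, mem_insert_self, if_true]
  have h3 : ∀ a z, ten (kap r w (insert n U) (insert n S) (Function.update y n a)) h z =
      T (dl w n a) z := by
    intro a z
    refine ten_eq_tn k _ n h _ z ?_ ?_
    · intro i hi x
      simp only [hk, kap, mem_insert, hi, false_or, Function.update_of_ne hi]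
    · intro x
      simp only [kap, mem_insert_self, if_true, Function.update_self]
  have hT0 : ∀ z, ∑ b, w n b * T (dl w n b) z = 0 := by
    intro z
    rw [hT, tn_sum]
    simp only [sum_dl w hw1]
    unfold tn
    simp
  set A : ℝ := ex w fun z => T (w n) z ^ 2 with hA
  set b : Y n → ℝ := fun a => 2 * ex w fun z => T (w n) z * T (dl w n a) z with hb
  set c : Y n → ℝ := fun a => ex w fun z => T (dl w n a) z ^ 2 with hc
  have hA0 : 0 ≤ A := ex_nonneg w hw _ fun z => sq_nonneg _
  have hc0 : ∀ a, 0 ≤ c a := fun a => ex_nonneg w hw _ fun z => sq_nonneg _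
  have hbc : ∀ a, b a ^ 2 ≤ 4 * A * c a := by
    intro a
    have := ex_cs w hw (fun z => T (w n) z) (fun z => T (dl w n a) z)
    simp only [hb, mul_pow]
    nlinarith [this]
  have hb0 : ∑ a, w n a * b a = 0 := by
    have : ∑ a, w n a * b a = 2 * ex w fun z => T (w n) z * ∑ a, w n a * T (dl w n a) z := by
      simp only [hb, mul_sum]
      rw [ex_sum, mul_sum]
      refine sum_congr rfl fun a _ => ?_
      have : (ex w fun z => T (w n) z * (w n a * T (dl w n a) z)) =
          w n a * ex w fun z => T (w n) z * T (dl w n a) z := by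
        rw [← ex_const_mul]
        congr 1
        funext z
        ring
      rw [this]
      ring
    rw [this]
    simp only [hT0, mul_zero]
    unfold ex
    simp
  have e1 : ∀ a, Br r w h U S (Function.update y n a) = A + b a + c a := by
    intro a
    unfold Br
    simp only [h1]
    have : ∀ z, T (fun x => w n x + 1 * dl w n a x) z ^ 2 =
        (T (w n) z ^ 2 + 2 * (T (w n) z * T (dl w n a) z)) + T (dl w n a) z ^ 2 := by
      intro z
      rw [hT, tn_lin]
      ring
    simp only [this]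
    rw [ex_add, ex_add, ex_const_mul]
  have e2 : Br r w h (insert n U) S y = A + C1 * ∑ a, w n a * c a := by
    unfold Br
    simp only [h2]
    rw [← ex_update w hw1 n]
    have : ∀ z, ∑ a, w n a * (T (fun x => w n x + r * dl w n ((Function.update z n a) n) x)
        (Function.update z n a)) ^ 2 =
        T (w n) z ^ 2 + C1 * ∑ a, w n a * T (dl w n a) z ^ 2 := by
      intro z
      have s1 : ∀ a, w n a * (T (fun x => w n x + r * dl w n ((Function.update z n a) n) x)
        (Function.update z n a)) ^ 2 =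
          w n a * T (w n) z ^ 2 + 2 * r * T (w n) z * (w n a * T (dl w n a) z) +
          C1 * (w n a * T (dl w n a) z ^ 2) := by
        intro a
        rw [hT, tn_update, tn_lin, Function.update_self, ← hr2]
        ring
      rw [sum_congr rfl fun a _ => s1 a, sum_add_distrib, sum_add_distrib, ← sum_mul, hw1,
        ← mul_sum, hT0, ← mul_sum]
      ring
    simp only [this]
    rw [ex_add, ex_const_mul, ex_sum]
    congr 2
    refine sum_congr rfl fun a _ => ?_
    rw [ex_const_mul]
  have e3 : ∀ a, Br r w h (insert n U) (insert n S) (Function.update y n a) = c a := by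
    intro a
    unfold Br
    simp only [h3, hc]
  simp only [e1, e2, e3]
  have := hone (Y n) (w n) b c A (hw n) (hw1 n) hA0 hc0 hbc hb0
  exact this

/-- the hypercontractive inequality -/
theorem gen (m : ℕ) (C1 C2 : ℝ) (hC1 : 0 ≤ C1) (hC2 : 0 ≤ C2) (hone : OneC m C1 C2)
    (w : ∀ i, Y i → ℝ) (hw : ∀ i x, 0 ≤ w i x) (hw1 : ∀ i, ∑ x, w i x = 1)
    (h : (∀ i, Y i) → ℝ) :
    (ex w fun y => h y ^ (2 * m)) ≤
      ∑ S : Finset ι, C2 ^ S.card * ex w fun y => Br (Real.sqrt C1) w h univ S y ^ m := by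
  have key : ∀ U : Finset ι, (ex w fun y => h y ^ (2 * m)) ≤
      ∑ S ∈ U.powerset, C2 ^ S.card * ex w fun y => Br (Real.sqrt C1) w h U S y ^ m := by
    intro U
    induction U using Finset.induction_on with
    | empty =>
      simp only [powerset_empty, sum_singleton, card_empty, pow_zero, one_mul]
      apply le_of_eq
      congr 1
      funext y
      have : ∀ z, ten (kap (Real.sqrt C1) w ∅ ∅ y) h z = h y := by
        intro z
        unfold ten
        rw [Finset.sum_eq_single y]
        · simp [kap]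
        · intro x _ hx
          obtain ⟨i, hi⟩ := Function.ne_iff.1 hx
          have : (∏ i, kap (Real.sqrt C1) w ∅ ∅ y i (z i) (x i)) = 0 := by
            apply Finset.prod_eq_zero (mem_univ i)
            simp only [kap, notMem_empty, if_false]
            rw [if_neg]
            exact fun h' => hi h'.symm
          rw [this, zero_mul]
        · intro h'
          exact absurd (mem_univ y) h'
      unfold Br
      simp only [this]
      rw [ex_const w hw1]
      ring
    | insert n U hn ih =>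
      refine ih.trans ?_
      rw [Finset.sum_powerset_insert hn, ← sum_add_distrib]
      refine sum_le_sum fun S hS => ?_
      have hS' := mem_powerset.1 hS
      have hnS : n ∉ S := fun h' => hn (hS' h')
      have := gen_step m C1 C2 hC1 hone w hw hw1 h U S n hn hS'
      have h2 := mul_le_mul_of_nonneg_left this (pow_nonneg hC2 S.card)
      rw [card_insert_of_notMem hnS, pow_succ]
      linarith
  have := key univ
  rwa [powerset_univ] at this

end Vale.Agent.P042.TT.Loc
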