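import Vale.Agent.P042.MathlibUsed

set_option autoImplicit false

/-!
Block LOC of Theorem S2, part 1: the one-coordinate inequality.
-/

namespace Vale.Agent.P042.TT.Loc

open Finset

/-- pointwise form of the one-coordinate inequality -/
theorem one_pt (m : ℕ) (A b c : ℝ) (hA : 0 ≤ A) (hc : 0 ≤ c) (hb : b ^ 2 ≤ 4 * A * c) :
    (A + b + c) ^ (m + 1) - A ^ (m + 1) - (m + 1) * A ^ m * b ≤
      8 ^ (m + 1) * (A ^ m * c + c ^ (m + 1)) := by
  have hs : 0 ≤ A + b + c := by nlinarith [sq_nonneg (A - c), sq_nonneg (A + b + c)]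
  have hs2 : A + b + c ≤ 2 * (A + c) := by
    have : b ≤ A + c := by
      by_contra h
      push Not at h
      nlinarith [sq_nonneg (A - c)]
    linarith
  induction m with
  | zero =>
    simp only [zero_add, pow_one, Nat.cast_zero, pow_zero, mul_one, one_mul]
    linarith
  | succ m ih =>
    have hm : 0 ≤ A ^ m := pow_nonneg hA m
    have hcm : 0 ≤ c ^ m := pow_nonneg hc m
    set T : ℝ := (A + b + c) ^ (m + 1) - A ^ (m + 1) - (m + 1) * A ^ m * b with hT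
    have e1 : (A + b + c) ^ (m + 1 + 1) - A ^ (m + 1 + 1) - ((m + 1 : ℕ) + 1) * A ^ (m + 1) * b =
        (A + b + c) * T + ((m + 1) * A ^ m * b ^ 2 + c * A ^ (m + 1) + (m + 1) * A ^ m * (b * c)) := by
      rw [hT]; push_cast; ring
    rw [e1]
    have hR : 0 ≤ A ^ m * c + c ^ (m + 1) := by positivity
    have h1 : (A + b + c) * T ≤ 2 * (A + c) * (8 ^ (m + 1) * (A ^ m * c + c ^ (m + 1))) := by
      refine (mul_le_mul_of_nonneg_left ih hs).trans ?_
      exact mul_le_mul_of_nonneg_right hs2 (by positivity)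
    have hcheb : A * c ^ (m + 1) + A ^ m * c ^ 2 ≤ A ^ (m + 1) * c + c ^ (m + 2) := by
      have : 0 ≤ (A ^ m - c ^ m) * (A - c) * c := by
        apply mul_nonneg _ hc
        rcases le_total A c with h | h
        · exact mul_nonneg_of_nonpos_of_nonpos
            (sub_nonpos.2 (pow_le_pow_left₀ hA h m)) (sub_nonpos.2 h)
        · exact mul_nonneg (sub_nonneg.2 (pow_le_pow_left₀ hc h m)) (sub_nonneg.2 h)
      have e : (A ^ m - c ^ m) * (A - c) * c =
        (A ^ (m + 1) * c + c ^ (m + 2)) - (A * c ^ (m + 1) + A ^ m * c ^ 2) := by ring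
      linarith
    have h2 : 2 * (A + c) * (8 ^ (m + 1) * (A ^ m * c + c ^ (m + 1))) ≤
        4 * 8 ^ (m + 1) * (A ^ (m + 1) * c + c ^ (m + 2)) := by
      have e : 2 * (A + c) * (8 ^ (m + 1) * (A ^ m * c + c ^ (m + 1))) =
        2 * 8 ^ (m + 1) * ((A ^ (m + 1) * c + c ^ (m + 2)) +
          (A * c ^ (m + 1) + A ^ m * c ^ 2)) := by ring
      rw [e]
      have := mul_le_mul_of_nonneg_left hcheb (by positivity : (0:ℝ) ≤ 2 * 8 ^ (m + 1))
      linarith
    have hbc : b * c ≤ A * c + c ^ 2 := by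
      have : b ≤ A + c := by
        by_contra h
        push Not at h
        nlinarith [sq_nonneg (A - c)]
      nlinarith
    have h3 : (m + 1) * A ^ m * b ^ 2 + c * A ^ (m + 1) + (m + 1) * A ^ m * (b * c) ≤
        (6 * (m + 1) + 1) * (A ^ (m + 1) * c + c ^ (m + 2)) := by
      have i1 : (m + 1) * A ^ m * b ^ 2 ≤ (m + 1) * A ^ m * (4 * A * c) :=
        mul_le_mul_of_nonneg_left hb (by positivity)
      have i2 : (m + 1) * A ^ m * (b * c) ≤ (m + 1) * A ^ m * (A * c + c ^ 2) :=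
        mul_le_mul_of_nonneg_left hbc (by positivity)
      have i3 : 0 ≤ A * c ^ (m + 1) := by positivity
      have i4 : 0 ≤ c ^ (m + 2) := by positivity
      have i5 : 0 ≤ A ^ (m + 1) * c := by positivity
      have i6 : A ^ m * c ^ 2 ≤ A ^ (m + 1) * c + c ^ (m + 2) := by linarith
      have i7 := mul_le_mul_of_nonneg_left i6 (by positivity : (0:ℝ) ≤ (m:ℝ) + 1)
      have e2 : ((m:ℝ) + 1) * A ^ m * (4 * A * c) = 4 * ((m + 1) * (A ^ (m + 1) * c)) := by ring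
      have e3 : ((m:ℝ) + 1) * A ^ m * (A * c + c ^ 2) =
        (m + 1) * (A ^ (m + 1) * c) + (m + 1) * (A ^ m * c ^ 2) := by ring
      have i8 : 0 ≤ ((m:ℝ) + 1) * c ^ (m + 2) := by positivity
      nlinarith
    have h4 : (6 * ((m:ℝ) + 1) + 1) ≤ 4 * 8 ^ (m + 1) := by
      have : ((m:ℝ) + 1) + 1 ≤ 2 ^ (m + 1) := by
        have h := @Nat.lt_two_pow_self (m + 1)
        have : m + 1 + 1 ≤ 2 ^ (m + 1) := h
        exact_mod_cast this
      have h' : (2:ℝ) ^ (m + 1) ≤ 8 ^ (m + 1) := pow_le_pow_left₀ (by norm_num) (by norm_num) _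
      have h'' : (8:ℝ) ≤ 8 ^ (m + 1) := by
        calc (8:ℝ) = 8 ^ 1 := by norm_num
          _ ≤ 8 ^ (m + 1) := pow_le_pow_right₀ (by norm_num) (by omega)
      have h3' : (4:ℝ) ^ (m + 1) * 2 ^ (m + 1) = 8 ^ (m + 1) := by
        rw [← mul_pow]; norm_num
      have h4' : (4:ℝ) ≤ 4 ^ (m + 1) := by
        calc (4:ℝ) = 4 ^ 1 := by norm_num
          _ ≤ 4 ^ (m + 1) := pow_le_pow_right₀ (by norm_num) (by omega)
      have h5' : (4:ℝ) * 2 ^ (m + 1) ≤ 8 ^ (m + 1) := by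
        rw [← h3']
        exact mul_le_mul_of_nonneg_right h4' (by positivity)
      linarith
    have hR2 : 0 ≤ A ^ (m + 1) * c + c ^ (m + 2) := by positivity
    have h5 := mul_le_mul_of_nonneg_right h4 hR2
    have e5 : (8:ℝ) ^ (m + 1 + 1) * (A ^ (m + 1) * c + c ^ (m + 1 + 1)) =
      4 * 8 ^ (m + 1) * (A ^ (m + 1) * c + c ^ (m + 2)) +
      4 * 8 ^ (m + 1) * (A ^ (m + 1) * c + c ^ (m + 2)) := by ring
    rw [e5]
    linarith

/-- the property of the constants `C1, C2` used below -/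
def OneC (m : ℕ) (C1 C2 : ℝ) : Prop :=
  ∀ (α : Type) [Fintype α] (w b c : α → ℝ) (A : ℝ), (∀ a, 0 ≤ w a) → ∑ a, w a = 1 → 0 ≤ A →
    (∀ a, 0 ≤ c a) → (∀ a, b a ^ 2 ≤ 4 * A * c a) → ∑ a, w a * b a = 0 →
    ∑ a, w a * (A + b a + c a) ^ m ≤
      (A + C1 * ∑ a, w a * c a) ^ m + C2 * ∑ a, w a * (c a) ^ m

theorem add_pow_ge (m : ℕ) (A x : ℝ) (hA : 0 ≤ A) (hx : 0 ≤ x) :
    A ^ (m + 1) + A ^ m * x ≤ (A + x) ^ (m + 1) := by
  have h : A ^ m ≤ (A + x) ^ m := pow_le_pow_left₀ hA (by linarith) m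
  calc A ^ (m + 1) + A ^ m * x = A ^ m * (A + x) := by ring
    _ ≤ (A + x) ^ m * (A + x) := mul_le_mul_of_nonneg_right h (by linarith)
    _ = (A + x) ^ (m + 1) := by ring

theorem oneC_crude (m : ℕ) (hm : 1 ≤ m) : OneC m (8 ^ m) (8 ^ m) := by
  intro α _ w b c A hw hw1 hA hc hb hb0
  obtain ⟨m, rfl⟩ : ∃ k, m = k + 1 := ⟨m - 1, by omega⟩
  have h1 : ∀ a, w a * (A + b a + c a) ^ (m + 1) ≤
      w a * A ^ (m + 1) + (m + 1) * A ^ m * (w a * b a) +
        8 ^ (m + 1) * (A ^ m * (w a * c a) + w a * c a ^ (m + 1)) := by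
    intro a
    have := mul_le_mul_of_nonneg_left (one_pt m A (b a) (c a) hA (hc a) (hb a)) (hw a)
    nlinarith [this]
  have h2 := Finset.sum_le_sum (fun a (_ : a ∈ (univ : Finset α)) => h1 a)
  have e : ∑ a, (w a * A ^ (m + 1) + (m + 1) * A ^ m * (w a * b a) +
        8 ^ (m + 1) * (A ^ m * (w a * c a) + w a * c a ^ (m + 1))) =
      A ^ (m + 1) + 8 ^ (m + 1) * (A ^ m * (∑ a, w a * c a) + ∑ a, w a * c a ^ (m + 1)) := by
    rw [sum_add_distrib, sum_add_distrib, ← sum_mul, hw1, ← mul_sum, hb0, ← mul_sum,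
      sum_add_distrib, ← mul_sum]
    ring
  rw [e] at h2
  have hx : 0 ≤ 8 ^ (m + 1) * ∑ a, w a * c a :=
    mul_nonneg (by positivity) (sum_nonneg fun a _ => mul_nonneg (hw a) (hc a))
  have h3 := add_pow_ge m A (8 ^ (m + 1) * ∑ a, w a * c a) hA hx
  calc ∑ a, w a * (A + b a + c a) ^ (m + 1) ≤ _ := h2
    _ = (A ^ (m + 1) + A ^ m * (8 ^ (m + 1) * ∑ a, w a * c a)) +
        8 ^ (m + 1) * ∑ a, w a * c a ^ (m + 1) := by ring
    _ ≤ _ := by linarith

end Vale.Agent.P042.TT.Loc
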