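import Vale.Agent.P042.TT.LocOne

set_option autoImplicit false
set_option linter.unusedSectionVars false

/-!
Block LOC of Theorem S2, part 2: tensor calculus on finite product spaces.
-/

namespace Vale.Agent.P042.TT.Loc

open Finset

variable {ι : Type} [Fintype ι] [DecidableEq ι]

section basic

variable {X Y Z : ι → Type} [∀ i, Fintype (X i)] [∀ i, Fintype (Y i)] [∀ i, Fintype (Z i)]

/-- weight of a point -/
noncomputable def wt (w : ∀ i, X i → ℝ) (x : ∀ i, X i) : ℝ := ∏ i, w i (x i)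

/-- expectation -/
noncomputable def ex (w : ∀ i, X i → ℝ) (f : (∀ i, X i) → ℝ) : ℝ := ∑ x, wt w x * f x

/-- tensor operator with kernels `k i : Y i → X i → ℝ` -/
noncomputable def ten (k : ∀ i, Y i → X i → ℝ) (f : (∀ i, X i) → ℝ) (y : ∀ i, Y i) : ℝ :=
  ∑ x, (∏ i, k i (y i) (x i)) * f x

/-- tensor bilinear form -/
noncomputable def bf (b : ∀ i, X i → X i → ℝ) (f g : (∀ i, X i) → ℝ) : ℝ :=
  ∑ x, ∑ x', (∏ i, b i (x i) (x' i)) * (f x * g x')

theorem prod_sum_pi (F : ∀ i, Y i → ℝ) : ∏ i, ∑ y, F i y = ∑ y : (∀ i, Y i), ∏ i, F i (y i) := by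
  rw [Finset.prod_univ_sum, Fintype.piFinset_univ]

theorem sum_wt (w : ∀ i, X i → ℝ) (hw : ∀ i, ∑ x, w i x = 1) : ∑ x, wt w x = 1 := by
  unfold wt
  rw [← prod_sum_pi]
  simp [hw]

theorem wt_nonneg (w : ∀ i, X i → ℝ) (hw : ∀ i x, 0 ≤ w i x) (x : ∀ i, X i) : 0 ≤ wt w x :=
  prod_nonneg fun i _ => hw i _

theorem ten_ten (k' : ∀ i, Z i → Y i → ℝ) (k : ∀ i, Y i → X i → ℝ) (f : (∀ i, X i) → ℝ)
    (z : ∀ i, Z i) :
    ten k' (ten k f) z = ten (fun i z x => ∑ y, k' i z y * k i y x) f z := by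
  unfold ten
  have h : ∀ x : (∀ i, X i), ∏ i, ∑ y, k' i (z i) y * k i y (x i) =
      ∑ y : (∀ i, Y i), (∏ i, k' i (z i) (y i)) * ∏ i, k i (y i) (x i) := by
    intro x
    rw [prod_sum_pi]
    simp only [prod_mul_distrib]
  simp only [h]
  simp only [mul_sum, sum_mul]
  rw [sum_comm]
  refine sum_congr rfl fun x _ => sum_congr rfl fun y _ => ?_
  ring

theorem ex_ten (w : ∀ i, Y i → ℝ) (k : ∀ i, Y i → X i → ℝ) (f : (∀ i, X i) → ℝ) :
    ex w (ten k f) = ex (fun i x => ∑ y, w i y * k i y x) f := by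
  unfold ex ten wt
  have h : ∀ x : (∀ i, X i), ∏ i, ∑ y, w i y * k i y (x i) =
      ∑ y : (∀ i, Y i), (∏ i, w i (y i)) * ∏ i, k i (y i) (x i) := by
    intro x
    rw [prod_sum_pi]
    simp only [prod_mul_distrib]
  simp only [h]
  simp only [mul_sum, sum_mul]
  rw [sum_comm]
  refine sum_congr rfl fun x _ => sum_congr rfl fun y _ => ?_
  ring

theorem ex_ten_mul (w : ∀ i, Y i → ℝ) (k k' : ∀ i, Y i → X i → ℝ) (f g : (∀ i, X i) → ℝ) :
    ex w (fun y => ten k f y * ten k' g y) =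
      bf (fun i x x' => ∑ y, w i y * (k i y x * k' i y x')) f g := by
  unfold ex ten wt bf
  have h : ∀ x x' : (∀ i, X i), ∏ i, ∑ y, w i y * (k i y (x i) * k' i y (x' i)) =
      ∑ y : (∀ i, Y i), (∏ i, w i (y i)) * ((∏ i, k i (y i) (x i)) *
        ∏ i, k' i (y i) (x' i)) := by
    intro x x'
    rw [prod_sum_pi]
    simp only [prod_mul_distrib]
  have h2 : ∀ y : (∀ i, Y i), (∏ i, w i (y i)) * ((∑ x : (∀ i, X i), (∏ i, k i (y i) (x i)) * f x) *
      (∑ x' : (∀ i, X i), (∏ i, k' i (y i) (x' i)) * g x')) =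
      ∑ x : (∀ i, X i), ∑ x' : (∀ i, X i), (∏ i, w i (y i)) * ((∏ i, k i (y i) (x i)) *
        ∏ i, k' i (y i) (x' i)) * (f x * g x') := by
    intro y
    rw [sum_mul_sum, mul_sum]
    refine sum_congr rfl fun x _ => ?_
    rw [mul_sum]
    refine sum_congr rfl fun x' _ => ?_
    ring
  simp only [h]
  rw [sum_congr rfl fun y _ => h2 y]
  simp only [sum_mul]
  rw [sum_comm]
  refine sum_congr rfl fun x _ => ?_
  rw [sum_comm]

theorem bf_expand (b b' : ∀ i, X i → X i → ℝ) (f g : (∀ i, X i) → ℝ) :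
    bf (fun i x x' => b i x x' + b' i x x') f g =
      ∑ W : Finset ι, bf (fun i x x' => if i ∈ W then b i x x' else b' i x x') f g := by
  unfold bf
  have h : ∀ x x' : (∀ i, X i), ∏ i, (b i (x i) (x' i) + b' i (x i) (x' i)) =
      ∑ W : Finset ι, ∏ i, (if i ∈ W then b i (x i) (x' i) else b' i (x i) (x' i)) := by
    intro x x'
    rw [Finset.prod_add, powerset_univ]
    refine sum_congr rfl fun W _ => ?_
    rw [Finset.prod_ite]
    congr 1
    · congr 1; ext i; simp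
    · congr 1; ext i; simp
  simp only [h, sum_mul]
  exact (sum_congr rfl fun x _ => sum_comm).trans sum_comm

theorem bf_scale (a : ι → ℝ) (b : ∀ i, X i → X i → ℝ) (f g : (∀ i, X i) → ℝ) :
    bf (fun i x x' => a i * b i x x') f g = (∏ i, a i) * bf b f g := by
  unfold bf
  simp only [prod_mul_distrib, mul_sum]
  refine sum_congr rfl fun x _ => sum_congr rfl fun x' _ => ?_
  ring

theorem bf_scale_ite (a : ι → ℝ) (b b' : ∀ i, X i → X i → ℝ) (f g : (∀ i, X i) → ℝ)
    (W : Finset ι) :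
    bf (fun i x x' => if i ∈ W then a i * b i x x' else b' i x x') f g =
      (∏ i ∈ W, a i) * bf (fun i x x' => if i ∈ W then b i x x' else b' i x x') f g := by
  have h : (fun i (x x' : X i) => if i ∈ W then a i * b i x x' else b' i x x') =
      (fun i x x' => (if i ∈ W then a i else 1) * (if i ∈ W then b i x x' else b' i x x')) := by
    funext i x x'
    by_cases hi : i ∈ W <;> simp [hi]
  rw [h, bf_scale]
  congr 1
  rw [Finset.prod_ite_mem, univ_inter]

end basic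

end Vale.Agent.P042.TT.Loc
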