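import Vale.Agent.P042.TT.LowerB

set_option autoImplicit false

/-!
Block LOWER of Theorem S2, part C: the lower bound for the circle method sum.
-/

namespace Vale.Agent.P042.TT

open Polynomial Finset Vale.Agent.P042.SS

theorem lw_dom (a b K : ℝ) (hab : b < a) : ∃ P0 : ℝ, ∀ P : ℝ, P0 ≤ P → K * P ^ b ≤ P ^ a := by
  have h := tendsto_rpow_atTop (sub_pos.2 hab)
  have h2 := (h.eventually_ge_atTop K).and (Filter.eventually_gt_atTop (0 : ℝ))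
  obtain ⟨P0, hP0⟩ := Filter.eventually_atTop.1 h2
  refine ⟨P0, fun P hP => ?_⟩
  obtain ⟨h3, h4⟩ := hP0 P hP
  have h5 : P ^ a = P ^ (a - b) * P ^ b := by
    rw [← Real.rpow_add h4]
    congr 1
    ring
  rw [h5]
  exact mul_le_mul_of_nonneg_right h3 (Real.rpow_nonneg h4.le _)

theorem lw_num : ∃ P0 : ℝ, ∀ P : ℝ, P0 ≤ P → 1 ≤ P ∧ 0 < mu2 P ∧ mu2 P ≤ 1 / 2 ∧
    320 * Real.exp (-(P ^ (0.61 : ℝ))) ≤ Real.exp (-(P ^ (0.1 : ℝ))) ∧
    Real.exp (-(P ^ (0.99 : ℝ))) ≤ 1 / 10 ∧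
    160 * (Real.exp (-(P ^ (0.99 : ℝ))) * ((Q2 P : ℝ) ^ 5 *
      Real.exp (8 * P ^ (0.51 : ℝ)))) ≤ Real.exp (-(P ^ (0.1 : ℝ))) := by
  obtain ⟨A1, h1⟩ := lw_dom 0.1 0 6 (by norm_num)
  obtain ⟨A2, h2⟩ := lw_dom 0.61 0.1 2 (by norm_num)
  obtain ⟨A3, h3⟩ := lw_dom 0.99 0.62 20 (by norm_num)
  obtain ⟨A4, h4⟩ := lw_dom 0.05 0 2 (by norm_num)
  refine ⟨max (max (max A1 A2) (max A3 A4)) 1, fun P hP => ?_⟩
  have hA1 : A1 ≤ P := le_trans (le_trans (le_max_left _ _) (le_max_left _ _)) (le_trans (le_max_left _ _) hP)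
  have hA2 : A2 ≤ P := le_trans (le_trans (le_max_right _ _) (le_max_left _ _)) (le_trans (le_max_left _ _) hP)
  have hA3 : A3 ≤ P := le_trans (le_trans (le_max_left _ _) (le_max_right _ _)) (le_trans (le_max_left _ _) hP)
  have hA4 : A4 ≤ P := le_trans (le_trans (le_max_right _ _) (le_max_right _ _)) (le_trans (le_max_left _ _) hP)
  have hP1 : 1 ≤ P := le_trans (le_max_right _ _) hP
  have hPp : 0 < P := by linarith
  have e1 := h1 P hA1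
  have e2 := h2 P hA2
  have e3 := h3 P hA3
  have e4 := h4 P hA4
  rw [Real.rpow_zero, mul_one] at e1 e4
  have m1 : P ^ (0.51 : ℝ) ≤ P ^ (0.62 : ℝ) := Real.rpow_le_rpow_of_exponent_le hP1 (by norm_num)
  have m2 : P ^ (0.1 : ℝ) ≤ P ^ (0.62 : ℝ) := Real.rpow_le_rpow_of_exponent_le hP1 (by norm_num)
  have hmu : mu2 P = (P ^ (0.05 : ℝ))⁻¹ := by
    unfold mu2
    rw [show (-0.05 : ℝ) = -(0.05 : ℝ) by norm_num, Real.rpow_neg hPp.le]
  have x6 : (6 : ℝ) + 1 ≤ Real.exp 6 := Real.add_one_le_exp 6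
  have hexp6 : (400 : ℝ) ≤ Real.exp 6 := by
    have h := Real.exp_one_gt_d9
    have : Real.exp 6 = Real.exp 1 ^ 6 := by
      rw [← Real.exp_nat_mul]; norm_num
    rw [this]
    calc (400 : ℝ) ≤ 2.718 ^ 6 := by norm_num
      _ ≤ Real.exp 1 ^ 6 := pow_le_pow_left₀ (by norm_num) (by linarith) 6
  refine ⟨hP1, ?_, ?_, ?_, ?_, ?_⟩
  · rw [hmu]; positivity
  · rw [hmu, one_div]
    exact inv_anti₀ (by norm_num) e4
  · have : Real.exp (-(P ^ (0.1 : ℝ))) = Real.exp (P ^ (0.61 : ℝ) - P ^ (0.1 : ℝ)) *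
        Real.exp (-(P ^ (0.61 : ℝ))) := by
      rw [← Real.exp_add]; congr 1; ring
    rw [this]
    refine mul_le_mul_of_nonneg_right ?_ (Real.exp_pos _).le
    calc (320 : ℝ) ≤ Real.exp 6 := by linarith
      _ ≤ _ := Real.exp_le_exp.2 (by linarith)
  · rw [one_div, Real.exp_neg]
    refine inv_anti₀ (by norm_num) ?_
    calc (10 : ℝ) ≤ Real.exp 6 := by linarith
      _ ≤ _ := Real.exp_le_exp.2 (by nlinarith)
  · have hQ : (Q2 P : ℝ) ≤ Real.exp (P ^ (0.62 : ℝ)) := Nat.floor_le (Real.exp_pos _).le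
    have hQ5 : (Q2 P : ℝ) ^ 5 ≤ Real.exp (5 * P ^ (0.62 : ℝ)) := by
      calc (Q2 P : ℝ) ^ 5 ≤ Real.exp (P ^ (0.62 : ℝ)) ^ 5 :=
            pow_le_pow_left₀ (Nat.cast_nonneg _) hQ 5
        _ = _ := by rw [← Real.exp_nat_mul]; norm_num
    have h5 : Real.exp (-(P ^ (0.99 : ℝ))) * ((Q2 P : ℝ) ^ 5 * Real.exp (8 * P ^ (0.51 : ℝ))) ≤
        Real.exp (-(P ^ (0.1 : ℝ)) - 6) := by
      calc _ ≤ Real.exp (-(P ^ (0.99 : ℝ))) * (Real.exp (5 * P ^ (0.62 : ℝ)) *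
            Real.exp (8 * P ^ (0.51 : ℝ))) := by gcongr
        _ = Real.exp (-(P ^ (0.99 : ℝ)) + (5 * P ^ (0.62 : ℝ) + 8 * P ^ (0.51 : ℝ))) := by
          rw [← Real.exp_add, ← Real.exp_add]
        _ ≤ _ := Real.exp_le_exp.2 (by linarith)
    have h6 : Real.exp (-(P ^ (0.1 : ℝ)) - 6) * 400 ≤ Real.exp (-(P ^ (0.1 : ℝ))) := by
      calc _ ≤ Real.exp (-(P ^ (0.1 : ℝ)) - 6) * Real.exp 6 :=
            mul_le_mul_of_nonneg_left hexp6 (Real.exp_pos _).le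
        _ = _ := by rw [← Real.exp_add]; congr 1; ring
    have h7 := (Real.exp_pos (-(P ^ (0.1 : ℝ)) - 6)).le
    linarith

theorem lw_avg {ι : Type} (s : Finset ι) (w : ι → ℝ) (S : ι → ℂ) (q : ι → Prop)
    [DecidablePred q] (T0 B0 : ℝ) (hw : ∀ i ∈ s, 0 ≤ w i) (hsum : ∑ i ∈ s, w i = 1)
    (h1 : ∀ i ∈ s, ¬ q i → T0 ≤ (S i).re) (h2 : ∀ i ∈ s, -B0 ≤ (S i).re) :
    (1 - ∑ i ∈ s.filter q, w i) * T0 - (∑ i ∈ s.filter q, w i) * B0 ≤
      (∑ i ∈ s, ((w i : ℝ) : ℂ) * S i).re := by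
  have hre : (∑ i ∈ s, ((w i : ℝ) : ℂ) * S i).re = ∑ i ∈ s, w i * (S i).re := by
    rw [Complex.re_sum]
    refine sum_congr rfl fun V _ => ?_
    rw [Complex.re_ofReal_mul]
  rw [hre]
  have e1 := Finset.sum_filter_add_sum_filter_not s q (fun i => w i * (S i).re)
  have e2 := Finset.sum_filter_add_sum_filter_not s q w
  rw [hsum] at e2
  rw [← e1]
  have g1 : -((∑ i ∈ s.filter q, w i) * B0) ≤ ∑ i ∈ s.filter q, w i * (S i).re := by
    rw [sum_mul, ← sum_neg_distrib]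
    refine sum_le_sum fun V hV => ?_
    have hV' := (mem_filter.1 hV).1
    have := mul_le_mul_of_nonneg_left (h2 V hV') (hw V hV')
    linarith
  have g2 : (1 - ∑ i ∈ s.filter q, w i) * T0 ≤
      ∑ i ∈ s.filter (fun i => ¬ q i), w i * (S i).re := by
    have : 1 - ∑ i ∈ s.filter q, w i = ∑ i ∈ s.filter (fun i => ¬ q i), w i := by linarith
    rw [this, sum_mul]
    refine sum_le_sum fun V hV => ?_
    have hV' := mem_filter.1 hV
    exact mul_le_mul_of_nonneg_left (h1 V hV'.1 hV'.2) (hw V hV'.1)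
  linarith

theorem lw_end (N' D c1 e61 e99 Q5 bad T0 B0 : ℝ) (hN : 1 ≤ N') (hD : 0 ≤ D) (hc : 0 ≤ c1)
    (h61 : 0 ≤ e61) (hQ5 : 0 ≤ Q5) (n1 : 320 * e61 ≤ c1) (n2 : e99 ≤ 1 / 10)
    (n3 : 160 * (e99 * Q5) ≤ c1) (hb0 : 0 ≤ bad) (hb : bad ≤ e99)
    (hT0 : T0 = 1 / 8 * c1 * N' * D - (3 * N' + 1) * (e61 * D))
    (hB0 : B0 = (3 * N' + 1) * (Q5 * D)) :
    1 / 20 * c1 * N' * D ≤ (1 - bad) * T0 - bad * B0 := by
  have hND : 0 ≤ N' * D := by positivity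
  have h4 : 3 * N' + 1 ≤ 4 * N' := by linarith
  have q1 : (9 / 80) * (c1 * (N' * D)) ≤ T0 := by
    have i1 : (3 * N' + 1) * (e61 * D) ≤ (4 * N') * (e61 * D) :=
      mul_le_mul_of_nonneg_right h4 (by positivity)
    have i2 := mul_le_mul_of_nonneg_right n1 hND
    have i3 : (4 * N') * (e61 * D) = 4 * e61 * (N' * D) := by ring
    have i4 : 1 / 8 * c1 * N' * D = 1 / 8 * (c1 * (N' * D)) := by ring
    rw [hT0, i4]
    linarith
  have q2 : bad * B0 ≤ (1 / 40) * (c1 * (N' * D)) := by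
    have i1 : B0 ≤ (4 * N') * (Q5 * D) := by
      rw [hB0]
      exact mul_le_mul_of_nonneg_right h4 (by positivity)
    have i2 : bad * B0 ≤ e99 * ((4 * N') * (Q5 * D)) :=
      mul_le_mul hb i1 (by rw [hB0]; positivity) (hb0.trans hb)
    have i3 := mul_le_mul_of_nonneg_right n3 hND
    have i4 : e99 * ((4 * N') * (Q5 * D)) = 1 / 40 * (160 * (e99 * Q5) * (N' * D)) := by ring
    rw [i4] at i2
    linarith
  have q4 : 0 ≤ c1 * (N' * D) := mul_nonneg hc hND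
  have q3 : (9 / 10) * ((9 / 80) * (c1 * (N' * D))) ≤ (1 - bad) * T0 :=
    mul_le_mul (by linarith) q1 (by positivity) (by linarith)
  have i5 : 1 / 20 * c1 * N' * D = 1 / 20 * (c1 * (N' * D)) := by ring
  rw [i5]
  linarith

theorem lower_of (hGood : GOODStmt) (hKer : KERStmt) (hTail : TAILStmt) (hVavg : VAVGStmt)
    (hBad : BADStmt) (hNu : NU2Stmt) : LOWERStmt := by
  intro k E K p0 kap hk hE hkap
  obtain ⟨A1, h1⟩ := hGood k E K p0 kap hk hE hkap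
  obtain ⟨A2, h2⟩ := lw_tail hTail k E K p0 kap hk hE hkap
  obtain ⟨A3, h3⟩ := hBad
  obtain ⟨A4, h4⟩ := hNu k hk
  obtain ⟨A5, h5⟩ := lw_num
  refine ⟨max (max (max A1 A2) (max A3 A4)) A5, fun P hP => ?_⟩
  have hA1 : A1 ≤ P := le_trans (le_trans (le_max_left _ _) (le_max_left _ _)) (le_trans (le_max_left _ _) hP)
  have hA2 : A2 ≤ P := le_trans (le_trans (le_max_right _ _) (le_max_left _ _)) (le_trans (le_max_left _ _) hP)
  have hA3 : A3 ≤ P := le_trans (le_trans (le_max_left _ _) (le_max_right _ _)) (le_trans (le_max_left _ _) hP)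
  have hA4 : A4 ≤ P := le_trans (le_trans (le_max_right _ _) (le_max_right _ _)) (le_trans (le_max_left _ _) hP)
  have hA5 : A5 ≤ P := le_trans (le_max_right _ _) hP
  intro N' Nmin H Φ G ν hSt hH1 hH2 f hGam hGam0
  obtain ⟨hP1, hμ, hμ2, n1, n2, n3⟩ := h5 P hA5
  obtain ⟨_, _, hν, hGm, _, _⟩ := h4 P hA4 N' Nmin Φ G ν hSt
  have hG0 := hSt.pin.G0
  have hμ1 : mu2 P < 1 := by linarith
  have hN'1 : (1 : ℝ) ≤ N' := by
    refine le_trans ?_ hSt.N'lo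
    exact Real.one_le_exp (by linarith)
  have htyp : ∀ V ∈ (W2 P).powerset, ¬ (P ^ (0.995 : ℝ) < ∑ p ∈ V, Real.log p) →
      1 / 8 * Real.exp (-(P ^ (0.1 : ℝ))) * N' * (H * Φ) ^ 2 -
        (3 * N' + 1) * (Real.exp (-(P ^ (0.61 : ℝ))) * (H * Φ) ^ 2) ≤
      (lwS P V f G N' H).re := by
    intro V hV hVt
    have hVW := mem_powerset.1 hV
    have hVt' := not_lt.1 hVt
    rw [lw_split hKer P V f G ν N' H (fun p hp => hSt.pin.prime p (hVW hp)) hμ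
      (lw_wts_mono hSt.pin.wts hVW) (fun n hn p hp => hν n hn p (hVW hp)), Complex.sub_re]
    have g1 := h1 P hA1 N' Nmin H Φ G ν hSt hH1 hH2 f V hVW hVt' hGam hGam0
    have g2 := h2 P hA2 N' Nmin H Φ G ν hSt hH1 hH2 f V hVW hVt' hGam hμ hμ2
    have g3 := Complex.re_le_norm (lwT P V f G N' H)
    exact sub_le_sub g1 (g3.trans g2)
  have hat : ∀ V ∈ (W2 P).powerset, -((Q2 P : ℝ) ^ 5 *
      ((3 * N' + 1) * (H * (Real.exp (4 * P ^ (0.51 : ℝ)) * Φ)) ^ 2)) ≤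
      (lwS P V f G N' H).re := by
    intro V hV
    have g1 := lw_atyp P hP1 V (mem_powerset.1 hV) f G _ hG0 hGm N' H hμ hμ2
    have g2 := Complex.abs_re_le_norm (lwS P V f G N' H)
    exact (abs_le.1 (g2.trans g1)).1
  have hid : (∑ q ∈ Icc 1 (Q2 P), lwX f G N' H q) =
      ∑ V ∈ (W2 P).powerset, ((wtR (fun _ : ℕ => mu2 P) (W2 P) V : ℝ) : ℂ) *
        lwS P V f G N' H := (hVavg P (mu2 P) (Q2 P) (lwX f G N' H) hμ hμ1).symm
  have havg := lw_avg (W2 P).powerset (fun V => wtR (fun _ : ℕ => mu2 P) (W2 P) V)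
    (fun V => lwS P V f G N' H) (fun V : Finset ℕ => P ^ (0.995 : ℝ) < ∑ p ∈ V, Real.log p)
    _ _ (fun V hV => wtR_nonneg _ _ _ (mem_powerset.1 hV) (fun _ _ => hμ.le)
      (fun _ _ => hμ1.le)) (sum_wtR _ _) htyp hat
  rw [← hid] at havg
  have hnorm := havg.trans (Complex.re_le_norm _)
  refine le_trans ?_ hnorm
  have hbad0 : 0 ≤ ∑ V ∈ ((W2 P).powerset).filter
        (fun V : Finset ℕ => P ^ (0.995 : ℝ) < ∑ p ∈ V, Real.log p),
      wtR (fun _ : ℕ => mu2 P) (W2 P) V := sum_nonneg fun V hV =>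
    wtR_nonneg _ _ _ (mem_powerset.1 (mem_filter.1 hV).1) (fun _ _ => hμ.le)
      (fun _ _ => hμ1.le)
  refine lw_end (N' : ℝ) ((H * Φ) ^ 2) (Real.exp (-(P ^ (0.1 : ℝ))))
    (Real.exp (-(P ^ (0.61 : ℝ)))) (Real.exp (-(P ^ (0.99 : ℝ))))
    ((Q2 P : ℝ) ^ 5 * Real.exp (8 * P ^ (0.51 : ℝ))) _ _ _ hN'1 (sq_nonneg _)
    (Real.exp_pos _).le (Real.exp_pos _).le (by positivity) n1 n2 n3 hbad0 (h3 P hA3) rfl ?_
  have e8 : Real.exp (4 * P ^ (0.51 : ℝ)) ^ 2 = Real.exp (8 * P ^ (0.51 : ℝ)) := by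
    rw [← Real.exp_nat_mul]
    congr 1
    push_cast
    ring
  rw [← e8]
  ring

end Vale.Agent.P042.TT
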