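import Vale.Agent.P042.TT.FinSpec

set_option autoImplicit false

/-!
Block LOWER of Theorem S2, part A: algebra and the bounds for single moduli.
-/

namespace Vale.Agent.P042.TT

open Polynomial Finset Vale.Agent.P042.SS

/-- the term of the modulus `n` -/
noncomputable def lwX (f : ℤ[X]) (G : ℤ → ℝ) (N' H : ℕ) (n : ℕ) : ℂ :=
  ∑ a ∈ (range n).filter (Nat.Coprime n), Gam f a n * Bil G N' H ((a : ℝ) / n)

theorem lwX_expand (f : ℤ[X]) (G : ℤ → ℝ) (N' H : ℕ) (n : ℕ) :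
    lwX f G N' H n = ∑ y ∈ Icc (-(N' : ℤ)) (2 * N'), ∑ a ∈ (range n).filter (Nat.Coprime n),
      Gam f a n * (Fw G (y + H) H ((a : ℝ) / n) *
        (starRingEnd ℂ) (Fw G (y - 2 * H - 1) H ((a : ℝ) / n))) := by
  unfold lwX Bil
  simp only [mul_sum]
  exact sum_comm

theorem lw_wts_mono {W V : Finset ℕ} {ν : ℕ → ℤ → ℝ} (h : Wts W ν) (hV : V ⊆ W) : Wts V ν :=
  ⟨h.nn, fun p hp => h.per p (hV hp), fun p hp => h.mean p (hV hp)⟩

/-- the complete sum over `U ⊆ V` -/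
theorem lw_full (hKer : KERStmt) (f : ℤ[X]) (V : Finset ℕ) (q : ℕ) (μ : ℝ) (ν : ℕ → ℤ → ℝ)
    (G : ℤ → ℝ) (N' H : ℕ) (hV : ∀ p ∈ V, p.Prime) (hq : 1 ≤ q)
    (hVq : ∀ p ∈ V, Nat.Coprime p q) (hμ : 0 < μ) (hW : Wts V ν)
    (hG : ∀ n, G n ≠ 0 → ∀ p ∈ V, ν p n ≠ 0) :
    ∑ U ∈ V.powerset, ((μ⁻¹ ^ U.card : ℝ) : ℂ) * lwX f G N' H (q * ∏ p ∈ U, p) =
      ∑ a ∈ (range q).filter (Nat.Coprime q), Gam f a q *
        ∑ y ∈ Icc (-(N' : ℤ)) (2 * N'),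
          Bform (piV ν V) (kern f μ V) (fV ν V G (y + H) H 1 0 ((a : ℝ) / q))
            (fV ν V G (y - 2 * H - 1) H 1 0 ((a : ℝ) / q)) := by
  simp only [lwX_expand, mul_sum]
  rw [sum_comm, sum_comm (s := (range q).filter (Nat.Coprime q))]
  refine sum_congr rfl fun y _ => ?_
  have h := hKer f V q μ ν G (y + H) (y - 2 * H - 1) H H hV hq hVq hμ hW hG
  simp only [mul_sum] at h
  exact h

theorem lw_mul_le (a b : ℝ) : a * b ≤ (a ^ 2 + b ^ 2) / 2 := by nlinarith [sq_nonneg (a - b)]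

/-- bound with the rates -/
theorem lw_norm_kap (f : ℤ[X]) (G : ℤ → ℝ) (N' H : ℕ) (kap : ℕ → ℕ → ℝ) (n : ℕ) (hn : 1 ≤ n)
    (hG : ∀ (q : ℕ) (a : ℤ), 1 ≤ q → IsCoprime a (q : ℤ) → ‖Gam f a q‖ ≤ kapProd kap q)
    (hk : 0 ≤ kapProd kap n) :
    ‖lwX f G N' H n‖ ≤ ∑ y ∈ Icc (-(N' : ℤ)) (2 * N'),
      (kapProd kap n * enG G (y + H) H n + kapProd kap n * enG G (y - 2 * H - 1) H n) / 2 := by
  rw [lwX_expand]
  refine (norm_sum_le _ _).trans (sum_le_sum fun y _ => ?_)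
  refine (norm_sum_le _ _).trans ?_
  unfold enG
  rw [mul_sum, mul_sum, ← sum_add_distrib, sum_div]
  refine sum_le_sum fun a ha => ?_
  have hco : IsCoprime (a : ℤ) (n : ℤ) :=
    Nat.isCoprime_iff_coprime.2 ((mem_filter.1 ha).2).symm
  rw [norm_mul, norm_mul, RCLike.norm_conj]
  have h1 := hG n a hn hco
  have h2 := lw_mul_le ‖Fw G (y + H) H ((a : ℝ) / n)‖ ‖Fw G (y - 2 * H - 1) H ((a : ℝ) / n)‖
  have h3 : 0 ≤ ‖Fw G (y + H) H ((a : ℝ) / n)‖ * ‖Fw G (y - 2 * H - 1) H ((a : ℝ) / n)‖ := by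
    positivity
  calc _ ≤ kapProd kap n * ((‖Fw G (y + H) H ((a : ℝ) / n)‖ ^ 2 +
        ‖Fw G (y - 2 * H - 1) H ((a : ℝ) / n)‖ ^ 2) / 2) :=
        mul_le_mul h1 h2 h3 hk
    _ = _ := by ring

theorem lw_norm_e (x : ℝ) : ‖e x‖ = 1 := by
  unfold e
  exact Complex.norm_exp_ofReal_mul_I _

theorem lw_norm_Gam (f : ℤ[X]) (a : ℤ) (q : ℕ) : ‖Gam f a q‖ ≤ 1 := by
  unfold Gam
  rcases Nat.eq_zero_or_pos q with h | h
  · subst h; simp
  · rw [norm_div, RCLike.norm_natCast, div_le_one (by exact_mod_cast h)]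
    refine (norm_sum_le _ _).trans ?_
    simp [lw_norm_e]

theorem lw_norm_Fw (G : ℤ → ℝ) (Gm : ℝ) (hG0 : ∀ n, 0 ≤ G n) (hG : ∀ n, G n ≤ Gm) (y : ℤ)
    (H : ℕ) (θ : ℝ) : ‖Fw G y H θ‖ ≤ H * Gm := by
  unfold Fw
  refine (norm_sum_le _ _).trans ?_
  have : ∀ n ∈ Ioc y (y + H), ‖(G n : ℂ) * e (-((n : ℝ) * θ))‖ ≤ Gm := by
    intro n _
    rw [norm_mul, lw_norm_e, mul_one, Complex.norm_real, Real.norm_eq_abs, abs_of_nonneg (hG0 n)]
    exact hG n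
  refine (sum_le_sum this).trans ?_
  rw [sum_const, nsmul_eq_mul]
  simp

theorem lw_norm_triv (f : ℤ[X]) (G : ℤ → ℝ) (Gm : ℝ) (hG0 : ∀ n, 0 ≤ G n)
    (hG : ∀ n, G n ≤ Gm) (N' H n : ℕ) :
    ‖lwX f G N' H n‖ ≤ n * ((3 * N' + 1) * (H * Gm) ^ 2) := by
  unfold lwX
  refine (norm_sum_le _ _).trans ?_
  have hGm : 0 ≤ Gm := (hG0 0).trans (hG 0)
  have : ∀ a ∈ (range n).filter (Nat.Coprime n), ‖Gam f a n * Bil G N' H ((a : ℝ) / n)‖ ≤
      (3 * N' + 1) * (H * Gm) ^ 2 := by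
    intro a _
    rw [norm_mul]
    have h1 := lw_norm_Gam f a n
    have h2 : ‖Bil G N' H ((a : ℝ) / n)‖ ≤ (3 * N' + 1) * (H * Gm) ^ 2 := by
      unfold Bil
      refine (norm_sum_le _ _).trans ?_
      have : ∀ y ∈ Icc (-(N' : ℤ)) (2 * N'), ‖Fw G (y + H) H ((a : ℝ) / n) *
          (starRingEnd ℂ) (Fw G (y - 2 * H - 1) H ((a : ℝ) / n))‖ ≤ (H * Gm) ^ 2 := by
        intro y _
        rw [norm_mul, RCLike.norm_conj, pow_two]
        exact mul_le_mul (lw_norm_Fw G Gm hG0 hG _ _ _) (lw_norm_Fw G Gm hG0 hG _ _ _)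
          (norm_nonneg _) (by positivity)
      refine (sum_le_sum this).trans ?_
      rw [sum_const, nsmul_eq_mul, Int.card_Icc]
      apply le_of_eq
      congr 1
      have : ((2 * (N' : ℤ) + 1 - -(N' : ℤ)).toNat : ℤ) = 3 * N' + 1 := by
        rw [Int.toNat_of_nonneg (by omega)]
        ring
      have h3 : (((2 * (N' : ℤ) + 1 - -(N' : ℤ)).toNat : ℤ) : ℝ) = ((3 * N' + 1 : ℤ) : ℝ) := by
        rw [this]
      push_cast at h3
      exact h3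
    calc _ ≤ 1 * ((3 * N' + 1) * (H * Gm) ^ 2) :=
          mul_le_mul h1 h2 (norm_nonneg _) zero_le_one
      _ = _ := one_mul _
  refine (sum_le_sum this).trans ?_
  rw [sum_const, nsmul_eq_mul]
  refine mul_le_mul_of_nonneg_right ?_ (by positivity)
  have := card_filter_le (range n) (Nat.Coprime n)
  rw [card_range] at this
  exact_mod_cast this

end Vale.Agent.P042.TT
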