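import Vale.Agent.P042.TT.LowerA

set_option autoImplicit false

/-!
Block LOWER of Theorem S2, part B: typical and atypical thinnings.
-/

namespace Vale.Agent.P042.TT

open Polynomial Finset Vale.Agent.P042.SS

/-- the sum of one thinning -/
noncomputable def lwS (P : ℝ) (V : Finset ℕ) (f : ℤ[X]) (G : ℤ → ℝ) (N' H : ℕ) : ℂ :=
  ∑ q ∈ EV P V (Q2 P), (((1 - mu2 P)⁻¹ ^ yc P q : ℝ) : ℂ) * ∑ U ∈ (V.powerset).filter
    (fun U => q * ∏ p ∈ U, p ≤ Q2 P), ((((mu2 P)⁻¹) ^ U.card : ℝ) : ℂ) *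
      lwX f G N' H (q * ∏ p ∈ U, p)

/-- its tail -/
noncomputable def lwT (P : ℝ) (V : Finset ℕ) (f : ℤ[X]) (G : ℤ → ℝ) (N' H : ℕ) : ℂ :=
  ∑ q ∈ EV P V (Q2 P), (((1 - mu2 P)⁻¹ ^ yc P q : ℝ) : ℂ) * ∑ U ∈ (V.powerset).filter
    (fun U => Q2 P < q * ∏ p ∈ U, p), ((((mu2 P)⁻¹) ^ U.card : ℝ) : ℂ) *
      lwX f G N' H (q * ∏ p ∈ U, p)

theorem lw_split (hKer : KERStmt) (P : ℝ) (V : Finset ℕ) (f : ℤ[X]) (G : ℤ → ℝ)
    (ν : ℕ → ℤ → ℝ) (N' H : ℕ) (hV : ∀ p ∈ V, p.Prime) (hμ : 0 < mu2 P) (hW : Wts V ν)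
    (hG : ∀ n, G n ≠ 0 → ∀ p ∈ V, ν p n ≠ 0) :
    lwS P V f G N' H = (∑ q ∈ EV P V (Q2 P), (((1 - mu2 P)⁻¹ ^ yc P q : ℝ) : ℂ) *
      ∑ a ∈ (range q).filter (Nat.Coprime q), Gam f a q *
      ∑ y ∈ Icc (-(N' : ℤ)) (2 * N'),
        Bform (piV ν V) (kern f (mu2 P) V)
          (fV ν V G (y + H) H 1 0 ((a : ℝ) / q))
          (fV ν V G (y - 2 * H - 1) H 1 0 ((a : ℝ) / q))) - lwT P V f G N' H := by
  rw [eq_sub_iff_add_eq]
  unfold lwS lwT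
  rw [← sum_add_distrib]
  refine sum_congr rfl fun q hq => ?_
  rw [← mul_add]
  congr 1
  unfold EV at hq
  rw [mem_filter, mem_Icc] at hq
  have h1 := lw_full hKer f V q (mu2 P) ν G N' H hV hq.1.1 (fun p hp =>
    (Nat.Prime.coprime_iff_not_dvd (hV p hp)).2 (hq.2.2 p hp)) hμ hW hG
  rw [← h1, ← Finset.sum_filter_add_sum_filter_not V.powerset
    (fun U => q * ∏ p ∈ U, p ≤ Q2 P)]
  congr 1
  simp only [not_le]

theorem lw_tail (hTail : TAILStmt) (k E K p0 : ℕ) (kap : ℕ → ℕ → ℝ) (hk : 1 ≤ k) (hE : 1 ≤ E)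
    (hkap : KapOK k E K p0 kap) : ∃ P0 : ℝ, ∀ P : ℝ, P0 ≤ P →
    ∀ (N' Nmin H : ℕ) (Φ : ℝ) (G : ℤ → ℝ) (ν : ℕ → ℤ → ℝ),
    St P k N' Nmin Φ G ν → 8 * H ≤ N' → N' ≤ 16 * H →
    ∀ (f : ℤ[X]) (V : Finset ℕ), V ⊆ W2 P → ∑ p ∈ V, Real.log p ≤ P ^ (0.995 : ℝ) →
    (∀ (q : ℕ) (a : ℤ), 1 ≤ q → IsCoprime a (q : ℤ) → ‖Gam f a q‖ ≤ kapProd kap q) →
    0 < mu2 P → mu2 P ≤ 1 / 2 →
    ‖lwT P V f G N' H‖ ≤ (3 * N' + 1) * (Real.exp (-(P ^ (0.61 : ℝ))) * (H * Φ) ^ 2) := by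
  obtain ⟨P0, h⟩ := hTail k E K p0 kap hk hE hkap
  refine ⟨P0, ?_⟩
  intro P hP N' Nmin H Φ G ν hSt hH1 hH2 f V hV hVt hGam hμ hμ2
  have hT := h P hP N' Nmin Φ G ν hSt V H
  set TT : ℤ → ℝ := fun y => ∑ q ∈ EV P V (Q2 P), 2 ^ yc P q * ∑ U ∈ (V.powerset).filter
        (fun U => Q2 P < q * ∏ p ∈ U, p),
      (mu2 P)⁻¹ ^ U.card * kapProd kap (q * ∏ p ∈ U, p) * enG G y H (q * ∏ p ∈ U, p) with hTT
  have hTy : ∀ y, TT y ≤ Real.exp (-(P ^ (0.61 : ℝ))) * (H * Φ) ^ 2 := fun y =>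
    hT y hV hVt (by omega) (by omega)
  have hprime : ∀ p ∈ V, p.Prime := fun p hp => hSt.pin.prime p (hV hp)
  have hk0 := kapProd_nonneg hkap.nn
  have hinv : (1 - mu2 P)⁻¹ ≤ 2 := by
    rw [inv_le_comm₀ (by linarith) (by norm_num)]
    linarith
  have hinv0 : 0 ≤ (1 - mu2 P)⁻¹ := inv_nonneg.2 (by linarith)
  have hen : ∀ y q, 0 ≤ enG G y H q := fun y q => sum_nonneg fun _ _ => sq_nonneg _
  have h1 : ‖lwT P V f G N' H‖ ≤ ∑ y ∈ Icc (-(N' : ℤ)) (2 * N'),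
      (TT (y + H) + TT (y - 2 * H - 1)) / 2 := by
    unfold lwT
    refine (norm_sum_le _ _).trans ?_
    have e1 : ∑ y ∈ Icc (-(N' : ℤ)) (2 * N'), (TT (y + H) + TT (y - 2 * H - 1)) / 2 =
        ∑ q ∈ EV P V (Q2 P), 2 ^ yc P q * ∑ U ∈ (V.powerset).filter
        (fun U => Q2 P < q * ∏ p ∈ U, p), (mu2 P)⁻¹ ^ U.card *
        ∑ y ∈ Icc (-(N' : ℤ)) (2 * N'), (kapProd kap (q * ∏ p ∈ U, p) *
          enG G (y + H) H (q * ∏ p ∈ U, p) + kapProd kap (q * ∏ p ∈ U, p) *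
          enG G (y - 2 * H - 1) H (q * ∏ p ∈ U, p)) / 2 := by
      simp only [hTT, mul_sum]
      have : ∀ y : ℤ, ((∑ q ∈ EV P V (Q2 P), ∑ U ∈ (V.powerset).filter
        (fun U => Q2 P < q * ∏ p ∈ U, p), (2:ℝ) ^ yc P q *
          ((mu2 P)⁻¹ ^ U.card * kapProd kap (q * ∏ p ∈ U, p) *
            enG G (y + H) H (q * ∏ p ∈ U, p))) +
          ∑ q ∈ EV P V (Q2 P), ∑ U ∈ (V.powerset).filter
        (fun U => Q2 P < q * ∏ p ∈ U, p), 2 ^ yc P q *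
          ((mu2 P)⁻¹ ^ U.card * kapProd kap (q * ∏ p ∈ U, p) *
            enG G (y - 2 * H - 1) H (q * ∏ p ∈ U, p))) / 2 =
          ∑ q ∈ EV P V (Q2 P), ∑ U ∈ (V.powerset).filter
        (fun U => Q2 P < q * ∏ p ∈ U, p), 2 ^ yc P q * ((mu2 P)⁻¹ ^ U.card *
          ((kapProd kap (q * ∏ p ∈ U, p) *
          enG G (y + H) H (q * ∏ p ∈ U, p) + kapProd kap (q * ∏ p ∈ U, p) *
          enG G (y - 2 * H - 1) H (q * ∏ p ∈ U, p)) / 2)) := by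
        intro y
        rw [← sum_add_distrib, sum_div]
        refine sum_congr rfl fun q _ => ?_
        rw [← sum_add_distrib, sum_div]
        refine sum_congr rfl fun U _ => ?_
        ring
      rw [sum_congr rfl fun y _ => this y, sum_comm]
      refine sum_congr rfl fun q _ => ?_
      rw [sum_comm]
    rw [e1]
    refine sum_le_sum fun q hq => ?_
    unfold EV at hq
    rw [mem_filter, mem_Icc] at hq
    rw [norm_mul, Complex.norm_real, Real.norm_eq_abs, abs_of_nonneg (pow_nonneg hinv0 _)]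
    refine mul_le_mul (pow_le_pow_left₀ hinv0 hinv _) ?_ (norm_nonneg _) (by positivity)
    refine (norm_sum_le _ _).trans (sum_le_sum fun U hU => ?_)
    have hUV := mem_powerset.1 (mem_filter.1 hU).1
    rw [norm_mul, Complex.norm_real, Real.norm_eq_abs,
      abs_of_nonneg (pow_nonneg (inv_nonneg.2 hμ.le) _)]
    refine mul_le_mul_of_nonneg_left ?_ (pow_nonneg (inv_nonneg.2 hμ.le) _)
    have hn : 1 ≤ q * ∏ p ∈ U, p := Nat.mul_pos (by omega)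
      (prod_pos fun p hp => (hprime p (hUV hp)).pos)
    exact lw_norm_kap f G N' H kap _ hn hGam (hk0 _)
  refine h1.trans ?_
  have h2 : ∀ y ∈ Icc (-(N' : ℤ)) (2 * N'), (TT (y + H) + TT (y - 2 * H - 1)) / 2 ≤
      Real.exp (-(P ^ (0.61 : ℝ))) * (H * Φ) ^ 2 := by
    intro y _
    have := hTy (y + H)
    have := hTy (y - 2 * H - 1)
    linarith
  refine (sum_le_sum h2).trans (le_of_eq ?_)
  rw [sum_const, nsmul_eq_mul, Int.card_Icc]
  congr 1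
  have : ((2 * (N' : ℤ) + 1 - -(N' : ℤ)).toNat : ℤ) = 3 * N' + 1 := by
    rw [Int.toNat_of_nonneg (by omega)]
    ring
  have h3 : (((2 * (N' : ℤ) + 1 - -(N' : ℤ)).toNat : ℤ) : ℝ) = ((3 * N' + 1 : ℤ) : ℝ) := by
    rw [this]
  push_cast at h3
  exact h3

theorem lw_mem_W2 {P : ℝ} (hP : 1 ≤ P) {p : ℕ} (hp : p ∈ W2 P) :
    p.Prime ∧ (mu2 P)⁻¹ ≤ p := by
  unfold W2 Wp at hp
  rw [mem_filter, mem_Ioc] at hp
  refine ⟨hp.2, ?_⟩
  have h1 : P ^ (0.97 : ℝ) < p := (Nat.floor_lt (by positivity)).1 hp.1.1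
  unfold mu2
  rw [← Real.rpow_neg (by linarith)]
  refine le_trans ?_ h1.le
  exact Real.rpow_le_rpow_of_exponent_le hP (by norm_num)

theorem lw_yc {P : ℝ} (hP : 1 ≤ P) (q : ℕ) (hq : 1 ≤ q) : 2 ^ yc P q ≤ q := by
  unfold yc
  have h1 : ∏ p ∈ (W2 P).filter (fun p => p ∣ q), p ∣ q := by
    apply Finset.prod_primes_dvd
    · intro p hp
      exact (lw_mem_W2 hP (mem_filter.1 hp).1).1.prime
    · intro p hp
      exact (mem_filter.1 hp).2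
  have h2 : 2 ^ ((W2 P).filter (fun p => p ∣ q)).card ≤
      ∏ p ∈ (W2 P).filter (fun p => p ∣ q), p := by
    apply Finset.pow_card_le_prod
    intro p hp
    exact (lw_mem_W2 hP (mem_filter.1 hp).1).1.two_le
  exact h2.trans (Nat.le_of_dvd (by omega) h1)

theorem lw_card (P : ℝ) (V : Finset ℕ) (hV : ∀ p ∈ V, p.Prime) (q Q : ℕ) (hq : 1 ≤ q) :
    ((V.powerset).filter (fun U => q * ∏ p ∈ U, p ≤ Q)).card ≤ Q := by
  calc ((V.powerset).filter (fun U => q * ∏ p ∈ U, p ≤ Q)).card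
      ≤ (Icc 1 Q).card := by
        apply Finset.card_le_card_of_injOn (fun U => ∏ p ∈ U, p)
        · intro U hU
          rw [mem_coe, mem_filter, mem_powerset] at hU
          rw [mem_coe, mem_Icc]
          refine ⟨prod_pos fun p hp => (hV p (hU.1 hp)).pos, ?_⟩
          exact le_trans (Nat.le_mul_of_pos_left _ (by omega)) hU.2
        · intro U hU U' hU' h
          rw [mem_coe, mem_filter, mem_powerset] at hU hU'
          have h1 := Nat.primeFactors_prod (s := U) fun p hp => hV p (hU.1 hp)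
          have h2 := Nat.primeFactors_prod (s := U') fun p hp => hV p (hU'.1 hp)
          simp only at h
          rw [← h1, ← h2, h]
    _ = Q := by simp

theorem lw_atyp (P : ℝ) (hP : 1 ≤ P) (V : Finset ℕ) (hV : V ⊆ W2 P) (f : ℤ[X]) (G : ℤ → ℝ)
    (Gm : ℝ) (hG0 : ∀ n, 0 ≤ G n) (hG : ∀ n, G n ≤ Gm) (N' H : ℕ) (hμ : 0 < mu2 P)
    (hμ2 : mu2 P ≤ 1 / 2) :
    ‖lwS P V f G N' H‖ ≤ (Q2 P : ℝ) ^ 5 * ((3 * N' + 1) * (H * Gm) ^ 2) := by
  have hprime : ∀ p ∈ V, p.Prime := fun p hp => (lw_mem_W2 hP (hV hp)).1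
  have hGm : 0 ≤ Gm := (hG0 0).trans (hG 0)
  set Z : ℝ := (3 * N' + 1) * (H * Gm) ^ 2 with hZ
  have hZ0 : 0 ≤ Z := by positivity
  set Q := Q2 P with hQ
  have hinv : (1 - mu2 P)⁻¹ ≤ 2 := by
    rw [inv_le_comm₀ (by linarith) (by norm_num)]
    linarith
  have hinv0 : 0 ≤ (1 - mu2 P)⁻¹ := inv_nonneg.2 (by linarith)
  unfold lwS
  refine (norm_sum_le _ _).trans ?_
  have hq : ∀ q ∈ EV P V Q, ‖(((1 - mu2 P)⁻¹ ^ yc P q : ℝ) : ℂ) * ∑ U ∈ (V.powerset).filter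
    (fun U => q * ∏ p ∈ U, p ≤ Q), ((((mu2 P)⁻¹) ^ U.card : ℝ) : ℂ) *
      lwX f G N' H (q * ∏ p ∈ U, p)‖ ≤ (Q : ℝ) ^ 4 * Z := by
    intro q hq
    unfold EV at hq
    rw [mem_filter, mem_Icc] at hq
    have hqr : (q : ℝ) ≤ Q := by exact_mod_cast hq.1.2
    rw [norm_mul, Complex.norm_real, Real.norm_eq_abs, abs_of_nonneg (pow_nonneg hinv0 _)]
    have h1 : (1 - mu2 P)⁻¹ ^ yc P q ≤ Q := by
      refine (pow_le_pow_left₀ hinv0 hinv _).trans ?_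
      have := lw_yc hP q hq.1.1
      have h' : ((2 ^ yc P q : ℕ) : ℝ) ≤ q := by exact_mod_cast this
      push_cast at h'
      exact h'.trans hqr
    have h2 : ‖∑ U ∈ (V.powerset).filter
        (fun U => q * ∏ p ∈ U, p ≤ Q), ((((mu2 P)⁻¹) ^ U.card : ℝ) : ℂ) *
        lwX f G N' H (q * ∏ p ∈ U, p)‖ ≤ (Q : ℝ) * (Q * (Q * Z)) := by
      refine (norm_sum_le _ _).trans ?_
      have : ∀ U ∈ (V.powerset).filter (fun U => q * ∏ p ∈ U, p ≤ Q),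
          ‖((((mu2 P)⁻¹) ^ U.card : ℝ) : ℂ) * lwX f G N' H (q * ∏ p ∈ U, p)‖ ≤ Q * (Q * Z) := by
        intro U hU
        rw [mem_filter, mem_powerset] at hU
        rw [norm_mul, Complex.norm_real, Real.norm_eq_abs,
          abs_of_nonneg (pow_nonneg (inv_nonneg.2 hμ.le) _)]
        have h3 : (mu2 P)⁻¹ ^ U.card ≤ Q := by
          have h4 : (mu2 P)⁻¹ ^ U.card ≤ ∏ p ∈ U, (p : ℝ) := by
            rw [← prod_const]
            exact prod_le_prod (fun _ _ => inv_nonneg.2 hμ.le) fun p hp =>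
              (lw_mem_W2 hP (hV (hU.1 hp))).2
          have h5 : ((∏ p ∈ U, p : ℕ) : ℝ) ≤ Q := by
            have : ∏ p ∈ U, p ≤ Q := le_trans (Nat.le_mul_of_pos_left _ (by omega)) hU.2
            exact_mod_cast this
          push_cast at h5
          exact h4.trans h5
        have h6 := lw_norm_triv f G Gm hG0 hG N' H (q * ∏ p ∈ U, p)
        have h7 : ((q * ∏ p ∈ U, p : ℕ) : ℝ) ≤ Q := by exact_mod_cast hU.2
        exact mul_le_mul h3 (h6.trans (mul_le_mul_of_nonneg_right h7 hZ0)) (norm_nonneg _)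
          (by positivity)
      refine (sum_le_sum this).trans ?_
      rw [sum_const, nsmul_eq_mul]
      refine mul_le_mul_of_nonneg_right ?_ (by positivity)
      exact_mod_cast lw_card P V hprime q Q hq.1.1
    calc _ ≤ (Q : ℝ) * ((Q : ℝ) * (Q * (Q * Z))) :=
          mul_le_mul h1 h2 (norm_nonneg _) (by positivity)
      _ = _ := by ring
  refine (sum_le_sum hq).trans ?_
  rw [sum_const, nsmul_eq_mul]
  have h8 : ((EV P V Q).card : ℝ) ≤ Q := by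
    have : (EV P V Q).card ≤ Q := by
      unfold EV
      refine (card_filter_le _ _).trans ?_
      simp
    exact_mod_cast this
  calc _ ≤ (Q : ℝ) * ((Q : ℝ) ^ 4 * Z) := mul_le_mul_of_nonneg_right h8 (by positivity)
    _ = _ := by ring

end Vale.Agent.P042.TT
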