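import Vale.Agent.P042.TT.Spec
import Vale.Agent.P042.SS.Split
import Vale.Agent.P042.SS.ExtH

set_option autoImplicit false

/-!
# P042, Theorem S2, block CORE: the random normalisation

`NN T x` controls all densities of the sub-cells modulo the `z`-moduli.
-/

namespace Vale.Agent.P042.TT

open Polynomial Finset Vale.Agent.P042.SS

/-! ### growth of powers -/

theorem pow_dom (a b c : ℝ) (hab : a < b) : ∀ᶠ P : ℝ in Filter.atTop, c * P ^ a ≤ P ^ b := by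
  have h := tendsto_rpow_atTop (sub_pos.2 hab)
  filter_upwards [h.eventually_ge_atTop c, Filter.eventually_gt_atTop 0] with P h1 h2
  have h3 : P ^ b = P ^ (b - a) * P ^ a := by
    rw [← Real.rpow_add h2]; congr 1; ring
  rw [h3]
  exact mul_le_mul_of_nonneg_right h1 (Real.rpow_nonneg h2.le a)

/-! ### definitions -/

/-- support sets of the `z`-part -/
noncomputable def ZF (P : ℝ) (R Q : ℕ) : Finset (Finset ℕ) :=
  (((Icc 1 Q).filter
    (fun p => p.Prime ∧ ⌊P ^ (0.97 : ℝ)⌋₊ < p ∧ Nat.Coprime p R)).powerset).filter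
    (fun S => ∏ p ∈ S, p ≤ Q)

/-- modulus of a support set -/
def QSn (J' : ℕ) (S : Finset ℕ) : ℕ := ∏ p ∈ S, p ^ J'

/-- growth constant of the prime `p` -/
noncomputable def cp (p : ℕ) : ℝ := (p : ℝ) ^ (1 / 1000 : ℝ)

/-- half of the order of the moments -/
def mm (J' : ℕ) : ℕ := 1000 * (J' + 3)

/-- normalised density of the sub-cell -/
noncomputable def dnm (ν : ℕ → ℤ → ℝ) (G : ℤ → ℝ) (y : ℤ) (M R J' : ℕ) (Φ : ℝ)
    (S : Finset ℕ) (z : ℤ) (T : Finset ℕ) (x : ℤ) : ℝ :=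
  (∏ p ∈ S, (cp p)⁻¹) * (((R * QSn J' S : ℕ) : ℝ) / (M * Φ)) *
    rT ν G y M (R * QSn J' S) z T x

/-- the classes modulo `R * QSn J' S` above the class `r` modulo `R` -/
def zcl (R J' : ℕ) (r : ℤ) (S : Finset ℕ) : Finset ℕ :=
  (range (R * QSn J' S)).filter (fun z : ℕ => (z : ℤ) ≡ r [ZMOD (R : ℕ)])

/-- the random normalisation -/
noncomputable def NN (P : ℝ) (ν : ℕ → ℤ → ℝ) (G : ℤ → ℝ) (y : ℤ) (M R J' Q : ℕ) (r : ℤ)
    (Φ : ℝ) (T : Finset ℕ) (x : ℤ) : ℝ :=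
  1 + ∑ S ∈ (ZF P R Q).filter (fun S => Disjoint S T), ∑ z ∈ zcl R J' r S,
    (dnm ν G y M R J' Φ S z T x) ^ (2 * mm J')

/-! ### elementary facts -/

theorem mem_ZF {P : ℝ} {R Q : ℕ} {S : Finset ℕ} : S ∈ ZF P R Q ↔
    (∀ p ∈ S, (1 ≤ p ∧ p ≤ Q) ∧ p.Prime ∧ ⌊P ^ (0.97 : ℝ)⌋₊ < p ∧ Nat.Coprime p R) ∧
      ∏ p ∈ S, p ≤ Q := by
  unfold ZF
  rw [mem_filter, mem_powerset]
  refine and_congr_left fun _ => ?_
  constructor
  · intro h p hp
    have := h hp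
    rw [mem_filter, mem_Icc] at this
    exact this
  · intro h p hp
    rw [mem_filter, mem_Icc]
    exact h p hp

theorem QSn_pos {J' : ℕ} {S : Finset ℕ} (hS : ∀ p ∈ S, p.Prime) : 1 ≤ QSn J' S :=
  Finset.prod_pos fun p hp => pow_pos (hS p hp).pos _

theorem QSn_cast (J' : ℕ) (S : Finset ℕ) : ((QSn J' S : ℕ) : ℝ) = ∏ p ∈ S, (p : ℝ) ^ J' := by
  unfold QSn
  push_cast
  rfl

theorem QSn_eq (J' : ℕ) (S : Finset ℕ) : QSn J' S = (∏ p ∈ S, p) ^ J' := by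
  unfold QSn
  rw [Finset.prod_pow]

theorem card_zcl (R J' : ℕ) (r : ℤ) (S : Finset ℕ) :
    (zcl R J' r S).card ≤ QSn J' S := by
  rw [← Finset.card_range (QSn J' S)]
  apply Finset.card_le_card_of_injOn (fun z => z / R)
  · intro z hz
    unfold zcl at hz
    rw [mem_coe, mem_filter, mem_range] at hz
    rw [mem_coe, mem_range]
    exact Nat.div_lt_of_lt_mul hz.1
  · intro z hz z' hz' h
    unfold zcl at hz hz'
    rw [mem_coe, mem_filter, mem_range] at hz hz'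
    simp only at h
    have h1 : (z : ℤ) ≡ z' [ZMOD (R : ℕ)] := hz.2.trans hz'.2.symm
    have h2 : z ≡ z' [MOD R] := (Int.natCast_modEq_iff).1 h1
    have h3 : z % R = z' % R := h2
    calc z = R * (z / R) + z % R := (Nat.div_add_mod z R).symm
      _ = R * (z' / R) + z' % R := by rw [h, h3]
      _ = z' := Nat.div_add_mod z' R

theorem rT_nonneg {ν : ℕ → ℤ → ℝ} {G : ℤ → ℝ} (hν : ∀ p n, 0 ≤ ν p n) (hG : ∀ n, 0 ≤ G n)
    (y : ℤ) (M R : ℕ) (r : ℤ) (T : Finset ℕ) (x : ℤ) : 0 ≤ rT ν G y M R r T x := by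
  unfold rT dn
  apply mul_nonneg
  · exact Finset.prod_nonneg fun p _ =>
      mul_nonneg (Nat.cast_nonneg p) (inv_nonneg.2 (hν p x))
  · exact Finset.sum_nonneg fun n _ => hG n

theorem cp_pos {p : ℕ} (hp : 1 ≤ p) : 0 < cp p :=
  Real.rpow_pos_of_pos (by exact_mod_cast hp) _

theorem dnm_nonneg {ν : ℕ → ℤ → ℝ} {G : ℤ → ℝ} (hν : ∀ p n, 0 ≤ ν p n)
    (hG : ∀ n, 0 ≤ G n) (y : ℤ) (M R J' : ℕ) {Φ : ℝ} (hΦ : 0 < Φ) (S : Finset ℕ) (z : ℤ)
    (T : Finset ℕ) (x : ℤ) : 0 ≤ dnm ν G y M R J' Φ S z T x := by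
  unfold dnm
  apply mul_nonneg (mul_nonneg _ _) (rT_nonneg hν hG y M _ z T x)
  · exact Finset.prod_nonneg fun p _ => inv_nonneg.2 (Real.rpow_nonneg (Nat.cast_nonneg p) _)
  · positivity

theorem one_le_NN {P : ℝ} {ν : ℕ → ℤ → ℝ} {G : ℤ → ℝ} (y : ℤ) (M R J' Q : ℕ) (r : ℤ)
    (Φ : ℝ) (T : Finset ℕ) (x : ℤ) : 1 ≤ NN P ν G y M R J' Q r Φ T x := by
  unfold NN
  have : 0 ≤ ∑ S ∈ (ZF P R Q).filter (fun S => Disjoint S T), ∑ z ∈ zcl R J' r S,
    (dnm ν G y M R J' Φ S z T x) ^ (2 * mm J') :=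
    Finset.sum_nonneg fun S _ => Finset.sum_nonneg fun z _ => by
      rw [pow_mul]
      exact pow_nonneg (sq_nonneg _) _
  linarith

/-- every normalised density is bounded by the random normalisation -/
theorem dnm_le_NN {P : ℝ} {ν : ℕ → ℤ → ℝ} {G : ℤ → ℝ} (y : ℤ) (M R J' Q : ℕ) (r : ℤ)
    (Φ : ℝ) (T : Finset ℕ) (x : ℤ) {S : Finset ℕ} (hS : S ∈ ZF P R Q) (hST : Disjoint S T)
    {z : ℕ} (hz : z ∈ zcl R J' r S) :
    (dnm ν G y M R J' Φ S z T x) ^ (2 * mm J') ≤ NN P ν G y M R J' Q r Φ T x := by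
  have hnn : ∀ (S : Finset ℕ) (z : ℕ), 0 ≤ (dnm ν G y M R J' Φ S z T x) ^ (2 * mm J') := by
    intro S z
    rw [pow_mul]
    exact pow_nonneg (sq_nonneg _) _
  unfold NN
  have h1 : (dnm ν G y M R J' Φ S z T x) ^ (2 * mm J') ≤
      ∑ z ∈ zcl R J' r S, (dnm ν G y M R J' Φ S z T x) ^ (2 * mm J') :=
    Finset.single_le_sum (f := fun z : ℕ => (dnm ν G y M R J' Φ S z T x) ^ (2 * mm J'))
      (fun z _ => hnn S z) hz
  have h2 : ∑ z ∈ zcl R J' r S, (dnm ν G y M R J' Φ S z T x) ^ (2 * mm J') ≤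
      ∑ S ∈ (ZF P R Q).filter (fun S => Disjoint S T), ∑ z ∈ zcl R J' r S,
        (dnm ν G y M R J' Φ S z T x) ^ (2 * mm J') :=
    Finset.single_le_sum
      (f := fun S => ∑ z ∈ zcl R J' r S, (dnm ν G y M R J' Φ S z T x) ^ (2 * mm J'))
      (fun S _ => Finset.sum_nonneg fun z _ => hnn S z) (mem_filter.2 ⟨hS, hST⟩)
  linarith

/-! ### sums over random sets disjoint from `S` -/

theorem sum_wtR_disjoint_le (t : ℝ) (ht0 : 0 ≤ t) (ht1 : t ≤ 1) (V S : Finset ℕ)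
    (F : Finset ℕ → ℝ) (hF : ∀ T, 0 ≤ F T) :
    ∑ T ∈ V.powerset.filter (fun T => Disjoint S T), wtR (fun _ : ℕ => t) V T * F T ≤
      ∑ T ∈ (V \ S).powerset, wtR (fun _ : ℕ => t) (V \ S) T * F T := by
  have h1 : V.powerset.filter (fun T => Disjoint S T) = (V \ S).powerset := by
    ext T
    rw [mem_filter, mem_powerset, mem_powerset, Finset.subset_sdiff, disjoint_comm]
  rw [h1]
  refine Finset.sum_le_sum fun T hT => ?_
  rw [mem_powerset] at hT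
  refine mul_le_mul_of_nonneg_right ?_ (hF T)
  unfold wtR
  refine mul_le_mul_of_nonneg_left ?_ (Finset.prod_nonneg fun _ _ => ht0)
  rw [Finset.prod_const, Finset.prod_const]
  apply pow_le_pow_of_le_one (by linarith) (by linarith)
  apply Finset.card_le_card
  intro p hp
  rw [mem_sdiff] at hp ⊢
  exact ⟨(mem_sdiff.1 hp.1).1, hp.2⟩

theorem sum_inv_sq (n : ℕ) (hn : 1 ≤ n) : ∑ p ∈ Icc 1 n, 1 / (p : ℝ) ^ 2 ≤ 2 - 1 / (n : ℝ) := by
  induction n, hn using Nat.le_induction with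
  | base => norm_num
  | succ n hn ih =>
    rw [Finset.sum_Icc_succ_top (by omega)]
    have hn0 : (1 : ℝ) ≤ n := by exact_mod_cast hn
    have h4 : 1 / ((n + 1 : ℕ) : ℝ) ^ 2 ≤ 1 / (n : ℝ) - 1 / ((n + 1 : ℕ) : ℝ) := by
      push_cast
      rw [div_sub_div _ _ (by positivity) (by positivity),
        div_le_div_iff₀ (by positivity) (by positivity)]
      nlinarith
    linarith

/-- sum over the support sets -/
theorem sum_ZF_le {P : ℝ} {R Q : ℕ} (f : Finset ℕ → ℝ)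
    (hf : ∀ S ∈ ZF P R Q, f S ≤ ∏ p ∈ S, (1 / (p : ℝ) ^ 2)) :
    ∑ S ∈ ZF P R Q, f S ≤ Real.exp 2 := by
  have h0 : ∑ S ∈ ZF P R Q, f S ≤ ∑ S ∈ (Icc 1 Q).powerset, ∏ p ∈ S, (1 / (p : ℝ) ^ 2) := by
    refine (Finset.sum_le_sum hf).trans ?_
    apply Finset.sum_le_sum_of_subset_of_nonneg
    · intro S hS
      rw [mem_powerset]
      intro p hp
      rw [mem_Icc]
      exact ((mem_ZF.1 hS).1 p hp).1
    · intro S _ _
      exact Finset.prod_nonneg fun p _ => by positivity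
  refine h0.trans ?_
  have h1 : ∑ S ∈ (Icc 1 Q).powerset, ∏ p ∈ S, (1 / (p : ℝ) ^ 2) =
      ∏ p ∈ Icc 1 Q, (1 + 1 / (p : ℝ) ^ 2) := by
    rw [Finset.prod_one_add]
  rw [h1]
  have h2 : ∏ p ∈ Icc 1 Q, (1 + 1 / (p : ℝ) ^ 2) ≤
      ∏ p ∈ Icc 1 Q, Real.exp (1 / (p : ℝ) ^ 2) := by
    apply Finset.prod_le_prod
    · intro p _
      positivity
    · intro p _
      have := Real.add_one_le_exp (1 / (p : ℝ) ^ 2)
      linarith
  refine h2.trans ?_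
  rw [← Real.exp_sum]
  apply Real.exp_le_exp.2
  -- `∑ 1/p² ≤ 2`
  rcases Nat.eq_zero_or_pos Q with hQ | hQ
  · subst hQ; simp
  have h3 := sum_inv_sq Q hQ
  have h6 : (0 : ℝ) ≤ 1 / (Q : ℝ) := by positivity
  linarith

end Vale.Agent.P042.TT
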