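import Vale.Agent.P042.TT.NvB
import Vale.Agent.P042.SS.ExtA0

set_option autoImplicit false

/-!
# P042, Theorem S2, block NV
-/

namespace Vale.Agent.P042.TT

open Polynomial Finset Vale.Agent.P042.SS

/-- the mass of a cell modulo `R * (∏ T * QSn)` -/
theorem mass_le_NN {P : ℝ} {k N' Nmin : ℕ} {Φ : ℝ} {G : ℤ → ℝ} {ν : ℕ → ℤ → ℝ}
    (hSt : St P k N' Nmin Φ G ν) (hτ : 0 < tau2 P) {V : Finset ℕ} {R M J' : ℕ} {y r : ℤ}
    (hV : V ⊆ W2 P) (hR : 1 ≤ R) (hM : (0 : ℝ) < M) {T : Finset ℕ} (hT : T ⊆ V) {x : ℕ}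
    {S : Finset ℕ} (hS : S ∈ ZF P R (Q2 P)) (hSV : Disjoint S V) {z : ℤ}
    (hzx : z ≡ (x : ℤ) [ZMOD ((∏ p ∈ T, p : ℕ) : ℤ)]) (hzr : z ≡ r [ZMOD (R : ℕ)]) :
    mass G y M (R * ((∏ p ∈ T, p) * ∏ p ∈ S, p ^ J')) z ≤
      (NN P ν G y M R J' (Q2 P) r Φ T x) ^ (1 / ((2 * mm J' : ℕ) : ℝ)) *
        (∏ p ∈ S, (p : ℝ) ^ (0.001 : ℝ)) * (∏ p ∈ T, (ν p x / p)) *
          (Φ * M / (R * ∏ p ∈ S, (p : ℝ) ^ J')) := by
  have hν := hSt.pin.wts.nn
  have hG := hSt.pin.G0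
  have hΦ := hSt.pin.Φpos
  have hSm := mem_ZF.1 hS
  have hSp : ∀ p ∈ S, p.Prime := fun p hp => (hSm.1 p hp).2.1
  have hQS1 : 1 ≤ QSn J' S := QSn_pos hSp
  have hQS0 : (0 : ℝ) < QSn J' S := by exact_mod_cast hQS1
  have hR0 : (0 : ℝ) < R := by exact_mod_cast hR
  have hTW : T ⊆ W2 P := hT.trans hV
  by_cases hz : ∀ p ∈ T, ν p x ≠ 0
  · -- nonzero weights
    have hdn : 0 < dn ν T x := by
      unfold dn
      refine Finset.prod_pos fun p hp => ?_
      have h1 : 0 < ν p x := lt_of_le_of_ne (hν p x) (Ne.symm (hz p hp))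
      have h2 : (0 : ℝ) < p := by exact_mod_cast (hSt.pin.prime p (hTW hp)).pos
      positivity
    -- the residue modulo `R * QSn`
    have hmod : (0 : ℤ) < ((R * QSn J' S : ℕ) : ℤ) := by
      exact_mod_cast Nat.mul_pos hR hQS1
    set z' : ℕ := (z % ((R * QSn J' S : ℕ) : ℤ)).toNat with hz'
    have hz'c : (z' : ℤ) = z % ((R * QSn J' S : ℕ) : ℤ) := by
      rw [hz', Int.toNat_of_nonneg (Int.emod_nonneg _ hmod.ne')]
    have hz'z : (z' : ℤ) ≡ z [ZMOD ((R * QSn J' S : ℕ) : ℤ)] := by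
      rw [hz'c]; exact Int.mod_modEq _ _
    have hz'm : z' ∈ zcl R J' r S := by
      unfold zcl
      rw [mem_filter, mem_range]
      refine ⟨?_, ?_⟩
      · have : (z' : ℤ) < ((R * QSn J' S : ℕ) : ℤ) := by
          rw [hz'c]; exact Int.emod_lt_of_pos _ hmod
        exact_mod_cast this
      · refine Int.ModEq.trans (Int.ModEq.of_dvd ?_ hz'z) hzr
        exact Int.natCast_dvd_natCast.2 (dvd_mul_right R (QSn J' S))
    have h1 := dnm_le_NN (P := P) (ν := ν) (G := G) y M R J' (Q2 P) r Φ T (x : ℤ) hS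
      (Finset.disjoint_of_subset_right hT hSV) hz'm
    have hd0 : 0 ≤ dnm ν G y M R J' Φ S z' T x := dnm_nonneg hν hG y M R J' hΦ S z' T x
    have hm0 : 0 < 2 * mm J' := by unfold mm; omega
    have h2 : dnm ν G y M R J' Φ S z' T x ≤
        (NN P ν G y M R J' (Q2 P) r Φ T x) ^ (1 / ((2 * mm J' : ℕ) : ℝ)) := by
      have h3 := Real.rpow_le_rpow (pow_nonneg hd0 _) h1
        (show 0 ≤ 1 / ((2 * mm J' : ℕ) : ℝ) from div_nonneg zero_le_one (Nat.cast_nonneg _))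
      rwa [← Real.rpow_natCast, ← Real.rpow_mul hd0, mul_one_div_cancel
        (by exact_mod_cast hm0.ne'), Real.rpow_one] at h3
    -- mass versus `rT`
    have h4 : dn ν T x * mass G y M (R * ((∏ p ∈ T, p) * ∏ p ∈ S, p ^ J')) z ≤
        rT ν G y M (R * QSn J' S) z' T x := by
      unfold rT mass
      refine mul_le_mul_of_nonneg_left ?_ hdn.le
      apply Finset.sum_le_sum_of_subset_of_nonneg
      · intro n hn
        rw [mem_filter] at hn ⊢
        refine ⟨hn.1, ?_, ?_⟩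
        · refine Int.ModEq.trans (Int.ModEq.of_dvd ?_ hn.2) hz'z.symm
          refine Int.natCast_dvd_natCast.2 ⟨∏ p ∈ T, p, ?_⟩
          unfold QSn
          ring
        · refine Int.ModEq.trans (Int.ModEq.of_dvd ?_ hn.2) hzx
          refine Int.natCast_dvd_natCast.2 ⟨R * ∏ p ∈ S, p ^ J', ?_⟩
          ring
      · intro n _ _
        exact hG n
    have hcp : 0 < ∏ p ∈ S, cp p := Finset.prod_pos fun p hp => cp_pos (hSp p hp).one_lt.le
    have h5 : rT ν G y M (R * QSn J' S) z' T x = dnm ν G y M R J' Φ S z' T x *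
        (∏ p ∈ S, cp p) * (M * Φ / (R * QSn J' S)) := by
      unfold dnm
      rw [Finset.prod_inv_distrib]
      push_cast
      field_simp
    have e1 : ∏ p ∈ S, (p : ℝ) ^ (0.001 : ℝ) = ∏ p ∈ S, cp p := by
      refine Finset.prod_congr rfl fun p _ => ?_
      unfold cp
      norm_num
    have e2 : ∏ p ∈ S, (p : ℝ) ^ J' = QSn J' S := (QSn_cast J' S).symm
    have e3 : dn ν T x * ∏ p ∈ T, (ν p x / p) = 1 := by
      unfold dn
      rw [← Finset.prod_mul_distrib]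
      refine Finset.prod_eq_one fun p hp => ?_
      have h2 : (p : ℝ) ≠ 0 := by exact_mod_cast (hSt.pin.prime p (hTW hp)).ne_zero
      have h3 := hz p hp
      field_simp
    rw [e1, e2]
    rw [h5] at h4
    have h6 : dnm ν G y M R J' Φ S z' T x * (∏ p ∈ S, cp p) * (M * Φ / (R * QSn J' S)) ≤
        (NN P ν G y M R J' (Q2 P) r Φ T x) ^ (1 / ((2 * mm J' : ℕ) : ℝ)) *
          (∏ p ∈ S, cp p) * (M * Φ / (R * QSn J' S)) := by
      apply mul_le_mul_of_nonneg_right _ (by positivity)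
      exact mul_le_mul_of_nonneg_right h2 hcp.le
    have h7 := h4.trans h6
    have h8 : 0 ≤ ∏ p ∈ T, (ν p x / p) :=
      Finset.prod_nonneg fun p _ => div_nonneg (hν p _) (Nat.cast_nonneg p)
    have h9 := mul_le_mul_of_nonneg_right h7 h8
    calc mass G y M (R * ((∏ p ∈ T, p) * ∏ p ∈ S, p ^ J')) z
        = (dn ν T x * ∏ p ∈ T, (ν p x / p)) *
          mass G y M (R * ((∏ p ∈ T, p) * ∏ p ∈ S, p ^ J')) z := by rw [e3, one_mul]
      _ = dn ν T x * mass G y M (R * ((∏ p ∈ T, p) * ∏ p ∈ S, p ^ J')) z *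
          ∏ p ∈ T, (ν p x / p) := by ring
      _ ≤ _ := h9
      _ = _ := by ring
  · -- some weight vanishes
    push Not at hz
    obtain ⟨p, hpT, hp0⟩ := hz
    have hpW : p ∈ W2 P := hTW hpT
    have hmass : mass G y M (R * ((∏ p ∈ T, p) * ∏ p ∈ S, p ^ J')) z = 0 := by
      unfold mass
      refine Finset.sum_eq_zero fun n hn => ?_
      rw [mem_filter] at hn
      have h1 : n ≡ (x : ℤ) [ZMOD ((∏ p ∈ T, p : ℕ) : ℤ)] := by
        refine Int.ModEq.trans (Int.ModEq.of_dvd ?_ hn.2) hzx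
        refine Int.natCast_dvd_natCast.2 ⟨R * ∏ p ∈ S, p ^ J', ?_⟩
        ring
      have h2 : n ≡ (x : ℤ) [ZMOD (p : ℤ)] :=
        Int.ModEq.of_dvd (Int.natCast_dvd_natCast.2 (Finset.dvd_prod_of_mem (fun p : ℕ => p) hpT)) h1
      have h3 : ν p n = 0 := by
        rw [per_congr (hSt.pin.wts.per p hpW) h2]
        exact hp0
      have h4 := hSt.pin.Gle n
      have h5 : ∏ p ∈ W2 P, (ν p n) ^ tau2 P = 0 := by
        refine Finset.prod_eq_zero hpW ?_
        rw [h3, Real.zero_rpow hτ.ne']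
      rw [h5] at h4
      exact le_antisymm h4 (hG n)
    have hprod : ∏ p ∈ T, (ν p x / p) = 0 := by
      refine Finset.prod_eq_zero hpT ?_
      rw [hp0, zero_div]
    rw [hmass, hprod]
    simp

theorem nv_of_mom (hMOM : MOMStmt) : NVStmt := by
  intro k J' hk hJ
  obtain ⟨C, P1, hC, hcore⟩ := core_one hMOM k J' hk hJ
  refine ⟨C, max P1 1, hC, ?_⟩
  intro P hP N' Nmin Φ G ν hSt V R M y r Pr hV hVlog hR hVR hRlog hMN hNM hPr
  have hP1 : P1 ≤ P := (le_max_left _ _).trans hP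
  have hPone : 1 ≤ P := (le_max_right _ _).trans hP
  have hPpos : 0 < P := by linarith
  have hν := hSt.pin.wts.nn
  have hτ : 0 < tau2 P := by
    unfold tau2 J2
    have : 0 < ⌈P ^ (0.05 : ℝ)⌉₊ := Nat.ceil_pos.2 (Real.rpow_pos_of_pos hPpos _)
    positivity
  have hN0 : (0 : ℝ) < N' := lt_of_lt_of_le (Real.exp_pos _) hSt.N'lo
  have hM0 : (0 : ℝ) < M := by
    by_contra h
    have h1 : (M : ℝ) ≤ 0 := not_lt.1 h
    have h2 : P * M ≤ 0 := mul_nonpos_of_nonneg_of_nonpos hPpos.le h1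
    linarith
  have hNN1 : ∀ (T : Finset ℕ) (x : ℤ), 1 ≤ NN P ν G y M R J' (Q2 P) r Φ T x :=
    fun T x => one_le_NN y M R J' (Q2 P) r Φ T x
  have hm0 : 2 ≤ mm J' := by unfold mm; omega
  refine ⟨fun T x => (NN P ν G y M R J' (Q2 P) r Φ T x) ^ (1 / ((2 * mm J' : ℕ) : ℝ)),
    ?_, ?_, ?_⟩
  · intro T x
    exact Real.one_le_rpow (hNN1 T x) (div_nonneg zero_le_one (Nat.cast_nonneg _))
  · intro T hT x S hS hSQ z hzx hzr
    have hSd : Disjoint S V := by
      rw [Finset.disjoint_left]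
      intro p hp hpV
      exact (hPr p (hS hp)).2.1 hpV
    have hSZ : S ∈ ZF P R (Q2 P) := by
      rw [mem_ZF]
      refine ⟨fun p hp => ?_, hSQ⟩
      have h1 := hPr p (hS hp)
      refine ⟨⟨h1.1.one_lt.le, ?_⟩, h1.1, ?_, h1.2.2.2⟩
      · refine le_trans ?_ hSQ
        exact Nat.le_of_dvd (Finset.prod_pos fun q hq => (hPr q (hS hq)).1.pos)
          (Finset.dvd_prod_of_mem (fun p : ℕ => p) hp)
      · rw [Nat.floor_lt (Real.rpow_nonneg hPpos.le _)]
        exact h1.2.2.1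
    exact mass_le_NN hSt hτ hV hR hM0 hT hSZ hSd hzx hzr
  · refine le_trans ?_ (hcore P hP1 N' Nmin Φ G ν hSt V R M y r hV hVlog hR hVR hRlog hMN hNM)
    refine Finset.sum_le_sum fun T hT => ?_
    rw [mem_powerset] at hT
    have ht0 : 0 ≤ t2 P := Real.rpow_nonneg hPpos.le _
    have ht1 : t2 P ≤ 1 := by
      unfold t2
      exact Real.rpow_le_one_of_one_le_of_nonpos hPone (by norm_num)
    refine mul_le_mul_of_nonneg_left ?_ (wtR_nonneg _ V T hT (fun _ _ => ht0) (fun _ _ => ht1))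
    refine Finset.sum_le_sum fun x _ => ?_
    refine mul_le_mul_of_nonneg_left ?_ (Finset.prod_nonneg fun p _ =>
      div_nonneg (hν p _) (Nat.cast_nonneg p))
    have h1 := hNN1 T x
    have h0 : 0 ≤ NN P ν G y M R J' (Q2 P) r Φ T x := by linarith
    rw [← Real.rpow_natCast, ← Real.rpow_mul h0]
    conv_rhs => rw [← Real.rpow_one (NN P ν G y M R J' (Q2 P) r Φ T x)]
    apply Real.rpow_le_rpow_of_exponent_le h1
    have h2 : (0 : ℝ) < ((2 * mm J' : ℕ) : ℝ) := Nat.cast_pos.2 (by omega)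
    rw [one_div, inv_mul_le_iff₀ h2, mul_one]
    have h3 : 4 ≤ 2 * mm J' := by omega
    exact_mod_cast h3

end Vale.Agent.P042.TT
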