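import Vale.Agent.P042.TT.Ew
import Vale.Agent.P042.TT.Nu2

set_option autoImplicit false

/-!
Block ONE: the modulus `q = 1`.
-/

namespace Vale.Agent.P042.TT

open Finset Vale.Agent.P042.SS NU2

section one

variable {P : ℝ} {k N' Nmin : ℕ} {Φ : ℝ} {G : ℤ → ℝ} {ν : ℕ → ℤ → ℝ}

lemma one_dn_nonneg (hw : Wts (W2 P) ν) (T : Finset ℕ) (x : ℤ) : 0 ≤ dn ν T x := by
  unfold dn
  exact prod_nonneg fun p _ => mul_nonneg (Nat.cast_nonneg _) (inv_nonneg.2 (hw.nn _ _))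

lemma one_enT_nonneg (hw : Wts (W2 P) ν) (G : ℤ → ℝ) (y : ℤ) (M R : ℕ) (r : ℤ) (θ : ℝ)
    (T : Finset ℕ) : 0 ≤ enT ν G y M R r θ T := by
  unfold enT
  exact sum_nonneg fun x _ => mul_nonneg (one_dn_nonneg hw T x) (sq_nonneg _)

lemma one_t2_mem (hB : Big k P) : 0 ≤ t2 P ∧ t2 P ≤ 1 := by
  have hP := hB.pos
  constructor
  · unfold t2; positivity
  · have h := hB.rpow_le (a := -0.34) (b := 0) (by norm_num)
    rw [Real.rpow_zero] at h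
    exact h

lemma one_tot_nonneg (hB : Big k P) (hw : Wts (W2 P) ν) (V : Finset ℕ) (G : ℤ → ℝ) (y : ℤ)
    (M R : ℕ) (r : ℤ) (θ : ℝ) : 0 ≤ tot (t2 P) V ν G y M R r θ := by
  obtain ⟨h0, h1⟩ := one_t2_mem hB
  unfold tot
  refine sum_nonneg fun T hT => mul_nonneg ?_ (one_enT_nonneg hw G y M R r θ T)
  exact wtR_nonneg _ _ _ (mem_powerset.1 hT) (fun _ _ => h0) (fun _ _ => h1)

lemma one_zR_nonneg (hB : Big k P) (q : ℕ) : 0 ≤ zR P q := by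
  have hP := hB.pos
  unfold zR zr
  refine prod_nonneg fun p _ => ?_
  split_ifs <;> positivity

/-- comparison of the two rates -/
lemma tot_t1_le (hB : Big k P) (hS : St P k N' Nmin Φ G ν) {V : Finset ℕ} (hV : V ⊆ W2 P)
    (y : ℤ) (M R : ℕ) (r : ℤ) (θ : ℝ) :
    tot (t1 P) V ν G y M R r θ ≤
      ‖Fc G y M R r θ‖ ^ 2 + P ^ (-0.005 : ℝ) * tot (t2 P) V ν G y M R r θ := by
  have hP := hB.pos
  have hw : Wts V ν := ⟨hS.pin.wts.nn, fun p hp => hS.pin.wts.per p (hV hp),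
    fun p hp => hS.pin.wts.mean p (hV hp)⟩
  obtain ⟨hnn, hem, htot, -, -⟩ := ew_holds V ν G y M R r θ
    (fun p hp => mem_W2_prime (hV hp)) hw (fun n hn p hp => G_supp hB hS hn (hV hp))
  rw [htot V (Subset.refl V) (t1 P), htot V (Subset.refl V) (t2 P)]
  have h1 : ∀ t : ℝ, ∑ W ∈ V.powerset, t ^ W.card * ew ν G y M R r θ W =
      ‖Fc G y M R r θ‖ ^ 2 + ∑ W ∈ V.powerset.erase ∅, t ^ W.card * ew ν G y M R r θ W := by
    intro t
    rw [← add_sum_erase _ _ (empty_mem_powerset V), hem, card_empty, pow_zero, one_mul]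
  have hc0 : 0 ≤ P ^ (-0.005 : ℝ) := by positivity
  have hc1 : P ^ (-0.005 : ℝ) ≤ 1 := by
    have h := hB.rpow_le (a := -0.005) (b := 0) (by norm_num)
    rwa [Real.rpow_zero] at h
  have ht : t1 P = P ^ (-0.005 : ℝ) * t2 P := by
    unfold t1 t2
    rw [← Real.rpow_add hP]
    norm_num
  have ht2 : 0 ≤ t2 P := (one_t2_mem hB).1
  have h2 : ∑ W ∈ V.powerset.erase ∅, (t1 P) ^ W.card * ew ν G y M R r θ W ≤
      P ^ (-0.005 : ℝ) * ∑ W ∈ V.powerset.erase ∅, (t2 P) ^ W.card * ew ν G y M R r θ W := by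
    rw [mul_sum]
    refine sum_le_sum fun W hW => ?_
    rw [mem_erase, mem_powerset] at hW
    rw [← mul_assoc]
    refine mul_le_mul_of_nonneg_right ?_ (hnn W hW.2)
    rw [ht, mul_pow]
    refine mul_le_mul_of_nonneg_right ?_ (pow_nonneg ht2 _)
    have hcard : 1 ≤ W.card := card_pos.2 (nonempty_of_ne_empty hW.1)
    calc (P ^ (-0.005 : ℝ)) ^ W.card ≤ (P ^ (-0.005 : ℝ)) ^ 1 :=
          pow_le_pow_of_le_one hc0 hc1 hcard
      _ = P ^ (-0.005 : ℝ) := pow_one _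
  rw [h1 (t1 P), h1 (t2 P), mul_add]
  have h3 : 0 ≤ P ^ (-0.005 : ℝ) * ‖Fc G y M R r θ‖ ^ 2 := by positivity
  linarith

lemma one_Fc_zero (G : ℤ → ℝ) (y : ℤ) (M : ℕ) : Fc G y M 1 0 0 = (mass G y M 1 0 : ℂ) := by
  unfold Fc mass
  rw [Complex.ofReal_sum]
  refine sum_congr rfl fun n _ => ?_
  simp [e]

/-- the term `q = 1` of SUM -/
lemma sum_one_le {C : ℝ} (hB : Big k P)
    (hsum : ∀ (N' Nmin : ℕ) (Φ : ℝ) (G : ℤ → ℝ) (ν : ℕ → ℤ → ℝ), St P k N' Nmin Φ G ν →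
      ∀ (V : Finset ℕ) (D M : ℕ) (y : ℤ), V ⊆ W2 P → ∑ p ∈ V, Real.log p ≤ P ^ (0.995 : ℝ) →
      M ≤ N' → N' ≤ 32 * M → 1 ≤ D → Real.log D ≤ P ^ (0.625 : ℝ) →
      (∀ p ∈ V, Nat.Coprime p D) →
      ∑ d ∈ D.divisors, ∑ q ∈ (QZ P 1 V (Q2 P)).filter (fun q => Nat.Coprime q D),
        zR P q * ∑ a ∈ (range (d * q)).filter (Nat.Coprime (d * q)),
          tot (t2 P) V ν G y M 1 0 ((a : ℝ) / ((d * q : ℕ) : ℝ)) ≤
        C * (D : ℝ) ^ (C * b2 P) * (M * Φ) ^ 2)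
    (hS : St P k N' Nmin Φ G ν) {V : Finset ℕ} {D M : ℕ} (y : ℤ) (hV : V ⊆ W2 P)
    (hVl : ∑ p ∈ V, Real.log p ≤ P ^ (0.995 : ℝ)) (hM : M ≤ N') (hN : N' ≤ 32 * M) (hD : 1 ≤ D)
    (hDl : Real.log D ≤ P ^ (0.625 : ℝ)) (hc : ∀ p ∈ V, Nat.Coprime p D) :
    ∑ d ∈ D.divisors, ∑ a ∈ (range d).filter (Nat.Coprime d),
      tot (t2 P) V ν G y M 1 0 ((a : ℝ) / d) ≤ C * (D : ℝ) ^ (C * b2 P) * (M * Φ) ^ 2 := by
  have hP := hB.pos
  refine le_trans ?_ (hsum N' Nmin Φ G ν hS V D M y hV hVl hM hN hD hDl hc)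
  refine sum_le_sum fun d _ => ?_
  have hQ : 1 ≤ Q2 P := by
    unfold Q2
    rw [Nat.one_le_floor_iff]
    exact Real.one_le_exp (by positivity)
  have h1 : 1 ∈ (QZ P 1 V (Q2 P)).filter (fun q => Nat.Coprime q D) := by
    unfold QZ EV
    simp only [mem_filter, mem_Icc]
    refine ⟨⟨⟨⟨le_refl _, hQ⟩, fun p _ => by simp, fun p hp hp1 => ?_⟩, by simp⟩,
      Nat.coprime_one_left D⟩
    exact (mem_W2_prime (hV hp)).one_lt.ne' (Nat.dvd_one.1 hp1)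
  have h2 := single_le_sum (f := fun q => zR P q *
    ∑ a ∈ (range (d * q)).filter (Nat.Coprime (d * q)),
      tot (t2 P) V ν G y M 1 0 ((a : ℝ) / ((d * q : ℕ) : ℝ)))
    (fun q _ => mul_nonneg (one_zR_nonneg hB q)
      (sum_nonneg fun a _ => one_tot_nonneg hB hS.pin.wts V G y M 1 0 _)) h1
  refine le_trans (le_of_eq ?_) h2
  simp [zR]

end one

/-- block ONE -/
theorem one_of (hSum : SUMStmt) : ONEStmt := by
  intro k hk
  obtain ⟨C, P0, hC, hsum⟩ := hSum k 1 hk le_rfl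
  obtain ⟨P1, hP1⟩ := big_eventually k
  refine ⟨max (max P0 P1) (max 1 (C ^ (1 / 0.003 : ℝ))), fun P hP N' Nmin Φ G ν hS V M y hV hVl
    hM hN => ?_⟩
  have hPP0 : P0 ≤ P := (le_max_left _ _).trans ((le_max_left _ _).trans hP)
  have hPP1 : P1 ≤ P := (le_max_right _ _).trans ((le_max_left _ _).trans hP)
  have hPC : C ^ (1 / 0.003 : ℝ) ≤ P := (le_max_right _ _).trans ((le_max_right _ _).trans hP)
  have hB := hP1 P hPP1
  have hP0 := hB.pos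
  have h1 := sum_one_le hB (hsum P hPP0) hS (D := 1) y hV hVl hM hN le_rfl
    (by rw [Nat.cast_one, Real.log_one]; positivity) (fun p _ => Nat.coprime_one_right p)
  have h2 := tot_t1_le hB hS hV y M 1 0 0
  have hCP : C ≤ P ^ (0.003 : ℝ) := by
    calc C = (C ^ (1 / 0.003 : ℝ)) ^ (0.003 : ℝ) := by
          rw [← Real.rpow_mul hC.le]; norm_num
      _ ≤ P ^ (0.003 : ℝ) := Real.rpow_le_rpow (by positivity) hPC (by norm_num)
  have h3 : tot (t2 P) V ν G y M 1 0 0 ≤ C * (M * Φ) ^ 2 := by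
    have e1 : ∑ d ∈ (1 : ℕ).divisors, ∑ a ∈ (range d).filter (Nat.Coprime d),
        tot (t2 P) V ν G y M 1 0 ((a : ℝ) / d) = tot (t2 P) V ν G y M 1 0 0 := by
      simp
    rw [e1] at h1
    simpa using h1
  rw [one_Fc_zero] at h2
  have h4 : ‖(mass G y M 1 0 : ℂ)‖ ^ 2 = (mass G y M 1 0) ^ 2 := by
    rw [Complex.norm_real, Real.norm_eq_abs, sq_abs]
  rw [h4] at h2
  have h5 : P ^ (-0.005 : ℝ) * tot (t2 P) V ν G y M 1 0 0 ≤ P ^ (-0.002 : ℝ) * (M * Φ) ^ 2 := by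
    have hc0 : 0 ≤ P ^ (-0.005 : ℝ) := by positivity
    calc P ^ (-0.005 : ℝ) * tot (t2 P) V ν G y M 1 0 0
        ≤ P ^ (-0.005 : ℝ) * (P ^ (0.003 : ℝ) * (M * Φ) ^ 2) := by
          refine mul_le_mul_of_nonneg_left (h3.trans ?_) hc0
          exact mul_le_mul_of_nonneg_right hCP (sq_nonneg _)
      _ = P ^ (-0.002 : ℝ) * (M * Φ) ^ 2 := by
          rw [← mul_assoc, ← Real.rpow_add hP0]
          norm_num
  linarith

end Vale.Agent.P042.TT
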