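import Vale.Agent.P042.TT.PsiScalar

set_option autoImplicit false

/-!
Block PSI, part A: one-coordinate calculus in a finite product space.
-/

namespace Vale.Agent.P042.TT.Psi

open Finset Real

variable {ι : Type} [Fintype ι] [DecidableEq ι] {X : ι → Type} [∀ i, Fintype (X i)]

/-- product weight -/
noncomputable def wt (p : ∀ i, X i → ℝ) (x : ∀ i, X i) : ℝ := ∏ i, p i (x i)

/-- expectation -/
noncomputable def ex (p : ∀ i, X i → ℝ) (f : (∀ i, X i) → ℝ) : ℝ := ∑ x, wt p x * f x

/-- conditional expectation -/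
noncomputable def cexp (p : ∀ i, X i → ℝ) (T : Finset ι) (F : (∀ i, X i) → ℝ)
    (x : ∀ i, X i) : ℝ := ∑ y, wt p y * F (T.piecewise x y)

lemma wt_update (p : ∀ i, X i → ℝ) (x : ∀ i, X i) (i : ι) (z : X i) :
    wt p (Function.update x i z) * p i (x i) = wt p x * p i z := by
  unfold wt
  rw [← Finset.mul_prod_erase univ (fun j => p j (Function.update x i z j)) (mem_univ i),
    ← Finset.mul_prod_erase univ (fun j => p j (x j)) (mem_univ i)]
  have : ∏ j ∈ univ.erase i, p j (Function.update x i z j) = ∏ j ∈ univ.erase i, p j (x j) := by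
    apply prod_congr rfl
    intro j hj
    rw [Function.update_of_ne (ne_of_mem_erase hj)]
  rw [this]
  simp only [Function.update_self]
  ring

lemma wt_nonneg (p : ∀ i, X i → ℝ) (hp : ∀ i z, 0 ≤ p i z) (x : ∀ i, X i) : 0 ≤ wt p x :=
  prod_nonneg (fun i _ => hp i _)

lemma wt_sum (p : ∀ i, X i → ℝ) (hp1 : ∀ i, ∑ z, p i z = 1) : ∑ x, wt p x = 1 := by
  unfold wt
  have := Finset.prod_univ_sum (fun i => (univ : Finset (X i))) p
  rw [Fintype.piFinset_univ] at this
  rw [← this]
  simp [hp1]

/-- the involution `(x, z) ↦ (update x i z, x i)` -/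
def invo (i : ι) : ((∀ j, X j) × X i) ≃ ((∀ j, X j) × X i) where
  toFun q := (Function.update q.1 i q.2, q.1 i)
  invFun q := (Function.update q.1 i q.2, q.1 i)
  left_inv q := by simp
  right_inv q := by simp

/-- Fubini at one coordinate -/
lemma ex_fubini (p : ∀ i, X i → ℝ) (hp1 : ∀ i, ∑ z, p i z = 1) (i : ι)
    (F : (∀ i, X i) → ℝ) :
    ex p F = ex p (fun x => ∑ z, p i z * F (Function.update x i z)) := by
  unfold ex
  have h1 : ∑ x, wt p x * F x = ∑ q : (∀ j, X j) × X i, wt p q.1 * p i q.2 * F q.1 := by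
    rw [Fintype.sum_prod_type]
    apply sum_congr rfl
    intro x _
    simp only
    rw [← sum_mul, ← mul_sum, hp1, mul_one]
  rw [h1, ← (invo (X := X) i).sum_comp, Fintype.sum_prod_type]
  apply sum_congr rfl
  intro x _
  rw [mul_sum]
  apply sum_congr rfl
  intro z _
  simp only [invo, Equiv.coe_fn_mk]
  rw [wt_update]
  ring

lemma piecewise_insert_update {S : Finset ι} {i : ι} (hi : i ∉ S) (x y : ∀ i, X i) (z : X i) :
    (insert i S).piecewise (Function.update x i z) y =
      S.piecewise x (Function.update y i z) := by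
  ext j
  by_cases hj : j = i
  · subst hj
    simp [Finset.piecewise, hi]
  · by_cases hS : j ∈ S
    · simp [Finset.piecewise, hj, hS]
    · simp [Finset.piecewise, hj, hS]

/-- tower property -/
lemma cexp_tower (p : ∀ i, X i → ℝ) (hp1 : ∀ i, ∑ z, p i z = 1) (F : (∀ i, X i) → ℝ)
    (T : Finset ι) (i : ι) (hi : i ∉ T) (x : ∀ i, X i) :
    ∑ z, p i z * cexp p (insert i T) F (Function.update x i z) = cexp p T F x := by
  have h := ex_fubini p hp1 i (fun y => F (T.piecewise x y))
  unfold cexp
  unfold ex at h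
  rw [h]
  simp only [mul_sum]
  rw [sum_comm]
  apply sum_congr rfl
  intro y _
  apply sum_congr rfl
  intro z _
  rw [piecewise_insert_update hi]
  ring

lemma cexp_update (p : ∀ i, X i → ℝ) (F : (∀ i, X i) → ℝ)
    (T : Finset ι) (i : ι) (hi : i ∉ T) (x : ∀ i, X i) (z : X i) :
    cexp p T F (Function.update x i z) = cexp p T F x := by
  unfold cexp
  apply sum_congr rfl
  intro y _
  congr 2
  ext j
  by_cases hj : j ∈ T
  · have : j ≠ i := fun h => hi (h ▸ hj)
    simp [Finset.piecewise, hj, this]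
  · simp [Finset.piecewise, hj]

lemma cexp_nonneg (p : ∀ i, X i → ℝ) (hp : ∀ i z, 0 ≤ p i z) (F : (∀ i, X i) → ℝ)
    (hF : ∀ x, 0 ≤ F x) (T : Finset ι) (x : ∀ i, X i) : 0 ≤ cexp p T F x :=
  sum_nonneg (fun y _ => mul_nonneg (wt_nonneg p hp y) (hF _))

lemma cexp_empty (p : ∀ i, X i → ℝ) (F : (∀ i, X i) → ℝ) (x : ∀ i, X i) :
    cexp p ∅ F x = ex p F := by
  unfold cexp ex
  simp

lemma ex_mono (p : ∀ i, X i → ℝ) (hp : ∀ i z, 0 ≤ p i z) (f g : (∀ i, X i) → ℝ)
    (h : ∀ x, f x ≤ g x) : ex p f ≤ ex p g :=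
  sum_le_sum (fun x _ => mul_le_mul_of_nonneg_left (h x) (wt_nonneg p hp x))

lemma ex_nonneg (p : ∀ i, X i → ℝ) (hp : ∀ i z, 0 ≤ p i z) (f : (∀ i, X i) → ℝ)
    (h : ∀ x, 0 ≤ f x) : 0 ≤ ex p f :=
  sum_nonneg (fun x _ => mul_nonneg (wt_nonneg p hp x) (h x))

lemma ex_add (p : ∀ i, X i → ℝ) (f g : (∀ i, X i) → ℝ) :
    ex p (fun x => f x + g x) = ex p f + ex p g := by
  unfold ex
  rw [← sum_add_distrib]
  exact sum_congr rfl (fun x _ => by ring)

lemma ex_smul (p : ∀ i, X i → ℝ) (c : ℝ) (f : (∀ i, X i) → ℝ) :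
    ex p (fun x => c * f x) = c * ex p f := by
  unfold ex
  rw [mul_sum]
  exact sum_congr rfl (fun x _ => by ring)

lemma ex_sum {κ : Type} (p : ∀ i, X i → ℝ) (s : Finset κ) (f : κ → (∀ i, X i) → ℝ) :
    ex p (fun x => ∑ k ∈ s, f k x) = ∑ k ∈ s, ex p (f k) := by
  unfold ex
  rw [sum_comm]
  apply sum_congr rfl
  intro x _
  rw [mul_sum]

lemma ex_const (p : ∀ i, X i → ℝ) (hp1 : ∀ i, ∑ z, p i z = 1) (c : ℝ) :
    ex p (fun _ => c) = c := by
  unfold ex
  rw [← sum_mul, wt_sum p hp1, one_mul]

/-- likelihood ratio of the new coordinate -/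
noncomputable def lr (p : ∀ i, X i → ℝ) (F : (∀ i, X i) → ℝ) (T : Finset ι) (i : ι)
    (x : ∀ i, X i) (z : X i) : ℝ :=
  cexp p (insert i T) F (Function.update x i z) / cexp p T F x

/-- relative entropy of the new coordinate -/
noncomputable def KLc (p : ∀ i, X i → ℝ) (F : (∀ i, X i) → ℝ) (T : Finset ι) (i : ι)
    (x : ∀ i, X i) : ℝ := ∑ z, p i z * (lr p F T i x z * log (lr p F T i x z))

section one
variable (p : ∀ i, X i → ℝ) (hp : ∀ i z, 0 ≤ p i z) (hp1 : ∀ i, ∑ z, p i z = 1)
  (F : (∀ i, X i) → ℝ) (hF : ∀ x, 0 ≤ F x) (T : Finset ι) (i : ι) (hi : i ∉ T) (x : ∀ i, X i)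

include hp hF in
lemma lr_nonneg (z : X i) : 0 ≤ lr p F T i x z :=
  div_nonneg (cexp_nonneg p hp F hF _ _) (cexp_nonneg p hp F hF _ _)

include hp1 hi in
lemma lr_mean (hpos : 0 < cexp p T F x) : ∑ z, p i z * lr p F T i x z = 1 := by
  unfold lr
  have := cexp_tower p hp1 F T i hi x
  simp only [← mul_div_assoc]
  rw [← sum_div, this, div_self hpos.ne']

include hp hF in
lemma lr_le (U : ℝ) (hU1 : 1 ≤ U) (z : X i)
    (hz : cexp p (insert i T) F (Function.update x i z) ≤ U * cexp p T F x) :
    lr p F T i x z ≤ U := by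
  unfold lr
  rcases (cexp_nonneg p hp F hF T x).eq_or_lt with h | h
  · rw [← h]; simp; linarith
  · rwa [div_le_iff₀ h]

include hp hp1 hF hi in
lemma cexp_insert_le (U : ℝ) (hU1 : 1 ≤ U) (z : X i) (hz : p i z = 0 ∨ 1 ≤ U * p i z) :
    p i z = 0 ∨ cexp p (insert i T) F (Function.update x i z) ≤ U * cexp p T F x := by
  rcases hz with h | h
  · exact Or.inl h
  · right
    have h1 : p i z * cexp p (insert i T) F (Function.update x i z) ≤ cexp p T F x := by
      rw [← cexp_tower p hp1 F T i hi x]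
      exact single_le_sum (f := fun z => p i z * cexp p (insert i T) F (Function.update x i z))
        (fun z _ => mul_nonneg (hp i z) (cexp_nonneg p hp F hF _ _)) (mem_univ z)
    have h2 : 0 ≤ cexp p (insert i T) F (Function.update x i z) := cexp_nonneg p hp F hF _ _
    calc cexp p (insert i T) F (Function.update x i z)
        ≤ (U * p i z) * cexp p (insert i T) F (Function.update x i z) := by nlinarith
      _ = U * (p i z * cexp p (insert i T) F (Function.update x i z)) := by ring
      _ ≤ U * cexp p T F x := mul_le_mul_of_nonneg_left h1 (by linarith)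

include hp hp1 hF hi in
/-- increment of `Ψ`, pointwise -/
lemma incr_le (U θ : ℝ) (hU1 : 1 ≤ U) (hθ : 0 < θ) (hθ1 : θ ≤ 1)
    (hU : ∀ z, p i z = 0 ∨ cexp p (insert i T) F (Function.update x i z) ≤ U * cexp p T F x) :
    ∑ z, p i z * cexp p (insert i T) F (Function.update x i z) ^ (1 + θ) ≤
      cexp p T F x ^ (1 + θ) * (1 + θ * (1 + θ) * U ^ θ * KLc p F T i x) := by
  rcases (cexp_nonneg p hp F hF T x).eq_or_lt with h | h
  · have h0 : ∀ z, p i z * cexp p (insert i T) F (Function.update x i z) = 0 := by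
      have := cexp_tower p hp1 F T i hi x
      rw [← h] at this
      intro z
      exact (sum_eq_zero_iff_of_nonneg
        (fun z _ => mul_nonneg (hp i z) (cexp_nonneg p hp F hF _ _))).mp this z (mem_univ z)
    have h1 : ∀ z, p i z * cexp p (insert i T) F (Function.update x i z) ^ (1 + θ) = 0 := by
      intro z
      rcases mul_eq_zero.mp (h0 z) with h | h
      · rw [h]; ring
      · rw [h, Real.zero_rpow (by linarith)]; ring
    rw [sum_eq_zero (fun z _ => h1 z), ← h, Real.zero_rpow (by linarith)]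
    simp
  · have hc : 0 ≤ cexp p T F x ^ (1 + θ) := Real.rpow_nonneg h.le _
    have e1 : ∀ z, cexp p (insert i T) F (Function.update x i z) ^ (1 + θ) =
        cexp p T F x ^ (1 + θ) * lr p F T i x z ^ (1 + θ) := by
      intro z
      rw [← Real.mul_rpow h.le (lr_nonneg p hp F hF T i x z)]
      congr 1
      unfold lr
      rw [mul_div_cancel₀ _ h.ne']
    have e2 : ∑ z, p i z * cexp p (insert i T) F (Function.update x i z) ^ (1 + θ) =
        cexp p T F x ^ (1 + θ) * ∑ z, p i z * lr p F T i x z ^ (1 + θ) := by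
      rw [mul_sum]
      apply sum_congr rfl
      intro z _
      rw [e1]; ring
    rw [e2]
    apply mul_le_mul_of_nonneg_left _ hc
    have hm := lr_mean p hp1 F T i hi x h
    have e3 : ∀ z, p i z * lr p F T i x z ^ (1 + θ) ≤
        p i z * (1 + (1 + θ) * (lr p F T i x z - 1) + θ * (1 + θ) * U ^ θ *
          (lr p F T i x z * log (lr p F T i x z) - lr p F T i x z + 1)) := by
      intro z
      rcases hU z with h0 | h0
      · rw [h0]; simp
      apply mul_le_mul_of_nonneg_left _ (hp i z)
      have := breg_le (lr p F T i x z) U θ (lr_nonneg p hp F hF T i x z)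
        (lr_le p hp F hF T i x U hU1 z h0) hU1 hθ hθ1
      linarith
    refine (sum_le_sum (fun z _ => e3 z)).trans (le_of_eq ?_)
    have e4 : ∀ z, p i z * (1 + (1 + θ) * (lr p F T i x z - 1) + θ * (1 + θ) * U ^ θ *
          (lr p F T i x z * log (lr p F T i x z) - lr p F T i x z + 1)) =
        p i z * (1 - (1 + θ) + θ * (1 + θ) * U ^ θ) +
          (p i z * lr p F T i x z) * ((1 + θ) - θ * (1 + θ) * U ^ θ) +
          θ * (1 + θ) * U ^ θ * (p i z * (lr p F T i x z * log (lr p F T i x z))) := by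
      intro z; ring
    rw [sum_congr rfl (fun z _ => e4 z), sum_add_distrib, sum_add_distrib, ← sum_mul,
      ← sum_mul, ← mul_sum, hm, hp1]
    unfold KLc
    ring

include hp hp1 hF hi in
lemma KLc_mul_nonneg (θ : ℝ) (hθ : 0 < θ) : 0 ≤ cexp p T F x ^ (1 + θ) * KLc p F T i x := by
  rcases (cexp_nonneg p hp F hF T x).eq_or_lt with h | h
  · rw [← h, Real.zero_rpow (by linarith)]; simp
  · apply mul_nonneg (Real.rpow_nonneg h.le _)
    have hm := lr_mean p hp1 F T i hi x h
    have : ∀ z, p i z * (lr p F T i x z - 1) ≤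
        p i z * (lr p F T i x z * log (lr p F T i x z)) := by
      intro z
      apply mul_le_mul_of_nonneg_left _ (hp i z)
      have := young_exp (lr p F T i x z) 0 (lr_nonneg p hp F hF T i x z)
      simp at this
      linarith
    have h2 := sum_le_sum (s := univ) (fun z _ => this z)
    simp only [mul_sub, mul_one] at h2
    rw [sum_sub_distrib, hm, hp1] at h2
    unfold KLc
    linarith

include hp hp1 hF hi in
/-- low atoms (Gibbs principle) -/
lemma low_le (U θ b : ℝ) (hU1 : 1 ≤ U) (hθ : 0 < θ)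
    (hU : ∀ z, p i z = 0 ∨ cexp p (insert i T) F (Function.update x i z) ≤ U * cexp p T F x)
    (w : X i → ℝ) (hw : ∀ z, 0 ≤ w z)
    (hb : ∑ z, p i z * exp (w z) ≤ exp b) :
    ∑ z, p i z * (cexp p (insert i T) F (Function.update x i z) ^ (1 + θ) * w z) ≤
      U ^ θ * (cexp p T F x ^ (1 + θ) * KLc p F T i x + b * cexp p T F x ^ (1 + θ)) := by
  rcases (cexp_nonneg p hp F hF T x).eq_or_lt with h | h
  · have h0 : ∀ z, p i z * cexp p (insert i T) F (Function.update x i z) = 0 := by
      have := cexp_tower p hp1 F T i hi x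
      rw [← h] at this
      intro z
      exact (sum_eq_zero_iff_of_nonneg
        (fun z _ => mul_nonneg (hp i z) (cexp_nonneg p hp F hF _ _))).mp this z (mem_univ z)
    have h1 : ∀ z, p i z * (cexp p (insert i T) F (Function.update x i z) ^ (1 + θ) * w z) = 0 := by
      intro z
      rcases mul_eq_zero.mp (h0 z) with h | h
      · rw [h]; ring
      · rw [h, Real.zero_rpow (by linarith)]; ring
    rw [sum_eq_zero (fun z _ => h1 z), ← h, Real.zero_rpow (by linarith)]
    simp
  · have hc : 0 ≤ cexp p T F x ^ (1 + θ) := Real.rpow_nonneg h.le _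
    have hUθ : 0 ≤ U ^ θ := Real.rpow_nonneg (by linarith) _
    have e1 : ∀ z, cexp p (insert i T) F (Function.update x i z) ^ (1 + θ) =
        cexp p T F x ^ (1 + θ) * lr p F T i x z ^ (1 + θ) := by
      intro z
      rw [← Real.mul_rpow h.le (lr_nonneg p hp F hF T i x z)]
      congr 1
      unfold lr
      rw [mul_div_cancel₀ _ h.ne']
    have hm := lr_mean p hp1 F T i hi x h
    have e3 : ∀ z, p i z * (cexp p (insert i T) F (Function.update x i z) ^ (1 + θ) * w z) ≤
        (U ^ θ * cexp p T F x ^ (1 + θ)) * (p i z * (lr p F T i x z * w z)) := by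
      intro z
      rcases hU z with h0 | h0
      · rw [h0]; simp
      have hle := lr_le p hp F hF T i x U hU1 z h0
      have hnn := lr_nonneg p hp F hF T i x z
      have : lr p F T i x z ^ (1 + θ) ≤ U ^ θ * lr p F T i x z := by
        rcases hnn.eq_or_lt with h3 | h3
        · rw [← h3, Real.zero_rpow (by linarith)]; simp
        · rw [Real.rpow_add h3, Real.rpow_one, mul_comm]
          exact mul_le_mul_of_nonneg_right (Real.rpow_le_rpow hnn hle hθ.le) hnn
      rw [e1]
      have hpw : 0 ≤ p i z * (cexp p T F x ^ (1 + θ) * w z) :=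
        mul_nonneg (hp i z) (mul_nonneg hc (hw z))
      calc p i z * (cexp p T F x ^ (1 + θ) * lr p F T i x z ^ (1 + θ) * w z)
          = (p i z * (cexp p T F x ^ (1 + θ) * w z)) * lr p F T i x z ^ (1 + θ) := by ring
        _ ≤ (p i z * (cexp p T F x ^ (1 + θ) * w z)) * (U ^ θ * lr p F T i x z) :=
          mul_le_mul_of_nonneg_left this hpw
        _ = _ := by ring
    refine (sum_le_sum (fun z _ => e3 z)).trans ?_
    rw [← mul_sum]
    have e5 : ∑ z, p i z * (lr p F T i x z * w z) ≤ KLc p F T i x + b := by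
      have : ∀ z, p i z * (lr p F T i x z * w z) ≤
          p i z * (lr p F T i x z * log (lr p F T i x z)) - p i z * lr p F T i x z +
            exp (-b) * (p i z * exp (w z)) + b * (p i z * lr p F T i x z) := by
        intro z
        have h3 := young_exp (lr p F T i x z) (w z - b) (lr_nonneg p hp F hF T i x z)
        have h4 := mul_le_mul_of_nonneg_left h3 (hp i z)
        have h5 : exp (w z - b) = exp (-b) * exp (w z) := by
          rw [← exp_add]; ring_nf
        rw [h5] at h4
        nlinarith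
      refine (sum_le_sum (fun z _ => this z)).trans ?_
      rw [sum_add_distrib, sum_add_distrib, sum_sub_distrib, ← mul_sum, ← mul_sum, hm]
      have h6 : exp (-b) * ∑ z, p i z * exp (w z) ≤ 1 := by
        calc exp (-b) * ∑ z, p i z * exp (w z) ≤ exp (-b) * exp b :=
              mul_le_mul_of_nonneg_left hb (exp_pos _).le
          _ = 1 := by rw [← exp_add]; simp
      unfold KLc
      linarith
    calc U ^ θ * cexp p T F x ^ (1 + θ) * ∑ z, p i z * (lr p F T i x z * w z)
        ≤ U ^ θ * cexp p T F x ^ (1 + θ) * (KLc p F T i x + b) :=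
          mul_le_mul_of_nonneg_left e5 (mul_nonneg hUθ hc)
      _ = _ := by ring

end one

end Vale.Agent.P042.TT.Psi
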