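import Vale.Agent.P042.TT.PsiA

set_option autoImplicit false

/-!
Block PSI, part B: random subsets, Russo's formula and Groenwall.
-/

namespace Vale.Agent.P042.TT.Psi

open Finset Real

variable {ι : Type} [Fintype ι] [DecidableEq ι]

/-- probability of the random set `T` -/
noncomputable def Wr (s : ι → ℝ) (T : Finset ι) : ℝ :=
  (∏ i ∈ T, s i) * (∏ i ∈ univ \ T, (1 - s i))

lemma Wr_nonneg (s : ι → ℝ) (h : ∀ i, 0 ≤ s i) (h1 : ∀ i, s i ≤ 1) (T : Finset ι) :
    0 ≤ Wr s T :=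
  mul_nonneg (prod_nonneg fun i _ => h i) (prod_nonneg fun i _ => by linarith [h1 i])

lemma Wr_sum (s : ι → ℝ) : ∑ T, Wr s T = 1 := by
  have := Finset.prod_add s (fun i => 1 - s i) (univ : Finset ι)
  simp only [powerset_univ] at this
  have h2 : ∏ i : ι, (s i + (1 - s i)) = 1 := prod_eq_one (fun i _ => by ring)
  rw [h2] at this
  rw [this]
  rfl

lemma Wr_insert (s : ι → ℝ) (T : Finset ι) (i : ι) (hi : i ∉ T) :
    Wr s (insert i T) * (1 - s i) = s i * Wr s T := by
  unfold Wr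
  have h1 : (univ \ T : Finset ι) = insert i (univ \ insert i T) := by
    ext j
    simp only [mem_sdiff, mem_univ, true_and, mem_insert]
    by_cases h : j = i
    · subst h; simp [hi]
    · simp [h]
  have h2 : i ∉ (univ \ insert i T : Finset ι) := by simp
  rw [h1, prod_insert h2, prod_insert hi]
  ring

lemma exch (s : ι → ℝ) (hs : ∀ i, s i < 1) (h : Finset ι → ι → ℝ) :
    ∑ T, Wr s T * ∑ i ∈ T, h T i =
      ∑ T, Wr s T * ∑ i ∈ univ \ T, s i / (1 - s i) * h (insert i T) i := by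
  have L : ∑ T, Wr s T * ∑ i ∈ T, h T i =
      ∑ i, ∑ T ∈ univ.filter (fun T : Finset ι => i ∈ T), Wr s T * h T i := by
    simp only [mul_sum, sum_filter]
    rw [sum_comm]
    apply sum_congr rfl
    intro T _
    rw [← sum_filter]
    congr 1
    ext i; simp
  have R : ∑ T, Wr s T * ∑ i ∈ univ \ T, s i / (1 - s i) * h (insert i T) i =
      ∑ i, ∑ T ∈ univ.filter (fun T : Finset ι => i ∉ T),
        Wr s T * (s i / (1 - s i) * h (insert i T) i) := by
    simp only [mul_sum, sum_filter]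
    rw [sum_comm]
    apply sum_congr rfl
    intro T _
    rw [← sum_filter]
    congr 1
    ext i; simp
  rw [L, R]
  apply sum_congr rfl
  intro i _
  refine sum_bij' (fun T _ => T.erase i) (fun T _ => insert i T) ?_ ?_ ?_ ?_ ?_
  · intro T hT; simp
  · intro T hT; simp
  · intro T hT
    simp only [mem_filter, mem_univ, true_and] at hT
    exact insert_erase hT
  · intro T hT
    simp only [mem_filter, mem_univ, true_and] at hT
    exact erase_insert hT
  · intro T hT
    simp only [mem_filter, mem_univ, true_and] at hT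
    have h0 : i ∉ T.erase i := notMem_erase i T
    have h1 := Wr_insert s (T.erase i) i h0
    rw [insert_erase hT] at h1 ⊢
    have h2 : (1 - s i) ≠ 0 := by linarith [hs i]
    field_simp
    linear_combination (h T i) * h1

lemma hasDeriv_prod (u : Finset ι) (s : ι → ℝ) (r : ℝ) (h : ∀ i, 1 - r * s i ≠ 0) :
    HasDerivAt (fun r => ∏ i ∈ u, (1 - r * s i))
      ((∏ i ∈ u, (1 - r * s i)) * (- ∑ i ∈ u, s i / (1 - r * s i))) r := by
  have h1 : ∀ i ∈ u, HasDerivAt (fun r => (1 - r * s i)) (- s i) r := by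
    intro i _
    have := ((hasDerivAt_id r).mul_const (s i)).const_sub 1
    simpa using this
  have h2 := HasDerivAt.fun_finsetProd h1
  have h3 : (∑ i ∈ u, (∏ j ∈ u.erase i, (1 - r * s j)) • (- s i)) =
      (∏ i ∈ u, (1 - r * s i)) * (- ∑ i ∈ u, s i / (1 - r * s i)) := by
    rw [← sum_neg_distrib, mul_sum]
    apply sum_congr rfl
    intro i hi
    rw [← mul_prod_erase u _ hi, smul_eq_mul]
    have := h i
    field_simp
  rw [h3] at h2
  exact h2

lemma hasDeriv_Wr (s : ι → ℝ) (T : Finset ι) (r : ℝ) (hr : r ≠ 0) (h : ∀ i, 1 - r * s i ≠ 0) :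
    HasDerivAt (fun r => Wr (fun i => r * s i) T)
      (Wr (fun i => r * s i) T * ((T.card : ℝ) / r - ∑ i ∈ univ \ T, s i / (1 - r * s i))) r := by
  unfold Wr
  have h1 : HasDerivAt (fun r => ∏ i ∈ T, (r * s i))
      ((∏ i ∈ T, (r * s i)) * ((T.card : ℝ) / r)) r := by
    have e : (fun r => ∏ i ∈ T, (r * s i)) = fun r : ℝ => r ^ T.card * ∏ i ∈ T, s i := by
      ext r; rw [prod_mul_distrib, prod_const]
    rw [e]
    have h5 := (hasDerivAt_pow T.card r).mul_const (∏ i ∈ T, s i)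
    have h6 : (∏ i ∈ T, (r * s i)) * ((T.card : ℝ) / r) =
        (T.card : ℝ) * r ^ (T.card - 1) * ∏ i ∈ T, s i := by
      rw [prod_mul_distrib, prod_const]
      rcases Nat.eq_zero_or_pos T.card with h0 | h0
      · rw [h0]; simp
      · obtain ⟨n, hn⟩ : ∃ n, T.card = n + 1 := ⟨T.card - 1, by omega⟩
        rw [hn]
        simp only [Nat.add_sub_cancel]
        field_simp
        ring
    rw [h6]
    exact h5
  have h2 := h1.mul (hasDeriv_prod (univ \ T) s r h)
  have h7 : (∏ i ∈ T, r * s i) * (∏ i ∈ univ \ T, (1 - r * s i)) *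
      ((T.card : ℝ) / r - ∑ i ∈ univ \ T, s i / (1 - r * s i)) =
      (∏ i ∈ T, (r * s i)) * ((T.card : ℝ) / r) * (∏ i ∈ univ \ T, (1 - r * s i)) +
      (∏ i ∈ T, (r * s i)) * ((∏ i ∈ univ \ T, (1 - r * s i)) *
        (- ∑ i ∈ univ \ T, s i / (1 - r * s i))) := by ring
  rw [h7]
  exact h2

/-- Russo's formula -/
lemma russo (s : ι → ℝ) (Ψ : Finset ι → ℝ) (r : ℝ) (hr : 0 < r) (h : ∀ i, r * s i < 1) :
    HasDerivAt (fun r => ∑ T, Wr (fun i => r * s i) T * Ψ T)
      (∑ T, Wr (fun i => r * s i) T * ∑ i ∈ univ \ T,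
        s i / (1 - r * s i) * (Ψ (insert i T) - Ψ T)) r := by
  have hne : ∀ i, 1 - r * s i ≠ 0 := fun i => by linarith [h i]
  have h1 : HasDerivAt (fun r => ∑ T, Wr (fun i => r * s i) T * Ψ T)
      (∑ T, (Wr (fun i => r * s i) T * ((T.card : ℝ) / r -
        ∑ i ∈ univ \ T, s i / (1 - r * s i))) * Ψ T) r :=
    HasDerivAt.fun_sum (fun T _ => (hasDeriv_Wr s T r hr.ne' hne).mul_const (Ψ T))
  convert h1 using 1
  have h2 := exch (fun i => r * s i) h (fun T _ => Ψ T)
  simp only [sum_const, nsmul_eq_mul] at h2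
  have h3 : ∑ T, Wr (fun i => r * s i) T * ((T.card : ℝ) / r * Ψ T) =
      ∑ T, Wr (fun i => r * s i) T * ∑ i ∈ univ \ T, s i / (1 - r * s i) * Ψ (insert i T) := by
    have : ∑ T, Wr (fun i => r * s i) T * ((T.card : ℝ) / r * Ψ T) =
        (1 / r) * ∑ T, Wr (fun i => r * s i) T * ((T.card : ℝ) * Ψ T) := by
      rw [mul_sum]; apply sum_congr rfl; intro T _; ring
    rw [this, h2, mul_sum]
    apply sum_congr rfl
    intro T _
    rw [mul_left_comm, mul_sum]
    congr 1
    apply sum_congr rfl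
    intro i _
    have := hne i
    field_simp
  have h4 : ∀ T, Wr (fun i => r * s i) T * ((T.card : ℝ) / r -
        ∑ i ∈ univ \ T, s i / (1 - r * s i)) * Ψ T =
      Wr (fun i => r * s i) T * ((T.card : ℝ) / r * Ψ T) -
      Wr (fun i => r * s i) T * ((∑ i ∈ univ \ T, s i / (1 - r * s i)) * Ψ T) := by
    intro T; ring
  rw [sum_congr rfl (fun T _ => h4 T), sum_sub_distrib, h3, ← sum_sub_distrib]
  apply sum_congr rfl
  intro T _
  rw [← mul_sub, sum_mul, ← sum_sub_distrib]
  congr 1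
  apply sum_congr rfl
  intro i _
  ring

/-- Groenwall along the ray -/
lemma gronwall_ray (s : ι → ℝ) (Ψ : Finset ι → ℝ) (A : ℝ) (hs : ∀ i, 0 ≤ s i)
    (hs1 : ∀ i, s i < 1)
    (hA : ∀ r : ℝ, 0 < r → r < 1 →
      ∑ T, Wr (fun i => r * s i) T * ∑ i ∈ univ \ T,
        s i / (1 - r * s i) * (Ψ (insert i T) - Ψ T) ≤
      A * (∑ T, Wr (fun i => r * s i) T * Ψ T + 1)) :
    ∑ T, Wr s T * Ψ T + 1 ≤ (Ψ ∅ + 1) * exp A := by
  set E : ℝ → ℝ := fun r => ∑ T, Wr (fun i => r * s i) T * Ψ T with hE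
  have hcont : Continuous E := by
    rw [hE]; unfold Wr; fun_prop
  set g : ℝ → ℝ := fun r => (E r + 1) * exp (-(A * r)) with hg
  have hgc : Continuous g := by
    rw [hg]; fun_prop
  have hrs : ∀ r : ℝ, 0 < r → r < 1 → ∀ i, r * s i < 1 := by
    intro r h0 h1 i
    nlinarith [hs i, hs1 i]
  have hgd : ∀ r : ℝ, 0 < r → r < 1 → HasDerivAt g
      ((∑ T, Wr (fun i => r * s i) T * ∑ i ∈ univ \ T,
        s i / (1 - r * s i) * (Ψ (insert i T) - Ψ T)) * exp (-(A * r)) +
        (E r + 1) * (exp (-(A * r)) * (-A))) r := by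
    intro r h0 h1
    have a1 := (russo s Ψ r h0 (hrs r h0 h1)).add_const 1
    have a2 : HasDerivAt (fun r : ℝ => exp (-(A * r))) (exp (-(A * r)) * (-A)) r := by
      have := (((hasDerivAt_id r).const_mul A).neg).exp
      simpa using this
    exact a1.mul a2
  have hanti : AntitoneOn g (Set.Icc 0 1) := by
    apply antitoneOn_of_deriv_nonpos (convex_Icc 0 1) hgc.continuousOn
    · intro r hr
      rw [interior_Icc] at hr
      exact (hgd r hr.1 hr.2).differentiableAt.differentiableWithinAt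
    · intro r hr
      rw [interior_Icc] at hr
      rw [(hgd r hr.1 hr.2).deriv]
      have := hA r hr.1 hr.2
      have he := exp_pos (-(A * r))
      have h3 : (E r + 1) = ∑ T, Wr (fun i => r * s i) T * Ψ T + 1 := rfl
      rw [h3]
      nlinarith
  have h1 := hanti (Set.left_mem_Icc.mpr zero_le_one) (Set.right_mem_Icc.mpr zero_le_one)
    zero_le_one
  have hE0 : E 0 = Ψ ∅ := by
    simp only [hE]
    rw [sum_eq_single ∅]
    · simp [Wr]
    · intro T _ hT
      obtain ⟨i, hi⟩ := nonempty_iff_ne_empty.mpr hT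
      unfold Wr
      rw [prod_eq_zero hi (by simp)]
      simp
    · intro h; exact absurd (mem_univ _) h
  have hE1 : E 1 = ∑ T, Wr s T * Ψ T := by simp [hE]
  simp only [hg, hE0, hE1, mul_zero, neg_zero, exp_zero, mul_one] at h1
  have he := exp_pos A
  calc ∑ T, Wr s T * Ψ T + 1 = ((∑ T, Wr s T * Ψ T + 1) * exp (-A)) * exp A := by
        rw [mul_assoc, ← exp_add]; simp
    _ ≤ (Ψ ∅ + 1) * exp A := mul_le_mul_of_nonneg_right h1 he.le

end Vale.Agent.P042.TT.Psi
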