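import Vale.Agent.P042.TT.PsiB

set_option autoImplicit false

/-!
Block PSI, part C: the self-bounding estimate.
-/

namespace Vale.Agent.P042.TT.Psi

open Finset Real

variable {ι : Type} [Fintype ι] [DecidableEq ι] {X : ι → Type} [∀ i, Fintype (X i)]

/-- `E f_T^(1+θ)` -/
noncomputable def Psi (p : ∀ i, X i → ℝ) (F : (∀ i, X i) → ℝ) (θ : ℝ) (T : Finset ι) : ℝ :=
  ex p (fun x => cexp p T F x ^ (1 + θ))

/-- `E f_T^(1+θ) KL_i` -/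
noncomputable def KK (p : ∀ i, X i → ℝ) (F : (∀ i, X i) → ℝ) (θ : ℝ) (T : Finset ι) (i : ι) :
    ℝ := ex p (fun x => cexp p T F x ^ (1 + θ) * KLc p F T i x)

/-- `E f_T^(1+θ) ℓ_i(x_i)` -/
noncomputable def LL (p : ∀ i, X i → ℝ) (F : (∀ i, X i) → ℝ) (θ : ℝ) (ℓ : ∀ i, X i → ℝ)
    (T : Finset ι) (i : ι) : ℝ := ex p (fun x => cexp p T F x ^ (1 + θ) * ℓ i (x i))

section
variable (p : ∀ i, X i → ℝ) (hp : ∀ i z, 0 ≤ p i z) (hp1 : ∀ i, ∑ z, p i z = 1)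
  (F : (∀ i, X i) → ℝ) (hF : ∀ x, 0 ≤ F x) (θ U : ℝ) (hθ : 0 < θ) (hθ1 : θ ≤ 1) (hU1 : 1 ≤ U)
  (hU : ∀ i z, p i z = 0 ∨ 1 ≤ U * p i z)

include hp hF in
lemma Psi_nonneg (T : Finset ι) : 0 ≤ Psi p F θ T :=
  ex_nonneg p hp _ (fun x => Real.rpow_nonneg (cexp_nonneg p hp F hF T x) _)

include hp hp1 hF hθ in
lemma KK_nonneg (T : Finset ι) (i : ι) (hi : i ∉ T) : 0 ≤ KK p F θ T i :=
  ex_nonneg p hp _ (fun x => KLc_mul_nonneg p hp hp1 F hF T i hi x θ hθ)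

include hp hp1 hF hθ hθ1 hU1 hU in
lemma Psi_insert (T : Finset ι) (i : ι) (hi : i ∉ T) :
    Psi p F θ (insert i T) ≤ Psi p F θ T + θ * (1 + θ) * U ^ θ * KK p F θ T i := by
  unfold Psi KK
  rw [ex_fubini p hp1 i (fun x => cexp p (insert i T) F x ^ (1 + θ)), ← ex_smul, ← ex_add]
  apply ex_mono p hp
  intro x
  have hU' : ∀ z, p i z = 0 ∨
      cexp p (insert i T) F (Function.update x i z) ≤ U * cexp p T F x :=
    fun z => cexp_insert_le p hp hp1 F hF T i hi x U hU1 z (hU i z)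
  have := incr_le p hp hp1 F hF T i hi x U θ hU1 hθ hθ1 hU'
  refine this.trans (le_of_eq ?_)
  ring

include hp hp1 hF hθ hU1 hU in
lemma LL_insert (ℓ : ∀ i, X i → ℝ) (hℓ : ∀ i z, 0 ≤ ℓ i z) (ε1 : ℝ)
    (hε : ∀ i, ∑ z, p i z * (exp (ℓ i z) - 1) ≤ ε1) (T : Finset ι) (i : ι) (hi : i ∉ T) :
    LL p F θ ℓ (insert i T) i ≤ U ^ θ * (KK p F θ T i + ε1 * Psi p F θ T) := by
  unfold LL KK Psi
  rw [ex_fubini p hp1 i (fun x => cexp p (insert i T) F x ^ (1 + θ) * ℓ i (x i)), ← ex_smul,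
    ← ex_add, ← ex_smul]
  apply ex_mono p hp
  intro x
  have hb : ∑ z, p i z * exp (ℓ i z) ≤ exp ε1 := by
    have h1 := hε i
    simp only [mul_sub, mul_one] at h1
    rw [sum_sub_distrib, hp1] at h1
    have h2 := add_one_le_exp ε1
    linarith
  have hU' : ∀ z, p i z = 0 ∨
      cexp p (insert i T) F (Function.update x i z) ≤ U * cexp p T F x :=
    fun z => cexp_insert_le p hp hp1 F hF T i hi x U hU1 z (hU i z)
  have := low_le p hp hp1 F hF T i hi x U θ ε1 hU1 hθ hU' (ℓ i) (hℓ i) hb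
  simpa only [Function.update_self] using this

include hp hp1 hF hθ in
lemma klv_int (ℓ : ∀ i, X i → ℝ) (τ A0 b1 : ℝ) (hτ : 0 < τ)
    (T : Finset ι)
    (hklv : ∀ x, cexp p T F x * ∑ i ∈ univ \ T, KLc p F T i x ≤ 1 / τ * (cexp p T F x *
      (A0 + b1 * (T.card : ℝ) + ∑ i ∈ T, ℓ i (x i) - log (cexp p T F x)))) :
    τ * ∑ i ∈ univ \ T, KK p F θ T i ≤
      A0 * Psi p F θ T + ∑ i ∈ T, (b1 * Psi p F θ T + LL p F θ ℓ T i) + 1 := by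
  have h1 : τ * ∑ i ∈ univ \ T, KK p F θ T i =
      ex p (fun x => τ * ∑ i ∈ univ \ T, cexp p T F x ^ (1 + θ) * KLc p F T i x) := by
    rw [ex_smul]
    congr 1
    unfold KK
    rw [ex_sum]
  have h2 : A0 * Psi p F θ T + ∑ i ∈ T, (b1 * Psi p F θ T + LL p F θ ℓ T i) + 1 =
      ex p (fun x => A0 * cexp p T F x ^ (1 + θ) +
        ∑ i ∈ T, (b1 * cexp p T F x ^ (1 + θ) + cexp p T F x ^ (1 + θ) * ℓ i (x i)) + 1) := by
    rw [ex_add, ex_add, ex_smul, ex_const p hp1, ex_sum]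
    congr 2
    apply sum_congr rfl
    intro i _
    rw [ex_add, ex_smul]
    rfl
  rw [h1, h2]
  apply ex_mono p hp
  intro x
  rcases (cexp_nonneg p hp F hF T x).eq_or_lt with h | h
  · rw [← h, Real.zero_rpow (by linarith)]
    simp
  · have hk := hklv x
    have hc : 0 ≤ cexp p T F x ^ θ := Real.rpow_nonneg h.le _
    have e1 : cexp p T F x ^ (1 + θ) = cexp p T F x ^ θ * cexp p T F x := by
      rw [add_comm, Real.rpow_add h, Real.rpow_one]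
    have hm := mul_le_mul_of_nonneg_left hk hc
    have hm2 := mul_le_mul_of_nonneg_left hm hτ.le
    have hlog := pow_mul_log_le (cexp p T F x) θ h.le hθ.le
    have hlog2 : cexp p T F x ^ (1 + θ) * (- log (cexp p T F x)) ≤ 1 :=
      (mul_le_mul_of_nonneg_left (le_max_left _ _) (Real.rpow_nonneg h.le _)).trans hlog
    have e2 : τ * ∑ i ∈ univ \ T, cexp p T F x ^ (1 + θ) * KLc p F T i x =
        τ * (cexp p T F x ^ θ * (cexp p T F x * ∑ i ∈ univ \ T, KLc p F T i x)) := by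
      rw [e1, ← mul_sum]; ring
    have e3 : τ * (cexp p T F x ^ θ * (1 / τ * (cexp p T F x *
      (A0 + b1 * (T.card : ℝ) + ∑ i ∈ T, ℓ i (x i) - log (cexp p T F x))))) =
      cexp p T F x ^ (1 + θ) *
        (A0 + b1 * (T.card : ℝ) + ∑ i ∈ T, ℓ i (x i) - log (cexp p T F x)) := by
      rw [e1]; field_simp
    have e4 : ∑ i ∈ T, (b1 * cexp p T F x ^ (1 + θ) + cexp p T F x ^ (1 + θ) * ℓ i (x i)) =
        cexp p T F x ^ (1 + θ) * (b1 * (T.card : ℝ) + ∑ i ∈ T, ℓ i (x i)) := by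
      rw [sum_add_distrib, sum_const, ← mul_sum, nsmul_eq_mul]; ring
    rw [e2, e4]
    rw [e3] at hm2
    linarith

end

lemma scal_le (si s0 σ b1 ε1 u c Pi Pn K L : ℝ) (hsi : 0 ≤ si) (hs0 : si ≤ s0) (hσ0 : 0 ≤ σ)
    (hσs : σ ≤ si) (hσ : σ ≤ 1 / 4) (hb1 : 0 ≤ b1) (hε1 : 0 ≤ ε1) (hu : 1 ≤ u)
    (hc2 : c ≤ 2 * u) (hPi : 0 ≤ Pi) (hK : 0 ≤ K) (hPn : Pn ≤ Pi + c * K)
    (hL : L ≤ u * (K + ε1 * Pi)) :
    σ / (1 - σ) * (b1 * Pn + L) ≤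
      si * (4 / 3 * ((b1 + ε1) * u) * Pi) + 4 / 3 * (s0 * u * (1 + 2 * b1)) * K := by
  have hu0 : 0 ≤ u := by linarith
  have h5 : σ / (1 - σ) ≤ 4 / 3 * si := by
    rw [div_le_iff₀ (by linarith)]
    nlinarith
  have h5' : 0 ≤ σ / (1 - σ) := div_nonneg hσ0 (by linarith)
  have h6 : b1 * Pn + L ≤ (b1 + ε1) * u * Pi + u * (1 + 2 * b1) * K := by
    have a1 : b1 * Pn ≤ b1 * (Pi + c * K) := mul_le_mul_of_nonneg_left hPn hb1
    have a2 : b1 * Pi * 1 ≤ b1 * Pi * u := mul_le_mul_of_nonneg_left hu (mul_nonneg hb1 hPi)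
    have a3 : b1 * (c * K) ≤ b1 * (2 * u * K) :=
      mul_le_mul_of_nonneg_left (mul_le_mul_of_nonneg_right hc2 hK) hb1
    calc b1 * Pn + L ≤ b1 * (Pi + c * K) + u * (K + ε1 * Pi) := add_le_add a1 hL
      _ = b1 * Pi * 1 + b1 * (c * K) + u * (K + ε1 * Pi) := by ring
      _ ≤ b1 * Pi * u + b1 * (2 * u * K) + u * (K + ε1 * Pi) := by linarith
      _ = _ := by ring
  have h7 : 0 ≤ (b1 + ε1) * u * Pi + u * (1 + 2 * b1) * K := by positivity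
  have g1 : si * (u * (1 + 2 * b1) * K) ≤ s0 * (u * (1 + 2 * b1) * K) :=
    mul_le_mul_of_nonneg_right hs0 (by positivity)
  calc σ / (1 - σ) * (b1 * Pn + L)
      ≤ σ / (1 - σ) * ((b1 + ε1) * u * Pi + u * (1 + 2 * b1) * K) :=
        mul_le_mul_of_nonneg_left h6 h5'
    _ ≤ 4 / 3 * si * ((b1 + ε1) * u * Pi + u * (1 + 2 * b1) * K) :=
        mul_le_mul_of_nonneg_right h5 h7
    _ = si * (4 / 3 * ((b1 + ε1) * u) * Pi) + 4 / 3 * (si * (u * (1 + 2 * b1) * K)) := by ring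
    _ ≤ si * (4 / 3 * ((b1 + ε1) * u) * Pi) + 4 / 3 * (s0 * (u * (1 + 2 * b1) * K)) := by
        linarith
    _ = _ := by ring

/-- abstract self-bounding step -/
lemma step_le (s : ι → ℝ) (σ : ι → ℝ) (s0 τ A0 b1 ε1 u c : ℝ) (Ps : Finset ι → ℝ)
    (K L : Finset ι → ι → ℝ)
    (hs : ∀ i, 0 ≤ s i ∧ s i ≤ s0) (hs00 : 0 ≤ s0) (hσ : ∀ i, 0 ≤ σ i ∧ σ i ≤ s i)
    (hσ4 : ∀ i, σ i ≤ 1 / 4) (hτ : 0 < τ) (hA0 : 0 ≤ A0) (hb1 : 0 ≤ b1) (hε1 : 0 ≤ ε1)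
    (hu : 1 ≤ u) (hc0 : 0 ≤ c) (hc2 : c ≤ 2 * u) (hPs : ∀ T, 0 ≤ Ps T)
    (hK : ∀ T, ∀ i ∈ univ \ T, 0 ≤ K T i)
    (hPi : ∀ T, ∀ i ∈ univ \ T, Ps (insert i T) ≤ Ps T + c * K T i)
    (hL : ∀ T, ∀ i ∈ univ \ T, L (insert i T) i ≤ u * (K T i + ε1 * Ps T))
    (hklv : ∀ T, τ * ∑ i ∈ univ \ T, K T i ≤ A0 * Ps T + ∑ i ∈ T, (b1 * Ps T + L T i) + 1)
    (hsm : s0 * u * (1 + 2 * b1) ≤ τ / 4) :
    ∑ T, Wr σ T * ∑ i ∈ univ \ T, s i / (1 - σ i) * (Ps (insert i T) - Ps T) ≤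
      3 * c * s0 * (A0 + 1 + (b1 + ε1) * u * ∑ i, s i) / τ *
        (∑ T, Wr σ T * Ps T + 1) := by
  have hSs : 0 ≤ ∑ i, s i := sum_nonneg (fun i _ => (hs i).1)
  obtain ⟨Ss, hSsd⟩ : ∃ Ss, Ss = ∑ i, s i := ⟨_, rfl⟩
  rw [← hSsd] at hSs ⊢
  obtain ⟨Kb, hKb⟩ : ∃ Kb, Kb = A0 + 1 + (b1 + ε1) * u * Ss := ⟨_, rfl⟩
  rw [← hKb]
  have hu0 : 0 ≤ u := by linarith
  have hX : 0 ≤ (b1 + ε1) * u * Ss := by positivity
  have hKb0 : 0 < Kb := by linarith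
  have hWn : ∀ T, 0 ≤ Wr σ T := fun T => Wr_nonneg _ (fun i => (hσ i).1)
    (fun i => by linarith [hσ4 i]) T
  obtain ⟨E, hE⟩ : ∃ E, E = ∑ T, Wr σ T * Ps T := ⟨_, rfl⟩
  obtain ⟨Q, hQ⟩ : ∃ Q, Q = ∑ T, Wr σ T * ∑ i ∈ univ \ T, K T i := ⟨_, rfl⟩
  rw [← hE]
  have hE0 : 0 ≤ E := by
    rw [hE]; exact sum_nonneg (fun T _ => mul_nonneg (hWn T) (hPs T))
  have hQ0 : 0 ≤ Q := by
    rw [hQ]; exact sum_nonneg (fun T _ => mul_nonneg (hWn T) (sum_nonneg (hK T)))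
  -- step 1
  have st1 : ∑ T, Wr σ T * ∑ i ∈ univ \ T,
      s i / (1 - σ i) * (Ps (insert i T) - Ps T) ≤ 4 / 3 * s0 * c * Q := by
    rw [hQ, mul_sum]
    apply sum_le_sum
    intro T _
    rw [mul_left_comm]
    apply mul_le_mul_of_nonneg_left _ (hWn T)
    rw [mul_sum]
    apply sum_le_sum
    intro i hi
    have h1 := hPi T i hi
    have h2 := hK T i hi
    have h3 : s i / (1 - σ i) ≤ 4 / 3 * s0 := by
      rw [div_le_iff₀ (by linarith [hσ4 i])]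
      nlinarith [hσ4 i, (hs i).1, (hs i).2]
    calc s i / (1 - σ i) * (Ps (insert i T) - Ps T)
        ≤ s i / (1 - σ i) * (c * K T i) :=
          mul_le_mul_of_nonneg_left (by linarith)
            (div_nonneg (hs i).1 (by linarith [hσ4 i]))
      _ ≤ (4 / 3 * s0) * (c * K T i) :=
          mul_le_mul_of_nonneg_right h3 (mul_nonneg hc0 h2)
      _ = _ := by ring
  -- step 2
  have e4 : ∑ T, Wr σ T * ∑ i ∈ univ \ T, σ i / (1 - σ i) *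
      (b1 * Ps (insert i T) + L (insert i T) i) ≤
      4 / 3 * ((b1 + ε1) * u * Ss) * E + 4 / 3 * (s0 * u * (1 + 2 * b1)) * Q := by
    have e5 : 4 / 3 * ((b1 + ε1) * u * Ss) * E + 4 / 3 * (s0 * u * (1 + 2 * b1)) * Q =
        ∑ T, Wr σ T * (Ss * (4 / 3 * ((b1 + ε1) * u) * Ps T) +
          4 / 3 * (s0 * u * (1 + 2 * b1)) * ∑ i ∈ univ \ T, K T i) := by
      rw [hE, hQ, mul_sum, mul_sum, ← sum_add_distrib]
      apply sum_congr rfl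
      intro T _
      ring
    rw [e5]
    apply sum_le_sum
    intro T _
    apply mul_le_mul_of_nonneg_left _ (hWn T)
    have f1 : ∀ i ∈ univ \ T, σ i / (1 - σ i) *
        (b1 * Ps (insert i T) + L (insert i T) i) ≤
        s i * (4 / 3 * ((b1 + ε1) * u) * Ps T) + 4 / 3 * (s0 * u * (1 + 2 * b1)) * K T i :=
      fun i hi => scal_le (s i) s0 (σ i) b1 ε1 u c (Ps T) _ (K T i) _ (hs i).1 (hs i).2
        (hσ i).1 (hσ i).2 (hσ4 i) hb1 hε1 hu hc2 (hPs T) (hK T i hi) (hPi T i hi) (hL T i hi)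
    have f2 := sum_le_sum f1
    rw [sum_add_distrib, ← sum_mul, ← mul_sum] at f2
    have f3 : ∑ i ∈ univ \ T, s i ≤ Ss := by
      rw [hSsd]
      exact sum_le_sum_of_subset_of_nonneg (sdiff_subset) (fun i _ _ => (hs i).1)
    have f4 : 0 ≤ 4 / 3 * ((b1 + ε1) * u) * Ps T := by
      have h4 := hPs T
      positivity
    have f5 := mul_le_mul_of_nonneg_right f3 f4
    linarith
  have st2 : τ * Q ≤ A0 * E + (4 / 3 * ((b1 + ε1) * u * Ss) * E +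
      4 / 3 * (s0 * u * (1 + 2 * b1)) * Q) + 1 := by
    have hWs : ∑ T, Wr σ T = 1 := Wr_sum _
    have e1 : τ * Q ≤ ∑ T, Wr σ T * (A0 * Ps T + ∑ i ∈ T, (b1 * Ps T + L T i) + 1) := by
      rw [hQ, mul_sum]
      apply sum_le_sum
      intro T _
      rw [mul_left_comm]
      exact mul_le_mul_of_nonneg_left (hklv T) (hWn T)
    have e2 : ∑ T, Wr σ T * (A0 * Ps T + ∑ i ∈ T, (b1 * Ps T + L T i) + 1) =
        A0 * E + ∑ T, Wr σ T * ∑ i ∈ T, (b1 * Ps T + L T i) + 1 := by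
      have : ∀ T, Wr σ T * (A0 * Ps T + ∑ i ∈ T, (b1 * Ps T + L T i) + 1) =
        A0 * (Wr σ T * Ps T) + Wr σ T * ∑ i ∈ T, (b1 * Ps T + L T i) + Wr σ T := by
        intro T; ring
      rw [sum_congr rfl (fun T _ => this T), sum_add_distrib, sum_add_distrib, ← mul_sum, hWs,
        hE]
    have e3 := exch σ (fun i => by linarith [hσ4 i]) (fun T i => b1 * Ps T + L T i)
    rw [e2, e3] at e1
    linarith
  -- step 3
  have st3 : Q ≤ 2 * Kb * (E + 1) / τ := by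
    rw [le_div_iff₀ hτ]
    have g1 : 4 / 3 * (s0 * u * (1 + 2 * b1)) * Q ≤ 4 / 3 * (τ / 4) * Q := by
      apply mul_le_mul_of_nonneg_right _ hQ0
      linarith
    have g2 : A0 * E + 4 / 3 * ((b1 + ε1) * u * Ss) * E + 1 ≤ 4 / 3 * (Kb * (E + 1)) := by
      rw [hKb]
      nlinarith [mul_nonneg hA0 hE0, mul_nonneg hX hE0]
    nlinarith
  -- step 4
  refine st1.trans ?_
  calc 4 / 3 * s0 * c * Q ≤ 4 / 3 * s0 * c * (2 * Kb * (E + 1) / τ) := by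
        apply mul_le_mul_of_nonneg_left st3; positivity
    _ = 8 / 3 * (c * s0 * Kb / τ * (E + 1)) := by ring
    _ ≤ 3 * (c * s0 * Kb / τ * (E + 1)) := by
        have : 0 ≤ c * s0 * Kb / τ * (E + 1) := by positivity
        linarith
    _ = _ := by ring

/-- the self-bounding estimate -/
theorem psi_core (p : ∀ i, X i → ℝ) (hp : ∀ i z, 0 ≤ p i z) (hp1 : ∀ i, ∑ z, p i z = 1)
    (F : (∀ i, X i) → ℝ) (hF : ∀ x, 0 ≤ F x) (θ U : ℝ) (hθ : 0 < θ) (hθ1 : θ ≤ 1)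
    (hU1 : 1 ≤ U) (hU : ∀ i z, p i z = 0 ∨ 1 ≤ U * p i z)
    (s : ι → ℝ) (s0 τ A0 b1 ε1 : ℝ) (ℓ : ∀ i, X i → ℝ)
    (hs : ∀ i, 0 ≤ s i ∧ s i ≤ s0) (hs00 : 0 ≤ s0) (hs0 : s0 ≤ 1 / 4) (hτ : 0 < τ)
    (hA0 : 0 ≤ A0)
    (hb1 : 0 ≤ b1) (hε1 : 0 ≤ ε1) (hℓ : ∀ i z, 0 ≤ ℓ i z)
    (hε : ∀ i, ∑ z, p i z * (exp (ℓ i z) - 1) ≤ ε1)
    (hklv : ∀ T x, cexp p T F x * ∑ i ∈ univ \ T, KLc p F T i x ≤ 1 / τ * (cexp p T F x *
      (A0 + b1 * (T.card : ℝ) + ∑ i ∈ T, ℓ i (x i) - log (cexp p T F x))))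
    (hsm : s0 * U ^ θ * (1 + 2 * b1) ≤ τ / 4) :
    ∑ T, Wr s T * Psi p F θ T + 1 ≤ ((ex p F) ^ (1 + θ) + 1) *
      exp (3 * θ * (1 + θ) * U ^ θ * s0 * (A0 + 1 + (b1 + ε1) * U ^ θ * ∑ i, s i) / τ) := by
  have hUθ : 1 ≤ U ^ θ := Real.one_le_rpow hU1 hθ.le
  have hPsi0 : Psi p F θ ∅ = (ex p F) ^ (1 + θ) := by
    unfold Psi
    simp only [cexp_empty]
    rw [ex_const p hp1]
  rw [← hPsi0]
  have hc0 : 0 ≤ θ * (1 + θ) * U ^ θ := by positivity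
  have hc2 : θ * (1 + θ) * U ^ θ ≤ 2 * U ^ θ := by
    apply mul_le_mul_of_nonneg_right _ (by linarith)
    nlinarith
  apply gronwall_ray s (Psi p F θ) _ (fun i => (hs i).1) (fun i => by linarith [(hs i).2])
  intro r hr0 hr1
  have hσ : ∀ i, 0 ≤ r * s i ∧ r * s i ≤ s i := by
    intro i
    refine ⟨mul_nonneg hr0.le (hs i).1, ?_⟩
    nlinarith [(hs i).1, (hs i).2]
  have hσ4 : ∀ i, r * s i ≤ 1 / 4 := fun i => (hσ i).2.trans ((hs i).2.trans hs0)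
  have h := step_le s (fun i => r * s i) s0 τ A0 b1 ε1 (U ^ θ) (θ * (1 + θ) * U ^ θ)
    (Psi p F θ) (KK p F θ) (LL p F θ ℓ) hs hs00 hσ hσ4 hτ hA0 hb1 hε1 hUθ hc0 hc2
    (Psi_nonneg p hp F hF θ)
    (fun T i hi => KK_nonneg p hp hp1 F hF θ hθ T i (by simpa using hi))
    (fun T i hi => Psi_insert p hp hp1 F hF θ U hθ hθ1 hU1 hU T i (by simpa using hi))
    (fun T i hi => LL_insert p hp hp1 F hF θ U hθ hU1 hU ℓ hℓ ε1 hε T i (by simpa using hi))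
    (fun T => klv_int p hp hp1 F hF θ hθ ℓ τ A0 b1 hτ T (hklv T)) hsm
  refine h.trans (le_of_eq ?_)
  ring

end Vale.Agent.P042.TT.Psi
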