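import Vale.Agent.P042.TT.PsiC
import Vale.Agent.P042.TT.Spec

set_option autoImplicit false

/-!
Block PSI, part D: the statement of the Spec.
-/

namespace Vale.Agent.P042.TT.Psi

open Finset Vale.Agent.P042.SS

variable {ι : Type} [Fintype ι] [DecidableEq ι] {X : ι → Type} [∀ i, Fintype (X i)]

lemma rho_eq (p : ∀ i, X i → ℝ) (f : (∀ i, X i) → ℝ) (T : Finset ι) (x : ∀ i, X i) :
    rho p f T x = cexp p T f x := by
  unfold rho Ex Ev cexp wt
  apply sum_congr rfl
  intro y _
  rw [smul_eq_mul]
  simp only [Finset.piecewise_compl]

lemma cexp_congr (p : ∀ i, X i → ℝ) (f : (∀ i, X i) → ℝ) (T : Finset ι) (x x' : ∀ i, X i)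
    (h : ∀ i ∈ T, x i = x' i) : cexp p T f x = cexp p T f x' := by
  unfold cexp
  apply sum_congr rfl
  intro y _
  congr 2
  ext j
  by_cases hj : j ∈ T
  · simp [Finset.piecewise, hj, h j hj]
  · simp [Finset.piecewise, hj]

lemma cexp_restr (p : ∀ i, X i → ℝ) (f : (∀ i, X i) → ℝ) (S0 T : Finset ι) (x0 x : ∀ i, X i) :
    cexp p T (fun y => f (S0.piecewise x0 y)) x =
      cexp p (S0 ∪ T) f (S0.piecewise x0 x) := by
  unfold cexp
  apply sum_congr rfl
  intro y _
  show wt p y * f _ = wt p y * f _
  congr 2
  ext j
  by_cases hj : j ∈ S0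
  · simp [Finset.piecewise, hj]
  · by_cases hT : j ∈ T
    · simp [Finset.piecewise, hj, hT]
    · simp [Finset.piecewise, hj, hT]

theorem psi_holds : PSIStmt := by
  intro ι _ _ X _ π f s ℓ θ τ K0 b1 ε1 U s0 S0 x0 hπ hf hθ hθ1 hτ hK0 hb1 hε1 hU1 hs00 hs hs0
    hℓ hε hU hklv hsm
  have hUθ : 1 ≤ U ^ θ := Real.one_le_rpow hU1 hθ.le
  obtain ⟨F, hF⟩ : ∃ F : (∀ i, X i) → ℝ, F = fun y => f (S0.piecewise x0 y) := ⟨_, rfl⟩
  have hF0 : ∀ x, 0 ≤ F x := by intro x; rw [hF]; exact hf _
  have hcF : ∀ T x, cexp π T F x = rho π f (S0 ∪ T) (S0.piecewise x0 x) := by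
    intro T x
    rw [hF, rho_eq, cexp_restr]
  obtain ⟨s', hs'⟩ : ∃ s' : ι → ℝ, s' = fun i => if i ∈ S0 then 0 else s i := ⟨_, rfl⟩
  have hs'1 : ∀ i, 0 ≤ s' i ∧ s' i ≤ s0 := by
    intro i
    rw [hs']
    by_cases h : i ∈ S0
    · simp [h, hs00]
    · simp [h, hs i]
  have hk : ∀ T x, cexp π T F x * ∑ i ∈ univ \ T, KLc π F T i x ≤ 1 / τ * (cexp π T F x *
      (K0 + b1 * (T.card : ℝ) + ∑ i ∈ T, ℓ i (x i) - Real.log (cexp π T F x))) := by
    intro T x
    rcases (cexp_nonneg π hπ.nn F hF0 T x).eq_or_lt with h | h
    · rw [← h]; simp
    · have hx' : ∀ i ∈ S0, (S0.piecewise x0 x) i = x0 i := by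
        intro i hi; simp [Finset.piecewise, hi]
      have h1 := hklv (S0 ∪ T) (S0.piecewise x0 x) subset_union_left hx'
      rw [← hcF] at h1
      have h2 : cexp π T F x * ∑ i ∈ univ \ T, KLc π F T i x =
          ∑ i ∈ (S0 ∪ T)ᶜ, klr π f (S0 ∪ T) i (S0.piecewise x0 x) := by
        have hsub : (S0 ∪ T)ᶜ ⊆ univ \ T := by
          intro i hi; simp at hi ⊢; exact hi.2
        rw [mul_sum]
        symm
        refine sum_subset_zero_on_sdiff hsub ?_ ?_ |>.trans rfl
        · intro i hi
          simp only [mem_sdiff, mem_univ, true_and, mem_compl, mem_union, not_or, not_and,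
            not_not] at hi
          have hi0 : i ∈ S0 := by
            by_contra hcon
            exact hi.1 (hi.2 hcon)
          have : KLc π F T i x = 0 := by
            unfold KLc
            apply sum_eq_zero
            intro z _
            have e : lr π F T i x z = 1 := by
              unfold lr
              have : cexp π (insert i T) F (Function.update x i z) = cexp π T F x := by
                rw [hcF, hcF]
                have e1 : S0 ∪ insert i T = S0 ∪ T := by
                  ext j; simp only [mem_union, mem_insert]
                  constructor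
                  · rintro (h1 | h1 | h1)
                    · exact Or.inl h1
                    · exact Or.inl (h1 ▸ hi0)
                    · exact Or.inr h1
                  · rintro (h1 | h1)
                    · exact Or.inl h1
                    · exact Or.inr (Or.inr h1)
                have e2 : S0.piecewise x0 (Function.update x i z) = S0.piecewise x0 x := by
                  ext j
                  by_cases hj : j ∈ S0
                  · simp [Finset.piecewise, hj]
                  · have : j ≠ i := fun h => hj (h ▸ hi0)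
                    simp [Finset.piecewise, hj, this]
                rw [e1, e2]
              rw [this, div_self h.ne']
            rw [e]; simp
          rw [this]; ring
        · intro i hi
          have hi2 : i ∉ S0 ∧ i ∉ T := by simpa using hi
          unfold klr KLc
          rw [mul_sum]
          apply sum_congr rfl
          intro z _
          have e0 : rho π f (insert i (S0 ∪ T)) (Function.update (S0.piecewise x0 x) i z) =
              cexp π (insert i T) F (Function.update x i z) := by
            rw [hcF]
            have e1 : S0 ∪ insert i T = insert i (S0 ∪ T) := by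
              ext j; simp only [mem_union, mem_insert]; tauto
            have e2 : S0.piecewise x0 (Function.update x i z) =
                Function.update (S0.piecewise x0 x) i z := by
              ext j
              by_cases hj : j = i
              · subst hj
                simp [Finset.piecewise, hi2.1]
              · simp [Finset.piecewise, hj]
            rw [e1, e2]
          have e3 : cexp π (insert i T) F (Function.update x i z) =
              cexp π T F x * lr π F T i x z := by
            unfold lr; rw [mul_div_cancel₀ _ h.ne']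
          rw [e0, ← hcF]
          have e4 : cexp π (insert i T) F (Function.update x i z) / cexp π T F x =
            lr π F T i x z := rfl
          rw [e4, e3]
          ring
      rw [h2]
      refine h1.trans ?_
      apply mul_le_mul_of_nonneg_left _ (by positivity)
      apply mul_le_mul_of_nonneg_left _ h.le
      have e5 : (S0 ∪ T) \ S0 = T \ S0 := by
        ext j; simp only [mem_sdiff, mem_union]; tauto
      rw [e5]
      have e6 : b1 * ((T \ S0).card : ℝ) ≤ b1 * (T.card : ℝ) := by
        apply mul_le_mul_of_nonneg_left _ hb1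
        exact_mod_cast card_le_card sdiff_subset
      have e7 : ∑ i ∈ T \ S0, ℓ i ((S0.piecewise x0 x) i) ≤ ∑ i ∈ T, ℓ i (x i) := by
        have : ∑ i ∈ T \ S0, ℓ i ((S0.piecewise x0 x) i) = ∑ i ∈ T \ S0, ℓ i (x i) := by
          apply sum_congr rfl
          intro i hi
          have : i ∉ S0 := (mem_sdiff.mp hi).2
          simp [Finset.piecewise, this]
        rw [this]
        exact sum_le_sum_of_subset_of_nonneg sdiff_subset (fun i _ _ => hℓ i _)
      linarith
  have main := psi_core π hπ.nn hπ.one F hF0 θ U hθ hθ1 hU1 hU s' s0 τ K0 b1 ε1 ℓ hs'1 hs00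
    hs0 hτ hK0 hb1 hε1 hℓ hε hk hsm
  have hex : ex π F = rho π f S0 x0 := by
    rw [rho_eq, hF]; rfl
  rw [hex] at main
  -- left-hand side
  have hL : ∑ T, Wr s' T * Psi π F θ T = ∑ T ∈ S0ᶜ.powerset, wtR s S0ᶜ T *
        Ex π T (fun z => (rho π f (S0 ∪ T) z) ^ (1 + θ)) x0 := by
    symm
    refine sum_subset_zero_on_sdiff (subset_univ _) ?_ ?_ |>.trans rfl
    · intro T hT
      simp only [mem_sdiff, mem_univ, true_and, mem_powerset] at hT
      obtain ⟨i, hi, hi2⟩ := not_subset.mp hT
      have hi3 : i ∈ S0 := by simpa using hi2
      have : Wr s' T = 0 := by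
        unfold Wr
        rw [prod_eq_zero hi (by rw [hs']; simp [hi3])]
        ring
      rw [this]; ring
    · intro T hT
      rw [mem_powerset] at hT
      have hd : ∀ i ∈ T, i ∉ S0 := by
        intro i hi; have := hT hi; simpa using this
      have h1 : Wr s' T = wtR s S0ᶜ T := by
        unfold Wr wtR
        congr 1
        · apply prod_congr rfl
          intro i hi
          rw [hs']; simp [hd i hi]
        · symm
          apply prod_subset_one_on_sdiff
          · exact sdiff_subset_sdiff (subset_univ _) (le_refl _)
          · intro i hi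
            simp only [mem_sdiff, mem_univ, true_and, mem_compl, not_and, not_not] at hi
            have : i ∈ S0 := by
              by_contra hcon
              exact hi.1 (hi.2 hcon)
            rw [hs']; simp [this]
          · intro i hi
            have : i ∉ S0 := by
              have := (mem_sdiff.mp hi).1; simpa using this
            rw [hs']; simp [this]
      rw [← h1]
      congr 1
      unfold Psi ex Ex Ev wt
      apply sum_congr rfl
      intro y _
      rw [smul_eq_mul]
      show (∏ i, π i (y i)) * (rho π f (S0 ∪ T) (T.piecewise y x0) ^ (1 + θ)) =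
        (∏ i, π i (y i)) * (cexp π T F y ^ (1 + θ))
      rw [hcF, rho_eq, rho_eq]
      congr 2
      apply cexp_congr
      intro i hi
      by_cases h0 : i ∈ S0
      · have : i ∉ T := fun h => hd i h h0
        simp [Finset.piecewise, h0, this]
      · have : i ∈ T := by
          rcases mem_union.mp hi with h | h
          · exact absurd h h0
          · exact h
        simp [Finset.piecewise, h0, this]
  rw [hL] at main
  refine main.trans ?_
  apply mul_le_mul_of_nonneg_left
  · apply Real.exp_le_exp.mpr
    apply div_le_div_of_nonneg_right _ hτ.le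
    have hsum : ∑ i, s' i ≤ ∑ i, s i := by
      apply sum_le_sum
      intro i _
      rw [hs']
      by_cases h : i ∈ S0
      · simp [h, (hs i).1]
      · simp [h]
    have hsum0 : 0 ≤ ∑ i, s' i := sum_nonneg (fun i _ => (hs'1 i).1)
    have hbe : 0 ≤ (b1 + ε1) * U ^ θ := by
      have : 0 ≤ U ^ θ := by linarith
      positivity
    have h1 : K0 + 1 + (b1 + ε1) * U ^ θ * ∑ i, s' i ≤
        K0 + 1 + (b1 + ε1) * U ^ θ * ∑ i, s i := by
      have := mul_le_mul_of_nonneg_left hsum hbe
      linarith
    have h4 : 0 ≤ 3 * θ * (1 + θ) * U ^ θ * s0 := by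
      have : 0 ≤ U ^ θ := by linarith
      positivity
    exact mul_le_mul_of_nonneg_left h1 h4
  · have : 0 ≤ rho π f S0 x0 := by
      rw [rho_eq]; exact cexp_nonneg π hπ.nn f hf _ _
    have := Real.rpow_nonneg this (1 + θ)
    linarith

end Vale.Agent.P042.TT.Psi
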