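import Vale.Agent.P042.MathlibUsed
import Mathlib.Analysis.SpecialFunctions.Pow.Deriv
import Mathlib.Analysis.Calculus.MeanValue
import Mathlib.Analysis.Calculus.Deriv.MeanValue

set_option autoImplicit false

/-!
Scalar inequalities for block PSI.
-/

namespace Vale.Agent.P042.TT.Psi

open Real

/-- `u t ≤ u log u - u + exp t` -/
lemma young_exp (u t : ℝ) (hu : 0 ≤ u) : u * t ≤ u * log u - u + exp t := by
  rcases hu.eq_or_lt with h | h
  · subst h; simp; exact (exp_pos t).le
  · have h1 := add_one_le_exp (t - log u)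
    have h2 : exp t = u * exp (t - log u) := by
      rw [exp_sub, exp_log h]; field_simp
    rw [h2]
    nlinarith [mul_le_mul_of_nonneg_left h1 h.le]

/-- `x^(1+θ) log_+(1/x) ≤ 1` -/
lemma pow_mul_log_le (x θ : ℝ) (hx : 0 ≤ x) (hθ : 0 ≤ θ) :
    x ^ (1 + θ) * max (-log x) 0 ≤ 1 := by
  rcases hx.eq_or_lt with h | h
  · subst h
    rw [Real.zero_rpow (by linarith)]; simp
  · rcases le_total 1 x with h1 | h1
    · have : log x ≥ 0 := log_nonneg h1
      rw [max_eq_right (by linarith)]; simp
    · have hl : log x ≤ 0 := log_nonpos hx h1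
      rw [max_eq_left (by linarith)]
      have h2 : x ^ (1 + θ) ≤ x := by
        have := Real.rpow_le_rpow_of_exponent_ge h h1 (by linarith : (1:ℝ) ≤ 1 + θ)
        simpa using this
      have h3 : -log x ≤ x⁻¹ - 1 := by
        have := log_le_sub_one_of_pos (inv_pos.mpr h)
        rw [log_inv] at this; exact this
      calc x ^ (1 + θ) * -log x ≤ x * -log x := by
            apply mul_le_mul_of_nonneg_right h2; linarith
        _ ≤ x * (x⁻¹ - 1) := by apply mul_le_mul_of_nonneg_left h3 hx
        _ = 1 - x := by field_simp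
        _ ≤ 1 := by linarith

/-- the Bregman divergence of `u^(1+θ)` is at most `θ(1+θ)U^θ` times the entropic one -/
lemma breg_le (u U θ : ℝ) (hu : 0 ≤ u) (huU : u ≤ U) (hU : 1 ≤ U) (hθ : 0 < θ) (hθ1 : θ ≤ 1) :
    u ^ (1 + θ) - 1 - (1 + θ) * (u - 1) ≤ θ * (1 + θ) * U ^ θ * (u * log u - u + 1) := by
  have hUθ : 1 ≤ U ^ θ := Real.one_le_rpow hU hθ.le
  rcases hu.eq_or_lt with h | h
  · subst h
    rw [Real.zero_rpow (by linarith)]
    simp
    have : θ * 1 ≤ θ * (1 + θ) * U ^ θ := by
      have : (1:ℝ) ≤ (1 + θ) * U ^ θ := by nlinarith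
      nlinarith
    linarith
  set G : ℝ → ℝ := fun v => θ * (1 + θ) * U ^ θ * (v * log v - v + 1) -
    (v ^ (1 + θ) - 1 - (1 + θ) * (v - 1)) with hG
  have hG1 : G 1 = 0 := by simp [hG]
  have hder : ∀ v : ℝ, 0 < v → HasDerivAt G
      (θ * (1 + θ) * U ^ θ * log v - (1 + θ) * (v ^ θ - 1)) v := by
    intro v hv
    have e1 : HasDerivAt (fun v : ℝ => v * log v - v + 1) (log v) v := by
      have a1 := (hasDerivAt_id v).mul (Real.hasDerivAt_log hv.ne')
      have a2 := (a1.sub (hasDerivAt_id v)).add_const 1
      have : (1 * log v + id v * v⁻¹ - 1 : ℝ) = log v := by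
        simp only [id]; field_simp; ring
      rw [this] at a2
      exact a2
    have e2 : HasDerivAt (fun v : ℝ => v ^ (1 + θ) - 1 - (1 + θ) * (v - 1))
        ((1 + θ) * v ^ θ - (1 + θ)) v := by
      have a1 := (Real.hasDerivAt_rpow_const (x := v) (p := 1 + θ) (Or.inl hv.ne')).sub_const 1
      have a2 := ((hasDerivAt_id v).sub_const 1).const_mul (1 + θ)
      have a3 := a1.sub a2
      have : ((1 + θ) * v ^ (1 + θ - 1) - (1 + θ) * 1 : ℝ) = (1 + θ) * v ^ θ - (1 + θ) := by
        rw [add_sub_cancel_left]; ring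
      rw [this] at a3
      exact a3
    have e3 := (e1.const_mul (θ * (1 + θ) * U ^ θ)).sub e2
    have : (θ * (1 + θ) * U ^ θ * log v - ((1 + θ) * v ^ θ - (1 + θ)) : ℝ) =
      θ * (1 + θ) * U ^ θ * log v - (1 + θ) * (v ^ θ - 1) := by ring
    rw [this] at e3
    exact e3
  have hcont : ContinuousOn G (Set.Ioi 0) := fun v hv =>
    (hder v hv).continuousAt.continuousWithinAt
  have key : 0 ≤ G u := by
    rcases le_total 1 u with h1 | h1
    · have hmono : MonotoneOn G (Set.Icc 1 U) := by
        apply monotoneOn_of_deriv_nonneg (convex_Icc 1 U)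
        · exact hcont.mono (fun v hv => lt_of_lt_of_le one_pos hv.1)
        · intro v hv
          rw [interior_Icc] at hv
          exact (hder v (by linarith [hv.1])).differentiableAt.differentiableWithinAt
        · intro v hv
          rw [interior_Icc] at hv
          have hv0 : 0 < v := by linarith [hv.1]
          rw [(hder v hv0).deriv]
          -- v^θ - 1 ≤ θ v^θ log v ≤ θ U^θ log v
          have hlog : 0 ≤ log v := log_nonneg hv.1.le
          have b1 : 1 - v ^ (-θ) ≤ θ * log v := by
            have := Real.one_sub_inv_le_log_of_pos (Real.rpow_pos_of_pos hv0 θ)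
            rw [Real.log_rpow hv0] at this
            rw [Real.rpow_neg hv0.le]; exact this
          have b2 : v ^ θ - 1 ≤ θ * v ^ θ * log v := by
            have hp : 0 < v ^ θ := Real.rpow_pos_of_pos hv0 θ
            have : v ^ θ * (1 - v ^ (-θ)) ≤ v ^ θ * (θ * log v) :=
              mul_le_mul_of_nonneg_left b1 hp.le
            rw [mul_sub, ← Real.rpow_add hv0] at this
            simp at this
            linarith
          have b3 : v ^ θ ≤ U ^ θ := Real.rpow_le_rpow hv0.le hv.2.le hθ.le
          have b4 : θ * v ^ θ * log v ≤ θ * U ^ θ * log v := by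
            apply mul_le_mul_of_nonneg_right _ hlog
            apply mul_le_mul_of_nonneg_left b3 hθ.le
          nlinarith
      have := hmono (Set.left_mem_Icc.mpr hU) ⟨h1, huU⟩ h1
      rw [hG1] at this; exact this
    · have hanti : AntitoneOn G (Set.Ioc 0 1) := by
        apply antitoneOn_of_deriv_nonpos (convex_Ioc 0 1)
        · exact hcont.mono (fun v hv => hv.1)
        · intro v hv
          rw [interior_Ioc] at hv
          exact (hder v hv.1).differentiableAt.differentiableWithinAt
        · intro v hv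
          rw [interior_Ioc] at hv
          have hv0 : 0 < v := hv.1
          rw [(hder v hv0).deriv]
          have hlog : log v ≤ 0 := log_nonpos hv0.le hv.2.le
          have b1 : θ * log v ≤ v ^ θ - 1 := by
            have := log_le_sub_one_of_pos (Real.rpow_pos_of_pos hv0 θ)
            rw [Real.log_rpow hv0] at this; exact this
          have b2 : θ * U ^ θ * log v ≤ θ * log v := by
            nlinarith [mul_nonneg hθ.le (neg_nonneg.mpr hlog)]
          nlinarith
      have := hanti ⟨h, h1⟩ ⟨one_pos, le_refl 1⟩ h1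
      rw [hG1] at this; exact this
  simp only [hG] at key
  linarith

end Vale.Agent.P042.TT.Psi
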