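import Vale.Agent.P042.TT.Spec
import Vale.Agent.P042.SS.Cost

set_option autoImplicit false

/-!
Block REST, part A: random modulus for smooth moduli.
-/

namespace Vale.Agent.P042.TT

open Polynomial Finset Vale.Agent.P042.SS

/-- the items of a `w`-smooth number -/
theorem rest_Uq_smooth {w s : ℕ} (hs : ∀ p ∈ s.primeFactors, p ≤ w) (kap : ℕ → ℕ → ℝ) :
    kapProd kap s = ∏ i ∈ Uq w s, kap i.1 i.2 := by
  rw [kapProd_eq (Y := w)]
  have : wl kap w s = 1 := by
    unfold wl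
    apply prod_eq_one
    intro p hp
    rw [mem_filter] at hp
    exact absurd (Or.inl (hs p hp.1)) hp.2
  rw [this, mul_one]

theorem rest_dvd_WR {w s : ℕ} (hs1 : 1 ≤ s) (hs : ∀ p ∈ s.primeFactors, p ≤ w)
    {R : Finset (ℕ × ℕ)} (hR : Uq w s ⊆ R) : s ∣ WR R := by
  have h1 : s = ∏ i ∈ Uq w s, i.1 ^ i.2 := by
    unfold Uq
    rw [Finset.prod_image (by intro a _ b _ h; exact (Prod.mk.inj h).1)]
    have h2 : s.primeFactors.filter (fun p => p ≤ w ∨ 2 ≤ s.factorization p) =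
        s.primeFactors := by
      apply filter_true_of_mem
      intro p hp; exact Or.inl (hs p hp)
    rw [h2]
    conv_lhs => rw [← Nat.prod_factorization_pow_eq_self (by omega : s ≠ 0)]
    rw [Finsupp.prod, Nat.support_factorization]
  rw [h1]
  unfold WR
  exact prod_dvd_prod_of_subset _ _ _ hR

/-- random modulus for smooth moduli, general rates -/
theorem rest_rms_gen (kap : ℕ → ℕ → ℝ) (h0 : ∀ p j, 0 ≤ kap p j) (h1 : ∀ p j, kap p j ≤ 1)
    (w X : ℕ) (X0 : ℝ) (hX0 : 0 < X0)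
    (hcost : ∀ I : Finset (ℕ × ℕ), (∀ i ∈ I, i.1.Prime ∧ 1 ≤ i.2 ∧ i.1 ≤ w) →
      ∑ i ∈ I, kap i.1 i.2 * (i.2 * Real.log i.1) ≤ X0)
    (F : ℕ → ℝ) (B : ℝ) (hF : ∀ s, 0 ≤ F s)
    (hB : ∀ D : ℕ, 1 ≤ D → (∀ p ∈ D.primeFactors, p ≤ w) →
      Real.log D ≤ Real.log X + 2 * X0 → ∑ s ∈ D.divisors, F s ≤ B) :
    ∑ s ∈ (Icc 1 X).filter (fun s => ∀ p ∈ s.primeFactors, p ≤ w), kapProd kap s * F s ≤
      2 * B := by
  classical
  set Is : Finset (ℕ × ℕ) := (items w X).filter (fun i => i.1 ≤ w) with hIs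
  set Js : Finset ℕ := (Icc 1 X).filter (fun s => ∀ p ∈ s.primeFactors, p ≤ w) with hJs
  have hIsp : ∀ i ∈ Is, i.1.Prime ∧ 1 ≤ i.2 ∧ i.1 ≤ w := by
    intro i hi
    rw [hIs, mem_filter] at hi
    have := hi.1
    simp only [items, mem_filter] at this
    exact ⟨this.2.1, this.2.2.1, hi.2⟩
  have hrm := random_modulus Is (fun i => kap i.1 i.2)
    (fun i => (i.2 : ℝ) * Real.log i.1) (Real.log X) X0
    (fun i _ => h0 _ _) (fun i _ => h1 _ _)
    (fun i _ => mul_nonneg (Nat.cast_nonneg _) (Real.log_natCast_nonneg _))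
    (Real.log_natCast_nonneg _) hX0
    (hcost Is hIsp)
    Js (Uq w) F
    (fun s hs => by
      rw [hJs, mem_filter, mem_Icc] at hs
      intro i hi
      rw [hIs, mem_filter]
      refine ⟨Uq_subset hs.1.1 hs.1.2 hi, ?_⟩
      unfold Uq at hi
      rw [mem_image] at hi
      obtain ⟨p, hp, rfl⟩ := hi
      rw [mem_filter] at hp
      exact hs.2 p hp.1)
    (fun s hs => by
      rw [hJs, mem_filter, mem_Icc] at hs
      refine (cost_Uq hs.1.1).trans ?_
      apply Real.log_le_log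
      · have : 0 < s := by omega
        exact_mod_cast this
      · exact_mod_cast hs.1.2)
    (fun s _ => hF s) B
    (fun R hR hc => by
      have hRi : R ⊆ items w X := hR.trans (filter_subset _ _)
      have hW1 : 1 ≤ WR R := WR_pos hRi
      refine le_trans ?_ (hB (WR R) hW1 ?_ ?_)
      · apply sum_le_sum_of_subset_of_nonneg
        · intro s hs
          rw [mem_filter, hJs, mem_filter, mem_Icc] at hs
          rw [Nat.mem_divisors]
          exact ⟨rest_dvd_WR hs.1.1.1 hs.1.2 hs.2, by omega⟩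
        · intro s _ _; exact hF s
      · intro p hp
        have hpp := Nat.prime_of_mem_primeFactors hp
        have hd := Nat.dvd_of_mem_primeFactors hp
        unfold WR at hd
        obtain ⟨i, hi, hdi⟩ := (Prime.dvd_finsetProd_iff hpp.prime _).mp hd
        have h1 := hpp.dvd_of_dvd_pow hdi
        have h2 := hIsp i (hR hi)
        rw [(Nat.prime_dvd_prime_iff_eq hpp h2.1).mp h1]
        exact h2.2.2
      · rw [log_WR hRi]
        exact hc)
  refine le_trans (le_of_eq ?_) hrm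
  apply sum_congr rfl
  intro s hs
  rw [hJs, mem_filter] at hs
  rw [rest_Uq_smooth hs.2]

/-- random modulus for smooth moduli -/
theorem rest_rms (k E K p0 : ℕ) (kap : ℕ → ℕ → ℝ) (hk : 1 ≤ k) (hE : 1 ≤ E)
    (hkap : KapOK k E K p0 kap) : ∃ C : ℝ, 0 < C ∧ ∀ (w X : ℕ) (F : ℕ → ℝ) (B : ℝ),
    (∀ s, 0 ≤ F s) →
    (∀ D : ℕ, 1 ≤ D → (∀ p ∈ D.primeFactors, p ≤ w) →
      Real.log D ≤ Real.log X + C * (Real.sqrt w + 1) → ∑ s ∈ D.divisors, F s ≤ B) →
    ∑ s ∈ (Icc 1 X).filter (fun s => ∀ p ∈ s.primeFactors, p ≤ w), kapProd kap s * F s ≤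
      2 * B := by
  obtain ⟨C, hC, hcost⟩ := cost_holds k E K p0 kap hk hE hkap
  refine ⟨2 * C, by positivity, ?_⟩
  intro w X F B hF hB
  apply rest_rms_gen kap hkap.nn hkap.le1 w X (C * (Real.sqrt w + 1)) (by positivity)
    (hcost w) F B hF
  intro D h1 h2 h3
  exact hB D h1 h2 (by linarith)

end Vale.Agent.P042.TT
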