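import Vale.Agent.P042.TT.RestA

set_option autoImplicit false

/-!
Block REST, part B: the sum over smooth `s` and `z` for a fixed `h`.
-/

namespace Vale.Agent.P042.TT

open Polynomial Finset Vale.Agent.P042.SS

theorem rest_coprime_smooth {w D z : ℕ} (hD1 : 1 ≤ D) (hD : ∀ p ∈ D.primeFactors, p ≤ w)
    (hz1 : 1 ≤ z) (hz : ∀ p ∈ z.primeFactors, w < p) : Nat.Coprime z D := by
  rw [Nat.coprime_iff_gcd_eq_one]
  by_contra hne
  obtain ⟨p, hp, hpd⟩ := Nat.exists_prime_and_dvd hne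
  have h1 : p ∣ z := hpd.trans (Nat.gcd_dvd_left _ _)
  have h2 : p ∣ D := hpd.trans (Nat.gcd_dvd_right _ _)
  have h3 : p ≤ w := hD p (Nat.mem_primeFactors.mpr ⟨hp, h2, by omega⟩)
  have h4 := hz p (Nat.mem_primeFactors.mpr ⟨hp, h1, by omega⟩)
  omega

/-- fixed `h`: the sum over smooth `s` and over `z` -/
theorem rest_fix (kap : ℕ → ℕ → ℝ) (h0 : ∀ p j, 0 ≤ kap p j) (h1 : ∀ p j, kap p j ≤ 1)
    (w X : ℕ) (X0 : ℝ) (hX0 : 0 < X0)
    (hcost : ∀ I : Finset (ℕ × ℕ), (∀ i ∈ I, i.1.Prime ∧ 1 ≤ i.2 ∧ i.1 ≤ w) →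
      ∑ i ∈ I, kap i.1 i.2 * (i.2 * Real.log i.1) ≤ X0)
    (V : Finset ℕ) (hV : ∀ p ∈ V, p.Prime ∧ w < p)
    (F : ℕ → ℝ) (hF : ∀ n, 0 ≤ F n) (g zr : ℕ → ℝ) (QZ' QZ0 : Finset ℕ) (δ B0 L1 : ℝ)
    (hsub : QZ' ⊆ QZ0) (hz : ∀ z ∈ QZ0, 1 ≤ z ∧ ∀ p ∈ z.primeFactors, w < p)
    (hg0 : ∀ z ∈ QZ', 0 ≤ g z) (hzr : ∀ z ∈ QZ0, 0 ≤ zr z) (hδ : 0 ≤ δ)
    (hg : ∀ z ∈ QZ', g z ≤ δ * zr z)
    (hS : ∀ D : ℕ, 1 ≤ D → Real.log D ≤ L1 → (∀ p ∈ V, Nat.Coprime p D) →
      ∑ d ∈ D.divisors, ∑ z ∈ QZ0.filter (fun z => Nat.Coprime z D), zr z * F (d * z) ≤ B0)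
    (h : ℕ) (hh1 : 1 ≤ h) (hVh : ∀ p ∈ V, Nat.Coprime p h)
    (hL : Real.log X + 2 * X0 + Real.log h ≤ L1) :
    ∑ s ∈ (Icc 1 X).filter (fun s => ∀ p ∈ s.primeFactors, p ≤ w), kapProd kap s *
      ∑ z ∈ QZ'.filter (fun z => Nat.Coprime z h), g z * F (s * h * z) ≤ 2 * (δ * B0) := by
  apply rest_rms_gen kap h0 h1 w X X0 hX0 hcost
    (fun s => ∑ z ∈ QZ'.filter (fun z => Nat.Coprime z h), g z * F (s * h * z)) (δ * B0)
  · intro s
    apply sum_nonneg
    intro z hz'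
    exact mul_nonneg (hg0 z (mem_filter.mp hz').1) (hF _)
  · intro D hD1 hDs hDl
    have hDh1 : 1 ≤ D * h := Nat.one_le_iff_ne_zero.mpr (by positivity)
    have hDhV : ∀ p ∈ V, Nat.Coprime p (D * h) := by
      intro p hp
      apply Nat.Coprime.mul_right _ (hVh p hp)
      rw [Nat.Prime.coprime_iff_not_dvd (hV p hp).1]
      intro hd
      have := hDs p (Nat.mem_primeFactors.mpr ⟨(hV p hp).1, hd, by omega⟩)
      have := (hV p hp).2
      omega
    have hlog : Real.log ((D * h : ℕ) : ℝ) ≤ L1 := by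
      push_cast
      rw [Real.log_mul (by positivity) (by positivity)]
      linarith
    have h2 := hS (D * h) hDh1 hlog hDhV
    have h3 : ∑ s ∈ D.divisors, ∑ z ∈ QZ'.filter (fun z => Nat.Coprime z h),
        g z * F (s * h * z) ≤
        ∑ s ∈ D.divisors, δ * ∑ z ∈ QZ0.filter (fun z => Nat.Coprime z (D * h)),
          zr z * F (s * h * z) := by
      apply sum_le_sum
      intro s _
      rw [mul_sum]
      have h4 : QZ'.filter (fun z => Nat.Coprime z h) ⊆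
          QZ0.filter (fun z => Nat.Coprime z (D * h)) := by
        intro z hz'
        rw [mem_filter] at hz' ⊢
        have hz0 := hz z (hsub hz'.1)
        exact ⟨hsub hz'.1, Nat.Coprime.mul_right
          (rest_coprime_smooth hD1 hDs hz0.1 hz0.2) hz'.2⟩
      calc ∑ z ∈ QZ'.filter (fun z => Nat.Coprime z h), g z * F (s * h * z)
          ≤ ∑ z ∈ QZ'.filter (fun z => Nat.Coprime z h), δ * (zr z * F (s * h * z)) := by
            apply sum_le_sum
            intro z hz'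
            rw [← mul_assoc]
            exact mul_le_mul_of_nonneg_right (hg z (mem_filter.mp hz').1) (hF _)
        _ ≤ _ := by
            apply sum_le_sum_of_subset_of_nonneg h4
            intro z hz' _
            exact mul_nonneg hδ (mul_nonneg (hzr z (mem_filter.mp hz').1) (hF _))
    refine h3.trans ?_
    rw [← mul_sum]
    apply mul_le_mul_of_nonneg_left _ hδ
    refine le_trans ?_ h2
    -- reindex `s ↦ s * h`
    have hinj : Set.InjOn (fun s : ℕ => s * h) (D.divisors : Set ℕ) := by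
      intro a _ b _ hab
      exact Nat.eq_of_mul_eq_mul_right (by omega) hab
    have h5 : ∑ s ∈ D.divisors, ∑ z ∈ QZ0.filter (fun z => Nat.Coprime z (D * h)),
        zr z * F (s * h * z) =
        ∑ d ∈ D.divisors.image (fun s => s * h),
          ∑ z ∈ QZ0.filter (fun z => Nat.Coprime z (D * h)), zr z * F (d * z) := by
      rw [sum_image hinj]
    rw [h5]
    apply sum_le_sum_of_subset_of_nonneg
    · intro d hd
      rw [mem_image] at hd
      obtain ⟨s, hs, rfl⟩ := hd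
      rw [Nat.mem_divisors] at hs ⊢
      exact ⟨Nat.mul_dvd_mul_right hs.1 h, by omega⟩
    · intro d _ _
      apply sum_nonneg
      intro z hz'
      exact mul_nonneg (hzr z (mem_filter.mp hz').1) (hF _)

end Vale.Agent.P042.TT
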