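import Vale.Agent.P042.TT.Spec

set_option autoImplicit false

/-!
Statement of the case (D) of block REST: the moduli dividing a fixed modulus `D`.
-/

namespace Vale.Agent.P042.TT

open Finset Vale.Agent.P042.SS

/-- the moduli `d ≠ 1` dividing `D` -/
def RESTDStmt : Prop :=
  ∀ k : ℕ, 1 ≤ k → ∃ P0 : ℝ, ∀ P : ℝ, P0 ≤ P →
  ∀ (N' Nmin : ℕ) (Φ : ℝ) (G : ℤ → ℝ) (ν : ℕ → ℤ → ℝ),
    St P k N' Nmin Φ G ν →
  ∀ (V : Finset ℕ) (D M : ℕ) (y : ℤ), V ⊆ W2 P → ∑ p ∈ V, Real.log p ≤ P ^ (0.995 : ℝ) →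
    M ≤ N' → N' ≤ 32 * M → 1 ≤ D → Real.log D ≤ P ^ (0.487 : ℝ) →
    (∀ p ∈ V, Nat.Coprime p D) →
    ∑ d ∈ D.divisors.erase 1, ∑ a ∈ (range d).filter (Nat.Coprime d),
      tot (t1 P) V ν G y M 1 0 ((a : ℝ) / d) ≤
      P ^ (-0.0003 : ℝ) * (M * Φ) ^ 2 +
        2 * mass G y M 1 0 * |Φ * cnt N' y M - mass G y M 1 0|

end Vale.Agent.P042.TT
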