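import Vale.Agent.P042.TT.RestB
import Vale.Agent.P042.TT.RestdDef
import Vale.Agent.P042.TT.FacW

set_option autoImplicit false

/-!
Block REST, part C: numerics and energies.
-/

namespace Vale.Agent.P042.TT

open Polynomial Finset Vale.Agent.P042.SS Filter

theorem rest_tot_mono (hEW : EWStmt) (V : Finset ℕ) (ν : ℕ → ℤ → ℝ) (G : ℤ → ℝ) (y : ℤ)
    (M R : ℕ) (r : ℤ) (θ : ℝ) (hV : ∀ p ∈ V, p.Prime) (hw : Wts V ν)
    (hG : ∀ n, G n ≠ 0 → ∀ p ∈ V, ν p n ≠ 0) (t t' : ℝ) (ht : 0 ≤ t) (htt : t ≤ t') :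
    0 ≤ tot t V ν G y M R r θ ∧ tot t V ν G y M R r θ ≤ tot t' V ν G y M R r θ := by
  obtain ⟨h0, _, h2, _, _⟩ := hEW V ν G y M R r θ hV hw hG
  rw [h2 V (le_refl _) t, h2 V (le_refl _) t']
  constructor
  · apply sum_nonneg
    intro W hW
    exact mul_nonneg (pow_nonneg ht _) (h0 W (mem_powerset.mp hW))
  · apply sum_le_sum
    intro W hW
    exact mul_le_mul_of_nonneg_right (pow_le_pow_left₀ ht htt _) (h0 W (mem_powerset.mp hW))

theorem rest_pow_small (a : ℝ) (ha : 0 < a) (C ε : ℝ) (hε : 0 < ε) :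
    ∀ᶠ P : ℝ in atTop, C * P ^ (-a) ≤ ε := by
  have h := (tendsto_rpow_neg_atTop ha).const_mul C
  rw [mul_zero] at h
  exact (h.eventually (gt_mem_nhds hε)).mono (fun P hP => hP.le)

/-- `C P^a + C' ≤ ε P^b` eventually when `a < b`, `0 < b` -/
theorem rest_pow_cmp (a b : ℝ) (hab : a < b) (hb : 0 < b) (C C' ε : ℝ) (hε : 0 < ε) :
    ∀ᶠ P : ℝ in atTop, C * P ^ a + C' ≤ ε * P ^ b := by
  have h1 := rest_pow_small (b - a) (by linarith) C (ε / 2) (by positivity)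
  have h2 := rest_pow_small b hb C' (ε / 2) (by positivity)
  filter_upwards [h1, h2, eventually_gt_atTop (0 : ℝ)] with P e1 e2 hP
  have e3 : C * P ^ a = (C * P ^ (-(b - a))) * P ^ b := by
    rw [mul_assoc, ← Real.rpow_add hP]; congr 2; ring
  have e4 : C' = (C' * P ^ (-b)) * P ^ b := by
    rw [mul_assoc, ← Real.rpow_add hP]; simp
  have hPb : 0 < P ^ b := Real.rpow_pos_of_pos hP b
  rw [e3]
  nlinarith [mul_le_mul_of_nonneg_right e1 hPb.le, mul_le_mul_of_nonneg_right e2 hPb.le]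

/-- `exp(-t' P^a + P^b) ≤ P^(-1)` eventually for `b < a` -/
theorem rest_exp_small (t' a b : ℝ) (ht' : 0 < t') (hb : 0 < b) (hab : b < a) :
    ∀ᶠ P : ℝ in atTop, Real.exp (-(t' * P ^ a) + P ^ b) ≤ P ^ (-1 : ℝ) := by
  have h1 := rest_pow_cmp b a hab (by linarith) 1 0 (t' / 2) (by positivity)
  have h2 : ∀ᶠ P : ℝ in atTop, Real.log P ≤ (t' / 2) * P ^ a := by
    have := isLittleO_log_rpow_atTop (show 0 < a by linarith)
    have h3 := this.bound (show 0 < t' / 2 by positivity)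
    filter_upwards [h3, eventually_ge_atTop (1 : ℝ)] with P e1 hP
    rw [Real.norm_eq_abs, Real.norm_eq_abs, abs_of_nonneg (Real.log_nonneg hP),
      abs_of_nonneg (Real.rpow_nonneg (by linarith) _)] at e1
    exact e1
  filter_upwards [h1, h2, eventually_gt_atTop (0 : ℝ)] with P e1 e2 hP
  have : P ^ (-1 : ℝ) = Real.exp (-Real.log P) := by
    rw [Real.rpow_def_of_pos hP]; congr 1; ring
  rw [this]
  apply Real.exp_le_exp.mpr
  linarith

end Vale.Agent.P042.TT
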