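import Vale.Agent.P042.TT.RestC

set_option autoImplicit false

/-!
Block REST, part D: assembly for fixed `P`.
-/

namespace Vale.Agent.P042.TT

open Polynomial Finset Vale.Agent.P042.SS Filter

theorem rest_yc_one (P : ℝ) : yc P 1 = 0 := by
  unfold yc
  rw [card_eq_zero, filter_eq_empty_iff]
  intro p hp h
  have := (fac_W2_gt hp).2.2.one_lt
  have := Nat.le_of_dvd one_pos h
  omega

theorem rest_kapProd_one (kap : ℕ → ℕ → ℝ) : kapProd kap 1 = 1 := by
  unfold kapProd; simp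

theorem rest_zR_one (P : ℝ) : zR P 1 = 1 := by
  unfold zR; simp

theorem rest_kapProd_nonneg (kap : ℕ → ℕ → ℝ) (h0 : ∀ p j, 0 ≤ kap p j) (q : ℕ) :
    0 ≤ kapProd kap q := prod_nonneg (fun p _ => h0 _ _)

theorem rest_zR_nonneg (P : ℝ) (hP : 0 ≤ P) (q : ℕ) : 0 ≤ zR P q := by
  unfold zR
  apply prod_nonneg
  intro p _
  unfold zr
  split_ifs
  · positivity
  · positivity

theorem rest_one_QZ (P : ℝ) (J' : ℕ) (V : Finset ℕ) (Q : ℕ) (hQ : 1 ≤ Q)
    (hV : V ⊆ W2 P) : 1 ∈ QZ P J' V Q := by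
  unfold QZ EV
  simp only [mem_filter, mem_Icc]
  refine ⟨⟨⟨le_refl _, hQ⟩, ?_, ?_⟩, ?_⟩
  · intro p _; simp
  · intro p hp h
    have := (fac_W2_gt (hV hp)).2.2.one_lt
    have := Nat.le_of_dvd one_pos h
    omega
  · intro p hp; simp at hp

theorem rest_QZ_mono (P : ℝ) (J' : ℕ) (V : Finset ℕ) (Q Q' : ℕ) (h : Q ≤ Q') :
    QZ P J' V Q ⊆ QZ P J' V Q' := by
  intro q hq
  unfold QZ EV at hq ⊢
  simp only [mem_filter, mem_Icc] at hq ⊢
  exact ⟨⟨⟨hq.1.1.1, hq.1.1.2.trans h⟩, hq.1.2⟩, hq.2⟩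

/-- the small moduli, everything abstract -/
theorem rest_small (P : ℝ) (hP : 0 ≤ P) (J' : ℕ) (V : Finset ℕ) (hV : V ⊆ W2 P) (X Q : ℕ)
    (hX : 1 ≤ X) (hXQ : X ≤ Q)
    (kap : ℕ → ℕ → ℝ) (h0 : ∀ p j, 0 ≤ kap p j) (h1 : ∀ p j, kap p j ≤ 1)
    (X0 L1 B0 BD δ : ℝ) (hX0 : 0 < X0) (hB0 : 0 ≤ B0) (hδ : 0 ≤ δ)
    (hcost : ∀ I : Finset (ℕ × ℕ), (∀ i ∈ I, i.1.Prime ∧ 1 ≤ i.2 ∧
      i.1 ≤ ⌊P ^ (0.97 : ℝ)⌋₊) → ∑ i ∈ I, kap i.1 i.2 * (i.2 * Real.log i.1) ≤ X0)
    (hL : 2 * Real.log X + 2 * X0 ≤ L1)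
    (F1 F2 : ℕ → ℝ) (hF1 : ∀ n, 0 ≤ F1 n) (hF12 : ∀ n, F1 n ≤ F2 n)
    (hwt : ∀ z ∈ QZ P J' V X, z ≠ 1 → 2 ^ yc P z * kapProd kap z ≤ δ * zR P z)
    (hh1 : ∑ h ∈ QH P J' V X, 2 ^ yc P h * kapProd kap h ≤ 2)
    (hh2 : ∑ h ∈ (QH P J' V X).erase 1, 2 ^ yc P h * kapProd kap h ≤ P ^ (-2 : ℝ))
    (hS : ∀ D : ℕ, 1 ≤ D → Real.log D ≤ L1 → (∀ p ∈ V, Nat.Coprime p D) →
      ∑ d ∈ D.divisors, ∑ z ∈ (QZ P J' V Q).filter (fun z => Nat.Coprime z D),
        zR P z * F2 (d * z) ≤ B0)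
    (hD : ∀ D : ℕ, 1 ≤ D → Real.log D ≤ L1 → (∀ p ∈ V, Nat.Coprime p D) →
      ∑ d ∈ D.divisors.erase 1, F1 d ≤ BD) :
    ∑ q ∈ (EV P V X).erase 1, 2 ^ yc P q * kapProd kap q * F1 q ≤
      4 * (δ * B0) + 2 * P ^ (-2 : ℝ) * B0 + 2 * BD := by
  classical
  set w : ℕ := ⌊P ^ (0.97 : ℝ)⌋₊ with hw
  set f : ℕ → ℝ := fun q => 2 ^ yc P q * kapProd kap q * F1 q with hf
  have hf0 : ∀ q, 0 ≤ f q := fun q =>
    mul_nonneg (mul_nonneg (by positivity) (rest_kapProd_nonneg kap h0 q)) (hF1 q)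
  have hF2 : ∀ n, 0 ≤ F2 n := fun n => (hF1 n).trans (hF12 n)
  set F' : ℕ → ℝ := fun q => if q = 1 then 0 else f q with hF'
  have hF'0 : ∀ q, 0 ≤ F' q := by
    intro q; simp only [hF']; split_ifs
    · exact le_refl _
    · exact hf0 q
  have hF'f : ∀ q, F' q ≤ f q := by
    intro q; simp only [hF']; split_ifs
    · exact hf0 q
    · exact le_refl _
  have hVw : ∀ p ∈ V, p.Prime ∧ w < p := fun p hp =>
    ⟨(fac_W2_gt (hV hp)).2.2, (fac_W2_gt (hV hp)).1⟩
  have hlX : 0 ≤ Real.log X := Real.log_natCast_nonneg _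
  -- reduce to the triple sum
  have e1 : ∑ q ∈ (EV P V X).erase 1, f q = ∑ q ∈ (EV P V X).erase 1, F' q := by
    apply sum_congr rfl
    intro q hq
    simp only [hF']
    rw [if_neg (ne_of_mem_erase hq)]
  have e2 : ∑ q ∈ (EV P V X).erase 1, F' q ≤ ∑ q ∈ EV P V X, F' q :=
    sum_le_sum_of_subset_of_nonneg (erase_subset _ _) (fun q _ _ => hF'0 q)
  have e3 := fac_sum P J' V X F' hF'0
  set QZe := (QZ P J' V X).erase 1 with hQZe
  have h1Z : 1 ∈ QZ P J' V X := rest_one_QZ P J' V X hX hV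
  -- split off z = 1
  have e4 : ∀ h ∈ QH P J' V X, ∀ s ∈ QS P X,
      ∑ z ∈ (QZ P J' V X).filter (fun z => Nat.Coprime z h), F' (s * h * z) ≤
      ∑ z ∈ QZe.filter (fun z => Nat.Coprime z h), f (s * h * z) + F' (s * h) := by
    intro h _ s _
    have : (QZ P J' V X).filter (fun z => Nat.Coprime z h) =
        insert 1 (QZe.filter (fun z => Nat.Coprime z h)) := by
      ext z
      simp only [mem_filter, mem_insert, hQZe, mem_erase]
      constructor
      · rintro ⟨a, b⟩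
        by_cases hz : z = 1
        · exact Or.inl hz
        · exact Or.inr ⟨⟨hz, a⟩, b⟩
      · rintro (a | ⟨⟨_, b⟩, c⟩)
        · subst a; exact ⟨h1Z, Nat.coprime_one_left h⟩
        · exact ⟨b, c⟩
    rw [this, sum_insert (by simp [hQZe]), mul_one, add_comm]
    exact add_le_add (sum_le_sum (fun z _ => hF'f _)) (le_refl _)
  have e5 : ∑ h ∈ QH P J' V X, ∑ s ∈ QS P X,
      ∑ z ∈ (QZ P J' V X).filter (fun z => Nat.Coprime z h), F' (s * h * z) ≤
      ∑ h ∈ QH P J' V X, ∑ s ∈ QS P X,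
        ∑ z ∈ QZe.filter (fun z => Nat.Coprime z h), f (s * h * z) +
      ∑ h ∈ QH P J' V X, ∑ s ∈ QS P X, F' (s * h) := by
    rw [← sum_add_distrib]
    apply sum_le_sum
    intro h hh
    rw [← sum_add_distrib]
    exact sum_le_sum (fun s hs => e4 h hh s hs)
  -- facts on `h`
  have hhX : ∀ h ∈ QH P J' V X, 1 ≤ h ∧ h ≤ X := by
    intro h hh
    have := (mem_filter.1 hh).1
    unfold EV at this
    rw [mem_filter, mem_Icc] at this
    exact this.1
  have hLh : ∀ h ∈ QH P J' V X, Real.log X + 2 * X0 + Real.log h ≤ L1 := by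
    intro h hh
    have h3 := hhX h hh
    have h4 : Real.log h ≤ Real.log X := by
      apply Real.log_le_log
      · have : 0 < h := by omega
        exact_mod_cast this
      · exact_mod_cast h3.2
    linarith
  have hzQ : ∀ z ∈ QZ P J' V Q, 1 ≤ z ∧ ∀ p ∈ z.primeFactors, w < p := by
    intro z hz
    refine ⟨fac_QZ_pos hz, fun p hp => ((mem_filter.1 hz).2 p hp).1⟩
  -- the B part
  have tB : ∑ h ∈ QH P J' V X, ∑ s ∈ QS P X,
        ∑ z ∈ QZe.filter (fun z => Nat.Coprime z h), f (s * h * z) ≤ 4 * (δ * B0) := by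
    have e6 : ∀ h ∈ QH P J' V X, ∑ s ∈ QS P X,
        ∑ z ∈ QZe.filter (fun z => Nat.Coprime z h), f (s * h * z) ≤
        (2 ^ yc P h * kapProd kap h) * (2 * (δ * B0)) := by
      intro h hh
      have hg0 : 0 ≤ 2 ^ yc P h * kapProd kap h :=
        mul_nonneg (by positivity) (rest_kapProd_nonneg kap h0 h)
      have e7 := rest_fix kap h0 h1 w X X0 hX0 hcost V hVw F2 hF2
        (fun z => 2 ^ yc P z * kapProd kap z) (zR P) QZe (QZ P J' V Q) δ B0 L1
        ((erase_subset _ _).trans (rest_QZ_mono P J' V X Q hXQ)) hzQ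
        (fun z _ => mul_nonneg (by positivity) (rest_kapProd_nonneg kap h0 z))
        (fun z _ => rest_zR_nonneg P hP z) hδ
        (fun z hz => hwt z (mem_of_mem_erase hz) (ne_of_mem_erase hz)) hS h (hhX h hh).1
        (fun p hp => fac_V_h hV hh hp) (hLh h hh)
      refine le_trans ?_ (mul_le_mul_of_nonneg_left e7 hg0)
      rw [mul_sum]
      apply sum_le_sum
      intro s hs
      rw [mul_sum, mul_sum]
      apply sum_le_sum
      intro z hz
      rw [mem_filter] at hz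
      have e8 := fac_weight kap hs hh (mem_of_mem_erase hz.1) hz.2
      simp only [hf]
      rw [e8]
      have e9 := hF12 (s * h * z)
      have e10 : 0 ≤ kapProd kap s * (2 ^ yc P h * kapProd kap h) *
          (2 ^ yc P z * kapProd kap z) :=
        mul_nonneg (mul_nonneg (rest_kapProd_nonneg kap h0 s) hg0)
          (mul_nonneg (by positivity) (rest_kapProd_nonneg kap h0 z))
      refine (mul_le_mul_of_nonneg_left e9 e10).trans (le_of_eq ?_)
      ring
    refine (sum_le_sum e6).trans ?_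
    rw [← sum_mul]
    have : 0 ≤ 2 * (δ * B0) := by positivity
    nlinarith
  -- the C and D parts
  have tC : ∑ h ∈ (QH P J' V X).erase 1, ∑ s ∈ QS P X, F' (s * h) ≤
      2 * P ^ (-2 : ℝ) * B0 := by
    have e6 : ∀ h ∈ (QH P J' V X).erase 1, ∑ s ∈ QS P X, F' (s * h) ≤
        (2 ^ yc P h * kapProd kap h) * (2 * (1 * B0)) := by
      intro h hh'
      have hh := mem_of_mem_erase hh'
      have hg0 : 0 ≤ 2 ^ yc P h * kapProd kap h :=
        mul_nonneg (by positivity) (rest_kapProd_nonneg kap h0 h)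
      have e7 := rest_fix kap h0 h1 w X X0 hX0 hcost V hVw F2 hF2
        (fun z => 2 ^ yc P z * kapProd kap z) (zR P) {1} (QZ P J' V Q) 1 B0 L1
        (by
          intro z hz
          rw [mem_singleton] at hz
          subst hz
          exact rest_one_QZ P J' V Q (hX.trans hXQ) hV) hzQ
        (fun z _ => mul_nonneg (by positivity) (rest_kapProd_nonneg kap h0 z))
        (fun z _ => rest_zR_nonneg P hP z) zero_le_one
        (fun z hz => by
          rw [mem_singleton] at hz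
          subst hz
          rw [rest_yc_one, rest_kapProd_one, rest_zR_one]; norm_num) hS h (hhX h hh).1
        (fun p hp => fac_V_h hV hh hp) (hLh h hh)
      refine le_trans ?_ (mul_le_mul_of_nonneg_left e7 hg0)
      rw [mul_sum]
      apply sum_le_sum
      intro s hs
      have e11 : ({1} : Finset ℕ).filter (fun z => Nat.Coprime z h) = {1} := by
        rw [filter_singleton, if_pos (Nat.coprime_one_left h)]
      rw [e11, sum_singleton]
      have e8 := fac_weight kap hs hh h1Z (Nat.coprime_one_left h)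
      rw [mul_one] at e8 ⊢
      refine (hF'f _).trans ?_
      simp only [hf]
      rw [e8, rest_yc_one, rest_kapProd_one]
      have e9 := hF12 (s * h)
      have e10 : 0 ≤ kapProd kap s * (2 ^ yc P h * kapProd kap h) :=
        mul_nonneg (rest_kapProd_nonneg kap h0 s) hg0
      have := mul_le_mul_of_nonneg_left e9 e10
      simp only [pow_zero, mul_one, one_mul]
      refine this.trans (le_of_eq ?_)
      ring
    refine (sum_le_sum e6).trans ?_
    rw [← sum_mul]
    have : 0 ≤ 2 * (1 * B0) := by positivity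
    nlinarith
  have tD : ∑ s ∈ QS P X, F' s ≤ 2 * BD := by
    have e7 := rest_rms_gen kap h0 h1 w X X0 hX0 hcost (fun s => if s = 1 then 0 else F1 s) BD
      (by
        intro s
        split_ifs
        · exact le_refl _
        · exact hF1 s)
      (by
        intro D hD1 hDs hDl
        have e8 : ∑ s ∈ D.divisors, (if s = 1 then 0 else F1 s) =
            ∑ s ∈ D.divisors.erase 1, F1 s := by
          have h1D : 1 ∈ D.divisors := Nat.one_mem_divisors.mpr (by omega)
          rw [← insert_erase h1D, sum_insert (by simp), if_pos rfl, zero_add,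
            erase_insert (by simp)]
          apply sum_congr rfl
          intro s hs
          rw [if_neg (ne_of_mem_erase hs)]
        rw [e8]
        apply hD D hD1 (by linarith)
        intro p hp
        rw [Nat.Prime.coprime_iff_not_dvd (hVw p hp).1]
        intro hd
        have := hDs p (Nat.mem_primeFactors.mpr ⟨(hVw p hp).1, hd, by omega⟩)
        have := (hVw p hp).2
        omega)
    refine le_trans (le_of_eq ?_) e7
    unfold QS
    apply sum_congr rfl
    intro s hs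
    simp only [hF', hf]
    by_cases hs1 : s = 1
    · simp [hs1]
    · rw [if_neg hs1, if_neg hs1]
      have : yc P s = 0 := fac_yc_s (P := P) (Q := X) hs
      rw [this]; ring
  have e12 : ∑ h ∈ QH P J' V X, ∑ s ∈ QS P X, F' (s * h) ≤
      2 * P ^ (-2 : ℝ) * B0 + 2 * BD := by
    by_cases h1H : 1 ∈ QH P J' V X
    · rw [← insert_erase h1H, sum_insert (by simp)]
      simp only [mul_one]
      linarith
    · rw [← erase_eq_of_notMem h1H]
      have : 0 ≤ 2 * BD := le_trans (sum_nonneg (fun s _ => hF'0 s)) tD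
      linarith
  linarith

end Vale.Agent.P042.TT
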