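import Vale.Agent.P042.TT.RestD

set_option autoImplicit false

/-!
Block REST, part E: final assembly.
-/

namespace Vale.Agent.P042.TT

open Polynomial Finset Vale.Agent.P042.SS Filter

theorem rest_num (CS Cc t' : ℝ) (ht' : 0 < t') :
    ∀ᶠ P : ℝ in atTop, 1 ≤ P ∧
      2 * P ^ (0.486 : ℝ) + 2 * (Cc * (P ^ (0.486 : ℝ) + 1)) ≤ P ^ (0.487 : ℝ) ∧
      CS * P ^ (-0.001 : ℝ) ≤ Real.log 2 ∧
      Real.exp (-(t' * P ^ (0.486 : ℝ)) + P ^ (0.2 : ℝ)) ≤ P ^ (-1 : ℝ) ∧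
      P ^ (-1 : ℝ) + 8 * CS * P ^ (-0.0009 : ℝ) + 4 * CS * P ^ (-2 : ℝ) +
        2 * P ^ (-0.0003 : ℝ) ≤ P ^ (-0.0002 : ℝ) := by
  have a1 := rest_pow_cmp (0.486 : ℝ) (0.487 : ℝ) (by norm_num) (by norm_num) (2 + 2 * Cc)
    (2 * Cc) 1 one_pos
  have a2 := rest_pow_small 0.001 (by norm_num) CS (Real.log 2) (Real.log_pos (by norm_num))
  have a3 := rest_exp_small t' (0.486 : ℝ) (0.2 : ℝ) ht' (by norm_num) (by norm_num)
  have b1 := rest_pow_small (0.9998 : ℝ) (by norm_num) 1 (1 / 4) (by norm_num)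
  have b2 := rest_pow_small (0.0007 : ℝ) (by norm_num) (8 * CS) (1 / 4) (by norm_num)
  have b3 := rest_pow_small (1.9998 : ℝ) (by norm_num) (4 * CS) (1 / 4) (by norm_num)
  have b4 := rest_pow_small (0.0001 : ℝ) (by norm_num) 2 (1 / 4) (by norm_num)
  filter_upwards [a1, a2, a3, b1, b2, b3, b4, eventually_ge_atTop (1 : ℝ)] with P a1 a2 a3 b1 b2
    b3 b4 hP
  have hP0 : 0 < P := by linarith
  refine ⟨hP, by linarith, a2, a3, ?_⟩
  have hpos : 0 < P ^ (-0.0002 : ℝ) := Real.rpow_pos_of_pos hP0 _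
  have c1 : P ^ (-1 : ℝ) = (1 * P ^ (-(0.9998 : ℝ))) * P ^ (-0.0002 : ℝ) := by
    rw [one_mul, ← Real.rpow_add hP0]; norm_num
  have c2 : 8 * CS * P ^ (-0.0009 : ℝ) =
      (8 * CS * P ^ (-(0.0007 : ℝ))) * P ^ (-0.0002 : ℝ) := by
    rw [mul_assoc (8 * CS), ← Real.rpow_add hP0]; norm_num
  have c3 : 4 * CS * P ^ (-2 : ℝ) =
      (4 * CS * P ^ (-(1.9998 : ℝ))) * P ^ (-0.0002 : ℝ) := by
    rw [mul_assoc (4 * CS), ← Real.rpow_add hP0]; norm_num
  have c4 : 2 * P ^ (-0.0003 : ℝ) =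
      (2 * P ^ (-(0.0001 : ℝ))) * P ^ (-0.0002 : ℝ) := by
    rw [mul_assoc, ← Real.rpow_add hP0]; norm_num
  rw [c1, c2, c3, c4]
  nlinarith [mul_le_mul_of_nonneg_right b1 hpos.le, mul_le_mul_of_nonneg_right b2 hpos.le,
    mul_le_mul_of_nonneg_right b3 hpos.le, mul_le_mul_of_nonneg_right b4 hpos.le]

theorem rest_of (hSUM : SUMStmt) (hTOT : TOTStmt) (hEW : EWStmt) (hNU2 : NU2Stmt)
    (hRD : RESTDStmt) : RESTStmt := by
  classical
  intro k E K p0 kap hk hE hkap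
  obtain ⟨t', PT, ht', _, hT⟩ := hTOT k E K p0 kap hk hE hkap
  obtain ⟨CS, PS, hCS, hS⟩ := hSUM k (4 * E) hk (by omega)
  obtain ⟨PD, hD⟩ := hRD k hk
  obtain ⟨PN, hN⟩ := hNU2 k hk
  obtain ⟨PW, hW⟩ := fac_wt1 k E K p0 kap hk hE hkap
  obtain ⟨PH, hH⟩ := fac_h k E K p0 kap hk hE hkap
  obtain ⟨Cc, hCc, hcost⟩ := cost_holds k E K p0 kap hk hE hkap
  obtain ⟨P1, hnum⟩ := eventually_atTop.mp (rest_num CS Cc t' ht')
  refine ⟨max PT (max PS (max PD (max PN (max PW (max PH P1))))), ?_⟩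
  intro P hP N' Nmin Φ G ν hSt V M y hV hVl hMN hNM
  simp only [max_le_iff] at hP
  obtain ⟨gT, gS, gD, gN, gW, gH, g1⟩ := hP
  obtain ⟨hP1, n1, n2, n3, n4⟩ := hnum P g1
  have hP0 : 0 < P := by linarith
  obtain ⟨_, _, hGν, _, _, _⟩ := hN P gN N' Nmin Φ G ν hSt
  have hVp : ∀ p ∈ V, p.Prime := fun p hp => (fac_W2_gt (hV hp)).2.2
  have hwV : Wts V ν := ⟨hSt.pin.wts.nn, fun p hp => hSt.pin.wts.per p (hV hp),
    fun p hp => hSt.pin.wts.mean p (hV hp)⟩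
  have hGV : ∀ n, G n ≠ 0 → ∀ p ∈ V, ν p n ≠ 0 := fun n hn p hp => hGν n hn p (hV hp)
  have ht1 : 0 ≤ t1 P := by unfold t1; positivity
  have ht12 : t1 P ≤ t2 P := by
    unfold t1 t2
    exact Real.rpow_le_rpow_of_exponent_le hP1 (by norm_num)
  obtain ⟨F1, hF1⟩ : ∃ F1 : ℕ → ℝ, F1 = fun n => ∑ a ∈ (range n).filter (Nat.Coprime n),
    tot (t1 P) V ν G y M 1 0 ((a : ℝ) / (n : ℝ)) := ⟨_, rfl⟩
  obtain ⟨F2, hF2⟩ : ∃ F2 : ℕ → ℝ, F2 = fun n => ∑ a ∈ (range n).filter (Nat.Coprime n),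
    tot (t2 P) V ν G y M 1 0 ((a : ℝ) / (n : ℝ)) := ⟨_, rfl⟩
  have hF1n : ∀ n, 0 ≤ F1 n := by
    intro n; rw [hF1]
    exact sum_nonneg (fun a _ => (rest_tot_mono hEW V ν G y M 1 0 _ hVp hwV hGV _ _ ht1 ht12).1)
  have hF12 : ∀ n, F1 n ≤ F2 n := by
    intro n; rw [hF1, hF2]
    exact sum_le_sum (fun a _ => (rest_tot_mono hEW V ν G y M 1 0 _ hVp hwV hGV _ _ ht1 ht12).2)
  have goal1 : ∑ q ∈ (EV P V (Q2 P)).erase 1, 2 ^ yc P q * kapProd kap q *
      ∑ a ∈ (range q).filter (Nat.Coprime q), tot (t1 P) V ν G y M 1 0 ((a : ℝ) / q) =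
      ∑ q ∈ (EV P V (Q2 P)).erase 1, 2 ^ yc P q * kapProd kap q * F1 q := by
    rw [hF1]
  rw [goal1]
  set X : ℕ := ⌊Real.exp (P ^ (0.486 : ℝ))⌋₊ with hX
  have hX1 : 1 ≤ X := by
    rw [hX]
    apply Nat.le_floor
    have : (0 : ℝ) ≤ P ^ (0.486 : ℝ) := by positivity
    simpa using Real.one_le_exp this
  have hXQ : X ≤ Q2 P := by
    rw [hX]; unfold Q2
    apply Nat.floor_mono
    apply Real.exp_le_exp.mpr
    exact Real.rpow_le_rpow_of_exponent_le hP1 (by norm_num)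
  have hXr : (0 : ℝ) < X := by exact_mod_cast hX1
  have hlX : Real.log X ≤ P ^ (0.486 : ℝ) := by
    have h1 : (X : ℝ) ≤ Real.exp (P ^ (0.486 : ℝ)) := Nat.floor_le (Real.exp_pos _).le
    have := Real.log_le_log hXr h1
    rwa [Real.log_exp] at this
  have hM0 : 0 ≤ (M * Φ) ^ 2 := sq_nonneg _
  have hEVn : ∀ q, 0 ≤ (2 : ℝ) ^ yc P q * kapProd kap q := fun q =>
    mul_nonneg (by positivity) (rest_kapProd_nonneg kap hkap.nn q)
  -- large moduli
  have hA : ∑ q ∈ ((EV P V (Q2 P)).erase 1).filter (fun q => X < q),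
      2 ^ yc P q * kapProd kap q * F1 q ≤ P ^ (-1 : ℝ) * (M * Φ) ^ 2 := by
    have hT' := hT P gT N' Nmin Φ G ν hSt V M y hV hVl hMN hNM
    have e1 : ∀ q ∈ ((EV P V (Q2 P)).erase 1).filter (fun q => X < q),
        2 ^ yc P q * kapProd kap q * F1 q ≤
        Real.exp (-(t' * P ^ (0.486 : ℝ))) *
          ((q : ℝ) ^ t' * (2 ^ yc P q * kapProd kap q) * F2 q) := by
      intro q hq
      rw [mem_filter] at hq
      have hq2 : Real.exp (P ^ (0.486 : ℝ)) < q := Nat.lt_of_floor_lt hq.2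
      have hq3 : Real.exp (t' * P ^ (0.486 : ℝ)) ≤ (q : ℝ) ^ t' := by
        have : Real.exp (t' * P ^ (0.486 : ℝ)) = (Real.exp (P ^ (0.486 : ℝ))) ^ t' := by
          rw [← Real.exp_mul, mul_comm]
        rw [this]
        exact Real.rpow_le_rpow (Real.exp_pos _).le hq2.le ht'.le
      have hq4 : 1 ≤ Real.exp (-(t' * P ^ (0.486 : ℝ))) * (q : ℝ) ^ t' := by
        have := mul_le_mul_of_nonneg_left hq3 (Real.exp_pos (-(t' * P ^ (0.486 : ℝ)))).le
        rw [← Real.exp_add] at this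
        simpa using this
      have hq5 : 0 ≤ 2 ^ yc P q * kapProd kap q * F2 q :=
        mul_nonneg (hEVn q) ((hF1n q).trans (hF12 q))
      calc 2 ^ yc P q * kapProd kap q * F1 q ≤ 2 ^ yc P q * kapProd kap q * F2 q :=
            mul_le_mul_of_nonneg_left (hF12 q) (hEVn q)
        _ = 1 * (2 ^ yc P q * kapProd kap q * F2 q) := by ring
        _ ≤ (Real.exp (-(t' * P ^ (0.486 : ℝ))) * (q : ℝ) ^ t') *
            (2 ^ yc P q * kapProd kap q * F2 q) := mul_le_mul_of_nonneg_right hq4 hq5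
        _ = _ := by ring
    have e2 : ∑ q ∈ ((EV P V (Q2 P)).erase 1).filter (fun q => X < q),
        (q : ℝ) ^ t' * (2 ^ yc P q * kapProd kap q) * F2 q ≤
        Real.exp (P ^ (0.2 : ℝ)) * (M * Φ) ^ 2 := by
      rw [hF2]
      refine le_trans ?_ hT'
      apply sum_le_sum_of_subset_of_nonneg ((filter_subset _ _).trans (erase_subset _ _))
      intro q _ _
      apply mul_nonneg (mul_nonneg (by positivity) (hEVn q))
      exact sum_nonneg (fun a _ => (rest_tot_mono hEW V ν G y M 1 0 _ hVp hwV hGV _ _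
        (ht1.trans ht12) (le_refl _)).1)
    refine (sum_le_sum e1).trans ?_
    rw [← mul_sum]
    calc Real.exp (-(t' * P ^ (0.486 : ℝ))) *
          ∑ q ∈ ((EV P V (Q2 P)).erase 1).filter (fun q => X < q),
            (q : ℝ) ^ t' * (2 ^ yc P q * kapProd kap q) * F2 q
        ≤ Real.exp (-(t' * P ^ (0.486 : ℝ))) * (Real.exp (P ^ (0.2 : ℝ)) * (M * Φ) ^ 2) :=
          mul_le_mul_of_nonneg_left e2 (Real.exp_pos _).le
      _ = Real.exp (-(t' * P ^ (0.486 : ℝ)) + P ^ (0.2 : ℝ)) * (M * Φ) ^ 2 := by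
          rw [Real.exp_add]; ring
      _ ≤ _ := mul_le_mul_of_nonneg_right n3 hM0
  -- small moduli
  set X0 : ℝ := Cc * (Real.sqrt (⌊P ^ (0.97 : ℝ)⌋₊ : ℝ) + 1) with hX0
  have hsq : Real.sqrt (⌊P ^ (0.97 : ℝ)⌋₊ : ℝ) ≤ P ^ (0.486 : ℝ) := by
    have h1 : ((⌊P ^ (0.97 : ℝ)⌋₊ : ℕ) : ℝ) ≤ P ^ (0.97 : ℝ) := Nat.floor_le (by positivity)
    refine (Real.sqrt_le_sqrt h1).trans ?_
    rw [Real.sqrt_eq_rpow, ← Real.rpow_mul hP0.le]
    exact Real.rpow_le_rpow_of_exponent_le hP1 (by norm_num)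
  have hX0p : 0 < X0 := by positivity
  have hL : 2 * Real.log X + 2 * X0 ≤ P ^ (0.487 : ℝ) := by
    have : X0 ≤ Cc * (P ^ (0.486 : ℝ) + 1) := by
      rw [hX0]
      exact mul_le_mul_of_nonneg_left (by linarith) hCc.le
    linarith
  have hB0 : 0 ≤ 2 * CS * (M * Φ) ^ 2 := by positivity
  have hsmall := rest_small P hP0.le (4 * E) V hV X (Q2 P) hX1 hXQ kap hkap.nn hkap.le1 X0
    (P ^ (0.487 : ℝ)) (2 * CS * (M * Φ) ^ 2)
    (P ^ (-0.0003 : ℝ) * (M * Φ) ^ 2 +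
        2 * mass G y M 1 0 * |Φ * cnt N' y M - mass G y M 1 0|) (P ^ (-0.0009 : ℝ)) hX0p hB0
    (by positivity) (hcost _) hL F1 F2 hF1n hF12 (fun z hz hz1 => hW P gW V X z hz hz1)
    (by
      have := (hH P gH 0 (le_refl _) (by positivity) V X).1
      simpa using this)
    (by
      have := (hH P gH 0 (le_refl _) (by positivity) V X).2
      simpa using this)
    (by
      intro D hD1 hDl hVD
      have h1 := hS P gS N' Nmin Φ G ν hSt V D M y hV hVl hMN hNM hD1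
        (hDl.trans (Real.rpow_le_rpow_of_exponent_le hP1 (by norm_num))) hVD
      have h2 : (D : ℝ) ^ (CS * b2 P) ≤ 2 := by
        have hDr : (0 : ℝ) < D := by exact_mod_cast hD1
        rw [Real.rpow_def_of_pos hDr]
        have h3 : Real.log D * (CS * b2 P) ≤ Real.log 2 := by
          refine le_trans ?_ n2
          have hb : 0 ≤ CS * b2 P := by unfold b2; positivity
          calc Real.log D * (CS * b2 P) ≤ P ^ (0.487 : ℝ) * (CS * b2 P) :=
                mul_le_mul_of_nonneg_right hDl hb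
            _ = CS * (P ^ (0.487 : ℝ) * P ^ (-0.488 : ℝ)) := by unfold b2; ring
            _ = CS * P ^ (-0.001 : ℝ) := by
                rw [← Real.rpow_add hP0]; norm_num
        calc Real.exp (Real.log D * (CS * b2 P)) ≤ Real.exp (Real.log 2) :=
              Real.exp_le_exp.mpr h3
          _ = 2 := Real.exp_log (by norm_num)
      rw [hF2]
      refine h1.trans ?_
      calc CS * (D : ℝ) ^ (CS * b2 P) * (M * Φ) ^ 2 ≤ CS * 2 * (M * Φ) ^ 2 := by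
            apply mul_le_mul_of_nonneg_right _ hM0
            exact mul_le_mul_of_nonneg_left h2 hCS.le
        _ = _ := by ring)
    (by
      intro D hD1 hDl hVD
      rw [hF1]
      exact hD P gD N' Nmin Φ G ν hSt V D M y hV hVl hMN hNM hD1 hDl hVD)
  have hBsub : ∑ q ∈ ((EV P V (Q2 P)).erase 1).filter (fun q => ¬ X < q),
      2 ^ yc P q * kapProd kap q * F1 q ≤
      ∑ q ∈ (EV P V X).erase 1, 2 ^ yc P q * kapProd kap q * F1 q := by
    apply sum_le_sum_of_subset_of_nonneg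
    · intro q hq
      rw [mem_filter, mem_erase] at hq
      rw [mem_erase]
      refine ⟨hq.1.1, ?_⟩
      have h1 := hq.1.2
      unfold EV at h1 ⊢
      rw [mem_filter, mem_Icc] at h1 ⊢
      exact ⟨⟨h1.1.1, by omega⟩, h1.2⟩
    · intro q _ _
      exact mul_nonneg (hEVn q) (hF1n q)
  rw [← sum_filter_add_sum_filter_not ((EV P V (Q2 P)).erase 1) (fun q => X < q)]
  have hfin : P ^ (-1 : ℝ) * (M * Φ) ^ 2 + (4 * (P ^ (-0.0009 : ℝ) * (2 * CS * (M * Φ) ^ 2)) +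
      2 * P ^ (-2 : ℝ) * (2 * CS * (M * Φ) ^ 2) + 2 * (P ^ (-0.0003 : ℝ) * (M * Φ) ^ 2 +
        2 * mass G y M 1 0 * |Φ * cnt N' y M - mass G y M 1 0|)) ≤
      P ^ (-0.0002 : ℝ) * (M * Φ) ^ 2 +
        4 * mass G y M 1 0 * |Φ * cnt N' y M - mass G y M 1 0| := by
    have := mul_le_mul_of_nonneg_right n4 hM0
    nlinarith
  linarith

end Vale.Agent.P042.TT
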