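import Vale.Agent.P042.TT.One
import Vale.Agent.P042.TT.Den
import Vale.Agent.P042.TT.RestdDef
import Vale.Agent.P042.H584.Sum

set_option autoImplicit false

/-!
Case (D) of block REST: the moduli dividing a fixed modulus.
-/

namespace Vale.Agent.P042.TT

open Finset Vale.Agent.P042.SS NU2

section restd

variable {P : ℝ} {k N' Nmin : ℕ} {Φ : ℝ} {G : ℤ → ℝ} {ν : ℕ → ℤ → ℝ}

lemma rd_mass_nonneg (hG : ∀ n, 0 ≤ G n) (y : ℤ) (M D : ℕ) (r : ℤ) : 0 ≤ mass G y M D r :=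
  sum_nonneg fun n _ => hG n

/-- Parseval for the moduli dividing `D` -/
lemma rd_parseval (G : ℤ → ℝ) (y : ℤ) (M D : ℕ) (hD : 1 ≤ D) :
    ∑ d ∈ D.divisors, ∑ a ∈ (range d).filter (Nat.Coprime d), ‖Fc G y M 1 0 ((a : ℝ) / d)‖ ^ 2 =
      D * ∑ r ∈ range D, (mass G y M D r) ^ 2 := by
  rw [Crt.sum_div (fun θ => ‖Fc G y M 1 0 θ‖ ^ 2) D hD]
  have key := SumB.parseval_classes ((Ioc y (y + M)).filter
    (fun n : ℤ => n ≡ 0 [ZMOD ((1 : ℕ) : ℤ)])) (fun n => (G n : ℂ)) D hD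
  have h1 : ∀ b ∈ range D, ‖Fc G y M 1 0 ((b : ℝ) / D)‖ ^ 2 =
      ‖∑ n ∈ (Ioc y (y + M)).filter (fun n : ℤ => n ≡ 0 [ZMOD ((1 : ℕ) : ℤ)]),
        (G n : ℂ) * e (-((n : ℝ) * ((b : ℝ) / D)))‖ ^ 2 := fun b _ => rfl
  rw [sum_congr rfl h1, key]
  congr 1
  refine sum_congr rfl fun r _ => ?_
  rw [filter_filter]
  unfold mass
  have h2 : (Ioc y (y + M)).filter (fun n : ℤ => n ≡ 0 [ZMOD ((1 : ℕ) : ℤ)] ∧
      n ≡ (r : ℤ) [ZMOD (D : ℕ)]) = (Ioc y (y + M)).filter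
        (fun n : ℤ => n ≡ (r : ℤ) [ZMOD (D : ℕ)]) := by
    refine filter_congr fun n _ => ?_
    rw [Nat.cast_one]
    exact ⟨fun h => h.2, fun h => ⟨Int.modEq_one, h⟩⟩
  rw [h2, ← Complex.ofReal_sum, Complex.norm_real, Real.norm_eq_abs, sq_abs]

/-- the masses of the classes sum up to the mass -/
lemma rd_mass_sum (G : ℤ → ℝ) (y : ℤ) (M D : ℕ) (hD : 1 ≤ D) :
    ∑ r ∈ range D, mass G y M D r = mass G y M 1 0 := by
  have h := sum_res (p := D) hD (Ioc y (y + M)) G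
  rw [Fin.sum_univ_eq_sum_range (fun z : ℕ => ∑ n ∈ (Ioc y (y + M)).filter
    (fun n : ℤ => n ≡ ((z : ℕ) : ℤ) [ZMOD (D : ℤ)]), G n) D] at h
  unfold mass
  rw [h]
  have : (Ioc y (y + M)).filter (fun n : ℤ => n ≡ 0 [ZMOD ((1 : ℕ) : ℤ)]) = Ioc y (y + M) := by
    refine filter_true_of_mem fun n _ => ?_
    rw [Nat.cast_one]
    exact Int.modEq_one
  rw [this]

/-- second moment from a sup bound -/
lemma rd_sq_le (hG : ∀ n, 0 ≤ G n) (y : ℤ) (M D : ℕ) (hD : 1 ≤ D) {B : ℝ}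
    (hB : ∀ r : ℤ, mass G y M D r ≤ B / D) :
    D * ∑ r ∈ range D, (mass G y M D r) ^ 2 ≤ B * mass G y M 1 0 := by
  have hD0 : (0 : ℝ) < D := by exact_mod_cast hD
  rw [← rd_mass_sum G y M D hD, mul_sum, mul_sum]
  refine sum_le_sum fun r _ => ?_
  have h0 := rd_mass_nonneg hG y M D r
  have h1 := hB r
  rw [le_div_iff₀ hD0] at h1
  calc D * (mass G y M D r) ^ 2 = (mass G y M D r * D) * mass G y M D r := by ring
    _ ≤ B * mass G y M D r := mul_le_mul_of_nonneg_right h1 h0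

lemma rd_cnt_le (N' : ℕ) (y : ℤ) (M : ℕ) : cnt N' y M ≤ M := by
  unfold cnt
  refine (card_filter_le _ _).trans ?_
  rw [Int.card_Ioc]
  omega


/-- the classes mod `D` without the trivial frequency, from the sup bounds of the masses -/
lemma rd_first (hB : Big k P) (hS : St P k N' Nmin Φ G ν) {D M : ℕ} {y : ℤ} (hD : 1 ≤ D)
    (hN : N' ≤ 32 * M)
    (hwD : ∀ r : ℤ, ((N' : ℝ) ≤ P * cnt N' y M →
        mass G y M D r ≤ (1 + P ^ (-0.0005 : ℝ)) * Φ * cnt N' y M / D) ∧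
      (P * cnt N' y M < N' → mass G y M D r ≤ 2 * Φ * ((N' : ℝ) / P + 1) / D))
    (hw1 : ((N' : ℝ) ≤ P * cnt N' y M →
        mass G y M 1 0 ≤ (1 + P ^ (-0.0005 : ℝ)) * Φ * cnt N' y M) ∧
      (P * cnt N' y M < N' → mass G y M 1 0 ≤ 2 * Φ * ((N' : ℝ) / P + 1))) :
    D * ∑ r ∈ range D, (mass G y M D r) ^ 2 - (mass G y M 1 0) ^ 2 ≤
      2 * P ^ (-0.0005 : ℝ) * (M * Φ) ^ 2 +
        2 * mass G y M 1 0 * |Φ * cnt N' y M - mass G y M 1 0| := by
  have hP0 := hB.pos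
  have hΦ := hS.pin.Φpos
  have hG := hS.pin.G0
  have hX0 : 0 ≤ (M * Φ) ^ 2 := sq_nonneg _
  have hm0 := rd_mass_nonneg hG y M 1 0
  have heps : 0 ≤ P ^ (-0.0005 : ℝ) := by positivity
  have heps1 : P ^ (-0.0005 : ℝ) ≤ 1 := by
    have h := hB.rpow_le (a := -0.0005) (b := 0) (by norm_num)
    rwa [Real.rpow_zero] at h
  have habs : 0 ≤ mass G y M 1 0 * |Φ * cnt N' y M - mass G y M 1 0| :=
    mul_nonneg hm0 (abs_nonneg _)
  rcases le_or_gt ((N' : ℝ)) (P * cnt N' y M) with hcase | hcase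
  · have h1 := rd_sq_le hG y M D hD (B := (1 + P ^ (-0.0005 : ℝ)) * Φ * cnt N' y M)
      (fun r => (hwD r).1 hcase)
    have h2 := hw1.1 hcase
    have hcM : (cnt N' y M : ℝ) ≤ M := by exact_mod_cast rd_cnt_le N' y M
    have hc0 : (0 : ℝ) ≤ cnt N' y M := Nat.cast_nonneg _
    have hPc : Φ * cnt N' y M ≤ M * Φ := by
      rw [mul_comm]; exact mul_le_mul_of_nonneg_right hcM hΦ.le
    have hPc0 : 0 ≤ Φ * cnt N' y M := mul_nonneg hΦ.le hc0
    have h3 : mass G y M 1 0 ≤ 2 * (M * Φ) := by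
      calc mass G y M 1 0 ≤ (1 + P ^ (-0.0005 : ℝ)) * Φ * cnt N' y M := h2
        _ = (1 + P ^ (-0.0005 : ℝ)) * (Φ * cnt N' y M) := by ring
        _ ≤ 2 * (M * Φ) := mul_le_mul (by linarith) hPc hPc0 (by norm_num)
    have h4 : P ^ (-0.0005 : ℝ) * ((Φ * cnt N' y M) * mass G y M 1 0) ≤
        P ^ (-0.0005 : ℝ) * ((M * Φ) * (2 * (M * Φ))) :=
      mul_le_mul_of_nonneg_left (mul_le_mul hPc h3 hm0 (by positivity)) heps
    have h5 : mass G y M 1 0 * (Φ * cnt N' y M - mass G y M 1 0) ≤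
        mass G y M 1 0 * |Φ * cnt N' y M - mass G y M 1 0| :=
      mul_le_mul_of_nonneg_left (le_abs_self _) hm0
    generalize P ^ (-0.0005 : ℝ) = c at *
    generalize |Φ * cnt N' y M - mass G y M 1 0| = z at *
    generalize (D : ℝ) * ∑ r ∈ range D, (mass G y M D r) ^ 2 = A at *
    nlinarith
  · have h1 := rd_sq_le hG y M D hD (B := 2 * Φ * ((N' : ℝ) / P + 1))
      (fun r => (hwD r).2 hcase)
    have h2 := hw1.2 hcase
    have hNP : (N' : ℝ) / P + 1 ≤ 64 * M / P := by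
      have h3 : (N' : ℝ) ≤ 32 * M := by exact_mod_cast hN
      have h4 : P ≤ 32 * M := by
        have h5 : P ≤ Real.exp (7 / 8 * P) := by
          have h6 : 1 + 7 / 8 * P + (7 / 8 * P) ^ 2 / 2 ≤ Real.exp (7 / 8 * P) :=
            Real.quadratic_le_exp_of_nonneg (by positivity)
          have h7 : 10000 * P ≤ P * P := mul_le_mul_of_nonneg_right hB.ge hP0.le
          nlinarith
        linarith [hS.N'lo]
      have h7 : (N' : ℝ) / P ≤ 32 * M / P := div_le_div_of_nonneg_right h3 hP0.le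
      have h8 : 1 ≤ 32 * M / P := by rw [le_div_iff₀ hP0]; linarith
      have h9 : 64 * (M : ℝ) / P = 32 * M / P + 32 * M / P := by ring
      linarith
    have h3 : 2 * Φ * ((N' : ℝ) / P + 1) ≤ 128 / P * (M * Φ) := by
      calc 2 * Φ * ((N' : ℝ) / P + 1) ≤ 2 * Φ * (64 * M / P) :=
            mul_le_mul_of_nonneg_left hNP (by positivity)
        _ = 128 / P * (M * Φ) := by ring
    have h4 : D * ∑ r ∈ range D, (mass G y M D r) ^ 2 ≤
        (128 / P * (M * Φ)) * (128 / P * (M * Φ)) :=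
      h1.trans (mul_le_mul h3 (h2.trans h3) hm0 (by positivity))
    have h5 : (128 / P) * (128 / P) ≤ 2 * P ^ (-0.0005 : ℝ) := by
      have h6 : (128 / P) * (128 / P) ≤ 2 * P ^ (-1 : ℝ) := by
        rw [Real.rpow_neg_one, div_mul_div_comm, div_le_iff₀ (by positivity)]
        have h7 : 2 * P⁻¹ * (P * P) = 2 * P := by
          field_simp
        rw [h7]
        have := hB.ge
        norm_num
        linarith
      have h8 := hB.rpow_le (a := -1) (b := -0.0005) (by norm_num)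
      linarith
    have h9 : (128 / P * (M * Φ)) * (128 / P * (M * Φ)) ≤
        2 * P ^ (-0.0005 : ℝ) * (M * Φ) ^ 2 := by
      calc (128 / P * (M * Φ)) * (128 / P * (M * Φ)) =
            ((128 / P) * (128 / P)) * (M * Φ) ^ 2 := by ring
        _ ≤ _ := mul_le_mul_of_nonneg_right h5 hX0
    have h10 : 0 ≤ (mass G y M 1 0) ^ 2 := sq_nonneg _
    linarith

/-- removing the trivial modulus -/
lemma rd_erase (G : ℤ → ℝ) (y : ℤ) (M D : ℕ) (hD : 1 ≤ D) :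
    ∑ d ∈ D.divisors.erase 1, ∑ a ∈ (range d).filter (Nat.Coprime d),
        ‖Fc G y M 1 0 ((a : ℝ) / d)‖ ^ 2 =
      D * ∑ r ∈ range D, (mass G y M D r) ^ 2 - (mass G y M 1 0) ^ 2 := by
  rw [← rd_parseval G y M D hD, ← add_sum_erase D.divisors _ (Nat.one_mem_divisors.2 (by omega))]
  have h1 : ∑ a ∈ (range 1).filter (Nat.Coprime 1), ‖Fc G y M 1 0 ((a : ℝ) / ((1 : ℕ) : ℝ))‖ ^ 2 =
      (mass G y M 1 0) ^ 2 := by
    have : (range 1).filter (Nat.Coprime 1) = {0} := by decide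
    rw [this, sum_singleton]
    have h2 : ((0 : ℕ) : ℝ) / ((1 : ℕ) : ℝ) = 0 := by simp
    rw [h2, one_Fc_zero, Complex.norm_real, Real.norm_eq_abs, sq_abs]
  rw [h1]
  ring

/-- splitting the energies into the trivial component and the others -/
lemma rd_split (hB : Big k P) (hS : St P k N' Nmin Φ G ν) {V : Finset ℕ} (hV : V ⊆ W2 P)
    (D M : ℕ) (y : ℤ) :
    ∑ d ∈ D.divisors.erase 1, ∑ a ∈ (range d).filter (Nat.Coprime d),
      tot (t1 P) V ν G y M 1 0 ((a : ℝ) / d) ≤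
      ∑ d ∈ D.divisors.erase 1, ∑ a ∈ (range d).filter (Nat.Coprime d),
        ‖Fc G y M 1 0 ((a : ℝ) / d)‖ ^ 2 +
      P ^ (-0.005 : ℝ) * ∑ d ∈ D.divisors, ∑ a ∈ (range d).filter (Nat.Coprime d),
        tot (t2 P) V ν G y M 1 0 ((a : ℝ) / d) := by
  have hP0 := hB.pos
  have h1 : ∑ d ∈ D.divisors.erase 1, ∑ a ∈ (range d).filter (Nat.Coprime d),
      tot (t2 P) V ν G y M 1 0 ((a : ℝ) / d) ≤ ∑ d ∈ D.divisors,
        ∑ a ∈ (range d).filter (Nat.Coprime d), tot (t2 P) V ν G y M 1 0 ((a : ℝ) / d) :=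
    sum_le_sum_of_subset_of_nonneg (erase_subset _ _)
      fun d _ _ => sum_nonneg fun a _ => one_tot_nonneg hB hS.pin.wts V G y M 1 0 _
  have h2 : ∑ d ∈ D.divisors.erase 1, ∑ a ∈ (range d).filter (Nat.Coprime d),
      tot (t1 P) V ν G y M 1 0 ((a : ℝ) / d) ≤
      ∑ d ∈ D.divisors.erase 1, ∑ a ∈ (range d).filter (Nat.Coprime d),
        (‖Fc G y M 1 0 ((a : ℝ) / d)‖ ^ 2 +
          P ^ (-0.005 : ℝ) * tot (t2 P) V ν G y M 1 0 ((a : ℝ) / d)) :=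
    sum_le_sum fun d _ => sum_le_sum fun a _ => tot_t1_le hB hS hV y M 1 0 _
  refine h2.trans ?_
  simp only [sum_add_distrib, ← mul_sum]
  have := mul_le_mul_of_nonneg_left h1 (show 0 ≤ P ^ (-0.005 : ℝ) by positivity)
  linarith

end restd

/-- case (D) of block REST -/
theorem restd_of (hSum : SUMStmt) : RESTDStmt := by
  intro k hk
  obtain ⟨C, P0, hC, hsum⟩ := hSum k 1 hk le_rfl
  obtain ⟨P1, hP1⟩ := big_eventually k
  obtain ⟨P2, hP2⟩ := den_win k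
  refine ⟨max (max P0 P1) (max P2 (C ^ (1 / 0.001 : ℝ))),
    fun P hP N' Nmin Φ G ν hS V D M y hV hVl hM hN hD hDl hc => ?_⟩
  have hPP0 : P0 ≤ P := (le_max_left _ _).trans ((le_max_left _ _).trans hP)
  have hPP1 : P1 ≤ P := (le_max_right _ _).trans ((le_max_left _ _).trans hP)
  have hPP2 : P2 ≤ P := (le_max_left _ _).trans ((le_max_right _ _).trans hP)
  have hPC : C ^ (1 / 0.001 : ℝ) ≤ P := (le_max_right _ _).trans ((le_max_right _ _).trans hP)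
  have hB := hP1 P hPP1
  have hP0 := hB.pos
  have hCP : C ≤ P ^ (0.001 : ℝ) := by
    calc C = (C ^ (1 / 0.001 : ℝ)) ^ (0.001 : ℝ) := by
          rw [← Real.rpow_mul hC.le]; norm_num
      _ ≤ P ^ (0.001 : ℝ) := Real.rpow_le_rpow (by positivity) hPC (by norm_num)
  clear hPC hP
  have h12P : (12 : ℝ) ≤ P ^ (0.0002 : ℝ) := by
    have h1 := hB.const_le
    have h2 : (0 : ℝ) ≤ k := Nat.cast_nonneg k
    have h3 := hB.rpow_le (a := 0.0001) (b := 0.0002) (by norm_num)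
    linarith
  have hD0 : (0 : ℝ) < D := by exact_mod_cast hD
  have hX0 : 0 ≤ (M * Φ) ^ 2 := sq_nonneg _
  have hDl' : Real.log D ≤ P ^ (0.625 : ℝ) := hDl.trans (hB.rpow_le (by norm_num))
  have hs2 := sum_one_le hB (hsum P hPP0) hS y hV hVl hM hN hD hDl' hc
  have hwD := fun r => hP2 P hPP2 N' Nmin Φ G ν hS D M y r hD hDl
  have hw1 := hP2 P hPP2 N' Nmin Φ G ν hS 1 M y 0 le_rfl
    (by rw [Nat.cast_one, Real.log_one]; positivity)
  rw [Nat.cast_one, div_one, div_one] at hw1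
  have hkey := rd_first hB hS hD hN hwD hw1
  rw [← rd_erase G y M D hD] at hkey
  have hsplit := rd_split hB hS hV D M y
  clear hsum hwD hw1 hP1 hP2 hSum
  have hDC : (D : ℝ) ^ (C * b2 P) ≤ 3 := by
    have h1 : (D : ℝ) ^ (C * b2 P) = Real.exp (Real.log D * (C * b2 P)) :=
      Real.rpow_def_of_pos hD0 _
    have h2 : Real.log D * (C * b2 P) ≤ 1 := by
      have h3 : 0 ≤ Real.log D := Real.log_nonneg (by exact_mod_cast hD)
      calc Real.log D * (C * b2 P) ≤ P ^ (0.487 : ℝ) * (P ^ (0.001 : ℝ) * P ^ (-0.488 : ℝ)) := by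
            refine mul_le_mul hDl ?_ ?_ (by positivity)
            · exact mul_le_mul_of_nonneg_right hCP (b2_nonneg hB)
            · exact mul_nonneg hC.le (b2_nonneg hB)
        _ = 1 := by
            rw [← Real.rpow_add hP0, ← Real.rpow_add hP0]
            norm_num
    rw [h1]
    refine (Real.exp_le_exp.2 h2).trans ?_
    have := Real.exp_one_lt_d9
    linarith
  have hs3 : ∑ d ∈ D.divisors, ∑ a ∈ (range d).filter (Nat.Coprime d),
      tot (t2 P) V ν G y M 1 0 ((a : ℝ) / d) ≤ 3 * P ^ (0.001 : ℝ) * (M * Φ) ^ 2 := by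
    refine hs2.trans (mul_le_mul_of_nonneg_right ?_ hX0)
    calc C * (D : ℝ) ^ (C * b2 P) ≤ P ^ (0.001 : ℝ) * 3 :=
          mul_le_mul hCP hDC (by positivity) (by positivity)
      _ = 3 * P ^ (0.001 : ℝ) := by ring
  have hc2 : 0 ≤ P ^ (-0.0005 : ℝ) := by positivity
  have h4 : P ^ (-0.0003 : ℝ) = P ^ (-0.0005 : ℝ) * P ^ (0.0002 : ℝ) := by
    rw [← Real.rpow_add hP0]; norm_num
  have h5 : 12 * P ^ (-0.0005 : ℝ) ≤ P ^ (-0.0003 : ℝ) := by
    rw [h4, mul_comm]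
    exact mul_le_mul_of_nonneg_left h12P hc2
  have hnum1 : 2 * P ^ (-0.0005 : ℝ) ≤ P ^ (-0.0003 : ℝ) / 2 := by linarith
  have hnum2 : P ^ (-0.005 : ℝ) * (3 * P ^ (0.001 : ℝ)) ≤ P ^ (-0.0003 : ℝ) / 2 := by
    have h1 : P ^ (-0.005 : ℝ) * (3 * P ^ (0.001 : ℝ)) = 3 * P ^ (-0.004 : ℝ) := by
      rw [mul_left_comm, ← Real.rpow_add hP0]; norm_num
    have h3 := hB.rpow_le (a := -0.004) (b := -0.0005) (by norm_num)
    rw [h1]
    linarith
  have hsecond : P ^ (-0.005 : ℝ) * ∑ d ∈ D.divisors, ∑ a ∈ (range d).filter (Nat.Coprime d),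
        tot (t2 P) V ν G y M 1 0 ((a : ℝ) / d) ≤ P ^ (-0.0003 : ℝ) / 2 * (M * Φ) ^ 2 := by
    calc P ^ (-0.005 : ℝ) * ∑ d ∈ D.divisors, ∑ a ∈ (range d).filter (Nat.Coprime d),
        tot (t2 P) V ν G y M 1 0 ((a : ℝ) / d)
        ≤ P ^ (-0.005 : ℝ) * (3 * P ^ (0.001 : ℝ) * (M * Φ) ^ 2) :=
          mul_le_mul_of_nonneg_left hs3 (by positivity)
      _ = (P ^ (-0.005 : ℝ) * (3 * P ^ (0.001 : ℝ))) * (M * Φ) ^ 2 := by ring
      _ ≤ _ := mul_le_mul_of_nonneg_right hnum2 hX0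
  have hfirst2 : 2 * P ^ (-0.0005 : ℝ) * (M * Φ) ^ 2 ≤ P ^ (-0.0003 : ℝ) / 2 * (M * Φ) ^ 2 :=
    mul_le_mul_of_nonneg_right hnum1 hX0
  have hfin : P ^ (-0.0003 : ℝ) / 2 * (M * Φ) ^ 2 + P ^ (-0.0003 : ℝ) / 2 * (M * Φ) ^ 2 =
      P ^ (-0.0003 : ℝ) * (M * Φ) ^ 2 := by ring
  rw [← hfin]
  generalize P ^ (-0.0003 : ℝ) / 2 * (M * Φ) ^ 2 = X at *
  generalize 2 * P ^ (-0.0005 : ℝ) * (M * Φ) ^ 2 = Y at *
  linarith

end Vale.Agent.P042.TT
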