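import Vale.Agent.P042.TT.Spec
import Vale.Agent.P042.H584.Crt

set_option autoImplicit false

/-!
Block TAIL, part A: Parseval modulo `D` and the energies of the moduli `q ∏ U`.
-/

namespace Vale.Agent.P042.TT

open Polynomial Finset Vale.Agent.P042.SS

namespace Tail

/-- Parseval modulo `D` for a finite exponential sum -/
theorem parseval_D (I : Finset ℤ) (g : ℤ → ℂ) (D : ℕ) (hD : 1 ≤ D) :
    ∑ c ∈ range D, ‖∑ n ∈ I, g n * e (-((n : ℝ) * ((c : ℝ) / D)))‖ ^ 2 =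
      D * ∑ x ∈ range D, ‖∑ n ∈ I.filter (fun n : ℤ => n ≡ (x : ℤ) [ZMOD (D : ℤ)]), g n‖ ^ 2 := by
  have hDi : (0 : ℤ) < D := by exact_mod_cast hD
  have key : ((∑ c ∈ range D, ‖∑ n ∈ I, g n * e (-((n : ℝ) * ((c : ℝ) / D)))‖ ^ 2 : ℝ) : ℂ) =
      ((D * ∑ x ∈ range D,
        ‖∑ n ∈ I.filter (fun n : ℤ => n ≡ (x : ℤ) [ZMOD (D : ℤ)]), g n‖ ^ 2 : ℝ) : ℂ) := by
    have h1 : ∀ c ∈ range D, ((‖∑ n ∈ I, g n * e (-((n : ℝ) * ((c : ℝ) / D)))‖ ^ 2 : ℝ) : ℂ) =
        ∑ n ∈ I, ∑ m ∈ I, g n * (starRingEnd ℂ) (g m) *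
          e (((m - n : ℤ) : ℝ) * ((c : ℝ) / D)) := by
      intro c _
      rw [show ((‖∑ n ∈ I, g n * e (-((n : ℝ) * ((c : ℝ) / D)))‖ ^ 2 : ℝ) : ℂ) =
        (∑ n ∈ I, g n * e (-((n : ℝ) * ((c : ℝ) / D)))) *
          (starRingEnd ℂ) (∑ n ∈ I, g n * e (-((n : ℝ) * ((c : ℝ) / D)))) by
        rw [Complex.mul_conj, Complex.normSq_eq_norm_sq]]
      rw [map_sum, Finset.sum_mul_sum]
      refine Finset.sum_congr rfl fun n _ => Finset.sum_congr rfl fun m _ => ?_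
      rw [map_mul, conj_e]
      have h3 : ((m - n : ℤ) : ℝ) * ((c : ℝ) / D) =
          -((n : ℝ) * ((c : ℝ) / D)) + -(-((m : ℝ) * ((c : ℝ) / D))) := by
        push_cast; ring
      rw [h3, e_add]
      ring
    rw [Complex.ofReal_sum, Finset.sum_congr rfl h1]
    rw [Finset.sum_comm]
    have h4 : ∀ n ∈ I, ∑ c ∈ range D, ∑ m ∈ I, g n * (starRingEnd ℂ) (g m) *
          e (((m - n : ℤ) : ℝ) * ((c : ℝ) / D)) =
        ∑ m ∈ I, g n * (starRingEnd ℂ) (g m) * (if (D : ℤ) ∣ m - n then (D : ℂ) else 0) := by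
      intro n _
      rw [Finset.sum_comm]
      refine Finset.sum_congr rfl fun m _ => ?_
      rw [← Finset.mul_sum, echar_orth D hD]
    rw [Finset.sum_congr rfl h4]
    rw [Complex.ofReal_mul, Complex.ofReal_natCast, Complex.ofReal_sum, Finset.mul_sum]
    have h5 : ∀ x ∈ range D, (D : ℂ) *
        ((‖∑ n ∈ I.filter (fun n : ℤ => n ≡ (x : ℤ) [ZMOD (D : ℤ)]), g n‖ ^ 2 : ℝ) : ℂ) =
        ∑ n ∈ I, ∑ m ∈ I, if n ≡ (x : ℤ) [ZMOD (D : ℤ)] ∧ m ≡ (x : ℤ) [ZMOD (D : ℤ)] then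
          g n * (starRingEnd ℂ) (g m) * (D : ℂ) else 0 := by
      intro x _
      rw [show ((‖∑ n ∈ I.filter (fun n : ℤ => n ≡ (x : ℤ) [ZMOD (D : ℤ)]), g n‖ ^ 2 : ℝ) : ℂ) =
        (∑ n ∈ I.filter (fun n : ℤ => n ≡ (x : ℤ) [ZMOD (D : ℤ)]), g n) *
          (starRingEnd ℂ) (∑ n ∈ I.filter (fun n : ℤ => n ≡ (x : ℤ) [ZMOD (D : ℤ)]), g n) by
        rw [Complex.mul_conj, Complex.normSq_eq_norm_sq]]
      rw [map_sum, Finset.sum_mul_sum, Finset.mul_sum, Finset.sum_filter]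
      refine Finset.sum_congr rfl fun n _ => ?_
      by_cases hn : n ≡ (x : ℤ) [ZMOD (D : ℤ)]
      · rw [if_pos hn, Finset.mul_sum, Finset.sum_filter]
        refine Finset.sum_congr rfl fun m _ => ?_
        by_cases hm : m ≡ (x : ℤ) [ZMOD (D : ℤ)]
        · rw [if_pos hm, if_pos ⟨hn, hm⟩]; ring
        · rw [if_neg hm, if_neg (fun h => hm h.2)]
      · rw [if_neg hn]
        symm
        apply Finset.sum_eq_zero
        intro m _
        rw [if_neg (fun h => hn h.1)]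
    rw [Finset.sum_congr rfl h5]
    conv_rhs => rw [Finset.sum_comm]
    refine Finset.sum_congr rfl fun n _ => ?_
    conv_rhs => rw [Finset.sum_comm]
    refine Finset.sum_congr rfl fun m _ => ?_
    by_cases hd : (D : ℤ) ∣ m - n
    · rw [if_pos hd]
      have hnm : n ≡ m [ZMOD (D : ℤ)] := (Int.modEq_iff_dvd.2 hd)
      rw [Finset.sum_eq_single (n % D).toNat]
      · have hx : (((n % (D : ℤ)).toNat : ℕ) : ℤ) = n % D :=
          Int.toNat_of_nonneg (Int.emod_nonneg _ hDi.ne')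
        rw [hx, if_pos]
        refine ⟨(Int.mod_modEq n D).symm, ?_⟩
        exact hnm.symm.trans (Int.mod_modEq n D).symm
      · intro x hx hne
        rw [if_neg]
        rintro ⟨h6, _⟩
        apply hne
        rw [Finset.mem_range] at hx
        have h7 : n % D = (x : ℤ) % D := h6
        have h8 : (x : ℤ) % D = x := Int.emod_eq_of_lt (Int.natCast_nonneg x) (by exact_mod_cast hx)
        rw [h7, h8]; simp
      · intro hx
        exfalso
        apply hx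
        rw [Finset.mem_range]
        have := Int.emod_lt_of_pos n hDi
        have h0 := Int.emod_nonneg n hDi.ne'
        omega
    · rw [if_neg hd, mul_zero]
      symm
      apply Finset.sum_eq_zero
      intro x _
      rw [if_neg]
      rintro ⟨h6, h7⟩
      exact hd (Int.modEq_iff_dvd.1 (h6.trans h7.symm))
  exact_mod_cast key

theorem Fw_per (G : ℤ → ℝ) (y : ℤ) (M : ℕ) (θ : ℝ) (m : ℤ) : Fw G y M (θ + m) = Fw G y M θ := by
  unfold Fw
  refine Finset.sum_congr rfl fun n _ => ?_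
  have : -((n : ℝ) * (θ + m)) = -((n : ℝ) * θ) + ((-(n * m) : ℤ) : ℝ) := by push_cast; ring
  rw [this, e_add, e_int, mul_one]

/-- energies at the moduli `q D` in terms of the classes mod `D` -/
theorem enG_le (G : ℤ → ℝ) (y : ℤ) (M q D : ℕ) (hq : 1 ≤ q) (hD : 1 ≤ D)
    (hc : Nat.Coprime q D) :
    enG G y M (q * D) ≤ ∑ b ∈ (range q).filter (Nat.Coprime q), (D : ℝ) * ∑ x ∈ range D,
      ‖∑ n ∈ (Ioc y (y + M)).filter (fun n : ℤ => n ≡ (x : ℤ) [ZMOD (D : ℤ)]),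
        (G n : ℂ) * e (-((n : ℝ) * ((b : ℝ) / q)))‖ ^ 2 := by
  unfold enG
  rw [Crt.crt2 (fun θ => ‖Fw G y M θ‖ ^ 2) (fun x n => by simp only [Fw_per]) q D hq hD hc]
  refine Finset.sum_le_sum fun b _ => ?_
  rw [← parseval_D (Ioc y (y + M)) (fun n => (G n : ℂ) * e (-((n : ℝ) * ((b : ℝ) / q)))) D hD]
  refine (Finset.sum_le_sum_of_subset_of_nonneg (Finset.filter_subset _ _)
    fun _ _ _ => by positivity).trans (le_of_eq ?_)
  refine Finset.sum_congr rfl fun c _ => ?_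
  congr 2
  unfold Fw
  refine Finset.sum_congr rfl fun n _ => ?_
  have : -((n : ℝ) * ((b : ℝ) / q + (c : ℝ) / D)) =
      -((n : ℝ) * ((b : ℝ) / q)) + -((n : ℝ) * ((c : ℝ) / D)) := by ring
  rw [this, e_add]; ring

end Tail

end Vale.Agent.P042.TT
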