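import Vale.Agent.P042.TT.TailA
import Vale.Agent.P042.TT.BrA
import Vale.Agent.P042.TT.GoodB

set_option autoImplicit false

/-!
Block TAIL, part B: energies of the cells, rates, sums over `U`.
-/

namespace Vale.Agent.P042.TT

open Polynomial Finset Vale.Agent.P042.SS Filter

namespace Tail

theorem kapProd_mul' (kap : ℕ → ℕ → ℝ) (m n : ℕ) (hc : Nat.Coprime m n) :
    kapProd kap (m * n) = kapProd kap m * kapProd kap n := by
  unfold kapProd
  rw [hc.primeFactors_mul, Finset.prod_union hc.disjoint_primeFactors]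
  congr 1
  · refine Finset.prod_congr rfl fun p hp => ?_
    rw [Nat.factorization_eq_of_coprime_left hc (by
      rw [Nat.mem_primeFactors] at hp
      exact (Nat.mem_primeFactorsList hp.2.2).2 ⟨hp.1, hp.2.1⟩)]
  · refine Finset.prod_congr rfl fun p hp => ?_
    rw [Nat.factorization_eq_of_coprime_right hc (by
      rw [Nat.mem_primeFactors] at hp
      exact (Nat.mem_primeFactorsList hp.2.2).2 ⟨hp.1, hp.2.1⟩)]

theorem coprime_prod_set (q : ℕ) (U : Finset ℕ) (hc : ∀ p ∈ U, Nat.Coprime p q) :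
    Nat.Coprime q (∏ p ∈ U, p) :=
  Nat.Coprime.prod_right fun p hp => (hc p hp).symm

theorem kapProd_mul_set (kap : ℕ → ℕ → ℝ) (q : ℕ) (U : Finset ℕ) (hU : ∀ p ∈ U, p.Prime)
    (hc : ∀ p ∈ U, Nat.Coprime p q) :
    kapProd kap (q * ∏ p ∈ U, p) = kapProd kap q * ∏ p ∈ U, kap p 1 := by
  classical
  rw [kapProd_mul' kap _ _ (coprime_prod_set q U hc)]
  congr 1
  induction U using Finset.induction_on with
  | empty => simp [kapProd]
  | @insert p U hp ih =>
    have hU' : ∀ l ∈ U, l.Prime := fun l hl => hU l (Finset.mem_insert_of_mem hl)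
    have hc' : ∀ l ∈ U, Nat.Coprime l q := fun l hl => hc l (Finset.mem_insert_of_mem hl)
    have hpp := hU p (Finset.mem_insert_self p U)
    rw [Finset.prod_insert hp, Finset.prod_insert hp, kapProd_mul', ih hU' hc']
    · congr 1
      unfold kapProd
      rw [hpp.primeFactors, Finset.prod_singleton, hpp.factorization_self]
    · refine Nat.Coprime.prod_right fun l hl => ?_
      rw [Nat.coprime_primes hpp (hU' l hl)]
      rintro rfl
      exact hp hl

/-- the classes mod `∏ U` in terms of `enT` -/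
theorem cells_le (V : Finset ℕ) (ν : ℕ → ℤ → ℝ) (G : ℤ → ℝ) (b : ℝ)
    (hp : ∀ p ∈ V, p.Prime) (hW : Wts V ν) (hne : ∀ n, G n ≠ 0 → ∀ p ∈ V, ν p n ≠ 0)
    (hb : ∀ p ∈ V, ∀ x, ν p x ≤ Real.exp b) (U : Finset ℕ) (hU : U ⊆ V) (y : ℤ) (M : ℕ) (θ : ℝ) :
    ((∏ p ∈ U, p : ℕ) : ℝ) * ∑ x ∈ range (∏ p ∈ U, p),
      ‖∑ n ∈ (Ioc y (y + M)).filter (fun n : ℤ => n ≡ (x : ℤ) [ZMOD ((∏ p ∈ U, p : ℕ) : ℤ)]),
        (G n : ℂ) * e (-((n : ℝ) * θ))‖ ^ 2 ≤
      Real.exp b ^ U.card * enT ν G y M 1 0 θ U := by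
  unfold enT
  rw [Finset.mul_sum, Finset.mul_sum]
  refine Finset.sum_le_sum fun x _ => ?_
  have e1 : (Ioc y (y + M)).filter (fun n : ℤ => n ≡ 0 [ZMOD ((1 : ℕ) : ℤ)] ∧
      n ≡ (x : ℤ) [ZMOD ((∏ p ∈ U, p : ℕ) : ℤ)]) =
      (Ioc y (y + M)).filter (fun n : ℤ => n ≡ (x : ℤ) [ZMOD ((∏ p ∈ U, p : ℕ) : ℤ)]) := by
    apply Finset.filter_congr
    intro n _
    simp [Int.modEq_one]
  rw [e1, ← mul_assoc]
  by_cases h0 : ∑ n ∈ (Ioc y (y + M)).filter
      (fun n : ℤ => n ≡ (x : ℤ) [ZMOD ((∏ p ∈ U, p : ℕ) : ℤ)]),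
        (G n : ℂ) * e (-((n : ℝ) * θ)) = 0
  · rw [h0]; simp
  · apply mul_le_mul_of_nonneg_right _ (sq_nonneg _)
    obtain ⟨n, hn, hn0⟩ := Finset.exists_ne_zero_of_sum_ne_zero h0
    rw [Finset.mem_filter] at hn
    have hG : G n ≠ 0 := by
      intro h
      apply hn0
      rw [h]; simp
    unfold dn
    rw [← Finset.prod_const, ← Finset.prod_mul_distrib, Nat.cast_prod]
    refine Finset.prod_le_prod (fun p _ => Nat.cast_nonneg p) fun p hpU => ?_
    have hpV := hU hpU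
    have hmod : n ≡ (x : ℤ) [ZMOD (p : ℕ)] := by
      refine hn.2.of_dvd ?_
      exact_mod_cast Finset.dvd_prod_of_mem (fun p => p) hpU
    have hν : ν p x = ν p n := by
      have hper : Function.Periodic (ν p) (p : ℤ) := hW.per p hpV
      obtain ⟨c, hc⟩ := (Int.modEq_iff_dvd.1 hmod)
      have h3 : (x : ℤ) = n + c * p := by linarith
      rw [h3]
      have := hper.int_mul c n
      simpa using this
    have hνx : ν p x ≠ 0 := by rw [hν]; exact hne n hG p hpV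
    have hpos : 0 < ν p x := lt_of_le_of_ne (hW.nn p x) (Ne.symm hνx)
    have h4 : 1 ≤ Real.exp b * (ν p x)⁻¹ := by
      rw [← div_eq_mul_inv, one_le_div hpos]
      exact hb p hpV x
    calc (p : ℝ) = p * 1 := by ring
      _ ≤ p * (Real.exp b * (ν p x)⁻¹) := mul_le_mul_of_nonneg_left h4 (Nat.cast_nonneg p)
      _ = Real.exp b * (p * (ν p x)⁻¹) := by ring

theorem enT_nonneg (ν : ℕ → ℤ → ℝ) (hν : ∀ p n, 0 ≤ ν p n) (G : ℤ → ℝ) (y : ℤ) (M R : ℕ) (r : ℤ)
    (θ : ℝ) (T : Finset ℕ) : 0 ≤ enT ν G y M R r θ T := by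
  unfold enT dn
  refine Finset.sum_nonneg fun x _ => mul_nonneg (Finset.prod_nonneg fun p _ => ?_) (sq_nonneg _)
  exact mul_nonneg (Nat.cast_nonneg _) (inv_nonneg.2 (hν _ _))

/-- the sum over all `U ⊆ V` -/
theorem sum_U (hEW : EWStmt) (V : Finset ℕ) (ν : ℕ → ℤ → ℝ) (G : ℤ → ℝ)
    (hp : ∀ p ∈ V, p.Prime) (hW : Wts V ν) (hne : ∀ n, G n ≠ 0 → ∀ p ∈ V, ν p n ≠ 0)
    (lam t : ℝ) (hl : 0 ≤ lam) (hlt : lam ≤ t) (y : ℤ) (M : ℕ) (θ : ℝ) :
    ∑ U ∈ V.powerset, lam ^ U.card * enT ν G y M 1 0 θ U ≤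
      Real.exp (lam * V.card) * tot t V ν G y M 1 0 θ := by
  obtain ⟨w1, w2, w3, _, _⟩ := hEW V ν G y M 1 0 θ hp hW hne
  have h1 : 0 < 1 + lam := by linarith
  set s := lam / (1 + lam) with hs
  have hs1 : 1 - s = (1 + lam)⁻¹ := by rw [hs]; field_simp; ring
  have hs0 : 0 ≤ s := div_nonneg hl h1.le
  have hst : s ≤ t := (div_le_self hl (by linarith)).trans hlt
  have e1 : ∑ U ∈ V.powerset, lam ^ U.card * enT ν G y M 1 0 θ U =
      (1 + lam) ^ V.card * tot s V ν G y M 1 0 θ := by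
    unfold tot
    rw [Finset.mul_sum]
    refine Finset.sum_congr rfl fun U hU => ?_
    rw [Finset.mem_powerset] at hU
    rw [← mul_assoc]
    congr 1
    unfold wtR
    rw [Finset.prod_const, Finset.prod_const, hs1, hs, div_pow]
    have hcard : V.card = U.card + (V \ U).card := by
      rw [Finset.card_sdiff_of_subset hU]
      have := Finset.card_le_card hU
      omega
    rw [hcard, pow_add, inv_pow]
    field_simp
  rw [e1]
  have h2 : (1 + lam) ^ V.card ≤ Real.exp (lam * V.card) := by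
    have := Real.add_one_le_exp lam
    calc (1 + lam) ^ V.card ≤ (Real.exp lam) ^ V.card := by
          apply pow_le_pow_left₀ h1.le; linarith
      _ = Real.exp (lam * V.card) := by rw [← Real.exp_nat_mul, mul_comm]
  have h3 : tot s V ν G y M 1 0 θ ≤ tot t V ν G y M 1 0 θ := by
    rw [w3 V (Finset.Subset.refl _) s, w3 V (Finset.Subset.refl _) t]
    refine Finset.sum_le_sum fun W hW' => ?_
    apply mul_le_mul_of_nonneg_right _ (w1 W (Finset.mem_powerset.1 hW'))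
    exact pow_le_pow_left₀ hs0 hst _
  have h4 : 0 ≤ tot s V ν G y M 1 0 θ := by
    rw [w3 V (Finset.Subset.refl _) s]
    exact Finset.sum_nonneg fun W hW' =>
      mul_nonneg (pow_nonneg hs0 _) (w1 W (Finset.mem_powerset.1 hW'))
  exact mul_le_mul h2 h3 h4 (Real.exp_pos _).le

end Tail

end Vale.Agent.P042.TT
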