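import Vale.Agent.P042.TT.TailB

set_option autoImplicit false

/-!
Block TAIL, part C: numbers and the theorem.
-/

namespace Vale.Agent.P042.TT

open Polynomial Finset Vale.Agent.P042.SS Filter

namespace Tail

/-- numbers used in TAIL -/
structure NumTl (k p0 : ℕ) (t' P : ℝ) : Prop where
  one_le : 1 ≤ P
  hp0 : (p0 : ℝ) < P ^ (0.97 : ℝ)
  rate : ∀ p : ℕ, P ^ (0.97 : ℝ) ≤ p →
    (mu2 P)⁻¹ * (k / Real.sqrt p) * Real.exp (b2 P) * (p : ℝ) ^ t' ≤ P ^ (-0.43 : ℝ)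
  lt2 : P ^ (-0.43 : ℝ) ≤ t2 P
  fin : Real.exp (-(t' * (P ^ (0.62 : ℝ) - 1))) *
    (Real.exp (P ^ (0.565 : ℝ)) * Real.exp (P ^ (0.2 : ℝ))) ≤ Real.exp (-(P ^ (0.61 : ℝ)))
  q2 : Real.exp (P ^ (0.62 : ℝ) - 1) ≤ (Q2 P : ℝ)

theorem ev_numTl (k p0 : ℕ) (t' : ℝ) (ht : 0 < t') (ht' : t' ≤ 1 / 2000) :
    ∀ᶠ P : ℝ in atTop, NumTl k p0 t' P := by
  filter_upwards [eventually_ge_atTop (1 : ℝ), Good.ev_ge 0.97 (p0 + 1) (by norm_num),
    Good.ev_ge 0.004 (3 * k) (by norm_num), Good.ev_ge 0.01 (4 / t') (by norm_num),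
    Good.ev_ge 0.62 1 (by norm_num)] with P h1 h2 h3 h4 h5
  have hP : (0 : ℝ) < P := by linarith
  refine ⟨h1, by linarith, ?_, ?_, ?_, ?_⟩
  · intro p hp
    have hpp : 0 < P ^ (0.97 : ℝ) := Real.rpow_pos_of_pos hP _
    have hp0 : (0 : ℝ) < p := hpp.trans_le hp
    have e1 : (mu2 P)⁻¹ = P ^ (0.05 : ℝ) := by
      unfold mu2
      rw [← Real.rpow_neg hP.le]; norm_num
    have e2 : (k / Real.sqrt p) * (p : ℝ) ^ t' = k * (p : ℝ) ^ (t' - 1 / 2) := by
      rw [Real.sqrt_eq_rpow, Real.rpow_sub hp0]; ring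
    have e3 : (p : ℝ) ^ (t' - 1 / 2) ≤ P ^ (-0.4845 : ℝ) := by
      calc (p : ℝ) ^ (t' - 1 / 2) ≤ (P ^ (0.97 : ℝ)) ^ (t' - 1 / 2) :=
            Real.rpow_le_rpow_of_nonpos hpp hp (by linarith)
        _ = P ^ (0.97 * (t' - 1 / 2)) := by rw [← Real.rpow_mul hP.le]
        _ ≤ P ^ (-0.4845 : ℝ) := Real.rpow_le_rpow_of_exponent_le h1 (by linarith)
    have e4 : Real.exp (b2 P) ≤ 3 := by
      have : b2 P ≤ 1 := by
        unfold b2
        exact Real.rpow_le_one_of_one_le_of_nonpos h1 (by norm_num)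
      calc Real.exp (b2 P) ≤ Real.exp 1 := Real.exp_le_exp.2 this
        _ ≤ 3 := by linarith [Real.exp_one_lt_d9]
    have e5 : P ^ (-0.43 : ℝ) = P ^ (0.0045 : ℝ) * (P ^ (0.05 : ℝ) * P ^ (-0.4845 : ℝ)) := by
      rw [← Real.rpow_add hP, ← Real.rpow_add hP]; norm_num
    have e6 : P ^ (0.004 : ℝ) ≤ P ^ (0.0045 : ℝ) :=
      Real.rpow_le_rpow_of_exponent_le h1 (by norm_num)
    have a1 : 0 < P ^ (0.05 : ℝ) := Real.rpow_pos_of_pos hP _
    have a2 : 0 < P ^ (-0.4845 : ℝ) := Real.rpow_pos_of_pos hP _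
    have a3 : 0 ≤ (p : ℝ) ^ (t' - 1 / 2) := Real.rpow_nonneg hp0.le _
    have a4 : (0 : ℝ) ≤ k := Nat.cast_nonneg _
    rw [e1]
    calc P ^ (0.05 : ℝ) * (k / Real.sqrt p) * Real.exp (b2 P) * (p : ℝ) ^ t'
        = (P ^ (0.05 : ℝ) * Real.exp (b2 P)) * ((k / Real.sqrt p) * (p : ℝ) ^ t') := by ring
      _ = (P ^ (0.05 : ℝ) * Real.exp (b2 P)) * (k * (p : ℝ) ^ (t' - 1 / 2)) := by rw [e2]
      _ ≤ (P ^ (0.05 : ℝ) * 3) * (k * P ^ (-0.4845 : ℝ)) := by
          apply mul_le_mul _ _ (by positivity) (by positivity)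
          · exact mul_le_mul_of_nonneg_left e4 a1.le
          · exact mul_le_mul_of_nonneg_left e3 a4
      _ = (3 * k) * (P ^ (0.05 : ℝ) * P ^ (-0.4845 : ℝ)) := by ring
      _ ≤ P ^ (0.0045 : ℝ) * (P ^ (0.05 : ℝ) * P ^ (-0.4845 : ℝ)) :=
          mul_le_mul_of_nonneg_right (h3.trans e6) (by positivity)
      _ = P ^ (-0.43 : ℝ) := e5.symm
  · unfold t2
    exact Real.rpow_le_rpow_of_exponent_le h1 (by norm_num)
  · rw [← Real.exp_add, ← Real.exp_add, Real.exp_le_exp]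
    have e1 : P ^ (0.62 : ℝ) = P ^ (0.01 : ℝ) * P ^ (0.61 : ℝ) := by
      rw [← Real.rpow_add hP]; norm_num
    have e2 : P ^ (0.565 : ℝ) ≤ P ^ (0.61 : ℝ) :=
      Real.rpow_le_rpow_of_exponent_le h1 (by norm_num)
    have e3 : P ^ (0.2 : ℝ) ≤ P ^ (0.61 : ℝ) :=
      Real.rpow_le_rpow_of_exponent_le h1 (by norm_num)
    have e4 : (1 : ℝ) ≤ P ^ (0.61 : ℝ) := Real.one_le_rpow h1 (by norm_num)
    have e5 : 4 * P ^ (0.61 : ℝ) ≤ t' * P ^ (0.62 : ℝ) := by
      rw [e1, ← mul_assoc]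
      apply mul_le_mul_of_nonneg_right _ (by linarith)
      rw [div_le_iff₀ ht] at h4
      linarith
    have e6 : t' ≤ 1 := by linarith
    nlinarith
  · unfold Q2
    have h6 := Nat.lt_floor_add_one (Real.exp (P ^ (0.62 : ℝ)))
    have h7 : Real.exp (P ^ (0.62 : ℝ)) = Real.exp (P ^ (0.62 : ℝ) - 1) * Real.exp 1 := by
      rw [← Real.exp_add]; congr 1; ring
    have h8 : (1 : ℝ) ≤ Real.exp (P ^ (0.62 : ℝ) - 1) := Real.one_le_exp (by linarith)
    have h9 := Real.exp_one_gt_d9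
    nlinarith

end Tail

open Tail in
theorem tail_of (hTOT : TOTStmt) (hEW : EWStmt) (hNU : NU2Stmt) : TAILStmt := by
  classical
  intro k E K p0 kap hk hE hkap
  obtain ⟨t', P1, ht0, ht1, hP1⟩ := hTOT k E K p0 kap hk hE hkap
  obtain ⟨P2, hP2⟩ := hNU k hk
  have main : ∀ᶠ P : ℝ in atTop, ∀ (N' Nmin : ℕ) (Φ : ℝ) (G : ℤ → ℝ) (ν : ℕ → ℤ → ℝ),
    St P k N' Nmin Φ G ν →
  ∀ (V : Finset ℕ) (M : ℕ) (y : ℤ), V ⊆ W2 P → ∑ p ∈ V, Real.log p ≤ P ^ (0.995 : ℝ) →
    M ≤ N' → N' ≤ 32 * M →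
    ∑ q ∈ EV P V (Q2 P), 2 ^ yc P q * ∑ U ∈ (V.powerset).filter
        (fun U => Q2 P < q * ∏ p ∈ U, p),
      (mu2 P)⁻¹ ^ U.card * kapProd kap (q * ∏ p ∈ U, p) * enG G y M (q * ∏ p ∈ U, p) ≤
      Real.exp (-(P ^ (0.61 : ℝ))) * (M * Φ) ^ 2 := by
    filter_upwards [eventually_ge_atTop P1, eventually_ge_atTop P2, ev_numTl k p0 t' ht0 ht1,
      Good.ev_ge 0.97 3 (by norm_num)] with P q1 q2 nT h97
    intro N' Nmin Φ G ν hSt V M y hV hVs hMN hNM
    have hP : (0 : ℝ) < P := by linarith [nT.one_le]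
    have hVprime : ∀ p ∈ V, p.Prime := fun p hp => by
      have := hV hp
      unfold W2 Wp at this
      exact (Finset.mem_filter.1 this).2
    have hVlow : ∀ p ∈ V, P ^ (0.97 : ℝ) ≤ p := fun p hp => by
      have := hV hp
      unfold W2 Wp at this
      rw [Finset.mem_filter, Finset.mem_Ioc] at this
      exact ((Nat.lt_floor_add_one _).trans_le (by exact_mod_cast this.1.1)).le
    have hVc : (V.card : ℝ) ≤ P ^ (0.995 : ℝ) := by
      refine le_trans ?_ hVs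
      have : ∀ p ∈ V, (1 : ℝ) ≤ Real.log p := by
        intro p hp
        have h5 : (3 : ℝ) ≤ p := h97.trans (hVlow p hp)
        rw [Real.le_log_iff_exp_le (by linarith)]
        linarith [Real.exp_one_lt_d9]
      calc (V.card : ℝ) = ∑ p ∈ V, (1 : ℝ) := by simp
        _ ≤ _ := Finset.sum_le_sum this
    have hWts : Wts V ν := ⟨hSt.pin.wts.nn, fun p hp => hSt.pin.wts.per p (hV hp),
      fun p hp => hSt.pin.wts.mean p (hV hp)⟩
    obtain ⟨hνb, _, hne', _, _, _⟩ := hP2 P q2 N' Nmin Φ G ν hSt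
    have hne : ∀ n, G n ≠ 0 → ∀ p ∈ V, ν p n ≠ 0 := fun n hn p hp => hne' n hn p (hV hp)
    have hb : ∀ p ∈ V, ∀ x, ν p x ≤ Real.exp (b2 P) := fun p hp x => (hνb p (hV hp) x).1
    have hkn : ∀ q, 0 ≤ kapProd kap q := fun q => Finset.prod_nonneg fun p _ => hkap.nn _ _
    have hmu : 0 < (mu2 P)⁻¹ := inv_pos.2 (Real.rpow_pos_of_pos hP _)
    set lam : ℝ := P ^ (-0.43 : ℝ) with hlam
    have hlam0 : 0 ≤ lam := Real.rpow_nonneg hP.le _
    set Z : ℝ := Real.exp (-(t' * (P ^ (0.62 : ℝ) - 1))) with hZ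
    have hZ0 : 0 ≤ Z := (Real.exp_pos _).le
    -- one pair `(q, U)`
    have hpair : ∀ q ∈ EV P V (Q2 P), ∀ U ∈ V.powerset, Q2 P < q * ∏ p ∈ U, p →
        (mu2 P)⁻¹ ^ U.card * kapProd kap (q * ∏ p ∈ U, p) * enG G y M (q * ∏ p ∈ U, p) ≤
        Z * ((q : ℝ) ^ t' * kapProd kap q * (∑ a ∈ (range q).filter (Nat.Coprime q),
          lam ^ U.card * enT ν G y M 1 0 ((a : ℝ) / q) U)) := by
      intro q hq U hU hQ
      rw [Finset.mem_powerset] at hU
      unfold EV at hq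
      rw [Finset.mem_filter, Finset.mem_Icc] at hq
      have hq1 : 1 ≤ q := hq.1.1
      have hUp : ∀ p ∈ U, p.Prime := fun p hp => hVprime p (hU hp)
      have hcop : ∀ p ∈ U, Nat.Coprime p q := fun p hp =>
        (Nat.Prime.coprime_iff_not_dvd (hUp p hp)).2 (hq.2.2 p (hU hp))
      have hD1 : 1 ≤ ∏ p ∈ U, p := Finset.one_le_prod' fun p hp => (hUp p hp).one_lt.le
      have s1 := enG_le G y M q (∏ p ∈ U, p) hq1 hD1 (coprime_prod_set q U hcop)
      have s2 : enG G y M (q * ∏ p ∈ U, p) ≤ ∑ a ∈ (range q).filter (Nat.Coprime q),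
          Real.exp (b2 P) ^ U.card * enT ν G y M 1 0 ((a : ℝ) / q) U :=
        s1.trans (Finset.sum_le_sum fun a _ =>
          cells_le V ν G (b2 P) hVprime hWts hne hb U hU y M ((a : ℝ) / q))
      have s3 : (1 : ℝ) ≤ Z * ((q : ℝ) ^ t' * ∏ p ∈ U, (p : ℝ) ^ t') := by
        have x1 : (Q2 P : ℝ) ≤ ((q * ∏ p ∈ U, p : ℕ) : ℝ) := by exact_mod_cast hQ.le
        have x2 : Real.exp (P ^ (0.62 : ℝ) - 1) ≤ ((q * ∏ p ∈ U, p : ℕ) : ℝ) := nT.q2.trans x1
        have x3 : (Real.exp (P ^ (0.62 : ℝ) - 1)) ^ t' ≤ ((q * ∏ p ∈ U, p : ℕ) : ℝ) ^ t' :=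
          Real.rpow_le_rpow (Real.exp_pos _).le x2 ht0.le
        rw [← Real.exp_mul, Nat.cast_mul, Nat.cast_prod,
          Real.mul_rpow (Nat.cast_nonneg _) (Finset.prod_nonneg fun p _ => Nat.cast_nonneg p),
          ← Real.finsetProd_rpow _ _ (fun p _ => Nat.cast_nonneg p)] at x3
        have x4 : Z * Real.exp ((P ^ (0.62 : ℝ) - 1) * t') = 1 := by
          rw [hZ, ← Real.exp_add]
          have : -(t' * (P ^ (0.62 : ℝ) - 1)) + (P ^ (0.62 : ℝ) - 1) * t' = 0 := by ring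
          rw [this, Real.exp_zero]
        rw [← x4]
        exact mul_le_mul_of_nonneg_left x3 hZ0
      have s4 : ∏ p ∈ U, ((mu2 P)⁻¹ * kap p 1 * Real.exp (b2 P) * (p : ℝ) ^ t') ≤
          lam ^ U.card := by
        rw [← Finset.prod_const]
        refine Finset.prod_le_prod (fun p _ => ?_) fun p hpU => ?_
        · have := hkap.nn p 1
          positivity
        · have hpV := hU hpU
          have h6 := hVlow p hpV
          have hp0' : p0 < p := by
            have : (p0 : ℝ) < p := nT.hp0.trans_le h6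
            exact_mod_cast this
          refine le_trans ?_ (nT.rate p h6)
          have := hkap.one p (hVprime p hpV) hp0'
          gcongr
      have hE0 : 0 ≤ ∑ a ∈ (range q).filter (Nat.Coprime q),
          enT ν G y M 1 0 ((a : ℝ) / q) U :=
        Finset.sum_nonneg fun a _ => enT_nonneg ν hSt.pin.wts.nn G y M 1 0 _ U
      rw [← Finset.mul_sum] at s2
      rw [kapProd_mul_set kap q U hUp hcop, ← Finset.mul_sum]
      set ES := ∑ a ∈ (range q).filter (Nat.Coprime q), enT ν G y M 1 0 ((a : ℝ) / q) U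
      have hkU : 0 ≤ ∏ p ∈ U, kap p 1 := Finset.prod_nonneg fun p _ => hkap.nn p 1
      have hqt : 0 ≤ (q : ℝ) ^ t' := Real.rpow_nonneg (Nat.cast_nonneg _) _
      have hUt : 0 ≤ ∏ p ∈ U, (p : ℝ) ^ t' :=
        Finset.prod_nonneg fun p _ => Real.rpow_nonneg (Nat.cast_nonneg _) _
      calc (mu2 P)⁻¹ ^ U.card * (kapProd kap q * ∏ p ∈ U, kap p 1) * enG G y M (q * ∏ p ∈ U, p)
          ≤ (mu2 P)⁻¹ ^ U.card * (kapProd kap q * ∏ p ∈ U, kap p 1) *
              (Real.exp (b2 P) ^ U.card * ES) := by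
            apply mul_le_mul_of_nonneg_left s2
            have := hkn q
            positivity
        _ = (kapProd kap q * ES) * ((mu2 P)⁻¹ ^ U.card * (∏ p ∈ U, kap p 1) *
              Real.exp (b2 P) ^ U.card) * 1 := by ring
        _ ≤ (kapProd kap q * ES) * ((mu2 P)⁻¹ ^ U.card * (∏ p ∈ U, kap p 1) *
              Real.exp (b2 P) ^ U.card) * (Z * ((q : ℝ) ^ t' * ∏ p ∈ U, (p : ℝ) ^ t')) := by
            apply mul_le_mul_of_nonneg_left s3
            have := hkn q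
            positivity
        _ = (Z * ((q : ℝ) ^ t' * kapProd kap q * ES)) *
              ∏ p ∈ U, ((mu2 P)⁻¹ * kap p 1 * Real.exp (b2 P) * (p : ℝ) ^ t') := by
            rw [Finset.prod_mul_distrib, Finset.prod_mul_distrib, Finset.prod_mul_distrib,
              Finset.prod_const, Finset.prod_const]
            ring
        _ ≤ (Z * ((q : ℝ) ^ t' * kapProd kap q * ES)) * lam ^ U.card := by
            apply mul_le_mul_of_nonneg_left s4
            have := hkn q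
            positivity
        _ = Z * ((q : ℝ) ^ t' * kapProd kap q * (lam ^ U.card * ES)) := by ring
    -- sum over `U`
    have hq : ∀ q ∈ EV P V (Q2 P), 2 ^ yc P q * ∑ U ∈ (V.powerset).filter
        (fun U => Q2 P < q * ∏ p ∈ U, p),
      (mu2 P)⁻¹ ^ U.card * kapProd kap (q * ∏ p ∈ U, p) * enG G y M (q * ∏ p ∈ U, p) ≤
      Z * Real.exp (lam * V.card) * ((q : ℝ) ^ t' * (2 ^ yc P q * kapProd kap q) *
        ∑ a ∈ (range q).filter (Nat.Coprime q), tot (t2 P) V ν G y M 1 0 ((a : ℝ) / q)) := by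
      intro q hq
      have hqt : 0 ≤ (q : ℝ) ^ t' := Real.rpow_nonneg (Nat.cast_nonneg _) _
      have r1 : ∑ U ∈ (V.powerset).filter (fun U => Q2 P < q * ∏ p ∈ U, p),
          (mu2 P)⁻¹ ^ U.card * kapProd kap (q * ∏ p ∈ U, p) * enG G y M (q * ∏ p ∈ U, p) ≤
          ∑ U ∈ V.powerset, Z * ((q : ℝ) ^ t' * kapProd kap q *
            (∑ a ∈ (range q).filter (Nat.Coprime q),
              lam ^ U.card * enT ν G y M 1 0 ((a : ℝ) / q) U)) := by
        refine (Finset.sum_le_sum fun U hU => hpair q hq U (Finset.mem_filter.1 hU).1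
          (Finset.mem_filter.1 hU).2).trans ?_
        apply Finset.sum_le_sum_of_subset_of_nonneg (Finset.filter_subset _ _)
        intro U _ _
        have h1 : 0 ≤ ∑ a ∈ (range q).filter (Nat.Coprime q),
            lam ^ U.card * enT ν G y M 1 0 ((a : ℝ) / q) U :=
          Finset.sum_nonneg fun a _ => mul_nonneg (pow_nonneg hlam0 _)
            (enT_nonneg ν hSt.pin.wts.nn G y M 1 0 _ U)
        have h2 := hkn q
        positivity
      have r2 : ∑ U ∈ V.powerset, Z * ((q : ℝ) ^ t' * kapProd kap q *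
            (∑ a ∈ (range q).filter (Nat.Coprime q),
              lam ^ U.card * enT ν G y M 1 0 ((a : ℝ) / q) U)) ≤
          Z * ((q : ℝ) ^ t' * kapProd kap q * (∑ a ∈ (range q).filter (Nat.Coprime q),
            Real.exp (lam * V.card) * tot (t2 P) V ν G y M 1 0 ((a : ℝ) / q))) := by
        rw [← Finset.mul_sum, ← Finset.mul_sum, Finset.sum_comm]
        apply mul_le_mul_of_nonneg_left _ hZ0
        apply mul_le_mul_of_nonneg_left _ (mul_nonneg hqt (hkn q))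
        refine Finset.sum_le_sum fun a _ => ?_
        exact sum_U hEW V ν G hVprime hWts hne lam (t2 P) hlam0 nT.lt2 y M ((a : ℝ) / q)
      calc _ ≤ 2 ^ yc P q * (Z * ((q : ℝ) ^ t' * kapProd kap q *
            (∑ a ∈ (range q).filter (Nat.Coprime q),
              Real.exp (lam * V.card) * tot (t2 P) V ν G y M 1 0 ((a : ℝ) / q)))) :=
            mul_le_mul_of_nonneg_left (r1.trans r2) (by positivity)
        _ = _ := by rw [← Finset.mul_sum]; ring
    have hT := hP1 P q1 N' Nmin Φ G ν hSt V M y hV hVs hMN hNM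
    calc _ ≤ ∑ q ∈ EV P V (Q2 P), Z * Real.exp (lam * V.card) * ((q : ℝ) ^ t' *
          (2 ^ yc P q * kapProd kap q) *
          ∑ a ∈ (range q).filter (Nat.Coprime q), tot (t2 P) V ν G y M 1 0 ((a : ℝ) / q)) :=
          Finset.sum_le_sum hq
      _ = Z * Real.exp (lam * V.card) * ∑ q ∈ EV P V (Q2 P), ((q : ℝ) ^ t' *
          (2 ^ yc P q * kapProd kap q) *
          ∑ a ∈ (range q).filter (Nat.Coprime q), tot (t2 P) V ν G y M 1 0 ((a : ℝ) / q)) := by
          rw [Finset.mul_sum]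
      _ ≤ Z * Real.exp (lam * V.card) * (Real.exp (P ^ (0.2 : ℝ)) * (M * Φ) ^ 2) :=
          mul_le_mul_of_nonneg_left hT (by positivity)
      _ ≤ Z * Real.exp (P ^ (0.565 : ℝ)) * (Real.exp (P ^ (0.2 : ℝ)) * (M * Φ) ^ 2) := by
          apply mul_le_mul_of_nonneg_right _ (by positivity)
          apply mul_le_mul_of_nonneg_left _ hZ0
          apply Real.exp_le_exp.2
          have e1 : P ^ (0.565 : ℝ) = lam * P ^ (0.995 : ℝ) := by
            rw [hlam, ← Real.rpow_add hP]; norm_num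
          rw [e1]
          exact mul_le_mul_of_nonneg_left hVc hlam0
      _ = Z * (Real.exp (P ^ (0.565 : ℝ)) * Real.exp (P ^ (0.2 : ℝ))) * (M * Φ) ^ 2 := by ring
      _ ≤ Real.exp (-(P ^ (0.61 : ℝ))) * (M * Φ) ^ 2 :=
          mul_le_mul_of_nonneg_right nT.fin (sq_nonneg _)
  exact eventually_atTop.1 main

end Vale.Agent.P042.TT
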