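import Vale.Agent.P042.TT.Spec
import Vale.Agent.P042.H455.TiltE

set_option autoImplicit false

/-!
Block TILT.
-/

namespace Vale.Agent.P042.TT

open Finset

section
variable {ι : Type} [Fintype ι] [DecidableEq ι] {Ω : ι → Type} [∀ i, Fintype (Ω i)]

lemma ev_re (π : ∀ i, Ω i → ℝ) (f : (∀ i, Ω i) → ℂ) :
    (Ev π f).re = H455.EX π (fun x => (f x).re) := by
  unfold Ev H455.EX H455.pw
  rw [Complex.re_sum]
  exact sum_congr rfl fun x _ => by rw [Complex.smul_re, smul_eq_mul]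

lemma ev_im (π : ∀ i, Ω i → ℝ) (f : (∀ i, Ω i) → ℂ) :
    (Ev π f).im = H455.EX π (fun x => (f x).im) := by
  unfold Ev H455.EX H455.pw
  rw [Complex.im_sum]
  exact sum_congr rfl fun x _ => by rw [Complex.smul_im, smul_eq_mul]

lemma ev_real (π : ∀ i, Ω i → ℝ) (f : (∀ i, Ω i) → ℝ) :
    Ev π f = H455.EX π f := by
  simp [Ev, H455.EX, H455.pw]

lemma comp_re (π : ∀ i, Ω i → ℝ) (f : (∀ i, Ω i) → ℂ) (W : Finset ι) (x : ∀ i, Ω i) :
    (comp π f W x).re = H455.comp π W (fun x => (f x).re) x := by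
  unfold comp H455.comp H455.PS rho Ex
  rw [Complex.re_sum]
  refine sum_congr rfl fun S _ => ?_
  rw [Complex.smul_re, smul_eq_mul, ev_re]
  simp only [piecewise_compl]
  rfl

lemma comp_im (π : ∀ i, Ω i → ℝ) (f : (∀ i, Ω i) → ℂ) (W : Finset ι) (x : ∀ i, Ω i) :
    (comp π f W x).im = H455.comp π W (fun x => (f x).im) x := by
  unfold comp H455.comp H455.PS rho Ex
  rw [Complex.im_sum]
  refine sum_congr rfl fun S _ => ?_
  rw [Complex.smul_im, smul_eq_mul, ev_im]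
  simp only [piecewise_compl]
  rfl

lemma en_split (π : ∀ i, Ω i → ℝ) (f : (∀ i, Ω i) → ℂ) (W : Finset ι) :
    en π f W = H455.en π W (fun x => (f x).re) + H455.en π W (fun x => (f x).im) := by
  unfold en H455.en
  rw [ev_real, ← H455.EX_add]
  congr 1
  funext x
  rw [← comp_re, ← comp_im, Complex.sq_norm, Complex.normSq_apply]
  ring

lemma EN_split (π : ∀ i, Ω i → ℝ) (r : ι → ℝ) (f : (∀ i, Ω i) → ℂ) :
    ∑ W ∈ (univ : Finset (Finset ι)).erase ∅, (∏ i ∈ W, r i) * en π f W =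
      H455.EN π r (fun x => (f x).re) + H455.EN π r (fun x => (f x).im) := by
  unfold H455.EN
  rw [← sum_add_distrib, ← add_sum_erase univ (fun W : Finset ι => (if W = ∅ then (0 : ℝ) else
    (∏ i ∈ W, r i) * H455.en π W (fun x => (f x).re)) + (if W = ∅ then (0 : ℝ) else
    (∏ i ∈ W, r i) * H455.en π W (fun x => (f x).im))) (mem_univ ∅)]
  simp only [if_true, add_zero, zero_add]
  refine sum_congr rfl fun W hW => ?_
  rw [if_neg (ne_of_mem_erase hW), if_neg (ne_of_mem_erase hW), en_split]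
  ring

lemma bform_re (π : ∀ i, Ω i → ℝ) (κ : ∀ i, Ω i → Ω i → ℝ) (f g : (∀ i, Ω i) → ℂ) :
    (Bform π κ f g).re = H455.RF π κ (fun x => (f x).re) (fun x => (g x).re) +
      H455.RF π κ (fun x => (f x).im) (fun x => (g x).im) := by
  unfold Bform H455.RF
  rw [← H455.EX_add]
  unfold H455.EX
  rw [Complex.re_sum]
  refine sum_congr rfl fun x _ => ?_
  beta_reduce
  rw [Complex.re_sum, ← sum_add_distrib, mul_sum]
  refine sum_congr rfl fun y _ => ?_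

  rw [Complex.re_ofReal_mul]
  simp only [H455.pw, prod_mul_distrib, Complex.mul_re, Complex.conj_re, Complex.conj_im]
  ring

lemma bform_im (π : ∀ i, Ω i → ℝ) (κ : ∀ i, Ω i → Ω i → ℝ) (f g : (∀ i, Ω i) → ℂ) :
    (Bform π κ f g).im = H455.RF π κ (fun x => (f x).im) (fun x => (g x).re) -
      H455.RF π κ (fun x => (f x).re) (fun x => (g x).im) := by
  unfold Bform H455.RF
  rw [← H455.EX_sub]
  unfold H455.EX
  rw [Complex.im_sum]
  refine sum_congr rfl fun x _ => ?_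
  beta_reduce
  rw [Complex.im_sum, ← sum_sub_distrib, mul_sum]
  refine sum_congr rfl fun y _ => ?_

  rw [Complex.im_ofReal_mul]
  simp only [H455.pw, prod_mul_distrib, Complex.mul_im, Complex.conj_re, Complex.conj_im]
  ring

end

/-- numeric assembly -/
lemma tilt_num {PC d e1 e2 g1 g2 A1 A2 B1 B2 X X' E E' r1 r2 r3 r4 : ℝ}
    (hPC : 0 ≤ PC) (hd : 0 ≤ d) (hA1 : 0 ≤ A1) (hA2 : 0 ≤ A2) (hB1 : 0 ≤ B1) (hB2 : 0 ≤ B2)
    (hX : A1 + A2 ≤ X) (hX' : B1 + B2 ≤ X')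
    (hE : E ^ 2 = e1 ^ 2 + e2 ^ 2) (hE0 : 0 ≤ E) (hE' : E' ^ 2 = g1 ^ 2 + g2 ^ 2) (hE0' : 0 ≤ E')
    (h1 : |r1| ≤ PC * (|e1| * (2 * d * √B1) + |g1| * (2 * d * √A1) + 4 * (√A1 * √B1)))
    (h2 : |r2| ≤ PC * (|e2| * (2 * d * √B2) + |g2| * (2 * d * √A2) + 4 * (√A2 * √B2)))
    (h3 : |r3| ≤ PC * (|e2| * (2 * d * √B1) + |g1| * (2 * d * √A2) + 4 * (√A2 * √B1)))
    (h4 : |r4| ≤ PC * (|e1| * (2 * d * √B2) + |g2| * (2 * d * √A1) + 4 * (√A1 * √B2))) :
    |r1| + |r2| + |r3| + |r4| ≤ PC * (8 * √(X * X') + 4 * d * (√X * E' + √X' * E)) := by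
  have two : ∀ {a b Z : ℝ}, 0 ≤ a → 0 ≤ b → a + b ≤ Z → √a + √b ≤ √2 * √Z := by
    intro a b Z ha hb hab
    rw [← Real.sqrt_mul (by norm_num)]
    apply Real.le_sqrt_of_sq_le
    have e1 := Real.sq_sqrt ha
    have e2 := Real.sq_sqrt hb
    nlinarith [sq_nonneg (√a - √b)]
  have two' : ∀ {a b Z : ℝ}, Z ^ 2 = a ^ 2 + b ^ 2 → 0 ≤ Z → |a| + |b| ≤ √2 * Z := by
    intro a b Z hZ hZ0
    have h : |a| + |b| ≤ √(2 * Z ^ 2) := by
      apply Real.le_sqrt_of_sq_le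
      have e1 := sq_abs a
      have e2 := sq_abs b
      nlinarith [sq_nonneg (|a| - |b|)]
    rwa [Real.sqrt_mul (by norm_num), Real.sqrt_sq hZ0] at h
  have a1 := two hA1 hA2 hX
  have b1 := two hB1 hB2 hX'
  have c1 := two' hE hE0
  have d1 := two' hE' hE0'
  have hXn : 0 ≤ X := le_trans (add_nonneg hA1 hA2) hX
  have s2 : √2 * √2 = 2 := Real.mul_self_sqrt (by norm_num)
  have nA : 0 ≤ √A1 + √A2 := add_nonneg (Real.sqrt_nonneg _) (Real.sqrt_nonneg _)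
  have nB : 0 ≤ √B1 + √B2 := add_nonneg (Real.sqrt_nonneg _) (Real.sqrt_nonneg _)
  have nE : 0 ≤ |e1| + |e2| := add_nonneg (abs_nonneg _) (abs_nonneg _)
  have nG : 0 ≤ |g1| + |g2| := add_nonneg (abs_nonneg _) (abs_nonneg _)
  have m1 : (√A1 + √A2) * (√B1 + √B2) ≤ 2 * √(X * X') := by
    calc (√A1 + √A2) * (√B1 + √B2) ≤ (√2 * √X) * (√2 * √X') :=
          mul_le_mul a1 b1 nB (by positivity)
      _ = (√2 * √2) * (√X * √X') := by ring
      _ = 2 * √(X * X') := by rw [s2, Real.sqrt_mul hXn]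
  have m2 : (|e1| + |e2|) * (√B1 + √B2) ≤ 2 * (√X' * E) := by
    calc (|e1| + |e2|) * (√B1 + √B2) ≤ (√2 * E) * (√2 * √X') :=
          mul_le_mul c1 b1 nB (by positivity)
      _ = (√2 * √2) * (√X' * E) := by ring
      _ = _ := by rw [s2]
  have m3 : (|g1| + |g2|) * (√A1 + √A2) ≤ 2 * (√X * E') := by
    calc (|g1| + |g2|) * (√A1 + √A2) ≤ (√2 * E') * (√2 * √X) :=
          mul_le_mul d1 a1 nA (by positivity)
      _ = (√2 * √2) * (√X * E') := by ring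
      _ = _ := by rw [s2]
  have key : |r1| + |r2| + |r3| + |r4| ≤ PC * (2 * d * ((|e1| + |e2|) * (√B1 + √B2)) +
      2 * d * ((|g1| + |g2|) * (√A1 + √A2)) + 4 * ((√A1 + √A2) * (√B1 + √B2))) := by
    refine (add_le_add (add_le_add (add_le_add h1 h2) h3) h4).trans (le_of_eq ?_)
    ring
  refine key.trans (mul_le_mul_of_nonneg_left ?_ hPC)
  have k2 : 2 * d * ((|e1| + |e2|) * (√B1 + √B2)) ≤ 2 * d * (2 * (√X' * E)) :=
    mul_le_mul_of_nonneg_left m2 (by positivity)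
  have k3 : 2 * d * ((|g1| + |g2|) * (√A1 + √A2)) ≤ 2 * d * (2 * (√X * E')) :=
    mul_le_mul_of_nonneg_left m3 (by positivity)
  nlinarith

theorem tilt_holds : TILTStmt := by
  intro ι _ _ Ω _ π κ f f' lam a σ c δ0 X X' hπ hc hc2 hal hb hA hB hs hd hd1 hX hX'
  have hμ : H455.PM π := ⟨hπ.nn, hπ.one⟩
  have hls : ∀ i, 0 ≤ 12 * lam i + σ i := fun i => by
    have h1 := (hal i).1
    have h2 := (hal i).2.1
    have h3 := (hs i).le
    linarith
  rw [EN_split] at hX hX'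
  have hR := hμ.real_tilt hc hc2 hal hb hA hB hs hd hd1
  set u1 : (∀ i, Ω i) → ℝ := fun x => (f x).re with hu1
  set u2 : (∀ i, Ω i) → ℝ := fun x => (f x).im with hu2
  set v1 : (∀ i, Ω i) → ℝ := fun x => (f' x).re with hv1
  set v2 : (∀ i, Ω i) → ℝ := fun x => (f' x).im with hv2
  set PC : ℝ := ∏ i, (1 + c i) with hPC
  have hcl : ∀ i, 1 / 2 ≤ 1 + c i := fun i => by have := (abs_le.1 (hc2 i)).1; linarith
  have hPC0 : 0 ≤ PC := prod_nonneg fun i _ => by have := hcl i; linarith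
  have hnum := tilt_num (PC := PC) (d := √δ0) (e1 := H455.EX π u1) (e2 := H455.EX π u2)
    (g1 := H455.EX π v1) (g2 := H455.EX π v2) (E := ‖Ev π f‖) (E' := ‖Ev π f'‖)
    hPC0 (Real.sqrt_nonneg _) (hμ.EN_nonneg hls u1) (hμ.EN_nonneg hls u2)
    (hμ.EN_nonneg hls v1) (hμ.EN_nonneg hls v2) hX hX'
    (by rw [Complex.sq_norm, Complex.normSq_apply, ev_re, ev_im]; ring) (norm_nonneg _)
    (by rw [Complex.sq_norm, Complex.normSq_apply, ev_re, ev_im]; ring) (norm_nonneg _)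
    (hR u1 v1) (hR u2 v2) (hR u2 v1) (hR u1 v2)
  set D : ℂ := Bform π κ f f' - (PC : ℂ) * (Ev π f * (starRingEnd ℂ) (Ev π f')) with hD
  have hre : D.re = (H455.RF π κ u1 v1 - PC * (H455.EX π u1 * H455.EX π v1)) +
      (H455.RF π κ u2 v2 - PC * (H455.EX π u2 * H455.EX π v2)) := by
    rw [hD, Complex.sub_re, bform_re, Complex.re_ofReal_mul, Complex.mul_re, Complex.conj_re,
      Complex.conj_im, ev_re, ev_im, ev_re, ev_im]
    ring
  have him : D.im = (H455.RF π κ u2 v1 - PC * (H455.EX π u2 * H455.EX π v1)) -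
      (H455.RF π κ u1 v2 - PC * (H455.EX π u1 * H455.EX π v2)) := by
    rw [hD, Complex.sub_im, bform_im, Complex.im_ofReal_mul, Complex.mul_im, Complex.conj_re,
      Complex.conj_im, ev_re, ev_im, ev_re, ev_im]
    ring
  have h1 : ‖D‖ ≤ |D.re| + |D.im| := Complex.norm_le_abs_re_add_abs_im D
  have h2 : |D.re| ≤ |H455.RF π κ u1 v1 - PC * (H455.EX π u1 * H455.EX π v1)| +
      |H455.RF π κ u2 v2 - PC * (H455.EX π u2 * H455.EX π v2)| := by
    rw [hre]; exact abs_add_le _ _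
  have h3 : |D.im| ≤ |H455.RF π κ u2 v1 - PC * (H455.EX π u2 * H455.EX π v1)| +
      |H455.RF π κ u1 v2 - PC * (H455.EX π u1 * H455.EX π v2)| := by
    rw [him, sub_eq_add_neg]
    refine (abs_add_le _ _).trans ?_
    rw [abs_neg]
  linarith

end Vale.Agent.P042.TT
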