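import Vale.Agent.P042.TT.TotW

set_option autoImplicit false

/-!
Block TOT (helper455): the total bound with a Rankin factor.
-/

namespace Vale.Agent.P042.TT

open Finset Filter Vale.Agent.P042.SS Vale.Agent.P042.SS.UNC

namespace TotB

lemma enT_nonneg {ν : ℕ → ℤ → ℝ} (hν : ∀ p n, 0 ≤ ν p n) (G : ℤ → ℝ) (y : ℤ) (M R : ℕ) (r : ℤ)
    (θ : ℝ) (T : Finset ℕ) : 0 ≤ enT ν G y M R r θ T := by
  unfold enT dn
  refine Finset.sum_nonneg fun x _ => mul_nonneg (Finset.prod_nonneg fun p _ => ?_) (sq_nonneg _)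
  exact mul_nonneg (Nat.cast_nonneg _) (inv_nonneg.2 (hν _ _))

lemma tot_nonneg {t : ℝ} (ht0 : 0 ≤ t) (ht1 : t ≤ 1) (V : Finset ℕ) {ν : ℕ → ℤ → ℝ}
    (hν : ∀ p n, 0 ≤ ν p n) (G : ℤ → ℝ) (y : ℤ) (M R : ℕ) (r : ℤ) (θ : ℝ) :
    0 ≤ tot t V ν G y M R r θ := by
  unfold tot
  refine Finset.sum_nonneg fun T hT => mul_nonneg ?_ (enT_nonneg hν _ _ _ _ _ _ _)
  exact wtR_nonneg _ _ _ (Finset.mem_powerset.1 hT) (fun _ _ => ht0) (fun _ _ => ht1)

lemma t2_nonneg {P : ℝ} (hP : 0 ≤ P) : 0 ≤ t2 P := Real.rpow_nonneg hP _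

lemma t2_le_one {P : ℝ} (hP : 1 ≤ P) : t2 P ≤ 1 :=
  Real.rpow_le_one_of_one_le_of_nonpos hP (by norm_num)

lemma log_le_of_mem_EV {P : ℝ} {V : Finset ℕ} {q : ℕ} (hq : q ∈ EV P V (Q2 P)) :
    Real.log q ≤ P ^ (0.62 : ℝ) := by
  unfold EV at hq
  rw [Finset.mem_filter, Finset.mem_Icc] at hq
  have h1 : (q : ℝ) ≤ Real.exp (P ^ (0.62 : ℝ)) := by
    refine le_trans (Nat.cast_le.2 hq.1.2) ?_
    exact Nat.floor_le (Real.exp_pos _).le
  have h2 : (0 : ℝ) < q := by exact_mod_cast hq.1.1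
  rw [Real.log_le_iff_le_exp h2]
  exact h1

end TotB

open TotB

theorem tot_of (h : SUMStmt) : TOTStmt := by
  intro k E K p0 kap hk hE hkap
  obtain ⟨C, P1, hC, hsum⟩ := h k (8 * E) hk (by omega)
  obtain ⟨Cc, hCc, hcost⟩ := TotB.cost_pib hk hE hkap
  have hER : (1 : ℝ) ≤ E := by exact_mod_cast hE
  set Kc : ℝ := (2 * K + 1) ^ ((2 * K) ^ (2 * E) + 1) with hKc
  have hKc0 : 0 < Kc := by positivity
  have hev : ∀ᶠ P : ℝ in atTop, P1 ≤ P ∧ 1 ≤ P ∧ (2 * k : ℝ) ≤ P ^ (0.001 : ℝ) ∧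
      (p0 : ℝ) ≤ P ^ (0.97 : ℝ) ∧ Cc * P ^ (0.49 : ℝ) ≤ P ^ (0.6 : ℝ) ∧
      3 * P ^ (0.62 : ℝ) ≤ P ^ (0.625 : ℝ) ∧ (2 * C) * P ^ (0.137 : ℝ) ≤ P ^ (0.2 : ℝ) ∧
      2 * Real.log (Kc * (2 * C)) ≤ P ^ (0.2 : ℝ) := by
    filter_upwards [eventually_ge_atTop P1, eventually_ge_atTop (1 : ℝ),
      ev_const (2 * k : ℝ) (a := 0.001) (by norm_num), ev_const (p0 : ℝ) (a := 0.97) (by norm_num),
      ev_rpow Cc (a := 0.6) (b := 0.49) (by norm_num),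
      ev_rpow 3 (a := 0.625) (b := 0.62) (by norm_num),
      ev_rpow (2 * C) (a := 0.2) (b := 0.137) (by norm_num),
      ev_const (2 * Real.log (Kc * (2 * C))) (a := 0.2) (by norm_num)]
      with P h1 h2 h3 h4 h5 h6 h7 h8
    exact ⟨h1, h2, h3, h4, h5, h6, h7, h8⟩
  obtain ⟨P0, hP0⟩ := eventually_atTop.1 hev
  refine ⟨1 / (2000 * E), P0, by positivity, one_div_le_one_div_of_le (by norm_num) (by linarith),
    ?_⟩
  intro P hP N' Nmin Φ G ν hst V M y hV hVlog hM hN'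
  obtain ⟨e1, e2, e3, e4, e5, e6, e7, e8⟩ := hP0 P hP
  have hPpos : 0 < P := by linarith
  have hν := hst.pin.wts.nn
  have hVp : ∀ p ∈ V, p.Prime := fun p hp => hst.pin.prime p (hV hp)
  set w := ⌊P ^ (0.97 : ℝ)⌋₊ with hw
  set Eq : ℕ → ℝ := fun q => ∑ a ∈ (range q).filter (Nat.Coprime q),
    tot (t2 P) V ν G y M 1 0 ((a : ℝ) / q) with hEq
  have hEq0 : ∀ q, 0 ≤ Eq q := fun q => Finset.sum_nonneg fun a _ =>
    tot_nonneg (t2_nonneg hPpos.le) (t2_le_one e2) V hν G y M 1 0 _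
  set B : ℝ := C * Real.exp (C * P ^ (0.137 : ℝ)) * (M * Φ) ^ 2 with hB
  have hX0 : 0 < P ^ (0.6 : ℝ) := Real.rpow_pos_of_pos hPpos _
  have h62 : P ^ (0.6 : ℝ) ≤ P ^ (0.62 : ℝ) := Real.rpow_le_rpow_of_exponent_le e2 (by norm_num)
  have hsum' : ∀ D : ℕ, 1 ≤ D → Real.log D ≤ P ^ (0.62 : ℝ) + 2 * P ^ (0.6 : ℝ) →
      (∀ p ∈ V, Nat.Coprime p D) →
      ∑ d ∈ D.divisors, ∑ z ∈ (QZ P (8 * E) V (Q2 P)).filter (fun z => Nat.Coprime z D),
        zR P z * Eq (d * z) ≤ B := by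
    intro D hD hDlog hDc
    have hDlog' : Real.log D ≤ P ^ (0.625 : ℝ) := by linarith
    refine (hsum P e1 N' Nmin Φ G ν hst V D M y hV hVlog hM hN' hD hDlog' hDc).trans ?_
    rw [hB]
    apply mul_le_mul_of_nonneg_right _ (sq_nonneg _)
    apply mul_le_mul_of_nonneg_left _ hC.le
    have hDpos : (0 : ℝ) < D := by exact_mod_cast hD
    rw [Real.rpow_def_of_pos hDpos]
    apply Real.exp_le_exp.2
    unfold b2
    calc Real.log D * (C * P ^ (-0.488 : ℝ)) ≤ P ^ (0.625 : ℝ) * (C * P ^ (-0.488 : ℝ)) :=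
          mul_le_mul_of_nonneg_right hDlog' (by positivity)
      _ = C * (P ^ (0.625 : ℝ) * P ^ (-0.488 : ℝ)) := by ring
      _ = C * P ^ (0.137 : ℝ) := by
          rw [← Real.rpow_add hPpos]
          norm_num
  have hrm := rm_core (P := P) (ℓ0 := P ^ (0.62 : ℝ)) (X0 := P ^ (0.6 : ℝ)) (B := B)
    (J' := 8 * E) (Q := Q2 P) (V := V) e2 hVp Eq hEq0 hsum' (pib P (1 / (2000 * E)) kap)
    (fun i _ => le_min zero_le_one (gb_nonneg hkap.nn _ _)) (fun i _ => min_le_left _ _) hX0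
    ((hcost P e2 (Q2 P) _ (Finset.filter_subset _ _)).trans e5)
    (EV P V (Q2 P)) (Finset.Subset.refl _) (Real.rpow_nonneg hPpos.le _)
    (fun q hq => log_le_of_mem_EV hq)
  have hterm : ∀ q ∈ EV P V (Q2 P), (q : ℝ) ^ (1 / (2000 * E) : ℝ) *
      (2 ^ yc P q * kapProd kap q) * Eq q ≤
      Kc * ((∏ i ∈ Ub w (8 * E) q, pib P (1 / (2000 * E)) kap i) *
        ((∏ p ∈ Tq w (8 * E) q, zr P p (q.factorization p)) * Eq q)) := by
    intro q hq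
    have hq1 : 1 ≤ q := by
      unfold EV at hq
      rw [Finset.mem_filter, Finset.mem_Icc] at hq
      exact hq.1.1
    rw [weight_eq P _ kap (by omega : q ≠ 0), kapProd_split (Y := w) (J := 8 * E)]
    have g1 := prod_Ub_le (P := P) hE hkap w (8 * E) q
    have g2 : ∏ p ∈ Tq w (8 * E) q, gb P (1 / (2000 * E)) kap p (q.factorization p) ≤
        ∏ p ∈ Tq w (8 * E) q, zr P p (q.factorization p) := by
      refine Finset.prod_le_prod (fun p _ => gb_nonneg hkap.nn _ _) fun p hp => ?_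
      unfold Tq at hp
      rw [Finset.mem_filter] at hp
      have hh := hp.2
      push Not at hh
      exact gb_le_zr hE hkap e2 e3 e4 (Nat.prime_of_mem_primeFactors hp.1) hh.1 (fact_pos hp.1)
        hh.2
    have g3 : 0 ≤ ∏ p ∈ Tq w (8 * E) q, gb P (1 / (2000 * E)) kap p (q.factorization p) :=
      Finset.prod_nonneg fun p _ => gb_nonneg hkap.nn _ _
    have g4 : 0 ≤ ∏ i ∈ Ub w (8 * E) q, pib P (1 / (2000 * E)) kap i :=
      Finset.prod_nonneg fun i _ => le_min zero_le_one (gb_nonneg hkap.nn _ _)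
    calc (∏ i ∈ Ub w (8 * E) q, gb P (1 / (2000 * E)) kap i.1 i.2) *
          (∏ p ∈ Tq w (8 * E) q, gb P (1 / (2000 * E)) kap p (q.factorization p)) * Eq q
        ≤ (Kc * ∏ i ∈ Ub w (8 * E) q, pib P (1 / (2000 * E)) kap i) *
          (∏ p ∈ Tq w (8 * E) q, zr P p (q.factorization p)) * Eq q := by
          apply mul_le_mul_of_nonneg_right _ (hEq0 q)
          exact mul_le_mul g1 g2 g3 (mul_nonneg hKc0.le g4)
      _ = _ := by ring
  refine (Finset.sum_le_sum hterm).trans ?_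
  rw [← Finset.mul_sum]
  refine (mul_le_mul_of_nonneg_left hrm hKc0.le).trans ?_
  rw [hB]
  have hexp : Kc * (2 * C) * Real.exp (C * P ^ (0.137 : ℝ)) ≤ Real.exp (P ^ (0.2 : ℝ)) := by
    have hpos : 0 < Kc * (2 * C) := by positivity
    rw [← Real.exp_log hpos, ← Real.exp_add]
    apply Real.exp_le_exp.2
    linarith
  calc Kc * (2 * (C * Real.exp (C * P ^ (0.137 : ℝ)) * (M * Φ) ^ 2))
      = (Kc * (2 * C) * Real.exp (C * P ^ (0.137 : ℝ))) * (M * Φ) ^ 2 := by ring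
    _ ≤ Real.exp (P ^ (0.2 : ℝ)) * (M * Φ) ^ 2 :=
        mul_le_mul_of_nonneg_right hexp (sq_nonneg _)

end Vale.Agent.P042.TT
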