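import Vale.Agent.P042.TT.Spec
import Vale.Agent.P042.SS.Unc1

set_option autoImplicit false

/-!
Block TOT, part A (helper455): the random modulus step for the exceptional moduli.
-/

namespace Vale.Agent.P042.TT.TotB

open Finset Vale.Agent.P042.SS Vale.Agent.P042.SS.UNC

/-! ### the part of `q` prime to `D` -/

/-- part of `q` composed of the primes dividing `D` -/
noncomputable def dpt (D q : ℕ) : ℕ :=
  (q.factorization.filter (fun p => p ∣ D)).prod (fun p j => p ^ j)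

/-- part of `q` prime to `D` -/
noncomputable def zpt (D q : ℕ) : ℕ :=
  (q.factorization.filter (fun p => ¬ p ∣ D)).prod (fun p j => p ^ j)

lemma dpt_mul_zpt {D q : ℕ} (hq : q ≠ 0) : dpt D q * zpt D q = q := by
  unfold dpt zpt
  rw [Finsupp.prod_filter_mul_prod_filter_not]
  exact Nat.prod_factorization_pow_eq_self hq

lemma dpt_fact (D q : ℕ) : (dpt D q).factorization = q.factorization.filter (fun p => p ∣ D) := by
  unfold dpt
  apply Nat.prod_pow_factorization_eq_self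
  intro p hp
  rw [Finsupp.support_filter, Finset.mem_filter, Nat.support_factorization] at hp
  exact Nat.prime_of_mem_primeFactors hp.1

lemma zpt_fact (D q : ℕ) :
    (zpt D q).factorization = q.factorization.filter (fun p => ¬ p ∣ D) := by
  unfold zpt
  apply Nat.prod_pow_factorization_eq_self
  intro p hp
  rw [Finsupp.support_filter, Finset.mem_filter, Nat.support_factorization] at hp
  exact Nat.prime_of_mem_primeFactors hp.1

lemma zpt_pf (D q : ℕ) : (zpt D q).primeFactors = q.primeFactors.filter (fun p => ¬ p ∣ D) := by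
  rw [← Nat.support_factorization, zpt_fact, Finsupp.support_filter, Nat.support_factorization]

lemma zpt_fact_apply {D q p : ℕ} (hp : p ∈ (zpt D q).primeFactors) :
    (zpt D q).factorization p = q.factorization p := by
  rw [zpt_pf, Finset.mem_filter] at hp
  rw [zpt_fact, Finsupp.filter_apply_pos (fun p => ¬ p ∣ D) q.factorization hp.2]

lemma zpt_dvd {D q : ℕ} (hq : q ≠ 0) : zpt D q ∣ q :=
  Dvd.intro_left _ (dpt_mul_zpt hq)

lemma zpt_ne_zero {D q : ℕ} (hq : q ≠ 0) : zpt D q ≠ 0 := by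
  intro h
  have := dpt_mul_zpt (D := D) hq
  rw [h, mul_zero] at this
  exact hq this.symm

lemma dpt_ne_zero {D q : ℕ} (hq : q ≠ 0) : dpt D q ≠ 0 := by
  intro h
  have := dpt_mul_zpt (D := D) hq
  rw [h, zero_mul] at this
  exact hq this.symm

lemma zpt_coprime (D q : ℕ) : Nat.Coprime (zpt D q) D := by
  unfold zpt Finsupp.prod
  refine Nat.Coprime.prod_left fun p hp => ?_
  rw [Finsupp.support_filter, Finset.mem_filter, Nat.support_factorization] at hp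
  exact Nat.Coprime.pow_left _
    ((Nat.Prime.coprime_iff_not_dvd (Nat.prime_of_mem_primeFactors hp.1)).2 hp.2)

variable {P : ℝ} {w J' Q q : ℕ} {V : Finset ℕ} {R : Finset (ℕ × ℕ)}

/-- every exact prime power of `q` whose prime divides `WR R` divides `WR R` -/
lemma pow_dvd_WR (hR : R ⊆ Ib w J' Q) (hU : Ub w J' q ⊆ R) {p : ℕ} (hp : p ∈ q.primeFactors)
    (hpD : p ∣ WR R) : p ^ q.factorization p ∣ WR R := by
  by_cases h : p ≤ w ∨ J' < q.factorization p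
  · exact dvd_WR_of_mem hU hp h
  · have hpp := Nat.prime_of_mem_primeFactors hp
    unfold WR at hpD
    obtain ⟨i, hi, hpi⟩ := hpp.prime.exists_mem_finset_dvd hpD
    have hi' := hR hi
    simp only [Ib, Finset.mem_filter] at hi'
    have hpi' := hpp.dvd_of_dvd_pow hpi
    have hpe : p = i.1 := (Nat.prime_dvd_prime_iff_eq hpp hi'.2.1).1 hpi'
    push Not at h
    have h2 : q.factorization p ≤ i.2 := by
      rcases hi'.2.2.2.2 with h3 | h3
      · rw [← hpe] at h3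
        omega
      · omega
    refine (pow_dvd_pow p h2).trans ?_
    unfold WR
    have := Finset.dvd_prod_of_mem (fun i : ℕ × ℕ => i.1 ^ i.2) hi
    rw [hpe]
    exact this

lemma dpt_dvd_WR (hR : R ⊆ Ib w J' Q) (hU : Ub w J' q ⊆ R) (hq : q ≠ 0) :
    dpt (WR R) q ∣ WR R := by
  have hW : WR R ≠ 0 := by
    have := WR_pos' hR
    omega
  rw [← Nat.factorization_le_iff_dvd (dpt_ne_zero hq) hW]
  intro p
  rw [dpt_fact]
  by_cases hpD : p ∣ WR R
  · rw [Finsupp.filter_apply_pos (fun p => p ∣ WR R) q.factorization hpD]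
    by_cases hp : p ∈ q.primeFactors
    · have h1 := pow_dvd_WR hR hU hp hpD
      exact ((Nat.prime_of_mem_primeFactors hp).pow_dvd_iff_le_factorization hW).1 h1
    · rw [← Nat.support_factorization, Finsupp.notMem_support_iff] at hp
      rw [hp]
      exact Nat.zero_le _
  · rw [Finsupp.filter_apply_neg (fun p => p ∣ WR R) q.factorization hpD]
    exact Nat.zero_le _

/-- the primes of the part prime to `WR R` are coordinates -/
lemma zpt_pf_subset (hU : Ub w J' q ⊆ R) :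
    (zpt (WR R) q).primeFactors ⊆ Tq w J' q := by
  intro p hp
  rw [zpt_pf, Finset.mem_filter] at hp
  unfold Tq
  rw [Finset.mem_filter]
  refine ⟨hp.1, fun h => hp.2 ?_⟩
  exact (dvd_pow_self p (Nat.one_le_iff_ne_zero.1 (fact_pos hp.1))).trans
    (dvd_WR_of_mem hU hp.1 h)

lemma zpt_mem_QZ (hU : Ub ⌊P ^ (0.97 : ℝ)⌋₊ J' q ⊆ R) (hq : q ∈ EV P V Q) :
    zpt (WR R) q ∈ (QZ P J' V Q).filter (fun z => Nat.Coprime z (WR R)) := by
  unfold EV at hq
  rw [Finset.mem_filter, Finset.mem_Icc] at hq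
  have hq0 : q ≠ 0 := by have := hq.1.1; omega
  have hz0 := zpt_ne_zero (D := WR R) hq0
  have hdv := zpt_dvd (D := WR R) hq0
  rw [Finset.mem_filter]
  refine ⟨?_, zpt_coprime _ _⟩
  unfold QZ EV
  rw [Finset.mem_filter, Finset.mem_filter, Finset.mem_Icc]
  refine ⟨⟨⟨Nat.one_le_iff_ne_zero.2 hz0, ?_⟩, ?_, ?_⟩, ?_⟩
  · exact (Nat.le_of_dvd (Nat.pos_of_ne_zero hq0) hdv).trans hq.1.2
  · intro p hp h1
    have hmem : p ∈ (zpt (WR R) q).primeFactors := by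
      rw [← Nat.support_factorization, Finsupp.mem_support_iff, h1]
      exact one_ne_zero
    rw [zpt_fact_apply hmem] at h1
    exact hq.2.1 p hp h1
  · intro p hp h1
    exact hq.2.2 p hp (h1.trans hdv)
  · intro p hp
    rw [zpt_fact_apply hp]
    have := zpt_pf_subset hU hp
    unfold Tq at this
    rw [Finset.mem_filter] at this
    have h := this.2
    push Not at h
    exact h

lemma zr_nonneg (hP : 0 ≤ P) (p j : ℕ) : 0 ≤ zr P p j := by
  unfold zr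
  split_ifs
  · exact mul_nonneg (Real.rpow_nonneg hP _) (Real.rpow_nonneg (Nat.cast_nonneg _) _)
  · exact Real.rpow_nonneg (Nat.cast_nonneg _) _

lemma lt_of_floor_lt {x : ℝ} {p : ℕ} (h : ⌊x⌋₊ < p) : x < p := (Nat.floor_lt' (by omega)).1 h

lemma zr_le_one (hP : 1 ≤ P) {p : ℕ} (hp : ⌊P ^ (0.97 : ℝ)⌋₊ < p) (j : ℕ) : zr P p j ≤ 1 := by
  have h1 := lt_of_floor_lt hp
  have hP0 : 0 < P := by linarith
  have h2 : (1 : ℝ) ≤ P ^ (0.97 : ℝ) := Real.one_le_rpow hP (by norm_num)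
  have h3 : (1 : ℝ) ≤ p := by linarith
  unfold zr
  split_ifs
  · have h4 : (p : ℝ) ^ (-0.499 : ℝ) ≤ (P ^ (0.97 : ℝ)) ^ (-0.499 : ℝ) :=
      Real.rpow_le_rpow_of_nonpos (by linarith) h1.le (by norm_num)
    calc P ^ (0.001 : ℝ) * (p : ℝ) ^ (-0.499 : ℝ)
        ≤ P ^ (0.001 : ℝ) * (P ^ (0.97 : ℝ)) ^ (-0.499 : ℝ) :=
          mul_le_mul_of_nonneg_left h4 (Real.rpow_nonneg hP0.le _)
      _ = P ^ ((0.001 : ℝ) + 0.97 * (-0.499)) := by
          rw [← Real.rpow_mul hP0.le, ← Real.rpow_add hP0]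
      _ ≤ 1 := Real.rpow_le_one_of_one_le_of_nonpos hP (by norm_num)
  · exact Real.rpow_le_one_of_one_le_of_nonpos h3 (by norm_num)

lemma zR_nonneg (hP : 0 ≤ P) (z : ℕ) : 0 ≤ zR P z :=
  Finset.prod_nonneg fun p _ => zr_nonneg hP _ _

lemma prod_Tq_le_zR (hP : 1 ≤ P) (hU : Ub ⌊P ^ (0.97 : ℝ)⌋₊ J' q ⊆ R) :
    ∏ p ∈ Tq ⌊P ^ (0.97 : ℝ)⌋₊ J' q, zr P p (q.factorization p) ≤ zR P (zpt (WR R) q) := by
  have hP0 : 0 ≤ P := by linarith
  have hsub := zpt_pf_subset (w := ⌊P ^ (0.97 : ℝ)⌋₊) hU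
  rw [← Finset.prod_sdiff hsub]
  have h1 : zR P (zpt (WR R) q) =
      ∏ p ∈ (zpt (WR R) q).primeFactors, zr P p (q.factorization p) := by
    unfold zR
    exact Finset.prod_congr rfl fun p hp => by rw [zpt_fact_apply hp]
  rw [h1]
  have h2 : ∏ p ∈ Tq ⌊P ^ (0.97 : ℝ)⌋₊ J' q \ (zpt (WR R) q).primeFactors,
      zr P p (q.factorization p) ≤ 1 := by
    apply Finset.prod_le_one (fun p _ => zr_nonneg hP0 _ _)
    intro p hp
    rw [Finset.mem_sdiff] at hp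
    have h3 := hp.1
    unfold Tq at h3
    rw [Finset.mem_filter] at h3
    have h := h3.2
    push Not at h
    exact zr_le_one hP h.1 _
  have h3 : 0 ≤ ∏ p ∈ (zpt (WR R) q).primeFactors, zr P p (q.factorization p) :=
    Finset.prod_nonneg fun p _ => zr_nonneg hP0 _ _
  calc _ ≤ 1 * ∏ p ∈ (zpt (WR R) q).primeFactors, zr P p (q.factorization p) :=
        mul_le_mul_of_nonneg_right h2 h3
    _ = _ := one_mul _

/-- one random modulus -/
lemma fib_le (hP : 1 ≤ P) (E : ℕ → ℝ) (hE : ∀ q, 0 ≤ E q) (hR : R ⊆ Ib ⌊P ^ (0.97 : ℝ)⌋₊ J' Q)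
    (Js : Finset ℕ) (hJs : ∀ q ∈ Js, q ∈ EV P V Q ∧ Ub ⌊P ^ (0.97 : ℝ)⌋₊ J' q ⊆ R) :
    ∑ q ∈ Js, (∏ p ∈ Tq ⌊P ^ (0.97 : ℝ)⌋₊ J' q, zr P p (q.factorization p)) * E q ≤
      ∑ d ∈ (WR R).divisors, ∑ z ∈ (QZ P J' V Q).filter (fun z => Nat.Coprime z (WR R)),
        zR P z * E (d * z) := by
  classical
  have hP0 : 0 ≤ P := by linarith
  have hW := WR_pos' hR
  have hq0 : ∀ q ∈ Js, q ≠ 0 := by
    intro q hq
    have := (hJs q hq).1
    unfold EV at this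
    rw [Finset.mem_filter, Finset.mem_Icc] at this
    have := this.1.1
    omega
  rw [← Finset.sum_product']
  have h1 : ∑ q ∈ Js, (∏ p ∈ Tq ⌊P ^ (0.97 : ℝ)⌋₊ J' q, zr P p (q.factorization p)) * E q ≤
      ∑ q ∈ Js, (fun x : ℕ × ℕ => zR P x.2 * E (x.1 * x.2)) (dpt (WR R) q, zpt (WR R) q) := by
    refine Finset.sum_le_sum fun q hq => ?_
    simp only
    rw [dpt_mul_zpt (hq0 q hq)]
    exact mul_le_mul_of_nonneg_right (prod_Tq_le_zR hP (hJs q hq).2) (hE q)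
  refine h1.trans ?_
  rw [← Finset.sum_image (f := fun x : ℕ × ℕ => zR P x.2 * E (x.1 * x.2))
    (g := fun q => (dpt (WR R) q, zpt (WR R) q))]
  · refine Finset.sum_le_sum_of_subset_of_nonneg ?_ ?_
    · intro x hx
      rw [Finset.mem_image] at hx
      obtain ⟨q, hq, rfl⟩ := hx
      rw [Finset.mem_product]
      refine ⟨?_, zpt_mem_QZ (hJs q hq).2 (hJs q hq).1⟩
      rw [Nat.mem_divisors]
      exact ⟨dpt_dvd_WR hR (hJs q hq).2 (hq0 q hq), by omega⟩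
    · intro x _ _
      exact mul_nonneg (zR_nonneg hP0 _) (hE _)
  · intro q hq q' hq' h
    simp only [Prod.mk.injEq] at h
    rw [← dpt_mul_zpt (D := WR R) (hq0 q hq), ← dpt_mul_zpt (D := WR R) (hq0 q' hq'), h.1, h.2]

/-- the random modulus step: smooth items and items with large exponent together -/
theorem rm_core {P ℓ0 X0 B : ℝ} {J' Q : ℕ} {V : Finset ℕ} (hP : 1 ≤ P)
    (hV : ∀ p ∈ V, p.Prime) (E : ℕ → ℝ) (hE : ∀ q, 0 ≤ E q)
    (hsum : ∀ D : ℕ, 1 ≤ D → Real.log D ≤ ℓ0 + 2 * X0 → (∀ p ∈ V, Nat.Coprime p D) →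
      ∑ d ∈ D.divisors, ∑ z ∈ (QZ P J' V Q).filter (fun z => Nat.Coprime z D),
        zR P z * E (d * z) ≤ B)
    (π : ℕ × ℕ → ℝ)
    (hπ0 : ∀ i ∈ (Ib ⌊P ^ (0.97 : ℝ)⌋₊ J' Q).filter (fun i => i.1 ∉ V), 0 ≤ π i)
    (hπ1 : ∀ i ∈ (Ib ⌊P ^ (0.97 : ℝ)⌋₊ J' Q).filter (fun i => i.1 ∉ V), π i ≤ 1)
    (hX0 : 0 < X0)
    (hX : ∑ i ∈ (Ib ⌊P ^ (0.97 : ℝ)⌋₊ J' Q).filter (fun i => i.1 ∉ V),
      π i * (i.2 * Real.log i.1) ≤ X0)
    (Js : Finset ℕ) (hJs : Js ⊆ EV P V Q) (hℓ0 : 0 ≤ ℓ0) (hℓ : ∀ q ∈ Js, Real.log q ≤ ℓ0) :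
    ∑ q ∈ Js, (∏ i ∈ Ub ⌊P ^ (0.97 : ℝ)⌋₊ J' q, π i) *
      ((∏ p ∈ Tq ⌊P ^ (0.97 : ℝ)⌋₊ J' q, zr P p (q.factorization p)) * E q) ≤ 2 * B := by
  classical
  have hP0 : 0 ≤ P := by linarith
  have hEV : ∀ q ∈ Js, 1 ≤ q ∧ q ≤ Q ∧ ∀ p ∈ V, ¬ p ∣ q := by
    intro q hq
    have := hJs hq
    unfold EV at this
    rw [Finset.mem_filter, Finset.mem_Icc] at this
    exact ⟨this.1.1, this.1.2, this.2.2⟩
  refine random_modulus ((Ib ⌊P ^ (0.97 : ℝ)⌋₊ J' Q).filter (fun i => i.1 ∉ V)) π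
    (fun i => (i.2 : ℝ) * Real.log i.1) ℓ0 X0 hπ0 hπ1
    (fun i _ => mul_nonneg (Nat.cast_nonneg _) (Real.log_natCast_nonneg _)) hℓ0 hX0 hX
    Js (Ub ⌊P ^ (0.97 : ℝ)⌋₊ J')
    (fun q => (∏ p ∈ Tq ⌊P ^ (0.97 : ℝ)⌋₊ J' q, zr P p (q.factorization p)) * E q)
    ?_ ?_ ?_ B ?_
  · intro q hq i hi
    rw [Finset.mem_filter]
    refine ⟨Ub_subset (hEV q hq).1 (hEV q hq).2.1 hi, fun hiV => ?_⟩
    unfold Ub at hi
    rw [Finset.mem_image] at hi
    obtain ⟨p, hp, rfl⟩ := hi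
    rw [Finset.mem_filter] at hp
    exact (hEV q hq).2.2 p hiV (Nat.dvd_of_mem_primeFactors hp.1)
  · intro q hq
    exact (cost_Ub (hEV q hq).1).trans (hℓ q hq)
  · intro q _
    exact mul_nonneg (Finset.prod_nonneg fun p _ => zr_nonneg hP0 _ _) (hE q)
  · intro R hR hcost
    have hR1 : R ⊆ Ib ⌊P ^ (0.97 : ℝ)⌋₊ J' Q := hR.trans (Finset.filter_subset _ _)
    have hW := WR_pos' hR1
    have hlog : Real.log (WR R) ≤ ℓ0 + 2 * X0 := by
      rw [log_WR' hR1]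
      exact hcost
    have hcop : ∀ p ∈ V, Nat.Coprime p (WR R) := by
      intro p hp
      unfold WR
      refine Nat.Coprime.prod_right fun i hi => Nat.Coprime.pow_right _ ?_
      have h1 := hR hi
      rw [Finset.mem_filter] at h1
      have h2 := h1.1
      simp only [Ib, Finset.mem_filter] at h2
      rw [Nat.coprime_primes (hV p hp) h2.2.1]
      intro h
      exact h1.2 (h ▸ hp)
    refine (fib_le (V := V) hP E hE hR1 (Js.filter (fun q => Ub ⌊P ^ (0.97 : ℝ)⌋₊ J' q ⊆ R))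
      (fun q hq => ?_)).trans (hsum (WR R) hW hlog hcop)
    rw [Finset.mem_filter] at hq
    exact ⟨hJs hq.1, hq.2⟩

end Vale.Agent.P042.TT.TotB
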