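import Vale.Agent.P042.TT.TotA
import Vale.Agent.P042.SS.Cost

set_option autoImplicit false

/-!
Block TOT, part W (helper455): boosted weights and their cost.
-/

namespace Vale.Agent.P042.TT.TotB

open Finset Filter Vale.Agent.P042.SS Vale.Agent.P042.SS.UNC

/-! ### eventual inequalities -/

lemma ev_rpow (c : ℝ) {a b : ℝ} (hab : b < a) : ∀ᶠ P : ℝ in atTop, c * P ^ b ≤ P ^ a := by
  have h1 : Tendsto (fun P : ℝ => P ^ (a - b)) atTop atTop := tendsto_rpow_atTop (by linarith)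
  filter_upwards [h1.eventually_ge_atTop c, eventually_gt_atTop (0 : ℝ)] with P hP hP0
  calc c * P ^ b ≤ P ^ (a - b) * P ^ b :=
        mul_le_mul_of_nonneg_right hP (Real.rpow_nonneg hP0.le _)
    _ = P ^ a := by rw [← Real.rpow_add hP0]; congr 1; ring

lemma ev_const (c : ℝ) {a : ℝ} (ha : 0 < a) : ∀ᶠ P : ℝ in atTop, c ≤ P ^ a :=
  (tendsto_rpow_atTop ha).eventually_ge_atTop c

/-! ### the boosted weight -/

/-- boosted local weights -/
noncomputable def gb (P t' : ℝ) (kap : ℕ → ℕ → ℝ) (p j : ℕ) : ℝ :=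
  (if p ∈ W2 P then 2 else 1) * kap p j * (p : ℝ) ^ ((j : ℝ) * t')

lemma gb_nonneg {P t' : ℝ} {kap : ℕ → ℕ → ℝ} (hk0 : ∀ p j, 0 ≤ kap p j) (p j : ℕ) :
    0 ≤ gb P t' kap p j := by
  unfold gb
  have h1 := hk0 p j
  have h2 : (0 : ℝ) ≤ (p : ℝ) ^ ((j : ℝ) * t') := Real.rpow_nonneg (Nat.cast_nonneg _) _
  split_ifs <;> positivity

lemma gb_le {P t' : ℝ} {kap : ℕ → ℕ → ℝ} (hk0 : ∀ p j, 0 ≤ kap p j) (p j : ℕ) :
    gb P t' kap p j ≤ 2 * kap p j * (p : ℝ) ^ ((j : ℝ) * t') := by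
  unfold gb
  have h1 := hk0 p j
  have h2 : (0 : ℝ) ≤ (p : ℝ) ^ ((j : ℝ) * t') := Real.rpow_nonneg (Nat.cast_nonneg _) _
  refine mul_le_mul_of_nonneg_right (mul_le_mul_of_nonneg_right ?_ h1) h2
  split_ifs <;> norm_num

lemma weight_eq (P t' : ℝ) (kap : ℕ → ℕ → ℝ) {q : ℕ} (hq : q ≠ 0) :
    (q : ℝ) ^ t' * (2 ^ yc P q * kapProd kap q) = kapProd (gb P t' kap) q := by
  have h1 : (q : ℝ) ^ t' = ∏ p ∈ q.primeFactors, (p : ℝ) ^ (((q.factorization p : ℕ) : ℝ) * t') := by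
    have e1 : (q : ℝ) = ∏ p ∈ q.primeFactors, (p : ℝ) ^ (q.factorization p) := by
      conv_lhs => rw [← Nat.prod_factorization_pow_eq_self hq]
      rw [Finsupp.prod, Nat.support_factorization]
      push_cast
      rfl
    conv_lhs => rw [e1]
    rw [← Real.finsetProd_rpow _ _ (fun p _ => by positivity)]
    refine Finset.prod_congr rfl fun p _ => ?_
    rw [← Real.rpow_natCast, ← Real.rpow_mul (Nat.cast_nonneg _)]
  have h2 : (2 : ℝ) ^ yc P q = ∏ p ∈ q.primeFactors, (if p ∈ W2 P then (2 : ℝ) else 1) := by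
    rw [Finset.prod_ite, Finset.prod_const, Finset.prod_const_one, mul_one]
    unfold yc
    congr 2
    ext p
    rw [Finset.mem_filter, Finset.mem_filter, Nat.mem_primeFactors]
    constructor
    · rintro ⟨h, h'⟩
      refine ⟨⟨?_, h', hq⟩, h⟩
      unfold W2 Wp at h
      rw [Finset.mem_filter] at h
      exact h.2
    · rintro ⟨⟨_, h', _⟩, h⟩
      exact ⟨h, h'⟩
  rw [h1, h2]
  unfold kapProd gb
  rw [← Finset.prod_mul_distrib, ← Finset.prod_mul_distrib]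
  refine Finset.prod_congr rfl fun p _ => ?_
  ring

/-- coordinates: the boosted weight is at most `zr` -/
lemma gb_le_zr {P : ℝ} {k E K p0 : ℕ} {kap : ℕ → ℕ → ℝ} (hE : 1 ≤ E)
    (hkap : KapOK k E K p0 kap) (hP : 1 ≤ P) (h1 : (2 * k : ℝ) ≤ P ^ (0.001 : ℝ))
    (h2 : (p0 : ℝ) ≤ P ^ (0.97 : ℝ)) {p j : ℕ} (hp : p.Prime)
    (hpw : ⌊P ^ (0.97 : ℝ)⌋₊ < p) (hj1 : 1 ≤ j) (hj : j ≤ 8 * E) :
    gb P (1 / (2000 * E)) kap p j ≤ zr P p j := by
  have hP0 : 0 < P := by linarith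
  have hER : (1 : ℝ) ≤ E := by exact_mod_cast hE
  have hwp := lt_of_floor_lt hpw
  have hp0 : p0 < p := by exact_mod_cast lt_of_le_of_lt h2 hwp
  have hp1 : (1 : ℝ) ≤ p := by exact_mod_cast hp.one_le
  have hpR : (0 : ℝ) < p := by linarith
  refine (gb_le hkap.nn p j).trans ?_
  have ht : (1 : ℝ) / (2000 * E) ≤ 1 / 2000 :=
    one_div_le_one_div_of_le (by norm_num) (by linarith)
  have hjt : (j : ℝ) * (1 / (2000 * E)) ≤ 0.004 := by
    have : (j : ℝ) ≤ 8 * E := by exact_mod_cast hj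
    rw [mul_one_div, div_le_iff₀ (by positivity)]
    linarith
  unfold zr
  split_ifs with hj'
  · subst hj'
    have h3 := hkap.one p hp hp0
    have h4 : (k : ℝ) / Real.sqrt p = k * (p : ℝ) ^ (-(1 / 2) : ℝ) := by
      rw [Real.sqrt_eq_rpow, Real.rpow_neg hpR.le, div_eq_mul_inv]
    rw [h4] at h3
    have h5 : (p : ℝ) ^ (-(1 / 2) : ℝ) * (p : ℝ) ^ (((1 : ℕ) : ℝ) * (1 / (2000 * E))) ≤
        (p : ℝ) ^ (-0.499 : ℝ) := by
      rw [← Real.rpow_add hpR]
      apply Real.rpow_le_rpow_of_exponent_le hp1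
      push_cast
      linarith
    calc 2 * kap p 1 * (p : ℝ) ^ (((1 : ℕ) : ℝ) * (1 / (2000 * E)))
        ≤ 2 * (k * (p : ℝ) ^ (-(1 / 2) : ℝ)) * (p : ℝ) ^ (((1 : ℕ) : ℝ) * (1 / (2000 * E))) := by
          apply mul_le_mul_of_nonneg_right _ (Real.rpow_nonneg hpR.le _)
          linarith
      _ = 2 * k * ((p : ℝ) ^ (-(1 / 2) : ℝ) * (p : ℝ) ^ (((1 : ℕ) : ℝ) * (1 / (2000 * E)))) := by
          ring
      _ ≤ P ^ (0.001 : ℝ) * (p : ℝ) ^ (-0.499 : ℝ) := by
          apply mul_le_mul h1 h5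
          · exact mul_nonneg (Real.rpow_nonneg hpR.le _) (Real.rpow_nonneg hpR.le _)
          · exact Real.rpow_nonneg hP0.le _
  · have h3 := hkap.two p j hp hp0 (by omega)
    have h4 : (k : ℝ) / p = k * (p : ℝ) ^ (-1 : ℝ) := by
      rw [Real.rpow_neg_one, div_eq_mul_inv]
    rw [h4] at h3
    have h5 : (2 * k : ℝ) ≤ (p : ℝ) ^ (0.096 : ℝ) := by
      refine h1.trans ?_
      have h6 : (P ^ (0.97 : ℝ)) ^ (0.096 : ℝ) ≤ (p : ℝ) ^ (0.096 : ℝ) :=
        Real.rpow_le_rpow (Real.rpow_nonneg hP0.le _) hwp.le (by norm_num)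
      refine le_trans ?_ h6
      rw [← Real.rpow_mul hP0.le]
      exact Real.rpow_le_rpow_of_exponent_le hP (by norm_num)
    calc 2 * kap p j * (p : ℝ) ^ ((j : ℝ) * (1 / (2000 * E)))
        ≤ 2 * (k * (p : ℝ) ^ (-1 : ℝ)) * (p : ℝ) ^ (0.004 : ℝ) := by
          apply mul_le_mul _ (Real.rpow_le_rpow_of_exponent_le hp1 hjt)
            (Real.rpow_nonneg hpR.le _) (by positivity)
          linarith
      _ = (2 * k) * ((p : ℝ) ^ (-1 : ℝ) * (p : ℝ) ^ (0.004 : ℝ)) := by ring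
      _ ≤ (p : ℝ) ^ (0.096 : ℝ) * ((p : ℝ) ^ (-1 : ℝ) * (p : ℝ) ^ (0.004 : ℝ)) :=
          mul_le_mul_of_nonneg_right h5 (by positivity)
      _ = (p : ℝ) ^ (-0.9 : ℝ) := by
          rw [← Real.rpow_add hpR, ← Real.rpow_add hpR]
          norm_num

/-- rough bound for the boosted weight -/
lemma gb_le_pw {P : ℝ} {k E K p0 : ℕ} {kap : ℕ → ℕ → ℝ} (hE : 1 ≤ E)
    (hkap : KapOK k E K p0 kap) {p j : ℕ} (hp : p.Prime) (hj1 : 1 ≤ j) :
    gb P (1 / (2000 * E)) kap p j ≤ 2 * K * (p : ℝ) ^ (-(j : ℝ) / (2 * E : ℕ)) := by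
  have hER : (1 : ℝ) ≤ E := by exact_mod_cast hE
  have hp1 : (1 : ℝ) ≤ p := by exact_mod_cast hp.one_le
  have hpR : (0 : ℝ) < p := by linarith
  refine (gb_le hkap.nn p j).trans ?_
  have h3 := hkap.pw p j hp hj1
  have h4 : (p : ℝ) ^ (-(j : ℝ) / E) * (p : ℝ) ^ ((j : ℝ) * (1 / (2000 * E))) ≤
      (p : ℝ) ^ (-(j : ℝ) / (2 * E : ℕ)) := by
    rw [← Real.rpow_add hpR]
    apply Real.rpow_le_rpow_of_exponent_le hp1
    have hj0 : (0 : ℝ) ≤ j := Nat.cast_nonneg _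
    have e1 : -(j : ℝ) / E + (j : ℝ) * (1 / (2000 * E)) = -(j / E) * (1999 / 2000) := by
      field_simp
      ring
    have e2 : -(j : ℝ) / (2 * E : ℕ) = -(j / E) * (1 / 2) := by
      push_cast
      field_simp
    rw [e1, e2]
    have : 0 ≤ (j : ℝ) / E := by positivity
    nlinarith
  calc 2 * kap p j * (p : ℝ) ^ ((j : ℝ) * (1 / (2000 * E)))
      ≤ 2 * (K * (p : ℝ) ^ (-(j : ℝ) / E)) * (p : ℝ) ^ ((j : ℝ) * (1 / (2000 * E))) := by
        apply mul_le_mul_of_nonneg_right _ (Real.rpow_nonneg hpR.le _)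
        linarith
    _ = 2 * K * ((p : ℝ) ^ (-(j : ℝ) / E) * (p : ℝ) ^ ((j : ℝ) * (1 / (2000 * E)))) := by ring
    _ ≤ _ := mul_le_mul_of_nonneg_left h4 (by positivity)

/-- items: at most `2K+1`, and at most one beyond `(2K)^(2E)` -/
lemma gb_item {P : ℝ} {k E K p0 : ℕ} {kap : ℕ → ℕ → ℝ} (hE : 1 ≤ E)
    (hkap : KapOK k E K p0 kap) {p j : ℕ} (hp : p.Prime) (hj1 : 1 ≤ j) :
    gb P (1 / (2000 * E)) kap p j ≤ if p ≤ (2 * K) ^ (2 * E) then (2 * K + 1 : ℝ) else 1 := by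
  have hER : (1 : ℝ) ≤ E := by exact_mod_cast hE
  have hp1 : (1 : ℝ) ≤ p := by exact_mod_cast hp.one_le
  have hpR : (0 : ℝ) < p := by linarith
  have hj0 : (0 : ℝ) ≤ j := Nat.cast_nonneg _
  have h1 := gb_le_pw (P := P) hE hkap hp hj1
  refine h1.trans ?_
  split_ifs with h
  · have h2 : (p : ℝ) ^ (-(j : ℝ) / (2 * E : ℕ)) ≤ 1 := by
      apply Real.rpow_le_one_of_one_le_of_nonpos hp1
      exact div_nonpos_of_nonpos_of_nonneg (by linarith) (Nat.cast_nonneg _)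
    have h3 : 2 * (K : ℝ) * (p : ℝ) ^ (-(j : ℝ) / (2 * E : ℕ)) ≤ 2 * K * 1 :=
      mul_le_mul_of_nonneg_left h2 (by positivity)
    linarith
  · push Not at h
    have h2 : (p : ℝ) ^ (-(j : ℝ) / (2 * E : ℕ)) ≤ (p : ℝ) ^ (-(1 : ℝ) / (2 * E : ℕ)) := by
      apply Real.rpow_le_rpow_of_exponent_le hp1
      have hj1' : (1 : ℝ) ≤ j := by exact_mod_cast hj1
      apply div_le_div_of_nonneg_right _ (Nat.cast_nonneg _)
      linarith
    have h3 : (2 * K : ℝ) ≤ (p : ℝ) ^ ((1 : ℝ) / (2 * E : ℕ)) := by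
      have h4 : ((2 * K : ℕ) : ℝ) ^ (2 * E) ≤ p := by exact_mod_cast h.le
      have h5 : (2 * K : ℝ) = (((2 * K : ℕ) : ℝ) ^ (2 * E)) ^ ((1 : ℝ) / (2 * E : ℕ)) := by
        rw [← Real.rpow_natCast, ← Real.rpow_mul (Nat.cast_nonneg _)]
        rw [mul_one_div, div_self (by positivity), Real.rpow_one]
        push_cast
        ring
      rw [h5]
      exact Real.rpow_le_rpow (by positivity) h4 (by positivity)
    calc 2 * (K : ℝ) * (p : ℝ) ^ (-(j : ℝ) / (2 * E : ℕ))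
        ≤ (p : ℝ) ^ ((1 : ℝ) / (2 * E : ℕ)) * (p : ℝ) ^ (-(1 : ℝ) / (2 * E : ℕ)) :=
          mul_le_mul h3 h2 (Real.rpow_nonneg hpR.le _) (Real.rpow_nonneg hpR.le _)
      _ = 1 := by
          rw [← Real.rpow_add hpR]
          have : (1 : ℝ) / (2 * E : ℕ) + -(1 : ℝ) / (2 * E : ℕ) = 0 := by ring
          rw [this, Real.rpow_zero]

/-- capped boosted rates -/
noncomputable def pib (P t' : ℝ) (kap : ℕ → ℕ → ℝ) (i : ℕ × ℕ) : ℝ :=
  min 1 (gb P t' kap i.1 i.2)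

lemma prod_Ub_le {P : ℝ} {k E K p0 : ℕ} {kap : ℕ → ℕ → ℝ} (hE : 1 ≤ E)
    (hkap : KapOK k E K p0 kap) (w J' q : ℕ) :
    ∏ i ∈ Ub w J' q, gb P (1 / (2000 * E)) kap i.1 i.2 ≤
      (2 * K + 1) ^ ((2 * K) ^ (2 * E) + 1) *
        ∏ i ∈ Ub w J' q, pib P (1 / (2000 * E)) kap i := by
  classical
  set g := gb P (1 / (2000 * E)) kap with hg
  have h0 : ∀ p j, 0 ≤ g p j := fun p j => gb_nonneg hkap.nn p j
  have hmem : ∀ i ∈ Ub w J' q, i.1.Prime ∧ 1 ≤ i.2 := by
    intro i hi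
    unfold Ub at hi
    rw [Finset.mem_image] at hi
    obtain ⟨p, hp, rfl⟩ := hi
    rw [Finset.mem_filter] at hp
    exact ⟨Nat.prime_of_mem_primeFactors hp.1, fact_pos hp.1⟩
  have h1 : ∀ i : ℕ × ℕ, g i.1 i.2 = max 1 (g i.1 i.2) * pib P (1 / (2000 * E)) kap i := by
    intro i
    unfold pib
    rw [← hg]
    rcases le_total (g i.1 i.2) 1 with h | h
    · rw [max_eq_left h, min_eq_right h, one_mul]
    · rw [max_eq_right h, min_eq_left h, mul_one]
  rw [Finset.prod_congr rfl fun i _ => h1 i, Finset.prod_mul_distrib]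
  apply mul_le_mul_of_nonneg_right
  · calc ∏ i ∈ Ub w J' q, max 1 (g i.1 i.2)
        ≤ ∏ i ∈ Ub w J' q, (if i.1 ≤ (2 * K) ^ (2 * E) then (2 * K + 1 : ℝ) else 1) := by
          refine Finset.prod_le_prod (fun i _ => le_trans zero_le_one (le_max_left _ _)) ?_
          intro i hi
          apply max_le
          · split_ifs
            · have : (0 : ℝ) ≤ K := Nat.cast_nonneg _
              linarith
            · exact le_rfl
          · exact gb_item hE hkap (hmem i hi).1 (hmem i hi).2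
      _ = ∏ p ∈ q.primeFactors.filter (fun p => p ≤ w ∨ J' < q.factorization p),
            (if p ≤ (2 * K) ^ (2 * E) then (2 * K + 1 : ℝ) else 1) := by
          unfold Ub
          rw [Finset.prod_image]
          intro a _ b _ h
          exact (Prod.mk.inj h).1
      _ = (2 * K + 1 : ℝ) ^ ((q.primeFactors.filter (fun p => p ≤ w ∨ J' < q.factorization p)).filter
            (fun p => p ≤ (2 * K) ^ (2 * E))).card := by
          rw [Finset.prod_ite, Finset.prod_const, Finset.prod_const_one, mul_one]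
      _ ≤ (2 * K + 1 : ℝ) ^ ((2 * K) ^ (2 * E) + 1) := by
          apply pow_le_pow_right₀
          · have : (0 : ℝ) ≤ K := Nat.cast_nonneg _
            linarith
          · calc _ ≤ (range ((2 * K) ^ (2 * E) + 1)).card := by
                  apply Finset.card_le_card
                  intro p hp
                  rw [Finset.mem_filter] at hp
                  rw [Finset.mem_range]
                  omega
              _ = _ := Finset.card_range _
  · exact Finset.prod_nonneg fun i _ => le_min zero_le_one (h0 _ _)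

/-- the cost of the boosted rates -/
lemma cost_pib {k E K p0 : ℕ} {kap : ℕ → ℕ → ℝ} (hk : 1 ≤ k) (hE : 1 ≤ E)
    (hkap : KapOK k E K p0 kap) : ∃ C : ℝ, 0 < C ∧ ∀ P : ℝ, 1 ≤ P → ∀ (Q : ℕ)
    (I : Finset (ℕ × ℕ)), I ⊆ Ib ⌊P ^ (0.97 : ℝ)⌋₊ (8 * E) Q →
    ∑ i ∈ I, pib P (1 / (2000 * E)) kap i * (i.2 * Real.log i.1) ≤ C * P ^ (0.49 : ℝ) := by
  classical
  have hER : (1 : ℝ) ≤ E := by exact_mod_cast hE
  obtain ⟨C1, hC1, h1⟩ := cost_holds k E K p0 kap hk hE hkap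
  set kap3 : ℕ → ℕ → ℝ := fun p j =>
    if 8 * E < j then min 1 (K * (p : ℝ) ^ (-(j : ℝ) / (2 * E : ℕ))) else 0 with hkap3
  have hK3 : KapOK k (2 * E) K K kap3 := by
    refine ⟨fun p j => ?_, fun p j => ?_, fun p j hp hj => ?_, fun p hp hp0 => ?_,
      fun p j hp hp0 hj => ?_⟩
    · simp only [hkap3]
      split_ifs
      · exact le_min zero_le_one (by positivity)
      · exact le_rfl
    · simp only [hkap3]
      split_ifs
      · exact min_le_left _ _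
      · exact zero_le_one
    · simp only [hkap3]
      split_ifs
      · exact min_le_right _ _
      · positivity
    · simp only [hkap3]
      rw [if_neg (by omega)]
      positivity
    · simp only [hkap3]
      split_ifs with h8
      · refine (min_le_right _ _).trans ?_
        have hp1 : (1 : ℝ) ≤ p := by exact_mod_cast hp.one_le
        have hpR : (0 : ℝ) < p := by linarith
        have hk1 : (1 : ℝ) ≤ k := by exact_mod_cast hk
        have hKp : (K : ℝ) ≤ p := by exact_mod_cast hp0.le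
        have h3 : (p : ℝ) ^ (-(j : ℝ) / (2 * E : ℕ)) ≤ (p : ℝ) ^ (-2 : ℝ) := by
          apply Real.rpow_le_rpow_of_exponent_le hp1
          rw [div_le_iff₀ (by positivity)]
          have : (8 * E : ℝ) ≤ j := by exact_mod_cast h8.le
          push_cast
          linarith
        calc (K : ℝ) * (p : ℝ) ^ (-(j : ℝ) / (2 * E : ℕ)) ≤ p * (p : ℝ) ^ (-2 : ℝ) :=
              mul_le_mul hKp h3 (Real.rpow_nonneg hpR.le _) hpR.le
          _ = 1 / p := by
              rw [show (-2 : ℝ) = -1 + -1 by norm_num, Real.rpow_add hpR, Real.rpow_neg_one]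
              field_simp
          _ ≤ k / p := div_le_div_of_nonneg_right hk1 hpR.le
      · positivity
  obtain ⟨C3, hC3, h3⟩ := cost3_holds k (2 * E) K K kap3 hk (by omega) hK3
  refine ⟨4 * C1 + 2 * C3, by positivity, ?_⟩
  intro P hP Q I hI
  have hP0 : 0 < P := by linarith
  have hIb : ∀ i ∈ I, i.1.Prime ∧ 1 ≤ i.2 ∧ (i.1 ≤ ⌊P ^ (0.97 : ℝ)⌋₊ ∨ 8 * E < i.2) := by
    intro i hi
    have := hI hi
    simp only [Ib, Finset.mem_filter] at this
    exact ⟨this.2.1, this.2.2.1, this.2.2.2.2⟩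
  have hc0 : ∀ i : ℕ × ℕ, 0 ≤ (i.2 : ℝ) * Real.log i.1 := fun i =>
    mul_nonneg (Nat.cast_nonneg _) (Real.log_natCast_nonneg _)
  rw [← Finset.sum_filter_add_sum_filter_not I (fun i => 8 * E < i.2)]
  -- large exponents
  have e1 : ∑ i ∈ I.filter (fun i => 8 * E < i.2),
      pib P (1 / (2000 * E)) kap i * (i.2 * Real.log i.1) ≤ 2 * C3 := by
    have h4 := h3 (I.filter (fun i => 8 * E < i.2)) (fun i hi => by
      rw [Finset.mem_filter] at hi
      exact ⟨(hIb i hi.1).1, by omega⟩)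
    refine le_trans ?_ (mul_le_mul_of_nonneg_left h4 (by norm_num : (0 : ℝ) ≤ 2))
    rw [Finset.mul_sum]
    refine Finset.sum_le_sum fun i hi => ?_
    rw [Finset.mem_filter] at hi
    rw [← mul_assoc 2 (kap3 i.1 i.2)]
    refine mul_le_mul_of_nonneg_right ?_ (hc0 i)
    simp only [hkap3, pib]
    rw [if_pos hi.2]
    have h5 := gb_le_pw (P := P) hE hkap (hIb i hi.1).1 (hIb i hi.1).2.1
    rcases le_total 1 ((K : ℝ) * (i.1 : ℝ) ^ (-(i.2 : ℝ) / (2 * E : ℕ))) with h6 | h6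
    · rw [min_eq_left h6]
      refine (min_le_left _ _).trans (by norm_num)
    · rw [min_eq_right h6]
      refine (min_le_right _ _).trans (h5.trans (le_of_eq (by ring)))
  -- small exponents
  have e2 : ∑ i ∈ I.filter (fun i => ¬ 8 * E < i.2),
      pib P (1 / (2000 * E)) kap i * (i.2 * Real.log i.1) ≤ 4 * C1 * P ^ (0.49 : ℝ) := by
    have h4 := h1 ⌊P ^ (0.97 : ℝ)⌋₊ (I.filter (fun i => ¬ 8 * E < i.2)) (fun i hi => by
      rw [Finset.mem_filter] at hi
      have := hIb i hi.1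
      exact ⟨this.1, this.2.1, this.2.2.resolve_right hi.2⟩)
    have h5 : ∑ i ∈ I.filter (fun i => ¬ 8 * E < i.2),
        pib P (1 / (2000 * E)) kap i * (i.2 * Real.log i.1) ≤
        (2 * P ^ (0.004 : ℝ)) * ∑ i ∈ I.filter (fun i => ¬ 8 * E < i.2),
          kap i.1 i.2 * (i.2 * Real.log i.1) := by
      rw [Finset.mul_sum]
      refine Finset.sum_le_sum fun i hi => ?_
      rw [Finset.mem_filter] at hi
      have hi' := hIb i hi.1
      rw [← mul_assoc (2 * P ^ (0.004 : ℝ)) (kap i.1 i.2)]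
      refine mul_le_mul_of_nonneg_right ?_ (hc0 i)
      refine (min_le_right _ _).trans ((gb_le hkap.nn _ _).trans ?_)
      have hp1 : (1 : ℝ) ≤ i.1 := by exact_mod_cast hi'.1.one_le
      have h6 : (i.1 : ℝ) ≤ P ^ (0.97 : ℝ) :=
        (Nat.cast_le.2 (hi'.2.2.resolve_right hi.2)).trans
          (Nat.floor_le (Real.rpow_nonneg hP0.le _))
      have h7 : (i.1 : ℝ) ^ ((i.2 : ℝ) * (1 / (2000 * E))) ≤ P ^ (0.004 : ℝ) := by
        have h8 : (i.2 : ℝ) * (1 / (2000 * E)) ≤ 0.004 := by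
          have : (i.2 : ℝ) ≤ 8 * E := by exact_mod_cast not_lt.1 hi.2
          rw [mul_one_div, div_le_iff₀ (by positivity)]
          linarith
        have h9 : (i.1 : ℝ) ≤ P := by
          refine h6.trans ?_
          conv_rhs => rw [← Real.rpow_one P]
          exact Real.rpow_le_rpow_of_exponent_le hP (by norm_num)
        calc (i.1 : ℝ) ^ ((i.2 : ℝ) * (1 / (2000 * E))) ≤ (i.1 : ℝ) ^ (0.004 : ℝ) :=
              Real.rpow_le_rpow_of_exponent_le hp1 h8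
          _ ≤ P ^ (0.004 : ℝ) := Real.rpow_le_rpow (by linarith) h9 (by norm_num)
      calc 2 * kap i.1 i.2 * (i.1 : ℝ) ^ ((i.2 : ℝ) * (1 / (2000 * E)))
          ≤ 2 * kap i.1 i.2 * P ^ (0.004 : ℝ) :=
            mul_le_mul_of_nonneg_left h7 (mul_nonneg (by norm_num) (hkap.nn _ _))
        _ = _ := by ring
    refine h5.trans ((mul_le_mul_of_nonneg_left h4 (by positivity)).trans ?_)
    have h6 : Real.sqrt (⌊P ^ (0.97 : ℝ)⌋₊ : ℝ) + 1 ≤ 2 * P ^ (0.485 : ℝ) := by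
      have h7 : Real.sqrt (⌊P ^ (0.97 : ℝ)⌋₊ : ℝ) ≤ P ^ (0.485 : ℝ) := by
        rw [Real.sqrt_le_left (Real.rpow_nonneg hP0.le _)]
        refine (Nat.floor_le (Real.rpow_nonneg hP0.le _)).trans (le_of_eq ?_)
        rw [← Real.rpow_natCast, ← Real.rpow_mul hP0.le]
        norm_num
      have h8 : (1 : ℝ) ≤ P ^ (0.485 : ℝ) := Real.one_le_rpow hP (by norm_num)
      linarith
    calc 2 * P ^ (0.004 : ℝ) * (C1 * (Real.sqrt (⌊P ^ (0.97 : ℝ)⌋₊ : ℝ) + 1))
        ≤ 2 * P ^ (0.004 : ℝ) * (C1 * (2 * P ^ (0.485 : ℝ))) :=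
          mul_le_mul_of_nonneg_left (mul_le_mul_of_nonneg_left h6 hC1.le) (by positivity)
      _ = 4 * C1 * (P ^ (0.004 : ℝ) * P ^ (0.485 : ℝ)) := by ring
      _ ≤ 4 * C1 * P ^ (0.49 : ℝ) := by
          apply mul_le_mul_of_nonneg_left _ (by positivity)
          rw [← Real.rpow_add hP0]
          exact Real.rpow_le_rpow_of_exponent_le hP (by norm_num)
  have h8 : (1 : ℝ) ≤ P ^ (0.49 : ℝ) := Real.one_le_rpow hP (by norm_num)
  nlinarith

end Vale.Agent.P042.TT.TotB
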