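import Vale.Agent.P042.TT.NvC
import Vale.Agent.P042.TT.CoreAsm
import Vale.Agent.P042.TT.CoreFib
import Vale.Agent.P042.H333.MomF
import Vale.Agent.P042.TT.Nu2
import Vale.Agent.P042.TT.Tot
import Vale.Agent.P042.TT.One
import Vale.Agent.P042.TT.Restd
import Vale.Agent.P042.TT.RestE
import Vale.Agent.P042.TT.TailC
import Vale.Agent.P042.TT.GoodF
import Vale.Agent.P042.TT.Lower
import Vale.Agent.P042.TT.FinState
import Vale.Agent.P042.TT.FinZ
import Vale.Agent.P042.TT.Ew
import Vale.Agent.P042.TT.Tilt
import Vale.Agent.P042.TT.Den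
import Vale.Agent.P042.TT.Ext2
import Vale.Agent.P042.TT.BrB
import Vale.Agent.P042.H333.Kb3
import Vale.Agent.P042.H333.Bad
import Vale.Agent.P042.H333.Vavg
import Vale.Agent.P042.H584.Ker
import Vale.Agent.P042.H584.Sum
import Vale.Agent.P042.SS.RM
import Vale.Agent.P042.SS.ANHolds

namespace Vale.Agent.P042.TT
open Vale.Agent.P042.SS

theorem nv_holds : NVStmt := nv_of_mom mom_holds
theorem core_holds : COREStmt := core_of nv_holds (core_fibre nu2_holds) nu2_holds
theorem sum_holds : SUMStmt := SumB.sum_of core_holds
theorem tot_holds : TOTStmt := tot_of sum_holds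
theorem one_holds : ONEStmt := one_of sum_holds
theorem restd_holds : RESTDStmt := restd_of sum_holds
theorem rest_holds : RESTStmt := rest_of sum_holds tot_holds ew_holds nu2_holds restd_holds
theorem tail_holds : TAILStmt := tail_of tot_holds ew_holds nu2_holds
theorem good_holds : GOODStmt :=
  good_of tilt_holds ew_holds br_holds one_holds rest_holds kb_holds den_holds nu2_holds
theorem lower_holds : LOWERStmt :=
  lower_of good_holds ker_holds tail_holds vavg_holds bad_holds nu2_holds
theorem state_holds : STATEStmt := state_of ext2_holds SS.part_holds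
theorem final2_holds : Final2Stmt := fin2_of state_holds lower_holds nu2_holds SS.an_holds

end Vale.Agent.P042.TT
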